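import Crest.Agent.R231.IfA_978
import Crest.Agent.R231.AlgDef_978

-- ▼ part R231/AlgRd_978
section

/-!
# Row 231, block A: calculus of relative dimensions over `F_2`  (helper978)
-/

set_option autoImplicit false

namespace Crest.Agent.R231.AlgRdx978

open Crest.Agent.R231.IfAx978

section f2
variable {V : Type*} [AddCommGroup V] [Module (ZMod 2) V]

theorem add_self2 (x : V) : x + x = 0 := by
  have h : (2 : ZMod 2) • x = 0 := by
    have : (2 : ZMod 2) = 0 := rfl
    rw [this, zero_smul]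
  rwa [two_smul] at h

theorem neg2 (x : V) : -x = x := by
  rw [neg_eq_iff_add_eq_zero]; exact add_self2 x

theorem sub2 (x y : V) : x - y = x + y := by rw [sub_eq_add_neg, neg2]

theorem n2 (x : V) : (2 : ℕ) • x = 0 := by rw [two_nsmul, add_self2]
theorem z2 (x : V) : (2 : ℤ) • x = 0 := by rw [two_zsmul, add_self2]
theorem n4 (x : V) : (4 : ℕ) • x = 0 := by
  rw [show (4 : ℕ) = 2 * 2 from rfl, mul_smul, n2]
theorem z4 (x : V) : (4 : ℤ) • x = 0 := by
  rw [show (4 : ℤ) = 2 * 2 from rfl, mul_smul, z2]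
theorem n6 (x : V) : (6 : ℕ) • x = 0 := by
  rw [show (6 : ℕ) = 2 * 3 from rfl, mul_smul, n2]
theorem z6 (x : V) : (6 : ℤ) • x = 0 := by
  rw [show (6 : ℤ) = 2 * 3 from rfl, mul_smul, z2]

theorem eq2 {x y : V} (h : x + y = 0) : x = y := by
  rw [← sub_eq_zero, sub2]; exact h

end f2

/-- prove additive identities in `F_2`-modules -/
macro "f2" : tactic =>
  `(tactic| (apply eq2; abel_nf; try simp only [n2, z2, n4, z4, n6, z6, add_zero, zero_add]))



/-- membership in `F_2`-modules: `x ∈ A`, `x + y ∈ A` ⇒ `y ∈ A` -/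
theorem mem2 {V : Type*} [AddCommGroup V] [Module (ZMod 2) V] {A : Submodule (ZMod 2) V} {x y : V}
    (h : x + y ∈ A) : x ∈ A ↔ y ∈ A := by
  constructor
  · intro hx
    have e : y = (x + y) + x := by f2
    rw [e]; exact A.add_mem h hx
  · intro hx
    have e : x = (x + y) + y := by f2
    rw [e]; exact A.add_mem h hx

section rd
variable {V W : Type*} [AddCommGroup V] [Module (ZMod 2) V] [AddCommGroup W] [Module (ZMod 2) W]

theorem mem_so {P Q : Submodule (ZMod 2) V} {x : Q} : x ∈ P.submoduleOf Q ↔ (x : V) ∈ P := Iff.rfl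

theorem rd_eq_zero {P Q : Submodule (ZMod 2) V} : rd P Q = 0 ↔ Q ≤ P := by
  unfold rd
  rw [Module.length_eq_zero_iff, Submodule.Quotient.subsingleton_iff,
    Submodule.submoduleOf_eq_top]

theorem rd_of_le {P Q : Submodule (ZMod 2) V} (h : Q ≤ P) : rd P Q = 0 := rd_eq_zero.2 h

/-- the basic comparison lemma -/
theorem rd_map (f : V →ₗ[ZMod 2] W) {P Q : Submodule (ZMod 2) V} {P' Q' : Submodule (ZMod 2) W}
    (h1 : ∀ x ∈ Q, f x ∈ Q') (h2 : ∀ y ∈ Q', ∃ x ∈ Q, y + f x ∈ P')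
    (h3 : ∀ x ∈ Q, f x ∈ P' ↔ x ∈ P) : rd P Q = rd P' Q' := by
  unfold rd
  let g : Q →ₗ[ZMod 2] (Q' ⧸ P'.submoduleOf Q') :=
    (P'.submoduleOf Q').mkQ ∘ₗ (f.restrict h1)
  have hg : Function.Surjective g := by
    intro z
    obtain ⟨⟨y, hy⟩, rfl⟩ := Submodule.mkQ_surjective _ z
    obtain ⟨x, hx, hxy⟩ := h2 y hy
    refine ⟨⟨x, hx⟩, ?_⟩
    simp only [g, LinearMap.comp_apply, Submodule.mkQ_apply]
    rw [Submodule.Quotient.eq]
    rw [mem_so]
    show f x - y ∈ P'
    rw [sub2, add_comm]; exact hxy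
  have hk : LinearMap.ker g = P.submoduleOf Q := by
    ext ⟨x, hx⟩
    rw [LinearMap.mem_ker]
    simp only [g, LinearMap.comp_apply, Submodule.mkQ_apply, Submodule.Quotient.mk_eq_zero]
    rw [mem_so, mem_so]
    exact h3 x hx
  have e := (g.quotKerEquivOfSurjective hg).length_eq
  rw [← e]
  exact (Submodule.quotEquivOfEq _ _ hk).symm.length_eq

theorem rd_trans {P Q R : Submodule (ZMod 2) V} (h1 : P ≤ Q) (h2 : Q ≤ R) :
    rd P R = rd P Q + rd Q R := by
  unfold rd
  let i : (Q ⧸ P.submoduleOf Q) →ₗ[ZMod 2] (R ⧸ P.submoduleOf R) :=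
    Submodule.mapQ _ _ (Submodule.inclusion h2) (by
      rintro ⟨x, hx⟩ hx'
      exact hx')
  let j : (R ⧸ P.submoduleOf R) →ₗ[ZMod 2] (R ⧸ Q.submoduleOf R) :=
    Submodule.mapQ _ _ LinearMap.id (by
      rintro ⟨x, hx⟩ hx'
      exact h1 hx')
  refine Module.length_eq_add_of_exact i j ?_ ?_ ?_
  · rw [← LinearMap.ker_eq_bot, LinearMap.ker_eq_bot']
    intro z hz
    obtain ⟨⟨y, hy⟩, rfl⟩ := Submodule.mkQ_surjective _ z
    simp only [i, Submodule.mkQ_apply, Submodule.mapQ_apply, Submodule.Quotient.mk_eq_zero,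
      mem_so] at hz ⊢
    exact hz
  · intro z
    obtain ⟨y, rfl⟩ := Submodule.mkQ_surjective _ z
    exact ⟨Submodule.Quotient.mk y, rfl⟩
  · intro z
    obtain ⟨⟨y, hy⟩, rfl⟩ := Submodule.mkQ_surjective _ z
    constructor
    · intro h
      simp only [j, Submodule.mkQ_apply, Submodule.mapQ_apply, Submodule.Quotient.mk_eq_zero,
        mem_so] at h
      exact ⟨Submodule.Quotient.mk ⟨y, h⟩, rfl⟩
    · rintro ⟨w, hw⟩
      obtain ⟨⟨w, hw'⟩, rfl⟩ := Submodule.mkQ_surjective _ w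
      rw [← hw]
      simp only [i, j, Submodule.mkQ_apply, Submodule.mapQ_apply, Submodule.Quotient.mk_eq_zero,
        mem_so]
      exact hw'

/-- only the intersection with `Q` matters -/
theorem rd_inf (P Q : Submodule (ZMod 2) V) : rd (P ⊓ Q) Q = rd P Q :=
  rd_map (LinearMap.id : V →ₗ[ZMod 2] V) (fun x hx => hx) (fun y hy => ⟨y, hy, by
      rw [LinearMap.id_apply, add_self2]; exact Submodule.zero_mem _⟩)
    (fun x hx => by
      rw [LinearMap.id_apply]; exact ⟨fun h => ⟨h, hx⟩, fun h => h.1⟩)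

/-- second isomorphism theorem -/
theorem rd_sup (P Q : Submodule (ZMod 2) V) : rd P (P ⊔ Q) = rd P Q := by
  symm
  refine rd_map (LinearMap.id : V →ₗ[ZMod 2] V) (fun x hx => Submodule.mem_sup_right hx) ?_
    (fun x hx => Iff.rfl)
  intro y hy
  obtain ⟨p, hp, q, hq, rfl⟩ := Submodule.mem_sup.1 hy
  refine ⟨q, hq, ?_⟩
  have e : p + q + q = p := by f2
  show p + q + q ∈ P
  rw [e]; exact hp

theorem rd_sup' {P P' Q : Submodule (ZMod 2) V} (h : P ≤ Q) :
    rd (P ⊔ P') (Q ⊔ P') = rd (P ⊔ (Q ⊓ P')) Q := by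
  symm
  refine rd_map (LinearMap.id : V →ₗ[ZMod 2] V) (fun x hx => Submodule.mem_sup_left hx) ?_ ?_
  · intro y hy
    obtain ⟨q, hq, p, hp, rfl⟩ := Submodule.mem_sup.1 hy
    refine ⟨q, hq, ?_⟩
    have e : q + p + q = p := by f2
    show q + p + q ∈ P ⊔ P'
    rw [e]; exact Submodule.mem_sup_right hp
  · intro x hx
    simp only [LinearMap.id_apply]
    constructor
    · intro hx'
      obtain ⟨p, hp, p', hp', rfl⟩ := Submodule.mem_sup.1 hx'
      refine Submodule.mem_sup.2 ⟨p, hp, p', ⟨?_, hp'⟩, rfl⟩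
      have e : p' = (p + p') + p := by f2
      rw [e]; exact Q.add_mem hx (h hp)
    · intro hx'
      exact (sup_le_sup (le_refl P) (inf_le_right : Q ⊓ P' ≤ P')) hx'

theorem rd_mono {P Q R : Submodule (ZMod 2) V} (h : Q ≤ R) : rd P Q ≤ rd P R := by
  unfold rd
  refine Module.length_le_of_injective (Submodule.mapQ _ _ (Submodule.inclusion h) ?_) ?_
  · rintro ⟨x, hx⟩ hx'
    exact hx'
  · rw [← LinearMap.ker_eq_bot, LinearMap.ker_eq_bot']
    intro z hz
    obtain ⟨⟨y, hy⟩, rfl⟩ := Submodule.mkQ_surjective _ z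
    simp only [Submodule.mkQ_apply, Submodule.mapQ_apply, Submodule.Quotient.mk_eq_zero,
      mem_so] at hz ⊢
    exact hz

theorem rd_anti {P P' Q : Submodule (ZMod 2) V} (h : P ≤ P') : rd P' Q ≤ rd P Q := by
  unfold rd
  refine Module.length_le_of_surjective (Submodule.mapQ _ _ LinearMap.id ?_) ?_
  · rintro ⟨x, hx⟩ hx'
    exact h hx'
  · intro z
    obtain ⟨y, rfl⟩ := Submodule.mkQ_surjective _ z
    exact ⟨Submodule.Quotient.mk y, rfl⟩

theorem rd_self (P : Submodule (ZMod 2) V) : rd P P = 0 := rd_of_le le_rfl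

/-- telescoping along a decreasing sequence -/
theorem rd_tele (W : ℕ → Submodule (ZMod 2) V) (hW : ∀ m, W (m + 1) ≤ W m) (M : ℕ) :
    rd (W M) (W 0) = ∑ m ∈ Finset.range M, rd (W (m + 1)) (W m) := by
  induction M with
  | zero => simp [rd_self]
  | succ M ih =>
    have h0 : ∀ k, W k ≤ W 0 := by
      intro k
      induction k with
      | zero => exact le_rfl
      | succ k ih => exact (hW k).trans ih
    rw [Finset.sum_range_succ, ← ih, rd_trans (hW M) (h0 M), add_comm]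

end rd

section pi
variable {C : ℕ → Type*} [∀ j, AddCommGroup (C j)] [∀ j, Module (ZMod 2) (C j)]

/-- the product of a family of submodules -/
def Pi (P : ∀ j, Submodule (ZMod 2) (C j)) : Submodule (ZMod 2) (∀ j, C j) :=
  Submodule.pi Set.univ P

theorem mem_Pi {P : ∀ j, Submodule (ZMod 2) (C j)} {v : ∀ j, C j} : v ∈ Pi P ↔ ∀ j, v j ∈ P j := by
  simp [Pi, Submodule.mem_pi]

theorem rd_Pi {P Q : ∀ j, Submodule (ZMod 2) (C j)} (h : ∀ j, P j ≤ Q j) (M : ℕ)
    (hM : ∀ j, M ≤ j → Q j ≤ P j) : rd (Pi P) (Pi Q) = ∑ j ∈ Finset.range M, rd (P j) (Q j) := by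
  let W : ℕ → Submodule (ZMod 2) (∀ j, C j) := fun k => Pi (fun j => if j < k then P j else Q j)
  have hW : ∀ m, W (m + 1) ≤ W m := by
    intro m v hv
    rw [mem_Pi] at hv ⊢
    intro j
    have := hv j
    by_cases h1 : j < m
    · rw [if_pos (by omega)] at this; rw [if_pos h1]; exact this
    · rw [if_neg h1]
      by_cases h2 : j < m + 1
      · rw [if_pos h2] at this; exact h j this
      · rw [if_neg h2] at this; exact this
  have h0 : W 0 = Pi Q := by
    ext v
    rw [mem_Pi, mem_Pi]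
    simp
  have hMM : W M = Pi P := by
    ext v
    rw [mem_Pi, mem_Pi]
    constructor
    · intro hv j
      have := hv j
      by_cases h1 : j < M
      · rwa [if_pos h1] at this
      · rw [if_neg h1] at this
        exact hM j (by omega) this
    · intro hv j
      by_cases h1 : j < M
      · rw [if_pos h1]; exact hv j
      · rw [if_neg h1]; exact h j (hv j)
  rw [← h0, ← hMM, rd_tele W hW M]
  refine Finset.sum_congr rfl fun m _ => ?_
  refine rd_map (LinearMap.proj m) ?_ ?_ ?_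
  · intro v hv
    have := mem_Pi.1 hv m
    rw [if_neg (lt_irrefl m)] at this
    exact this
  · intro y hy
    refine ⟨Pi.single m y, ?_, ?_⟩
    · rw [mem_Pi]
      intro j
      by_cases hj : j = m
      · subst hj
        rw [if_neg (lt_irrefl j), Pi.single_eq_same]; exact hy
      · rw [Pi.single_eq_of_ne hj]; exact Submodule.zero_mem _
    · simp only [LinearMap.proj_apply, Pi.single_eq_same, add_self2]
      exact Submodule.zero_mem _
  · intro v hv
    constructor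
    · intro hv'
      rw [mem_Pi] at hv ⊢
      intro j
      have := hv j
      by_cases hj : j = m
      · subst hj
        rw [if_pos (Nat.lt_succ_self j)]; exact hv'
      · by_cases h1 : j < m
        · rw [if_pos h1] at this; rw [if_pos (by omega)]; exact this
        · rw [if_neg h1] at this; rw [if_neg (by omega)]; exact this
    · intro hv'
      have := mem_Pi.1 hv' m
      rw [if_pos (Nat.lt_succ_self m)] at this
      exact this

end pi

end Crest.Agent.R231.AlgRdx978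
end

-- ▼ part R231/AlgTate_978
section

/-!
# Row 231, block A: completeness of the Tate complex, counting of leading terms  (helper978)
-/

set_option autoImplicit false

namespace Crest.Agent.R231.AlgTatex978

open Crest.Agent.R231.IfAx978 Crest.Agent.R231.AlgRdx978 Crest.Agent.R231.AlgDefx978

variable {X : Mix}

theorem DD_DD (c : ∀ j, X.C j) (j : ℕ) : DD (DD c) j = 0 := by
  rcases j with _ | _ | i
  · simp [X.dd, X.dDe0]
  · simp only [DD_succ', DD_zero', map_add, X.dd, X.dDe, zero_add, add_self2]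
  · simp only [DD_succ', map_add, X.dd, X.dDe, X.DeDe, zero_add, add_zero, add_self2]

theorem DD_mem {B : GS X} (hB : Stab B) {c : ∀ j, X.C j} (hc : ∀ j, c j ∈ B j) (j : ℕ) :
    DD c j ∈ B j := by
  cases j with
  | zero => exact hB.d 0 _ (hc 1)
  | succ i => exact (B _).add_mem (hB.d _ _ (hc _)) (hB.De _ _ (hc _))

/-- `DD c j` only depends on `c i`, `i ≤ j + 1` -/
theorem DD_congr {c c' : ∀ j, X.C j} {j : ℕ} (h : ∀ i, i ≤ j + 1 → c i = c' i) : DD c j = DD c' j := by
  cases j with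
  | zero => simp only [DD_zero']; rw [h 1 (by omega)]
  | succ i => simp only [DD_succ']; rw [h (i + 2) (by omega), h i (by omega)]

theorem DD_mem_of {A : GS X} (hA : Stab A) {c c' : ∀ j, X.C j} {j : ℕ}
    (h : ∀ i, i ≤ j + 1 → c i + c' i ∈ A i) : DD c j + DD c' j ∈ A j := by
  have e : DD c j + DD c' j = DD (c + c') j := by rw [map_add]; rfl
  rw [e]
  cases j with
  | zero => exact hA.d 0 _ (h 1 (by omega))
  | succ i => exact (A _).add_mem (hA.d _ _ (h (i + 2) (by omega))) (hA.De _ _ (h i (by omega)))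


theorem Zc_le {A B : GS X} (j : ℕ) : Zc A B j ≤ B j := by
  cases j with
  | zero => exact le_rfl
  | succ i => exact inf_le_left

theorem mem_Bd {A B : GS X} {j : ℕ} {x : X.C j} :
    x ∈ Bd A B j ↔ ∃ z ∈ B (j + 1), x + X.d j z ∈ A j := by
  unfold Bd
  rw [Submodule.mem_sup]
  constructor
  · rintro ⟨y, ⟨z, hz, rfl⟩, a, ha, rfl⟩
    refine ⟨z, hz, ?_⟩
    have e : X.d j z + a + X.d j z = a := by f2
    rw [e]; exact ha
  · rintro ⟨z, hz, h⟩
    exact ⟨X.d j z, ⟨z, hz, rfl⟩, _, h, by f2⟩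

theorem Bd_base {A B : GS X} (j : ℕ) : A j ≤ Bd A B j := le_sup_right

/-- the leading component of something closed (mod `A`) is a relative cycle -/
theorem zc_lead {A B : GS X} (hA : Stab A) {w : ∀ j, X.C j} {q : ℕ} (hw : w q ∈ B q)
    (h1 : ∀ i, i < q → w i ∈ A i) (h2 : ∀ i, i < q → DD w i ∈ A i) : w q ∈ Zc A B q := by
  rcases q with _ | _ | i
  · exact hw
  · exact ⟨hw, h2 0 (by omega)⟩
  · refine ⟨hw, ?_⟩
    have h := h2 (i + 1) (by omega)
    rw [DD_succ'] at h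
    exact (mem2 h).2 (hA.De _ _ (h1 i (by omega)))

theorem Bd_le_Zc {A B : GS X} (hA : Stab A) (hB : Stab B) (hAB : ∀ j, A j ≤ B j) (j : ℕ) :
    Bd A B j ≤ Zc A B j := by
  intro x hx
  obtain ⟨z, hz, h⟩ := mem_Bd.1 hx
  have hx' : x = (x + X.d j z) + X.d j z := by f2
  cases j with
  | zero => rw [hx']; exact (B 0).add_mem (hAB 0 h) (hB.d _ _ hz)
  | succ i =>
    refine ⟨?_, ?_⟩
    · rw [hx']; exact (B _).add_mem (hAB _ h) (hB.d _ _ hz)
    · have := hA.d _ _ h
      rw [map_add, X.dd, add_zero] at this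
      exact this


/-- single component -/
noncomputable def sg (q : ℕ) (x : X.C q) : ∀ j, X.C j := Pi.single q x

theorem sg_same (q : ℕ) (x : X.C q) : sg q x q = x := Pi.single_eq_same _ _
theorem sg_ne {q i : ℕ} (x : X.C q) (h : i ≠ q) : sg q x i = 0 := Pi.single_eq_of_ne h _

theorem sg_mem {B : GS X} {q : ℕ} {x : X.C q} (hx : x ∈ B q) (i : ℕ) : sg q x i ∈ B i := by
  by_cases h : i = q
  · subst h; rw [sg_same]; exact hx
  · rw [sg_ne x h]; exact (B i).zero_mem

theorem DD_sg_lt {q i : ℕ} (x : X.C q) (h : i + 1 < q) : DD (sg q x) i = 0 := by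
  have : DD (sg q x) i = DD (0 : ∀ j, X.C j) i := DD_congr (fun k hk => by
    rw [sg_ne x (by omega)]; rfl)
  rw [this, map_zero]; rfl

theorem DD_sg_pred {q : ℕ} (x : X.C (q + 1)) : DD (sg (q + 1) x) q = X.d q x := by
  cases q with
  | zero => rw [DD_zero', sg_same]
  | succ i =>
    rw [DD_succ']
    rw [sg_same, sg_ne x (by omega), map_zero, add_zero]

/-- COMPLETENESS of the product: infinitely many corrections, the `m`-th one supported in degrees
`> m`, can be summed.  `T` is `id` or `DD`. -/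
theorem complete (T : (∀ j, X.C j) →ₗ[ZMod 2] (∀ j, X.C j))
    (hT : ∀ (c : ∀ j, X.C j) (m : ℕ), (∀ i, i ≤ m → c i = 0) → ∀ i, i < m → T c i = 0)
    (B : GS X) (S : ℕ → (∀ j, X.C j) → Prop) (M : ℕ)
    (step : ∀ m, M ≤ m → ∀ w, S m w → ∃ c : (∀ j, X.C j), (∀ i, i ≤ m → c i = 0) ∧
      (∀ i, c i ∈ B i) ∧ S (m + 1) (w + T c))
    (v : ∀ j, X.C j) (hv : S M v) :
    ∃ c : (∀ j, X.C j), (∀ i, i ≤ M → c i = 0) ∧ (∀ i, c i ∈ B i) ∧
      ∀ m, M ≤ m → ∃ w, S m w ∧ ∀ j, j < m → (v + T c) j = w j := by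
  classical
  -- sequence of corrections
  have step' : ∀ k (w : {w : (∀ j, X.C j) // S (M + k) w}),
      ∃ c : (∀ j, X.C j), (∀ i, i ≤ M + k → c i = 0) ∧ (∀ i, c i ∈ B i) ∧
        S (M + (k + 1)) (w.1 + T c) := by
    intro k w
    exact step (M + k) (by omega) w.1 w.2
  choose G hG1 hG2 hG3 using step'
  let W : ∀ k : ℕ, {w : (∀ j, X.C j) // S (M + k) w} := fun k =>
    Nat.rec ⟨v, hv⟩ (fun k w => ⟨w.1 + T (G k w), hG3 k w⟩) k
  let cc : ℕ → (∀ j, X.C j) := fun k => G k (W k)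
  have hW0 : (W 0).1 = v := rfl
  have hWs : ∀ k, (W (k + 1)).1 = (W k).1 + T (cc k) := fun k => rfl
  have hcc0 : ∀ k i, i ≤ M + k → cc k i = 0 := fun k i hi => hG1 k _ i hi
  have hccB : ∀ k i, cc k i ∈ B i := fun k i => hG2 k _ i
  have hWsum : ∀ k, (W k).1 = v + T (∑ l ∈ Finset.range k, cc l) := by
    intro k
    induction k with
    | zero => simp [hW0]
    | succ k ih => rw [hWs, ih, Finset.sum_range_succ, map_add, add_assoc]
  let c : ∀ j, X.C j := fun j => (∑ l ∈ Finset.range j, cc l) j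
  have hc : ∀ j N, j ≤ M + N → c j = (∑ l ∈ Finset.range N, cc l) j := by
    intro j N hjN
    -- both equal the sum up to the max
    have key : ∀ N', j ≤ M + N' → ∀ N'', N' ≤ N'' →
        (∑ l ∈ Finset.range N'', cc l) j = (∑ l ∈ Finset.range N', cc l) j := by
      intro N' hN' N'' hle
      induction N'', hle using Nat.le_induction with
      | base => rfl
      | succ n hn ih =>
        rw [Finset.sum_range_succ, Pi.add_apply, ih, hcc0 n j (by omega), add_zero]
    have h1 := key N hjN (max N j) (le_max_left _ _)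
    have h2 := key j (by omega) (max N j) (le_max_right _ _)
    show (∑ l ∈ Finset.range j, cc l) j = _
    rw [← h2, h1]
  refine ⟨c, ?_, ?_, ?_⟩
  · intro i hi
    rw [hc i 0 (by omega)]; simp
  · intro i
    show (∑ l ∈ Finset.range i, cc l) i ∈ B i
    rw [Finset.sum_apply]
    exact Submodule.sum_mem _ (fun l _ => hccB l i)
  · intro m hm
    obtain ⟨k, rfl⟩ := Nat.exists_eq_add_of_le hm
    refine ⟨(W k).1, (W k).2, ?_⟩
    intro j hj
    rw [hWsum k]
    have hdiff : T (c + ∑ l ∈ Finset.range k, cc l) j = 0 := by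
      refine hT _ (M + k) (fun i hi => ?_) j hj
      rw [Pi.add_apply, hc i k hi, add_self2]
    rw [map_add, Pi.add_apply] at hdiff
    rw [Pi.add_apply, Pi.add_apply, eq2 hdiff]

theorem hT_id (c : ∀ j, X.C j) (m : ℕ) (h : ∀ i, i ≤ m → c i = 0) (i : ℕ) (hi : i < m) :
    (LinearMap.id : (∀ j, X.C j) →ₗ[ZMod 2] (∀ j, X.C j)) c i = 0 := h i hi.le

theorem hT_DD (c : ∀ j, X.C j) (m : ℕ) (h : ∀ i, i ≤ m → c i = 0) (i : ℕ) (hi : i < m) :
    DD c i = 0 := by
  have : DD c i = DD (0 : ∀ j, X.C j) i := DD_congr (fun k hk => by rw [h k (by omega)]; rfl)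
  rw [this, map_zero]; rfl

/-- a Tate cycle in degrees above all homology is a Tate boundary -/
theorem bdry {A B : GS X} (hA : Stab A) (hB : Stab B) (hAB : ∀ j, A j ≤ B j) {M : ℕ}
    (hM : ∀ j, M ≤ j → Zc A B j ≤ Bd A B j) {v : ∀ j, X.C j} (hv : ∀ j, v j ∈ B j)
    (hDv : ∀ j, DD v j ∈ A j) (hv0 : ∀ j, j < M → v j ∈ A j) :
    ∃ c : (∀ j, X.C j), (∀ i, i ≤ M → c i = 0) ∧ (∀ i, c i ∈ B i) ∧ ∀ j, v j + DD c j ∈ A j := by
  obtain ⟨c, hc1, hc2, hc3⟩ := complete (X := X) DD hT_DD B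
    (fun m w => (∀ j, w j ∈ B j) ∧ (∀ j, DD w j ∈ A j) ∧ ∀ j, j < m → w j ∈ A j) M
    (by
      rintro m hm w ⟨hw1, hw2, hw3⟩
      have hz : w m ∈ Zc A B m := zc_lead hA (hw1 m) hw3 (fun i _ => hw2 i)
      obtain ⟨z, hz1, hz2⟩ := mem_Bd.1 (hM m hm hz)
      refine ⟨sg (m + 1) z, fun i hi => sg_ne z (by omega), sg_mem hz1, ?_, ?_, ?_⟩
      · intro j
        exact (B j).add_mem (hw1 j) (DD_mem hB (sg_mem hz1) j)
      · intro j
        have e : DD (w + DD (sg (m + 1) z)) j = DD w j := by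
          rw [map_add, Pi.add_apply, DD_DD, add_zero]
        rw [e]; exact hw2 j
      · intro j hj
        rw [Pi.add_apply]
        rcases Nat.lt_succ_iff_lt_or_eq.1 hj with h | h
        · rw [DD_sg_lt z (by omega), add_zero]; exact hw3 j h
        · subst h
          rw [DD_sg_pred]; exact hz2)
    v ⟨hv, hDv, hv0⟩
  refine ⟨c, hc1, hc2, fun j => ?_⟩
  obtain ⟨w, hw, hwj⟩ := hc3 (max M (j + 1)) (le_max_left _ _)
  have := hwj j (by omega)
  rw [Pi.add_apply] at this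
  rw [this]
  exact hw.2.2 j (by omega)

/-- extension of a partial Tate cycle, if all `B^∞` above vanish -/
theorem extend {A B : GS X} (hA : Stab A) (hB : Stab B) (hAB : ∀ j, A j ≤ B j) {M : ℕ}
    (hM : ∀ j, M ≤ j → Binf A B j ≤ Bd A B j) {v : ∀ j, X.C j} (hv : ∀ j, v j ∈ B j)
    (hDv : ∀ j, j < M → DD v j ∈ A j) :
    ∃ c : (∀ j, X.C j), (∀ i, i ≤ M → c i = 0) ∧ (∀ i, c i ∈ B i) ∧ ∀ j, DD (v + c) j ∈ A j := by
  obtain ⟨c, hc1, hc2, hc3⟩ := complete (X := X) LinearMap.id hT_id B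
    (fun m w => (∀ j, w j ∈ B j) ∧ ∀ j, j < m → DD w j ∈ A j) M
    (by
      rintro m hm w ⟨hw1, hw2⟩
      have hb : DD w m ∈ Binf A B m := ⟨w, hw1, hw2, by rw [add_self2]; exact (A m).zero_mem⟩
      obtain ⟨z, hz1, hz2⟩ := mem_Bd.1 (hM m hm hb)
      refine ⟨sg (m + 1) z, fun i hi => sg_ne z (by omega), sg_mem hz1, ?_, ?_⟩
      · intro j
        exact (B j).add_mem (hw1 j) (sg_mem hz1 j)
      · intro j hj
        rw [LinearMap.id_apply, map_add, Pi.add_apply]
        rcases Nat.lt_succ_iff_lt_or_eq.1 hj with h | h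
        · rw [DD_sg_lt z (by omega), add_zero]; exact hw2 j h
        · subst h
          rw [DD_sg_pred]; exact hz2)
    v ⟨hv, hDv⟩
  refine ⟨c, hc1, hc2, fun j => ?_⟩
  obtain ⟨w, hw, hwj⟩ := hc3 (max M (j + 2)) (le_max_left _ _)
  have h2 := hw.2 j (by omega)
  have e : DD (v + c) j = DD w j := DD_congr (fun i hi => hwj i (by omega))
  rw [e]; exact h2

theorem Binf_le_Zc {A B : GS X} (hA : Stab A) (hB : Stab B) (hAB : ∀ j, A j ≤ B j) (j : ℕ) :
    Binf A B j ≤ Zc A B j := by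
  rintro x ⟨c, h1, h2, h3⟩
  have hz : DD c j ∈ Zc A B j := zc_lead hA (DD_mem hB h1 j) h2 (fun i _ => by
    rw [DD_DD]; exact (A i).zero_mem)
  have e : x = (x + DD c j) + DD c j := by f2
  rw [e]
  exact (Zc A B j).add_mem (Bd_le_Zc hA hB hAB j (Bd_base j h3)) hz

theorem Bd_le_Binf {A B : GS X} (j : ℕ) : Bd A B j ≤ Binf A B j := by
  intro x hx
  obtain ⟨z, hz, h⟩ := mem_Bd.1 hx
  refine ⟨sg (j + 1) z, sg_mem hz, fun i hi => ?_, ?_⟩
  · rw [DD_sg_lt z (by omega)]; exact (A i).zero_mem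
  · rw [DD_sg_pred]; exact h

/-- packaged hypotheses: a pair `(B, A)`, its half level pair `(B', A')`, Smith isomorphism -/
structure PH (psi : ∀ j, X.C j →ₗ[ZMod 2] X.C j) (A B A' B' : GS X) : Prop where
  le : ∀ j, A j ≤ B j
  sA : Stab A
  sB : Stab B
  le' : ∀ j, A' j ≤ B' j
  sA' : Stab A'
  sB' : Stab B'
  pA : ∀ j x, x ∈ A' j → psi j x ∈ A j
  pB : ∀ j x, x ∈ B' j → psi j x ∈ B j
  dpsi : ∀ j x, X.d j (psi (j + 1) x) = psi j (X.d j x)
  Depsi : ∀ j x, X.De j (psi j x) = 0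
  smith : Smith psi A B A' B'

/-- apply `psi` componentwise -/
def psiP (psi : ∀ j, X.C j →ₗ[ZMod 2] X.C j) : (∀ j, X.C j) →ₗ[ZMod 2] (∀ j, X.C j) where
  toFun y := fun j => psi j (y j)
  map_add' a b := by funext j; simp
  map_smul' r a := by funext j; simp

@[simp] theorem psiP_apply (psi : ∀ j, X.C j →ₗ[ZMod 2] X.C j) (y : ∀ j, X.C j) (j : ℕ) :
    psiP psi y j = psi j (y j) := rfl

section PH
variable {psi : ∀ j, X.C j →ₗ[ZMod 2] X.C j} {A B A' B' : GS X} (H : PH psi A B A' B')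
include H

theorem PH.DD_psi (y : ∀ j, X.C j) (hy : ∀ j, y j ∈ Zc A' B' j) (j : ℕ) :
    DD (psiP psi y) j ∈ A j := by
  rcases j with _ | i
  · rw [DD_zero', psiP_apply, H.dpsi]
    exact H.pA _ _ (hy 1).2
  · rw [DD_succ', psiP_apply, psiP_apply, H.dpsi, H.Depsi, add_zero]
    exact H.pA _ _ (hy (i + 2)).2

theorem PH.psi_mem (y : ∀ j, X.C j) (hy : ∀ j, y j ∈ Zc A' B' j) (j : ℕ) :
    psiP psi y j ∈ B j := H.pB _ _ (Zc_le j (hy j))

/-- `psi` of a boundary family is a Tate boundary -/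
theorem PH.psi_bd {y : ∀ j, X.C j} (hy : ∀ j, y j ∈ Bd A' B' j) :
    ∃ c : (∀ j, X.C j), (∀ j, c j ∈ B j) ∧ ∀ j, psi j (y j) + DD c j ∈ A j := by
  have h : ∀ j, ∃ z ∈ B' (j + 1), y j + X.d j z ∈ A' j := fun j => mem_Bd.1 (hy j)
  choose z hz1 hz2 using h
  let c : ∀ j, X.C j := fun j => Nat.casesOn (motive := fun j => X.C j) j 0 (fun i => psi (i + 1) (z i))
  refine ⟨c, ?_, ?_⟩
  · intro j
    cases j with
    | zero => exact (B 0).zero_mem
    | succ i => exact H.pB _ _ (hz1 i)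
  · intro j
    have h1 : psi j (y j) + psi j (X.d j (z j)) ∈ A j := by
      rw [← map_add]; exact H.pA _ _ (hz2 j)
    rcases j with _ | _ | i
    · rw [DD_zero']
      show psi 0 (y 0) + X.d 0 (psi 1 (z 0)) ∈ A 0
      rw [H.dpsi]; exact h1
    · rw [DD_succ']
      show psi 1 (y 1) + (X.d 1 (psi 2 (z 1)) + X.De 0 0) ∈ A 1
      rw [map_zero, add_zero, H.dpsi]; exact h1
    · rw [DD_succ']
      show psi (i + 2) (y (i + 2)) + (X.d (i + 2) (psi (i + 3) (z (i + 2))) +
        X.De (i + 1) (psi (i + 1) (z i))) ∈ A (i + 2)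
      rw [H.Depsi, add_zero, H.dpsi]; exact h1

/-- if `psi y` is a Tate boundary below the degree `M` (no homology from `M` on) then `y` is a
boundary -/
theorem PH.inj' {M : ℕ} (hM : ∀ j, M ≤ j → Zc A B j ≤ Bd A B j) {y c : ∀ j, X.C j}
    (hy : ∀ j, y j ∈ Zc A' B' j) (hc : ∀ j, c j ∈ B j)
    (h : ∀ j, j < M → psi j (y j) + DD c j ∈ A j) (j : ℕ) : y j ∈ Bd A' B' j := by
  obtain ⟨c', _, hc'2, hc'3⟩ := bdry H.sA H.sB H.le hM
    (v := psiP psi y + DD c)
    (fun j => (B j).add_mem (H.psi_mem y hy j) (DD_mem H.sB hc j))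
    (fun j => by
      rw [map_add, Pi.add_apply, DD_DD, add_zero]; exact H.DD_psi y hy j)
    (fun j hj => h j hj)
  refine H.smith.inj y (c + c') hy (fun j => (B j).add_mem (hc j) (hc'2 j)) (fun j => ?_) j
  have := hc'3 j
  rw [map_add, Pi.add_apply, ← add_assoc]
  exact this

end PH

end Crest.Agent.R231.AlgTatex978
end

-- ▼ part R231/AlgCount_978

/-!
# Row 231, block A: counting of leading terms, Euler relation  (helper978)
-/

set_option autoImplicit false

namespace Crest.Agent.R231.AlgCountx978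

open Crest.Agent.R231.IfAx978 Crest.Agent.R231.AlgRdx978 Crest.Agent.R231.AlgDefx978
open Crest.Agent.R231.AlgTatex978

variable {X : Mix}

/-! ## parity projection -/

/-- keep the components of parity `p` -/
def pr (p : ℕ) : (∀ j, X.C j) →ₗ[ZMod 2] (∀ j, X.C j) where
  toFun c := fun i => if i % 2 = p % 2 then c i else 0
  map_add' a b := by
    funext i
    by_cases h : i % 2 = p % 2 <;> simp [h]
  map_smul' r a := by
    funext i
    by_cases h : i % 2 = p % 2 <;> simp [h]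

theorem pr_pos {p i : ℕ} (c : ∀ j, X.C j) (h : i % 2 = p % 2) : pr p c i = c i := by
  show (if i % 2 = p % 2 then c i else 0) = c i
  rw [if_pos h]

theorem pr_neg {p i : ℕ} (c : ∀ j, X.C j) (h : i % 2 ≠ p % 2) : pr p c i = 0 := by
  show (if i % 2 = p % 2 then c i else 0) = 0
  rw [if_neg h]

theorem pr_mem {B : GS X} {p : ℕ} {c : ∀ j, X.C j} (hc : ∀ j, c j ∈ B j) (i : ℕ) :
    pr p c i ∈ B i := by
  by_cases h : i % 2 = p % 2
  · rw [pr_pos c h]; exact hc i
  · rw [pr_neg c h]; exact (B i).zero_mem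

theorem DD_pr_pos {p i : ℕ} (c : ∀ j, X.C j) (h : i % 2 = (p + 1) % 2) :
    DD (pr p c) i = DD c i := by
  rcases i with _ | i
  · rw [DD_zero', DD_zero', pr_pos c (by omega)]
  · rw [DD_succ', DD_succ', pr_pos c (by omega), pr_pos c (by omega)]

theorem DD_pr_neg {p i : ℕ} (c : ∀ j, X.C j) (h : i % 2 ≠ (p + 1) % 2) :
    DD (pr p c) i = 0 := by
  rcases i with _ | i
  · rw [DD_zero', pr_neg c (by omega), map_zero]
  · rw [DD_succ', pr_neg c (by omega), pr_neg c (by omega), map_zero, map_zero, add_zero]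

section PH
variable {psi : ∀ j, X.C j →ₗ[ZMod 2] X.C j} {A B A' B' : GS X} (H : PH psi A B A' B')

theorem Binf_le_LT {S : GS X} (hA : ∀ j, A j ≤ B j) (hB : Stab B) (m : ℕ) :
    Binf A B m ≤ LT psi A B S m := by
  rintro x ⟨c, h1, h2, h3⟩
  refine ⟨?_, 0, c, fun j => (S j).zero_mem, h1, fun j hj => ?_, ?_⟩
  · have e : x = (x + DD c m) + DD c m := by f2
    rw [e]; exact (B m).add_mem (hA m h3) (DD_mem hB h1 m)
  · simpa using h2 j hj
  · rw [Pi.zero_apply, map_zero, zero_add, add_comm]; exact h3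

include H

/-- counting of leading terms: `Σ_m dim LT_m(S)/B^∞_m = dim S/Bd'` -/
theorem LTcount {M : ℕ} (hM : ∀ j, M ≤ j → Zc A B j ≤ Bd A B j) {S : GS X}
    (hS1 : ∀ j, Bd A' B' j ≤ S j) (hS2 : ∀ j, S j ≤ Zc A' B' j) :
    rd (Pi (Bd A' B')) (Pi S) = ∑ m ∈ Finset.range M, rd (Binf A B m) (LT psi A B S m) := by
  -- the filtration
  let W : ℕ → Submodule (ZMod 2) (∀ j, X.C j) := fun m =>
    { carrier := {y | (∀ j, y j ∈ S j) ∧ ∃ c : (∀ j, X.C j), (∀ j, c j ∈ B j) ∧
        ∀ i, i < m → psi i (y i) + DD c i ∈ A i}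
      zero_mem' := ⟨fun j => (S j).zero_mem, 0, fun j => (B j).zero_mem, fun i _ => by simp⟩
      add_mem' := by
        rintro y y' ⟨h1, c, h2, h3⟩ ⟨h1', c', h2', h3'⟩
        refine ⟨fun j => (S j).add_mem (h1 j) (h1' j), c + c', fun j => (B j).add_mem (h2 j) (h2' j),
          fun i hi => ?_⟩
        have e : psi i ((y + y') i) + DD (c + c') i
            = psi i (y i) + DD c i + (psi i (y' i) + DD c' i) := by
          simp only [Pi.add_apply, map_add]; abel
        rw [e]; exact (A i).add_mem (h3 i hi) (h3' i hi)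
      smul_mem' := by
        rintro r y ⟨h1, c, h2, h3⟩
        refine ⟨fun j => (S j).smul_mem r (h1 j), r • c, fun j => (B j).smul_mem r (h2 j),
          fun i hi => ?_⟩
        have := (A i).smul_mem r (h3 i hi)
        simpa only [smul_add, Pi.smul_apply, map_smul] using this }
  have hWmem : ∀ m y, y ∈ W m ↔ (∀ j, y j ∈ S j) ∧ ∃ c : (∀ j, X.C j), (∀ j, c j ∈ B j) ∧
        ∀ i, i < m → psi i (y i) + DD c i ∈ A i := fun m y => Iff.rfl
  have hWd : ∀ m, W (m + 1) ≤ W m := by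
    rintro m y ⟨h1, c, h2, h3⟩
    exact ⟨h1, c, h2, fun i hi => h3 i (by omega)⟩
  have hW0 : W 0 = Pi S := by
    ext y
    rw [hWmem, mem_Pi]
    constructor
    · exact fun h => h.1
    · intro h
      exact ⟨h, 0, fun j => (B j).zero_mem, fun i hi => absurd hi (by omega)⟩
  have hWM : W M = Pi (Bd A' B') := by
    ext y
    rw [hWmem, mem_Pi]
    constructor
    · rintro ⟨h1, c, h2, h3⟩
      exact H.inj' hM (fun j => hS2 j (h1 j)) h2 h3
    · intro h
      refine ⟨fun j => hS1 j (h j), ?_⟩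
      obtain ⟨c, hc1, hc2⟩ := H.psi_bd h
      exact ⟨c, hc1, fun i _ => hc2 i⟩
  rw [← hW0, ← hWM, rd_tele W hWd M]
  refine Finset.sum_congr rfl fun m _ => ?_
  -- comparison through pairs `(y, c)`
  let Q : Submodule (ZMod 2) ((∀ j, X.C j) × (∀ j, X.C j)) :=
    { carrier := {q | (∀ j, q.1 j ∈ S j) ∧ (∀ j, q.2 j ∈ B j) ∧
        ∀ i, i < m → psi i (q.1 i) + DD q.2 i ∈ A i}
      zero_mem' := ⟨fun j => (S j).zero_mem, fun j => (B j).zero_mem, fun i _ => by simp⟩
      add_mem' := by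
        rintro ⟨y, c⟩ ⟨y', c'⟩ ⟨h1, h2, h3⟩ ⟨h1', h2', h3'⟩
        refine ⟨fun j => (S j).add_mem (h1 j) (h1' j), fun j => (B j).add_mem (h2 j) (h2' j),
          fun i hi => ?_⟩
        have e : psi i (((y, c) + (y', c')).1 i) + DD ((y, c) + (y', c')).2 i
            = psi i (y i) + DD c i + (psi i (y' i) + DD c' i) := by
          simp only [Prod.mk_add_mk, Pi.add_apply, map_add]; abel
        rw [e]; exact (A i).add_mem (h3 i hi) (h3' i hi)
      smul_mem' := by
        rintro r ⟨y, c⟩ ⟨h1, h2, h3⟩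
        refine ⟨fun j => (S j).smul_mem r (h1 j), fun j => (B j).smul_mem r (h2 j),
          fun i hi => ?_⟩
        have e : psi i ((r • (y, c)).1 i) + DD (r • (y, c)).2 i = r • (psi i (y i) + DD c i) := by
          simp only [Prod.smul_mk, Pi.smul_apply, map_smul, smul_add]
        rw [e]; exact (A i).smul_mem r (h3 i hi) }
  let f1 : ((∀ j, X.C j) × (∀ j, X.C j)) →ₗ[ZMod 2] (∀ j, X.C j) := LinearMap.fst _ _ _
  let f2' : ((∀ j, X.C j) × (∀ j, X.C j)) →ₗ[ZMod 2] X.C m :=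
    (LinearMap.proj m) ∘ₗ ((psiP psi) ∘ₗ (LinearMap.fst _ _ _) + DD ∘ₗ (LinearMap.snd _ _ _))
  have hf2 : ∀ q, f2' q = psi m (q.1 m) + DD q.2 m := fun q => rfl
  have e1 : rd ((W (m + 1)).comap f1) Q = rd (W (m + 1)) (W m) := by
    refine rd_map f1 ?_ ?_ ?_
    · rintro ⟨y, c⟩ ⟨h1, h2, h3⟩
      exact ⟨h1, c, h2, h3⟩
    · rintro y ⟨h1, c, h2, h3⟩
      refine ⟨(y, c), ⟨h1, h2, h3⟩, ?_⟩
      show y + y ∈ W (m + 1)
      rw [add_self2]; exact Submodule.zero_mem _
    · intro q _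
      rfl
  have e2 : rd ((W (m + 1)).comap f1) Q = rd (Binf A B m) (LT psi A B S m) := by
    refine rd_map f2' ?_ ?_ ?_
    · rintro ⟨y, c⟩ ⟨h1, h2, h3⟩
      rw [hf2]
      refine ⟨(B m).add_mem (H.psi_mem y (fun j => hS2 j (h1 j)) m) (DD_mem H.sB h2 m),
        y, c, h1, h2, h3, ?_⟩
      rw [add_self2]; exact (A m).zero_mem
    · rintro x ⟨hx, y, c, h1, h2, h3, h4⟩
      refine ⟨(y, c), ⟨h1, h2, h3⟩, ?_⟩
      rw [hf2, add_comm]
      exact Bd_le_Binf m (Bd_base m h4)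
    · rintro ⟨y, c⟩ ⟨h1, h2, h3⟩
      rw [hf2, Submodule.mem_comap]
      show _ ↔ y ∈ W (m + 1)
      constructor
      · rintro ⟨c', h4, h5, h6⟩
        refine ⟨h1, c + c', fun j => (B j).add_mem (h2 j) (h4 j), fun i hi => ?_⟩
        rw [map_add, Pi.add_apply, ← add_assoc]
        rcases Nat.lt_succ_iff_lt_or_eq.1 hi with h | h
        · exact (A i).add_mem (h3 i h) (h5 i h)
        · subst h; exact h6
      · rintro ⟨_, c', h4, h5⟩
        refine ⟨c + c', fun j => (B j).add_mem (h2 j) (h4 j), fun i hi => ?_, ?_⟩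
        · have e : DD (c + c') i = (psi i (y i) + DD c i) + (psi i (y i) + DD c' i) := by
            rw [map_add, Pi.add_apply]; f2
          rw [e]; exact (A i).add_mem (h3 i hi) (h5 i (by omega))
        · have e : psi m (y m) + DD c m + DD (c + c') m = psi m (y m) + DD c' m := by
            rw [map_add, Pi.add_apply]; f2
          show psi m (y m) + DD c m + DD (c + c') m ∈ A m
          rw [e]; exact h5 m (by omega)
  rw [← e1, e2]

/-- in the wrong parity there are only boundaries -/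
theorem LT_par {S : GS X} {p : ℕ} (hS : ∀ j, j % 2 ≠ p % 2 → S j ≤ Bd A' B' j)
    {m : ℕ} (hm : m % 2 ≠ p % 2) : LT psi A B S m ≤ Binf A B m := by
  rintro x ⟨hx, y, c, h1, h2, h3, h4⟩
  have hy : ∀ j, pr m y j ∈ Bd A' B' j := by
    intro j
    by_cases h : j % 2 = m % 2
    · rw [pr_pos y h]; exact hS j (by omega) (h1 j)
    · rw [pr_neg y h]; exact Submodule.zero_mem _
  obtain ⟨c0, hc1, hc2⟩ := H.psi_bd hy
  refine ⟨pr (m + 1) (c + c0), pr_mem (fun j => (B j).add_mem (h2 j) (hc1 j)), ?_, ?_⟩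
  · intro i hi
    by_cases h : i % 2 = m % 2
    · rw [DD_pr_pos _ (by omega), map_add, Pi.add_apply]
      have a1 := h3 i hi
      have a2 := hc2 i
      rw [pr_pos y h] at a2
      have e : DD c i + DD c0 i = (psi i (y i) + DD c i) + (psi i (y i) + DD c0 i) := by f2
      rw [e]; exact (A i).add_mem a1 a2
    · rw [DD_pr_neg _ (by omega)]; exact (A i).zero_mem
  · rw [DD_pr_pos _ (by omega), map_add, Pi.add_apply]
    have a2 := hc2 m
    rw [pr_pos y rfl] at a2
    have e : x + (DD c m + DD c0 m) = (psi m (y m) + DD c m + x) + (psi m (y m) + DD c0 m) := by f2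
    rw [e]; exact (A m).add_mem h4 a2

end PH

end Crest.Agent.R231.AlgCountx978
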