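import Crest.Agent.R231.GLoop_576
import Crest.Agent.R204.EZSym_847
import Crest.Agent.R204.EZHtp_271
import Crest.Agent.R204.ExcD_406
import Crest.Agent.R231.Pair_877

-- ▼ part R231/Conc_150
section

/-!
# Row 231, block T (helper150): concatenation of based loops, space level

`Om p` : loops based at `p`; `conc m : C(Fin m → Om p, Lp M)`, the `m` loops run through on the `m`
equal intervals of the circle.

* `loopOf`, `continuous_loopOf` : loops from 1-periodic functions of a real variable
* `conc_coe` : value at a real number in the slot `k ≤ m x ≤ k + 1`, `k : ℤ`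
* `rot_conc`  : `rot (1/m) (conc f) = conc (f ∘ finRotate m)`
* `rev_conc`  : `rev (conc f) = conc (fun i => revO (f i.rev))`
* `conc_mem`  : `f i ∈ X M t` for all `i` gives `conc f ∈ X M (m t)`
* `conc_zero`, `concO`, `conc_const`, `conc_same` (`= itr m`)
-/

set_option autoImplicit false
set_option linter.unusedSectionVars false

noncomputable section

open Set Filter Topology

namespace Crest.Agent.R231.Concx150

open GLugx576

section loopOf

variable {M : Type*} [TopologicalSpace M]

/-- the loop of a continuous 1-periodic function -/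
def loopOf (F : ℝ → M) (hF : Continuous F) (hp : Function.Periodic F 1) : Lp M :=
  ⟨hp.lift, by
    refine (QuotientAddGroup.isQuotientMap_mk (N := AddSubgroup.zmultiples (1 : ℝ))).continuous_iff.2 ?_
    exact hF⟩

@[simp] theorem loopOf_coe (F : ℝ → M) (hF : Continuous F) (hp : Function.Periodic F 1) (x : ℝ) :
    loopOf F hF hp (x : UnitAddCircle) = F x := rfl

theorem lp_ext {γ γ' : Lp M} (h : ∀ x : ℝ, γ (x : UnitAddCircle) = γ' (x : UnitAddCircle)) : γ = γ' := by
  ext x
  induction x using QuotientAddGroup.induction_on with | _ x => exact h x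

end loopOf

section loopOfM

variable {M : Type*} [MetricSpace M]

theorem continuous_loopOf {α : Type*} [TopologicalSpace α] (F : α → ℝ → M)
    (hF : Continuous (fun q : α × ℝ => F q.1 q.2)) (hp : ∀ a, Function.Periodic (F a) 1)
    (hc : ∀ a, Continuous (F a)) : Continuous (fun a => loopOf (F a) (hc a) (hp a)) := by
  refine cont_to_loop ?_
  have h : Continuous (fun q : α × Icc (0 : ℝ) 1 => ((q.1, (q.2 : ℝ)) : α × ℝ)) := by fun_prop
  exact hF.comp h

end loopOfM

/-! ## slots -/

section slots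

variable (m : ℕ) [NeZero m]

theorem mpos : (0 : ℤ) < (m : ℤ) := by exact_mod_cast NeZero.pos m

/-- the slot of an integer: residue mod `m` -/
def ix (k : ℤ) : Fin m :=
  ⟨(k % m).toNat, by
    have h1 := Int.emod_nonneg k (mpos m).ne'
    have h2 := Int.emod_lt_of_pos k (mpos m)
    omega⟩

theorem ix_val (k : ℤ) : (((ix m k : Fin m) : ℕ) : ℤ) = k % m := by
  have h1 := Int.emod_nonneg k (mpos m).ne'
  show (((k % m).toNat : ℕ) : ℤ) = k % m
  omega

theorem ix_ext {k : ℤ} {i : Fin m} (h : k % m = ((i : ℕ) : ℤ)) : ix m k = i := by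
  refine Fin.ext ?_
  have := ix_val m k
  rw [h] at this
  exact_mod_cast this

theorem ix_nat (i : Fin m) : ix m ((i : ℕ) : ℤ) = i :=
  ix_ext m (Int.emod_eq_of_lt (by positivity) (by exact_mod_cast i.2))


theorem ix_add_period (k : ℤ) : ix m (k + m) = ix m k := by
  refine ix_ext m ?_
  rw [ix_val, Int.add_emod_right]

theorem ix_succ (k : ℤ) : ix m (k + 1) = finRotate m (ix m k) := by
  obtain ⟨n, rfl⟩ : ∃ n, m = n + 1 := ⟨m - 1, by have := NeZero.pos m; omega⟩
  have hv := ix_val (n + 1) k
  set i := ix (n + 1) k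
  refine ix_ext _ ?_
  have e : (k + 1) % ((n + 1 : ℕ) : ℤ) = (k % ((n + 1 : ℕ) : ℤ) + 1) % ((n + 1 : ℕ) : ℤ) := by
    rw [Int.emod_add_emod]
  rw [e, ← hv]
  rcases Nat.lt_or_ge (i : ℕ) n with h | h
  · have h1 : finRotate (n + 1) i = ⟨(i : ℕ) + 1, by omega⟩ := finRotate_of_lt h
    rw [h1]
    rw [Int.emod_eq_of_lt (by positivity) (by push_cast; omega)]
    push_cast; rfl
  · have h2 : i = Fin.last n := Fin.ext (by have := i.2; simp only [Fin.val_last]; omega)
    rw [h2, finRotate_last]
    simp only [Fin.val_last, Fin.val_zero]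
    have : ((n : ℕ) : ℤ) + 1 = ((n + 1 : ℕ) : ℤ) := by push_cast; ring
    rw [this, Int.emod_self]; rfl


end slots

/-! ## based loops -/

section based

variable {M : Type*} [MetricSpace M]

/-- loops based at `p` -/
abbrev Om (p : M) : Type _ := {γ : Lp M // γ 0 = p}

variable {p : M}

theorem Om.int (γ : Om p) (k : ℤ) : γ.1 ((k : ℝ) : UnitAddCircle) = p := by
  rw [coe_int_circle]; exact γ.2

theorem Om.add_int (γ : Om p) (x : ℝ) (k : ℤ) :
    γ.1 ((x + k : ℝ) : UnitAddCircle) = γ.1 (x : UnitAddCircle) := by rw [coe_add_int]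

/-- inclusion -/
def ιO (p : M) : C(Om p, Lp M) := ⟨Subtype.val, continuous_subtype_val⟩




variable (m : ℕ) [NeZero m]

/-- concatenation as a function on the line -/
def concR (f : Fin m → Om p) (x : ℝ) : M := (f (ix m ⌊m * x⌋)).1 ((m * x : ℝ) : UnitAddCircle)

/-- value in a closed slot -/
theorem concR_eq (f : Fin m → Om p) {x : ℝ} {k : ℤ} (h1 : (k : ℝ) ≤ m * x) (h2 : m * x ≤ k + 1) :
    concR m f x = (f (ix m k)).1 ((m * x : ℝ) : UnitAddCircle) := by
  unfold concR
  rcases h2.lt_or_eq with h | h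
  · rw [Int.floor_eq_iff.2 ⟨h1, h⟩]
  · have e : (m : ℝ) * x = ((k + 1 : ℤ) : ℝ) := by rw [h]; push_cast; ring
    rw [e, Om.int, Om.int]

theorem concR_periodic (f : Fin m → Om p) : Function.Periodic (concR m f) 1 := by
  intro x
  unfold concR
  have e : (m : ℝ) * (x + 1) = m * x + ((m : ℤ) : ℝ) := by push_cast; ring
  rw [e, Int.floor_add_intCast, ix_add_period, Om.add_int]

theorem continuous_concR : Continuous (fun q : (Fin m → Om p) × ℝ => concR m q.1 q.2) := by
  let S : ℤ → Set ((Fin m → Om p) × ℝ) := fun k => {q | (k : ℝ) ≤ m * q.2 ∧ (m : ℝ) * q.2 ≤ k + 1}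
  have hcl : ∀ k, IsClosed (S k) := by
    intro k
    have e : S k = {q | (k : ℝ) ≤ m * q.2} ∩ {q | (m : ℝ) * q.2 ≤ k + 1} := by
      ext q; exact Iff.rfl
    rw [e]
    exact (isClosed_le (by fun_prop) (by fun_prop)).inter (isClosed_le (by fun_prop) (by fun_prop))
  have hcov : ⋃ k, S k = univ := by
    refine eq_univ_of_forall fun q => mem_iUnion.2 ⟨⌊(m : ℝ) * q.2⌋, Int.floor_le _, ?_⟩
    exact (Int.lt_floor_add_one _).le
  have hlf : LocallyFinite S := by
    intro q
    refine ⟨{r | |(m : ℝ) * r.2 - m * q.2| < 1}, ?_, ?_⟩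
    · refine (isOpen_lt (by fun_prop) continuous_const).mem_nhds ?_
      simp
    · refine (Set.finite_Icc (⌊(m : ℝ) * q.2⌋ - 2) (⌊(m : ℝ) * q.2⌋ + 2)).subset ?_
      rintro k ⟨r, ⟨h1, h2⟩, h3⟩
      rw [mem_ofPred_eq, abs_lt] at h3
      have h4 := Int.floor_le ((m : ℝ) * q.2)
      have h5 := Int.lt_floor_add_one ((m : ℝ) * q.2)
      constructor
      · have : ((⌊(m : ℝ) * q.2⌋ - 2 : ℤ) : ℝ) ≤ k := by push_cast; linarith
        exact_mod_cast this
      · have : (k : ℝ) < ((⌊(m : ℝ) * q.2⌋ + 2 : ℤ) : ℝ) := by push_cast; linarith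
        exact (by exact_mod_cast this : k < ⌊(m : ℝ) * q.2⌋ + 2).le
  refine hlf.continuous hcov hcl fun k => ?_
  have hk : Continuous (fun q : (Fin m → Om p) × ℝ => (q.1 (ix m k)).1 ((m * q.2 : ℝ) : UnitAddCircle)) := by
    have h : Continuous (fun q : (Fin m → Om p) × ℝ => ((q.1 (ix m k)).1, (m : ℝ) * q.2)) :=
      (continuous_subtype_val.comp ((continuous_apply (ix m k)).comp continuous_fst)).prodMk
        (continuous_const.mul continuous_snd)
    exact continuous_evalR.comp h
  exact hk.continuousOn.congr fun q hq => concR_eq m q.1 hq.1 hq.2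

theorem continuous_concR' (f : Fin m → Om p) : Continuous (concR m f) :=
  (continuous_concR m).comp (Continuous.prodMk_right f)

/-- **concatenation of `m` based loops** -/
def conc : C(Fin m → Om p, Lp M) :=
  ⟨fun f => loopOf (concR m f) (continuous_concR' m f) (concR_periodic m f),
    continuous_loopOf _ (continuous_concR m) _ _⟩


/-- value in a closed slot -/
theorem conc_coe (f : Fin m → Om p) {x : ℝ} {k : ℤ} (h1 : (k : ℝ) ≤ m * x) (h2 : m * x ≤ k + 1) :
    conc m f (x : UnitAddCircle) = (f (ix m k)).1 ((m * x : ℝ) : UnitAddCircle) :=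
  concR_eq m f h1 h2

theorem conc_slot (f : Fin m → Om p) (i : Fin m) {s : ℝ} (h0 : 0 ≤ s) (h1 : s ≤ 1) :
    conc m f (((i + s) / m : ℝ) : UnitAddCircle) = (f i).1 (s : UnitAddCircle) := by
  have hm : (m : ℝ) ≠ 0 := by exact_mod_cast NeZero.ne m
  have e : (m : ℝ) * ((i + s) / m) = s + (((i : ℕ) : ℤ) : ℝ) := by
    field_simp; push_cast; ring
  rw [conc_coe m f (k := ((i : ℕ) : ℤ)) (by rw [e]; linarith) (by rw [e]; linarith), e, ix_nat,
    coe_add_int]

/-- first slot -/
theorem conc_first (f : Fin m → Om p) {s : ℝ} (h0 : 0 ≤ s) (h1 : s ≤ 1) :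
    conc m f ((s / m : ℝ) : UnitAddCircle) = (f ⟨0, NeZero.pos m⟩).1 (s : UnitAddCircle) := by
  have := conc_slot m f ⟨0, NeZero.pos m⟩ h0 h1
  rwa [Nat.cast_zero, zero_add] at this

@[simp] theorem conc_zero (f : Fin m → Om p) : conc m f 0 = p := by
  have h := conc_coe m f (x := 0) (k := 0) (by simp) (by simp)
  rw [mul_zero] at h
  have h0 : ((0 : ℝ) : UnitAddCircle) = 0 := rfl
  rw [h0] at h
  rw [h]
  exact (f _).2

/-- concatenation with values in based loops -/
def concO : C(Fin m → Om p, Om p) :=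
  ⟨fun f => ⟨conc m f, conc_zero m f⟩, (ContinuousMap.continuous _).subtype_mk _⟩


/-- **rotation by `1/m`** -/
theorem rot_conc (f : Fin m → Om p) :
    rot ((1 / m : ℝ) : UnitAddCircle) (conc m f) = conc m (fun i => f (finRotate m i)) := by
  have hm : (m : ℝ) ≠ 0 := by exact_mod_cast NeZero.ne m
  refine lp_ext fun x => ?_
  have h1 := Int.floor_le ((m : ℝ) * x)
  have h2 := (Int.lt_floor_add_one ((m : ℝ) * x)).le
  have e : (m : ℝ) * (x + 1 / m) = m * x + ((1 : ℤ) : ℝ) := by field_simp; push_cast; ring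
  rw [conc_coe m _ h1 h2, rot_apply, ← AddCircle.coe_add,
    conc_coe m f (x := x + 1 / m) (k := ⌊(m : ℝ) * x⌋ + 1) (by rw [e]; push_cast; linarith)
      (by rw [e]; push_cast; linarith), ix_succ, e, Om.add_int]


/-- **Lipschitz bound** -/
theorem conc_mem {t : ℝ} {f : Fin m → Om p} (h : ∀ i, (f i).1 ∈ X M t) : conc m f ∈ X M (m * t) := by
  have ht : 0 ≤ t := nonneg_of_mem (h ⟨0, NeZero.pos m⟩)
  have key : ∀ x y : ℝ, x ≤ y → dist (conc m f x) (conc m f y) ≤ m * t * (y - x) := by
    intro x y hxy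
    have hm : (0 : ℝ) ≤ m := Nat.cast_nonneg m
    have hmx : (m : ℝ) * x ≤ m * y := mul_le_mul_of_nonneg_left hxy hm
    have h1 := Int.floor_le ((m : ℝ) * x)
    have h2 := (Int.lt_floor_add_one ((m : ℝ) * x)).le
    have h3 := Int.floor_le ((m : ℝ) * y)
    have h4 := (Int.lt_floor_add_one ((m : ℝ) * y)).le
    rw [conc_coe m f h1 h2, conc_coe m f h3 h4]
    rcases (Int.floor_le_floor hmx).eq_or_lt with hk | hk
    · rw [← hk]
      refine (h _ _ _).trans (le_of_eq ?_)
      rw [abs_sub_comm, abs_of_nonneg (by linarith)]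
      ring
    · set k := ⌊(m : ℝ) * x⌋
      set l := ⌊(m : ℝ) * y⌋
      have hkl : ((k : ℝ)) + 1 ≤ l := by exact_mod_cast hk
      have a1 := (h (ix m k)) (m * x) ((k + 1 : ℤ) : ℝ)
      have a2 := (h (ix m l)) ((l : ℤ) : ℝ) (m * y)
      rw [Om.int] at a1 a2
      rw [abs_sub_comm, abs_of_nonneg (by push_cast; linarith)] at a1
      rw [abs_sub_comm, abs_of_nonneg (by linarith)] at a2
      refine (dist_triangle _ p _).trans ((add_le_add a1 a2).trans ?_)
      rw [← mul_add]
      have e : (m : ℝ) * t * (y - x) = t * (m * y - m * x) := by ring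
      rw [e]
      refine mul_le_mul_of_nonneg_left ?_ ht
      push_cast
      linarith
  intro x y
  rcases le_total x y with hxy | hxy
  · rw [abs_sub_comm, abs_of_nonneg (by linarith)]; exact key x y hxy
  · rw [dist_comm, abs_of_nonneg (by linarith)]; exact key y x hxy

/-- constant loop -/
def cO (p : M) : Om p := ⟨ContinuousMap.const _ p, rfl⟩



end based

end Crest.Agent.R231.Concx150
end
end

-- ▼ part R231/CPow_150
section

/-!
# Row 231, block T (helper150): cross powers of a chain, STRICT symmetry mod 2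

`Pw K m` : `m`-fold power of a simplicial set (simplices `Fin m → K.S n`);
`cpow x m ∈ N F2 (Pw K m)` : `m`-fold cross product `x × ... × x` of a mod 2 chain.

* `cpow_append` : `cpow x (a + b) = append_* (cpow x a × cpow x b)`
* `cpow_cons`, `cpow_succ`
* `cpow_cyc`  : invariance under the cyclic shift `f ↦ f (i + 1)`
* `cpow_rev`  : invariance under `Fin.rev`
* `cpow_map`  : naturality, `bd_cpow`, `cpow_mem_gr`
* `cpow_perm` : invariance under all permutations
-/

set_option autoImplicit false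

noncomputable section

namespace Crest.Agent.R231.CPowx150

open Crest.Agent.R204 EZ271 EZ847 Coalg847

variable {K L : SS}

/-- `m`-fold power of a simplicial set -/
def Pw (K : SS) (m : ℕ) : SS where
  S n := Fin m → K.S n
  act f x := fun i => K.act f (x i)
  act_id x := funext fun i => K.act_id (x i)
  act_comp f g x := funext fun i => K.act_comp f g (x i)

/-- reindexing of tuples -/
def reix (K : SS) {m m' : ℕ} (s : Fin m' → Fin m) : SS.Hom (Pw K m) (Pw K m') :=
  ⟨fun _ x => fun i => x (s i), fun _ _ => rfl⟩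


/-- map of tuples -/
def pwMap (f : SS.Hom K L) (m : ℕ) : SS.Hom (Pw K m) (Pw L m) :=
  ⟨fun n x => fun i => f.app n (x i), fun a x => funext fun i => f.nat a (x i)⟩


/-- add an entry at the end -/
def snocH (K : SS) (m : ℕ) : SS.Hom ((Pw K m).prod K) (Pw K (m + 1)) :=
  ⟨fun n x => (Fin.snoc x.1 x.2 : Fin (m + 1) → K.S n), fun {a b} f x => by
    refine funext fun i => ?_
    refine Fin.lastCases ?_ (fun j => ?_) i
    · exact (Fin.snoc_last (α := fun _ => K.S a) (K.act f x.2) (fun i => K.act f (x.1 i))).trans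
        (congrArg (K.act f) (Fin.snoc_last (α := fun _ => K.S b) x.2 x.1)).symm
    · exact (Fin.snoc_castSucc (α := fun _ => K.S a) (K.act f x.2) (fun i => K.act f (x.1 i)) j).trans
        (congrArg (K.act f) (Fin.snoc_castSucc (α := fun _ => K.S b) x.2 x.1 j)).symm⟩

/-- add an entry at the beginning -/
def consH (K : SS) (m : ℕ) : SS.Hom (K.prod (Pw K m)) (Pw K (m + 1)) :=
  ⟨fun n x => (Fin.cons x.1 x.2 : Fin (m + 1) → K.S n), fun f x => by
    refine funext fun i => ?_
    refine Fin.cases rfl (fun j => rfl) i⟩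



/-- the empty tuple -/
def v0 (K : SS) : (Pw K 0).S 0 := (Fin.elim0 : Fin 0 → K.S 0)

/-- `m`-fold cross power of a chain -/
def cpow (x : N F2 K) : (m : ℕ) → N F2 (Pw K m)
  | 0 => N.sx F2 (v0 K)
  | (m + 1) => N.map F2 (snocH K m) (cross F2 (cpow x m) x)

theorem cpow_zero (x : N F2 K) : cpow x 0 = N.sx F2 (v0 K) := rfl
theorem cpow_succ (x : N F2 K) (m : ℕ) :
    cpow x (m + 1) = N.map F2 (snocH K m) (cross F2 (cpow x m) x) := rfl

/-- `cross (map f a) b` -/
theorem cross_map_left {K K' L : SS} (f : SS.Hom K K') (a : N F2 K) (b : N F2 L) :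
    cross F2 (N.map F2 f a) b = N.map F2 (SS.prodMap f (SS.Hom.id L)) (cross F2 a b) := by
  have h := map_cross F2 f (SS.Hom.id L) a b
  rw [map_idHom] at h
  exact h.symm

theorem cross_map_right {K L L' : SS} (f : SS.Hom L L') (a : N F2 K) (b : N F2 L) :
    cross F2 a (N.map F2 f b) = N.map F2 (SS.prodMap (SS.Hom.id K) f) (cross F2 a b) := by
  have h := map_cross F2 (SS.Hom.id K) f a b
  rw [map_idHom] at h
  exact h.symm

/-- cons version -/
theorem cpow_cons (x : N F2 K) (m : ℕ) :
    cpow x (m + 1) = N.map F2 (consH K m) (cross F2 x (cpow x m)) := by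
  induction m with
  | zero =>
    rw [cpow_succ, cpow_zero, cross_vertex_left, cross_vertex_right, map_map, map_map]
    congr 2
    refine SS.Hom.ext (funext fun n => funext fun y => ?_)
    funext i
    obtain rfl : i = 0 := Fin.ext (by have := i.2; simp at this ⊢)
    rfl
  | succ m ih =>
    rw [cpow_succ, ih, cross_map_left, map_map]
    conv_rhs => rw [← ih, cpow_succ, cross_map_right, map_map, ← cross_assoc, map_map]
    congr 2
    refine SS.Hom.ext (funext fun n => funext fun y => ?_)
    exact (Fin.cons_snoc_eq_snoc_cons y.1.1 y.1.2 y.2).symm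


/-- cyclic shift of the indices: `(f_0, .., f_m) ↦ (f_1, .., f_m, f_0)` -/
def cycH (K : SS) (m : ℕ) : SS.Hom (Pw K m) (Pw K m) := reix K (finRotate m)


theorem cyc_cons (m n : ℕ) (a : K.S n) (f : Fin m → K.S n) :
    (fun i => (Fin.cons a f : Fin (m + 1) → K.S n) (finRotate (m + 1) i)) =
      (Fin.snoc f a : Fin (m + 1) → K.S n) := by
  funext i
  refine Fin.lastCases ?_ (fun j => ?_) i
  · rw [finRotate_last]
    exact (Fin.snoc_last (α := fun _ => K.S n) a f).symm
  · have h1 : finRotate (m + 1) (Fin.castSucc j) = j.succ := by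
      have := finRotate_of_lt (n := m) (k := (j : ℕ)) j.2
      exact this
    rw [h1]
    exact (Fin.snoc_castSucc (α := fun _ => K.S n) a f j).symm

/-- **strict invariance under the cyclic shift** -/
theorem cpow_cyc (x : N F2 K) (m : ℕ) : N.map F2 (cycH K m) (cpow x m) = cpow x m := by
  cases m with
  | zero =>
    have e : cycH K 0 = SS.Hom.id (Pw K 0) := by
      refine SS.Hom.ext (funext fun n => funext fun y => ?_)
      exact funext fun i => i.elim0
    rw [e, map_idHom]
  | succ m =>
    have e : (cycH K (m + 1)).comp (consH K m) = (snocH K m).comp (SS.swap K (Pw K m)) := by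
      refine SS.Hom.ext (funext fun n => funext fun y => ?_)
      exact cyc_cons m n y.1 y.2
    conv_lhs => rw [cpow_cons, map_map, e, ← map_map, cross_swap_F2]
    rfl




/-- naturality -/
theorem cpow_map (f : SS.Hom K L) (x : N F2 K) (m : ℕ) :
    N.map F2 (pwMap f m) (cpow x m) = cpow (N.map F2 f x) m := by
  induction m with
  | zero =>
    rw [cpow_zero, N.map_sx, cpow_zero]
    congr 1
    exact funext fun i => i.elim0
  | succ m ih =>
    have e : (pwMap f (m + 1)).comp (snocH K m) =
        (snocH L m).comp (SS.prodMap (pwMap f m) f) := by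
      refine SS.Hom.ext (funext fun n => funext fun y => ?_)
      funext i
      refine Fin.lastCases ?_ (fun j => ?_) i
      · exact (congrArg (f.app n) (Fin.snoc_last (α := fun _ => K.S n) y.2 y.1)).trans
          (Fin.snoc_last (α := fun _ => L.S n) (f.app n y.2) (fun i => f.app n (y.1 i))).symm
      · exact (congrArg (f.app n) (Fin.snoc_castSucc (α := fun _ => K.S n) y.2 y.1 j)).trans
          (Fin.snoc_castSucc (α := fun _ => L.S n) (f.app n y.2) (fun i => f.app n (y.1 i)) j).symm
    rw [cpow_succ, map_map, e, ← map_map, map_cross, ih, cpow_succ]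


theorem bd_cross2 (a : N F2 K) (b : N F2 L) : N.bd F2 _ (cross F2 a b) =
    cross F2 (N.bd F2 K a) b + cross F2 a (N.bd F2 L b) := by
  rw [bd_cross, sg_F2]

/-- cross powers of cycles are cycles -/
theorem bd_cpow {x : N F2 K} (hx : N.bd F2 K x = 0) (m : ℕ) : N.bd F2 _ (cpow x m) = 0 := by
  induction m with
  | zero => exact bd_vertex (v0 K)
  | succ m ih =>
    rw [cpow_succ, ← map_bd', bd_cross2, ih, hx, map_zero, LinearMap.zero_apply, map_zero, add_zero,
      map_zero]

theorem cpow_mem_gr {d : ℕ} {x : N F2 K} (hx : x ∈ N.gr F2 K d) (m : ℕ) :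
    cpow x m ∈ N.gr F2 (Pw K m) (m * d) := by
  induction m with
  | zero =>
    rw [zero_mul]
    exact ⟨Finsupp.single ⟨_, v0 K⟩ 1, Submodule.subset_span ⟨v0 K, rfl⟩, rfl⟩
  | succ m ih =>
    rw [Nat.succ_mul]
    exact Exc406.map_mem_gr _ (cross_mem_gr F2 ih hx)

/-! ### exchange of two adjacent entries, all permutations -/


end Crest.Agent.R231.CPowx150
end
end

-- ▼ part R231/AmCh_150

/-!
# Row 231, block T (helper150): the chains `A_m(x)`, `B_k(x)` on the free loop space (leaf T4)

`x ∈ N F2 (Sing (Om p))` a chain of based loops, `tO x` its reversal.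
* `Am x m` = push forward of `x × ... × x` by the concatenation `conc m`:
  `rot_Am : rot(1/m) (Am x m) = Am x m` STRICTLY, `rev_Am : rev (Am x m) = Am (tO x) m` STRICTLY,
  `bd_Am`, `Am_mem_gr`, `Am_mem_CS` (levels), `Am_one` (`= ι x`), `Am_eq_AmO` (through based loops);
* `Bm x k` = push forward of `x^k × x^k` by `(f, g) ↦ f_1 ... f_k ḡ_k ... ḡ_1`:
  `rev_Bm : rev (Bm x k) = Bm x k` STRICTLY, `bd_Bm`, `Bm_mem_gr`, `Bm_mem_CS`.
-/

set_option autoImplicit false
set_option linter.unusedSectionVars false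

noncomputable section

namespace Crest.Agent.R231.AmChx150

open Crest.Agent.R204 EZ271 EZ847 Coalg847 SingAct265
open GLugx576 Concx150 CPowx150 Pairx877

/-- tuples of simplices are simplices of the product -/
def piH (Y : Type) [TopologicalSpace Y] (m : ℕ) : SS.Hom (Pw (SS.Sing Y) m) (SS.Sing (Fin m → Y)) :=
  ⟨fun _ x => mkS (fun t i => ev (x i) t) (continuous_pi fun i => continuous_ev (x i)),
    fun _ _ => rfl⟩


section

variable {M : Type} [MetricSpace M] {p : M}

/-- chains of based loops -/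
abbrev CO (p : M) : Type := N F2 (SS.Sing (Om p))

/-- inclusion of chains of based loops -/
def jN (p : M) : CO p →ₗ[F2] CE (Lp M) := N.map F2 (SS.SingMap (ιO p))


/-- rotation, reversal on chains of loops -/
def rotN (M : Type) [MetricSpace M] (a : UnitAddCircle) : CE (Lp M) →ₗ[F2] CE (Lp M) :=
  N.map F2 (SS.SingMap (rot a))




variable (m : ℕ) [NeZero m]

/-- concatenation of simplices of based loops -/
def concH (p : M) : SS.Hom (Pw (SS.Sing (Om p)) m) (SS.Sing (Lp M)) :=
  (SS.SingMap (conc m)).comp (piH (Om p) m)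

def concOH (p : M) : SS.Hom (Pw (SS.Sing (Om p)) m) (SS.Sing (Om p)) :=
  (SS.SingMap (concO m)).comp (piH (Om p) m)



/-- **`A_m(x)`** -/
def Am (x : CO p) : CE (Lp M) := N.map F2 (concH m p) (cpow x m)

/-- the same in based loops -/
def AmO (x : CO p) : CO p := N.map F2 (concOH m p) (cpow x m)

theorem Am_eq_AmO (x : CO p) : Am m x = jN p (AmO m x) := by
  unfold Am AmO jN
  rw [map_map]; rfl

theorem rot_concH : (SS.SingMap (rot ((1 / m : ℝ) : UnitAddCircle))).comp (concH m p) =
    (concH m p).comp (cycH (SS.Sing (Om p)) m) := by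
  refine SS.Hom.ext (funext fun n => funext fun x => ?_)
  exact sing_ext fun t => rot_conc m fun i => ev (x i) t


/-- **strict rotation invariance** -/
theorem rot_Am (x : CO p) : rotN M ((1 / m : ℝ) : UnitAddCircle) (Am m x) = Am m x := by
  unfold rotN Am
  rw [map_map, rot_concH, ← map_map, cpow_cyc]


theorem bd_Am {x : CO p} (hx : N.bd F2 _ x = 0) : bdE _ (Am m x) = 0 := by
  unfold Am
  rw [← map_bd', bd_cpow hx, map_zero]

theorem bd_AmO {x : CO p} (hx : N.bd F2 _ x = 0) : N.bd F2 _ (AmO m x) = 0 := by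
  unfold AmO
  rw [← map_bd', bd_cpow hx, map_zero]

theorem Am_mem_gr {d : ℕ} {x : CO p} (hx : x ∈ N.gr F2 _ d) : Am m x ∈ N.gr F2 _ (m * d) :=
  Exc406.map_mem_gr _ (cpow_mem_gr hx m)

theorem AmO_mem_gr {d : ℕ} {x : CO p} (hx : x ∈ N.gr F2 _ d) : AmO m x ∈ N.gr F2 _ (m * d) :=
  Exc406.map_mem_gr _ (cpow_mem_gr hx m)

/-- based loops of level `t` -/
def OmX (p : M) (t : ℝ) : Set (Om p) := {γ | γ.1 ∈ X M t}

/-- cross powers of chains of a subset come from the subset -/
theorem cpow_res {Y : Type} [TopologicalSpace Y] {S : Set Y} {x : CE Y} (hx : x ∈ CS S) (m : ℕ) :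
    cpow x m = N.map F2 (pwMap (SS.SingMap (SpecA.inc S)) m) (cpow (res S x) m) := by
  rw [cpow_map, map_inc_res x hx]

/-- **levels** -/
theorem Am_mem_CS {t : ℝ} {x : CO p} (hx : x ∈ CS (OmX p t)) : Am m x ∈ CS (X M (m * t)) := by
  unfold Am
  rw [cpow_res hx, map_map]
  refine map_mem_CS _ (fun n y s => ?_) _
  exact conc_mem m fun i => (ev (y i) s).2




/-! ### the strictly reversal invariant chains `B_k(x)` -/


instance neZero_add_self (k : ℕ) [NeZero k] : NeZero (k + k) :=
  ⟨by have := NeZero.pos k; omega⟩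








end

end Crest.Agent.R231.AmChx150
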