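import Crest.Agent.R231.CapCS_780
import Crest.Agent.R204.EZHtp_271

/-!
# Row 231, block P (helper780): cross products of chains of spaces, in the language of `Pair_877`

* `crE a b : CE (E × E')` : Eilenberg-Zilber product followed by `Sing E × Sing E' → Sing (E × E')`;
  supports, boundary, degrees, maps (`crE_map`, `push_crE`), projections, swap, associativity, points;
* cap rules: `cap_crE_fst`, `cap_crE_snd`, `snd_cap_crE`, `fst_cap_crE`;
* affine simplices of `ℝ`: `seg a b`, `tri a b c`, additivity and reparametrisation;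
* cylinders `cyl a b z = crE z (seg a b)` and the homotopy formula.
-/

set_option autoImplicit false

noncomputable section

namespace Crest.Agent.R231.CrossCSx780

open Crest.Agent.R204 Capx226 EZ271 Pairx877 SingAct265 CapCSx780

variable {E E' E'' F F' : Type} [TopologicalSpace E] [TopologicalSpace E'] [TopologicalSpace E'']
  [TopologicalSpace F] [TopologicalSpace F'] {X A V : Set E} {Y B W : Set E'}

/-! ## the cross product -/

/-- cross product of chains of spaces -/
def crE : CE E →ₗ[F2] CE E' →ₗ[F2] CE (E × E') := (cross F2).compr₂ (N.map F2 (singPair E E'))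

theorem crE_apply (a : CE E) (b : CE E') : crE a b = N.map F2 (singPair E E') (cross F2 a b) := rfl


theorem crE_map (f : C(E, F)) (g : C(E', F')) (a : CE E) (b : CE E') :
    N.map F2 (SS.SingMap (f.prodMap g)) (crE a b) =
      crE (N.map F2 (SS.SingMap f) a) (N.map F2 (SS.SingMap g) b) := by
  rw [crE_apply, crE_apply, ← map_cross, map_map, map_map]
  rfl

theorem crE_mem {a : CE E} {b : CE E'} (ha : a ∈ CS A) (hb : b ∈ CS B) : crE a b ∈ CS (A ×ˢ B) := by
  rw [CS_eq_range] at ha hb
  obtain ⟨a, rfl⟩ := ha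
  obtain ⟨b, rfl⟩ := hb
  rw [crE_apply, ← map_cross, map_map]
  refine map_mem_CS _ (fun n x t => ?_) _
  have h1 : ((ev (Y := A) x.1 t : A) : E) ∈ A := (ev (Y := A) x.1 t).2
  have h2 : ((ev (Y := B) x.2 t : B) : E') ∈ B := (ev (Y := B) x.2 t).2
  exact Set.mk_mem_prod h1 h2

theorem bd_crE (a : CE E) (b : CE E') :
    bdE (E × E') (crE a b) = crE (bdE E a) b + crE a (bdE E' b) := by
  rw [crE_apply, ← map_bd', bd_cross, EZCop766.sg_F2, map_add]
  rfl

theorem crE_mem_gr {m n : ℕ} {a : CE E} {b : CE E'} (ha : a ∈ N.gr F2 (SS.Sing E) m)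
    (hb : b ∈ N.gr F2 (SS.Sing E') n) : crE a b ∈ N.gr F2 (SS.Sing (E × E')) (m + n) :=
  Gr334.map_mem_gr _ (EZ847.cross_mem_gr F2 ha hb)






/-! ## points and constant simplices -/

/-- the vertex at `x` -/
def vE (x : E) : CE E := N.sx F2 (mkS (fun _ : stdSimplex ℝ (Fin (0 + 1)) => x) continuous_const)












/-! ## cap rules -/

theorem cap_crE_fst (u : Co (SS.Sing E)) (a : CE E) (b : CE E') :
    cap (pull (SS.SingMap ⟨Prod.fst, continuous_fst⟩) u) (crE a b) = crE (cap u a) b := by
  rw [crE_apply, ← map_cap]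
  have : pull (singPair E E') (pull (SS.SingMap ⟨Prod.fst, continuous_fst⟩) u) =
      pull (SS.fst _ _) u := by
    refine LinearMap.ext fun z => ?_
    rw [pull_apply, pull_apply, pull_apply, map_map]; rfl
  rw [this, cap_pull_fst]; rfl

theorem cap_crE_snd (v : Co (SS.Sing E')) (a : CE E) (b : CE E') :
    cap (pull (SS.SingMap ⟨Prod.snd, continuous_snd⟩) v) (crE a b) = crE a (cap v b) := by
  rw [crE_apply, ← map_cap]
  have : pull (singPair E E') (pull (SS.SingMap ⟨Prod.snd, continuous_snd⟩) v) =
      pull (SS.snd _ _) v := by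
    refine LinearMap.ext fun z => ?_
    rw [pull_apply, pull_apply, pull_apply, map_map]; rfl
  rw [this, cap_pull_snd]; rfl

/-- slant product `c / a`, `a` in the first factor -/
def slE (c : Co (SS.Sing (E × E'))) (a : CE E) : Co (SS.Sing E') := c ∘ₗ crE a




theorem snd_cap_crE (c : Co (SS.Sing (E × E'))) (a : CE E) (b : CE E') :
    N.map F2 (SS.SingMap ⟨Prod.snd, continuous_snd⟩) (cap c (crE a b)) = cap (slE c a) b := by
  rw [crE_apply, ← map_cap, map_map]
  exact snd_cap_cross _ _ _


theorem slE_eq_zero {p q : ℕ} (hpq : q < p) {c : Co (SS.Sing (E × E'))} (h : Deg q c) {a : CE E}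
    (ha : a ∈ N.gr F2 (SS.Sing E) p) : slE c a = 0 := by
  refine hom_ext fun n x => ?_
  exact h (p + n) (by omega) _ (crE_mem_gr ha (Gr334.sx_mem_gr x))


/-- **the `B = 0` lemma** for spaces -/
theorem snd_cap_crE_eq_zero {p q : ℕ} (hpq : q < p) {c : Co (SS.Sing (E × E'))} (h : Deg q c)
    {a : CE E} (ha : a ∈ N.gr F2 (SS.Sing E) p) (b : CE E') :
    N.map F2 (SS.SingMap ⟨Prod.snd, continuous_snd⟩) (cap c (crE a b)) = 0 := by
  rw [snd_cap_crE, slE_eq_zero hpq h ha, cap_zero_left]




/-! ## affine simplices of the line -/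

















/-! ## cylinders -/











end Crest.Agent.R231.CrossCSx780
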