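import Crest.Agent.R231.CutM_725

-- ▼ part R231/SlideM_725
section

/-!
# Slides and insertions of Moore loops (row 231, block P, identity (iii))

`Arcs M` : a continuous choice of paths `A x y` of fixed length `D` for `(x, y)` in an open set
`O` of `M × M`.

* `rotc W a r z = T⁻¹ . z|[r,a] . z|[0,r] . T` : the loop `z` started at time `r`, tethered;
* `slide K a z g r s = g|[0,s] . A . z|[r,a] . z|[0,r] . A . g|[s,t]`;
* `insf K a w g s = g|[0,s] . A . w . A . g|[s,t]` : insertion of a free loop `w`;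
* `ins e a w g = g|[0,e] . w . g|[e,t]` : insertion at a passage through the base point.
-/

namespace Crest.Agent.R231.SlideMx725

open Set Topology Crest.Agent.R231.Moorex725 Crest.Agent.R231.CutMx725

set_option linter.unusedSectionVars false
set_option linter.unusedVariables false

variable {M : Type*} [PseudoMetricSpace M]

/-- A continuous choice of connecting paths of fixed length `D` on an open set `O`. -/
structure Arcs (M : Type*) [PseudoMetricSpace M] where
  O : Set (M × M)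
  isOpen : IsOpen O
  D : ℝ
  D_nonneg : 0 ≤ D
  A : M → M → ℝ → M
  mem : ∀ x y, (x, y) ∈ O → A x y ∈ MP x y D
  cont : ContinuousOn (fun z : M × M => A z.1 z.2) O
  symm : ∀ x y, (x, y) ∈ O → (y, x) ∈ O

namespace Arcs

variable (K : Arcs M)



end Arcs

/-! ### The rotated, tethered loop -/

section rotc

variable {p : M} (W : Tether p)

/-- `T (z r)⁻¹ . z|[r,a] . z|[0,r] . T (z r)`. -/
noncomputable def rotc (a r : ℝ) (z : ℝ → M) : ℝ → M :=
  cc (W.L + (a - r)) (Sc W r z) (Fc W r z)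

variable {W}




end rotc

/-! ### Insertion of a free loop -/

section insf

variable (K : Arcs M)

/-- Insert the (free) loop `w` of length `a` into `g` at time `s`:
`g|[0,s] . A (g s) (w 0) . w . A (w 0) (g s) . g|[s,t]`. -/
noncomputable def insf (a s : ℝ) (w g : ℝ → M) : ℝ → M :=
  cc s (head s g) (cc K.D (K.A (g s) (w 0)) (cc a w (cc K.D (K.A (w 0) (g s)) (tail s g))))

variable {K}







end insf

/-! ### The cyclically rotated based loop, and the slide -/

section slide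

/-- The free loop `z|[r,a] . z|[0,r]` (based at `z r`). -/
noncomputable def rotl (a r : ℝ) (z : ℝ → M) : ℝ → M := cc (a - r) (tail r z) (head r z)






/-- Insert `z`, cut open at time `r`, into `g` at time `s`. -/
noncomputable def slide (K : Arcs M) (a r s : ℝ) (z g : ℝ → M) : ℝ → M :=
  insf K a s (rotl a r z) g

variable {K : Arcs M} {p : M} {a r s t : ℝ} {z g : ℝ → M}







end slide

/-! ### Insertion at a passage through the base point -/

section ins

/-- `F . w . S` where `F` has length `c` and `w` has length `a`. -/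
noncomputable def ins (c a : ℝ) (F w S : ℝ → M) : ℝ → M := cc c F (cc a w S)




end ins

end Crest.Agent.R231.SlideMx725
end

-- ▼ part R231/OmSp_725

/-!
# The spaces `OmT p t`, `Om2T p T` and their continuous maps (row 231, block P, leaf Q1)

Levels are `NNReal`s.

* `OmT p t` : based loops of length at most `t`;
* `Om2T p T` : loops of length at most `T` with a marked passage through the base point:
  `(F, S, r)` with `F` of length `≤ r`, `S` of length `≤ T - r`;
* `inc`, `inc2` : change of level; `one`, `one2`;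
* `mul a b : OmT a × OmT b → OmT (a+b)`;
* `i1`, `i2 : OmT t → Om2T t`; `pair a b : OmT a × OmT b → Om2T (a+b)`;
* `lm a T`, `rm T b` : left and right multiplication on `Om2T`;
* `mid1`, `mid2`, `midd` : multiplications at the mark; `insm` : insertion at the mark;
* `fsF`, `fsS`, `cat`, `tac : Om2T T → OmT T` : `F`, `S`, `F.S`, `S.F`;
* `Qt p t = OmT p t × [0,t]`, `QW V t ⊆ Qt p t`, `GG W t : QW W.V t → Om2T (t + 2ℓ)` (cut maps).
-/

namespace Crest.Agent.R231.OmSpx725

open Set Topology NNReal Crest.Agent.R231.Moorex725 Crest.Agent.R231.CutMx725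
  Crest.Agent.R231.SlideMx725

set_option linter.unusedSectionVars false
set_option linter.unusedVariables false

variable {M : Type*} [PseudoMetricSpace M] {p : M}

/-- Based loops of length at most `t`. -/
abbrev OmT (p : M) (t : ℝ≥0) : Type _ := {g : ℝ → M // g ∈ Om p (t : ℝ)}

/-- Marked based loops of total length at most `T`. -/
abbrev Om2T (p : M) (T : ℝ≥0) : Type _ :=
  {x : (ℝ → M) × (ℝ → M) × ℝ //
    x.1 ∈ Om p x.2.2 ∧ x.2.1 ∈ Om p ((T : ℝ) - x.2.2) ∧ 0 ≤ x.2.2 ∧ x.2.2 ≤ (T : ℝ)}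

theorem OmT_ext {t : ℝ≥0} {a b : OmT p t} (h : a.1 = b.1) : a = b := Subtype.ext h

theorem Om2T_ext {T : ℝ≥0} {a b : Om2T p T} (h1 : a.1.1 = b.1.1) (h2 : a.1.2.1 = b.1.2.1)
    (h3 : a.1.2.2 = b.1.2.2) : a = b := Subtype.ext (Prod.ext h1 (Prod.ext h2 h3))


theorem continuous_F {T : ℝ≥0} : Continuous fun x : Om2T p T => x.1.1 :=
  continuous_fst.comp continuous_subtype_val

theorem continuous_S {T : ℝ≥0} : Continuous fun x : Om2T p T => x.1.2.1 :=
  continuous_fst.comp (continuous_snd.comp continuous_subtype_val)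

theorem continuous_r {T : ℝ≥0} : Continuous fun x : Om2T p T => x.1.2.2 :=
  continuous_snd.comp (continuous_snd.comp continuous_subtype_val)

/-! ### Change of level, units -/

/-- inclusion `OmT t → OmT t'` -/
def inc {t t' : ℝ≥0} (h : t ≤ t') : C(OmT p t, OmT p t') where
  toFun g := ⟨g.1, Om_mono p (NNReal.coe_le_coe.2 h) g.2⟩
  continuous_toFun := continuous_subtype_val.subtype_mk _

/-- inclusion `Om2T T → Om2T T'` -/
def inc2 {T T' : ℝ≥0} (h : T ≤ T') : C(Om2T p T, Om2T p T') where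
  toFun x := ⟨x.1, x.2.1, Om_mono p (by have := NNReal.coe_le_coe.2 h; linarith) x.2.2.1,
    x.2.2.2.1, x.2.2.2.2.trans (NNReal.coe_le_coe.2 h)⟩
  continuous_toFun := continuous_subtype_val.subtype_mk _

@[simp] theorem inc_val {t t' : ℝ≥0} (h : t ≤ t') (g : OmT p t) : (inc h g).1 = g.1 := rfl

@[simp] theorem inc2_val {T T' : ℝ≥0} (h : T ≤ T') (x : Om2T p T) : (inc2 h x).1 = x.1 := rfl

theorem inc_inc {a b c : ℝ≥0} (h : a ≤ b) (h' : b ≤ c) :
    (inc (p := p) h').comp (inc h) = inc (h.trans h') := rfl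


theorem inc_id {a : ℝ≥0} (h : a ≤ a) : inc (p := p) h = ContinuousMap.id _ := rfl

theorem inc2_id {a : ℝ≥0} (h : a ≤ a) : inc2 (p := p) h = ContinuousMap.id _ := rfl

/-- the constant loop -/
def one (p : M) (t : ℝ≥0) : OmT p t := ⟨fun _ => p, const_mem_Om p t⟩

/-- the constant marked loop -/
def one2 (p : M) (T : ℝ≥0) : Om2T p T :=
  ⟨(fun _ => p, fun _ => p, 0), const_mem_Om p _, const_mem_Om p _, le_rfl, T.2⟩

@[simp] theorem one_val (t : ℝ≥0) : (one p t).1 = fun _ => p := rfl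

@[simp] theorem one2_val (t : ℝ≥0) : (one2 p t).1 = (fun _ => p, fun _ => p, 0) := rfl

/-! ### Multiplication -/

/-- concatenation (at time `a`) -/
noncomputable def mul (p : M) (a b : ℝ≥0) : C(OmT p a × OmT p b, OmT p (a + b)) where
  toFun x := ⟨cc (a : ℝ) x.1.1 x.2.1, cc_mem_Om x.1.2 x.2.2 a.2 b.2⟩
  continuous_toFun := by
    refine Continuous.subtype_mk (continuous_cc (c := fun _ => (a : ℝ))
      (continuous_subtype_val.comp continuous_fst) (continuous_subtype_val.comp continuous_snd)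
      continuous_const (fun x => x.2.2.1) fun x => ?_) _
    exact (x.1.2.2.2 _ le_rfl).trans (x.2.2.2.1 _ le_rfl).symm

@[simp] theorem mul_val (a b : ℝ≥0) (x : OmT p a × OmT p b) :
    (mul p a b x).1 = cc (a : ℝ) x.1.1 x.2.1 := rfl


theorem mul_one' (a b : ℝ≥0) (x : OmT p a) :
    mul p a b (x, one p b) = inc (le_add_of_nonneg_right (zero_le)) x :=
  OmT_ext (cc_const_right x.2)


/-! ### Marked loops -/

/-- mark at the end -/
def i1 (p : M) (t : ℝ≥0) : C(OmT p t, Om2T p t) where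
  toFun g := ⟨(g.1, fun _ => p, (t : ℝ)), g.2, const_mem_Om p _, t.2, le_rfl⟩
  continuous_toFun := Continuous.subtype_mk
    (continuous_subtype_val.prodMk (continuous_const.prodMk continuous_const)) _

/-- mark at the beginning -/
def i2 (p : M) (t : ℝ≥0) : C(OmT p t, Om2T p t) where
  toFun g := ⟨(fun _ => p, g.1, 0), const_mem_Om p _, by simp, le_rfl, t.2⟩
  continuous_toFun := Continuous.subtype_mk
    (continuous_const.prodMk (continuous_subtype_val.prodMk continuous_const)) _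

/-- the pair of two loops -/
def pair (p : M) (a b : ℝ≥0) : C(OmT p a × OmT p b, Om2T p (a + b)) where
  toFun x := ⟨(x.1.1, x.2.1, (a : ℝ)), x.1.2, by
    have e : ((a + b : ℝ≥0) : ℝ) - a = b := by push_cast; ring
    rw [e]; exact x.2.2, a.2, by push_cast; linarith [b.2]⟩
  continuous_toFun := Continuous.subtype_mk
    ((continuous_subtype_val.comp continuous_fst).prodMk
      ((continuous_subtype_val.comp continuous_snd).prodMk continuous_const)) _

@[simp] theorem i1_val (t : ℝ≥0) (g : OmT p t) : (i1 p t g).1 = (g.1, fun _ => p, (t : ℝ)) := rfl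

@[simp] theorem i2_val (t : ℝ≥0) (g : OmT p t) : (i2 p t g).1 = (fun _ => p, g.1, 0) := rfl

@[simp] theorem pair_val (a b : ℝ≥0) (x : OmT p a × OmT p b) :
    (pair p a b x).1 = (x.1.1, x.2.1, (a : ℝ)) := rfl

/-- left multiplication: `w.(F,S,r) = (w.F, S, a + r)` -/
noncomputable def lm (p : M) (a T : ℝ≥0) : C(OmT p a × Om2T p T, Om2T p (a + T)) where
  toFun x := ⟨(cc (a : ℝ) x.1.1 x.2.1.1, x.2.1.2.1, (a : ℝ) + x.2.1.2.2),
    cc_mem_Om x.1.2 x.2.2.1 a.2 x.2.2.2.2.1, by
      have e : ((a + T : ℝ≥0) : ℝ) - (a + x.2.1.2.2) = T - x.2.1.2.2 := by push_cast; ring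
      rw [e]; exact x.2.2.2.1, add_nonneg a.2 x.2.2.2.2.1, by
      have := x.2.2.2.2.2
      push_cast; linarith⟩
  continuous_toFun := by
    refine Continuous.subtype_mk (Continuous.prodMk (continuous_cc (c := fun _ => (a : ℝ))
      (continuous_subtype_val.comp continuous_fst) (continuous_F.comp continuous_snd)
      continuous_const (fun x => x.2.2.1.1) fun x => ?_)
      ((continuous_S.comp continuous_snd).prodMk
        (continuous_const.add (continuous_r.comp continuous_snd)))) _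
    exact (x.1.2.2.2 _ le_rfl).trans (x.2.2.1.2.1 _ le_rfl).symm

@[simp] theorem lm_val (a T : ℝ≥0) (x : OmT p a × Om2T p T) :
    (lm p a T x).1 = (cc (a : ℝ) x.1.1 x.2.1.1, x.2.1.2.1, (a : ℝ) + x.2.1.2.2) := rfl

/-- right multiplication: `(F,S,r).w = (F, S.w, r)` -/
noncomputable def rm (p : M) (T b : ℝ≥0) : C(Om2T p T × OmT p b, Om2T p (T + b)) where
  toFun x := ⟨(x.1.1.1, cc ((T : ℝ) - x.1.1.2.2) x.1.1.2.1 x.2.1, x.1.1.2.2), x.1.2.1, by
      have h := cc_mem_Om x.1.2.2.1 x.2.2 (by linarith [x.1.2.2.2.2]) b.2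
      have e : ((T + b : ℝ≥0) : ℝ) - x.1.1.2.2 = T - x.1.1.2.2 + b := by push_cast; ring
      rw [e]; exact h, x.1.2.2.2.1, x.1.2.2.2.2.trans (by push_cast; linarith [b.2])⟩
  continuous_toFun := by
    refine Continuous.subtype_mk (Continuous.prodMk (continuous_F.comp continuous_fst)
      (Continuous.prodMk (continuous_cc (continuous_S.comp continuous_fst)
      (continuous_subtype_val.comp continuous_snd)
      (continuous_const.sub (continuous_r.comp continuous_fst)) (fun x => x.2.2.1) fun x => ?_)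
      (continuous_r.comp continuous_fst))) _
    exact (x.1.2.2.1.2.2 _ le_rfl).trans (x.2.2.2.1 _ le_rfl).symm

@[simp] theorem rm_val (T b : ℝ≥0) (x : Om2T p T × OmT p b) :
    (rm p T b x).1 = (x.1.1.1, cc ((T : ℝ) - x.1.1.2.2) x.1.1.2.1 x.2.1, x.1.1.2.2) := rfl

/-- multiplication of the first piece at the mark: `(F,S,r),w ↦ (F.w, S, r + a)` -/
noncomputable def mid1 (p : M) (T a : ℝ≥0) : C(Om2T p T × OmT p a, Om2T p (T + a)) where
  toFun x := ⟨(cc x.1.1.2.2 x.1.1.1 x.2.1, x.1.1.2.1, x.1.1.2.2 + a),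
      cc_mem_Om x.1.2.1 x.2.2 x.1.2.2.2.1 a.2, by
      have e : ((T + a : ℝ≥0) : ℝ) - (x.1.1.2.2 + a) = T - x.1.1.2.2 := by push_cast; ring
      rw [e]; exact x.1.2.2.1, add_nonneg x.1.2.2.2.1 a.2, by
      have := x.1.2.2.2.2
      push_cast; linarith⟩
  continuous_toFun := by
    refine Continuous.subtype_mk (Continuous.prodMk (continuous_cc
      (continuous_F.comp continuous_fst) (continuous_subtype_val.comp continuous_snd)
      (continuous_r.comp continuous_fst) (fun x => x.2.2.1) fun x => ?_)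
      ((continuous_S.comp continuous_fst).prodMk
        ((continuous_r.comp continuous_fst).add continuous_const))) _
    exact (x.1.2.1.2.2 _ le_rfl).trans (x.2.2.2.1 _ le_rfl).symm

@[simp] theorem mid1_val (T a : ℝ≥0) (x : Om2T p T × OmT p a) :
    (mid1 p T a x).1 = (cc x.1.1.2.2 x.1.1.1 x.2.1, x.1.1.2.1, x.1.1.2.2 + (a : ℝ)) := rfl

/-- multiplication of the second piece at the mark: `(F,S,r),w ↦ (F, w.S, r)` -/
noncomputable def mid2 (p : M) (T b : ℝ≥0) : C(Om2T p T × OmT p b, Om2T p (T + b)) where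
  toFun x := ⟨(x.1.1.1, cc (b : ℝ) x.2.1 x.1.1.2.1, x.1.1.2.2), x.1.2.1, by
      have h := cc_mem_Om x.2.2 x.1.2.2.1 b.2 (by linarith [x.1.2.2.2.2])
      have e : ((T + b : ℝ≥0) : ℝ) - x.1.1.2.2 = b + (T - x.1.1.2.2) := by push_cast; ring
      rw [e]; exact h, x.1.2.2.2.1, x.1.2.2.2.2.trans (by push_cast; linarith [b.2])⟩
  continuous_toFun := by
    refine Continuous.subtype_mk (Continuous.prodMk (continuous_F.comp continuous_fst)
      (Continuous.prodMk (continuous_cc (c := fun _ => (b : ℝ))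
      (continuous_subtype_val.comp continuous_snd) (continuous_S.comp continuous_fst)
      continuous_const (fun x => x.1.2.2.1.1) fun x => ?_)
      (continuous_r.comp continuous_fst))) _
    exact (x.2.2.2.2 _ le_rfl).trans (x.1.2.2.1.2.1 _ le_rfl).symm

@[simp] theorem mid2_val (T b : ℝ≥0) (x : Om2T p T × OmT p b) :
    (mid2 p T b x).1 = (x.1.1.1, cc (b : ℝ) x.2.1 x.1.1.2.1, x.1.1.2.2) := rfl

/-- multiplication of both pieces at the mark: `(F,S,r),(u,v) ↦ (F.u, v.S, r + a)` -/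
noncomputable def midd (p : M) (T a b : ℝ≥0) :
    C(Om2T p T × (OmT p a × OmT p b), Om2T p (T + a + b)) where
  toFun x := mid2 p (T + a) b (mid1 p T a (x.1, x.2.1), x.2.2)
  continuous_toFun := (mid2 p (T + a) b).continuous.comp
    (((mid1 p T a).continuous.comp (by fun_prop)).prodMk (by fun_prop))


@[simp] theorem midd_val (T a b : ℝ≥0) (x : Om2T p T × (OmT p a × OmT p b)) :
    (midd p T a b x).1 = (cc x.1.1.2.2 x.1.1.1 x.2.1.1, cc (b : ℝ) x.2.2.1 x.1.1.2.1,
      x.1.1.2.2 + (a : ℝ)) := rfl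

/-- forget the second piece -/
def fsF (p : M) (T : ℝ≥0) : C(Om2T p T, OmT p T) where
  toFun x := ⟨x.1.1, Om_mono p x.2.2.2.2 x.2.1⟩
  continuous_toFun := Continuous.subtype_mk continuous_F _

@[simp] theorem fsF_val (T : ℝ≥0) (x : Om2T p T) : (fsF p T x).1 = x.1.1 := rfl

/-- forget the first piece -/
def fsS (p : M) (T : ℝ≥0) : C(Om2T p T, OmT p T) where
  toFun x := ⟨x.1.2.1, Om_mono p (by linarith [x.2.2.2.1]) x.2.2.1⟩
  continuous_toFun := Continuous.subtype_mk continuous_S _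

@[simp] theorem fsS_val (T : ℝ≥0) (x : Om2T p T) : (fsS p T x).1 = x.1.2.1 := rfl

/-- `F.S` -/
noncomputable def cat (p : M) (T : ℝ≥0) : C(Om2T p T, OmT p T) where
  toFun x := ⟨cc x.1.2.2 x.1.1 x.1.2.1, by
    have h := cc_mem_Om x.2.1 x.2.2.1 x.2.2.2.1 (by linarith [x.2.2.2.2])
    rwa [add_sub_cancel] at h⟩
  continuous_toFun := by
    refine Continuous.subtype_mk (continuous_cc continuous_F continuous_S continuous_r
      (fun x => x.2.2.1.1) fun x => ?_) _
    exact (x.2.1.2.2 _ le_rfl).trans (x.2.2.1.2.1 _ le_rfl).symm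

@[simp] theorem cat_val (T : ℝ≥0) (x : Om2T p T) : (cat p T x).1 = cc x.1.2.2 x.1.1 x.1.2.1 := rfl

/-- `S.F` -/
noncomputable def tac (p : M) (T : ℝ≥0) : C(Om2T p T, OmT p T) where
  toFun x := ⟨cc ((T : ℝ) - x.1.2.2) x.1.2.1 x.1.1, by
    have h := cc_mem_Om x.2.2.1 x.2.1 (by linarith [x.2.2.2.2]) x.2.2.2.1
    rwa [sub_add_cancel] at h⟩
  continuous_toFun := by
    refine Continuous.subtype_mk (continuous_cc continuous_S continuous_F
      (continuous_const.sub continuous_r) (fun x => x.2.1.1) fun x => ?_) _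
    exact (x.2.2.1.2.2 _ le_rfl).trans (x.2.1.2.1 _ le_rfl).symm

@[simp] theorem tac_val (T : ℝ≥0) (x : Om2T p T) :
    (tac p T x).1 = cc ((T : ℝ) - x.1.2.2) x.1.2.1 x.1.1 := rfl

/-- insertion at the mark: `F.w.S` -/
noncomputable def insm (p : M) (T a : ℝ≥0) : C(Om2T p T × OmT p a, OmT p (T + a)) where
  toFun x := cat p (T + a) (mid1 p T a x)
  continuous_toFun := (cat p (T + a)).continuous.comp (mid1 p T a).continuous

@[simp] theorem insm_val (T a : ℝ≥0) (x : Om2T p T × OmT p a) :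
    (insm p T a x).1 = cc (x.1.1.2.2 + (a : ℝ)) (cc x.1.1.2.2 x.1.1.1 x.2.1) x.1.1.2.1 := rfl


/-! ### Exact identities -/












































/-! ### Compatibility with the change of level (exact cases) -/











/-! ### The cut maps -/

/-- the length of the tether -/
noncomputable def ell (W : Tether p) : ℝ≥0 := ⟨W.L, W.L_nonneg⟩

@[simp] theorem coe_ell (W : Tether p) : ((ell W : ℝ≥0) : ℝ) = W.L := rfl

/-- loops with a time -/
abbrev Qt (p : M) (t : ℝ≥0) : Type _ := OmT p t × Icc (0 : ℝ) (t : ℝ)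

/-- evaluation -/
noncomputable def evQ (p : M) (t : ℝ≥0) : C(Qt p t, M) where
  toFun x := x.1.1 x.2
  continuous_toFun := continuous_eval (g := fun x : Qt p t => x.1.1) (s := fun x => (x.2 : ℝ))
    (continuous_subtype_val.comp continuous_fst) (fun x => x.1.2.1)
    (continuous_subtype_val.comp continuous_snd)

@[simp] theorem evQ_apply (t : ℝ≥0) (x : Qt p t) : evQ p t x = x.1.1 x.2 := rfl

/-- the part of `Qt` with the marked point in `V` -/
def QW (V : Set M) (p : M) (t : ℝ≥0) : Set (Qt p t) := {x | x.1.1 x.2 ∈ V}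

theorem isOpen_QW {V : Set M} (hV : IsOpen V) (t : ℝ≥0) : IsOpen (QW V p t) :=
  hV.preimage (evQ p t).continuous

theorem mem_QW {V : Set M} {t : ℝ≥0} {x : Qt p t} : x ∈ QW V p t ↔ x.1.1 x.2 ∈ V := Iff.rfl



/-- The cut map of a tether, on any subset of its domain. -/
noncomputable def GG (W : Tether p) (t : ℝ≥0) {R : Set (Qt p t)} (hR : R ⊆ QW W.V p t) :
    C(R, Om2T p (t + 2 * ell W)) where
  toFun x := ⟨(Fc W x.1.2 x.1.1.1, Sc W x.1.2 x.1.1.1, (x.1.2 : ℝ) + W.L),
    Fc_mem x.1.1.2 x.1.2.2.1 (hR x.2), by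
      have h := Sc_mem x.1.1.2 x.1.2.2.2 (hR x.2)
      have e : ((t + 2 * ell W : ℝ≥0) : ℝ) - ((x.1.2 : ℝ) + W.L) = W.L + (t - x.1.2) := by
        push_cast; rw [coe_ell]; ring
      rw [e]; exact h, add_nonneg x.1.2.2.1 W.L_nonneg, by
      have := x.1.2.2.2
      push_cast
      rw [coe_ell]
      linarith [W.L_nonneg]⟩
  continuous_toFun := by
    have c1 : Continuous fun x : R => x.1.1.1 :=
      continuous_subtype_val.comp (continuous_fst.comp continuous_subtype_val)
    have c2 : Continuous fun x : R => (x.1.2 : ℝ) :=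
      continuous_subtype_val.comp (continuous_snd.comp continuous_subtype_val)
    have c3 : ∀ x : R, x.1.1.1 ∈ LL M := fun x => x.1.1.2.1
    exact Continuous.subtype_mk ((continuous_Fc (W := W) c1 c3 c2 fun x => hR x.2).prodMk
      ((continuous_Sc (W := W) c1 c3 c2 fun x => hR x.2).prodMk (c2.add continuous_const))) _

@[simp] theorem GG_val (W : Tether p) (t : ℝ≥0) {R : Set (Qt p t)} (hR : R ⊆ QW W.V p t)
    (x : R) : (GG W t hR x).1 =
      (Fc W x.1.2 x.1.1.1, Sc W x.1.2 x.1.1.1, (x.1.2 : ℝ) + W.L) := rfl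

/-- change of level on `Qt` -/
def incQ {t t' : ℝ≥0} (h : t ≤ t') : C(Qt p t, Qt p t') where
  toFun x := (inc h x.1, ⟨x.2.1, x.2.2.1, x.2.2.2.trans (NNReal.coe_le_coe.2 h)⟩)
  continuous_toFun := ((inc h).continuous.comp continuous_fst).prodMk
    (Continuous.subtype_mk (continuous_subtype_val.comp continuous_snd) _)



/-- the product map on the first part of the interval -/
noncomputable def mulQ1 (p : M) (a b : ℝ≥0) : C(Qt p a × OmT p b, Qt p (a + b)) where
  toFun x := (mul p a b (x.1.1, x.2), ⟨x.1.2.1, x.1.2.2.1, x.1.2.2.2.trans (by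
    push_cast; linarith [b.2])⟩)
  continuous_toFun := ((mul p a b).continuous.comp (by fun_prop)).prodMk
    (Continuous.subtype_mk (continuous_subtype_val.comp
      (continuous_snd.comp continuous_fst)) _)

/-- the product map on the second part of the interval -/
noncomputable def mulQ2 (p : M) (a b : ℝ≥0) : C(OmT p a × Qt p b, Qt p (a + b)) where
  toFun x := (mul p a b (x.1, x.2.1), ⟨(a : ℝ) + x.2.2.1, add_nonneg a.2 x.2.2.2.1, by
    have := x.2.2.2.2
    push_cast; linarith⟩)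
  continuous_toFun := ((mul p a b).continuous.comp (by fun_prop)).prodMk
    (Continuous.subtype_mk (continuous_const.add (continuous_subtype_val.comp
      (continuous_snd.comp continuous_snd))) _)

theorem evQ_mulQ1 (a b : ℝ≥0) (x : Qt p a) (w : OmT p b) :
    evQ p (a + b) (mulQ1 p a b (x, w)) = evQ p a x := by
  change cc (a : ℝ) x.1.1 w.1 (x.2 : ℝ) = x.1.1 x.2
  exact cc_of_le _ _ x.2.2.2

theorem evQ_mulQ2 (a b : ℝ≥0) (x : Qt p b) (w : OmT p a) :
    evQ p (a + b) (mulQ2 p a b (w, x)) = evQ p b x := by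
  change cc (a : ℝ) w.1 x.1.1 ((a : ℝ) + x.2.1) = x.1.1 x.2
  have hab : w.1 (a : ℝ) = x.1.1 0 := by rw [w.2.2.2 _ le_rfl, x.1.2.2.1 _ le_rfl]
  rw [cc_of_ge hab (by linarith [x.2.2.1]), add_sub_cancel_left]

theorem mulQ1_mem (a b : ℝ≥0) (V : Set M) (x : Qt p a) (w : OmT p b) :
    mulQ1 p a b (x, w) ∈ QW V p (a + b) ↔ x ∈ QW V p a := by
  rw [mem_QW, mem_QW]
  have := evQ_mulQ1 a b x w
  rw [evQ_apply, evQ_apply] at this
  rw [this]

theorem mulQ2_mem (a b : ℝ≥0) (V : Set M) (x : Qt p b) (w : OmT p a) :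
    mulQ2 p a b (w, x) ∈ QW V p (a + b) ↔ x ∈ QW V p b := by
  rw [mem_QW, mem_QW]
  have := evQ_mulQ2 a b x w
  rw [evQ_apply, evQ_apply] at this
  rw [this]

/-- The cut of a product in the first factor. -/
theorem GG_mulQ1 (W : Tether p) (a b : ℝ≥0) {R : Set (Qt p a)} (hR : R ⊆ QW W.V p a)
    {R' : Set (Qt p (a + b))} (hR' : R' ⊆ QW W.V p (a + b)) (x : R) (w : OmT p b)
    (hx : mulQ1 p a b (x.1, w) ∈ R') {T : ℝ≥0} (h1 : a + b + 2 * ell W ≤ T)
    (h2 : a + 2 * ell W + b ≤ T) :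
    inc2 h1 (GG W (a + b) hR' ⟨mulQ1 p a b (x.1, w), hx⟩) =
      inc2 h2 (rm p (a + 2 * ell W) b (GG W a hR x, w)) :=
  Om2T_ext (Fc_cc_of_le x.1.2.2.2) (by
    change Sc W x.1.2 (cc (a : ℝ) x.1.1.1 w.1) =
      cc (((a + 2 * ell W : ℝ≥0) : ℝ) - ((x.1.2 : ℝ) + W.L)) (Sc W x.1.2 x.1.1.1) w.1
    have e : ((a + 2 * ell W : ℝ≥0) : ℝ) - ((x.1.2 : ℝ) + W.L) = W.L + (a - x.1.2) := by
      push_cast; rw [coe_ell]; ring
    rw [e, Sc_cc_of_le x.1.2.2.2]) rfl

/-- The cut of a product in the second factor. -/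
theorem GG_mulQ2 (W : Tether p) (a b : ℝ≥0) {R : Set (Qt p b)} (hR : R ⊆ QW W.V p b)
    {R' : Set (Qt p (a + b))} (hR' : R' ⊆ QW W.V p (a + b)) (x : R) (w : OmT p a)
    (hx : mulQ2 p a b (w, x.1) ∈ R') {T : ℝ≥0} (h1 : a + b + 2 * ell W ≤ T)
    (h2 : a + (b + 2 * ell W) ≤ T) :
    inc2 h1 (GG W (a + b) hR' ⟨mulQ2 p a b (w, x.1), hx⟩) =
      inc2 h2 (lm p a (b + 2 * ell W) (w, GG W b hR x)) := by
  have h0 : (a : ℝ) ≤ (a : ℝ) + x.1.2.1 := by linarith [x.1.2.2.1]
  refine Om2T_ext ?_ ?_ ?_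
  · change Fc W ((a : ℝ) + x.1.2.1) (cc (a : ℝ) w.1 x.1.1.1) = cc (a : ℝ) w.1 (Fc W x.1.2 x.1.1.1)
    rw [Fc_cc_of_ge w.2 x.1.1.2 h0, add_sub_cancel_left]
  · change Sc W ((a : ℝ) + x.1.2.1) (cc (a : ℝ) w.1 x.1.1.1) = Sc W x.1.2 x.1.1.1
    rw [Sc_cc_of_ge w.2 x.1.1.2 h0, add_sub_cancel_left]
  · change (a : ℝ) + x.1.2.1 + W.L = a + (x.1.2 + W.L)
    ring

end Crest.Agent.R231.OmSpx725
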