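import Crest.Agent.R231.PairExc_877

/-!
# Row 231 (S0357): degrees for pairs of subsets (helper877)

`gr j = N.gr F2 (SS.Sing E) j`.
* `mem_CS_iff_prN`, `mem_Zp_iff_prN`, `mem_Bp_iff_prN`, `mem_Bp_gr`
* `HZ j X A` : `H_j(X, A) = 0`; `hz_iff`, triple sequence `HZ.trans`, `HZ.of_top`, `HZ.of_sub`
* chain exactness in a degree `exact_mid`, `exact_right`, `exact_left`
* `small2_gr`, `smallFam_gr`, `exc_surj_gr`, `hz_exc`
* `toH : HP X ∅ ≃ₗ[F2] H F2 (SS.Sing X)`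
-/

set_option autoImplicit false

noncomputable section

open Function Finsupp Topology Set
open Crest.Agent.R204

namespace Crest.Agent.R231.Pairx877

open SingAct265 EZ271 HtpInv334 Gr334

variable {E E' : Type} [TopologicalSpace E] [TopologicalSpace E'] {X A B Y : Set E}

/-- chains of degree `j` -/
abbrev gE (E : Type) [TopologicalSpace E] (j : ℕ) : Submodule F2 (CE E) := N.gr F2 (SS.Sing E) j

/-- projection to degree `j` -/
abbrev pE (E : Type) [TopologicalSpace E] (j : ℕ) : CE E →ₗ[F2] CE E := prN F2 (SS.Sing E) j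


theorem pE_bd (n : ℕ) (c : CE E) : pE E n (bdE E c) = bdE E (pE E (n + 1) c) := prN_bd n c

theorem bd_pE_zero (c : CE E) : bdE E (pE E 0 c) = 0 := bd_gr_zero (prN_mem 0 c)






/-- a homogeneous relative boundary bounds a homogeneous chain -/
theorem mem_Bp_gr {j : ℕ} {c : CE E} (hc : c ∈ gE E j) :
    c ∈ Bp X A ↔ ∃ w ∈ gE E (j + 1), w ∈ CS X ∧ c - bdE E w ∈ CS A := by
  rw [mem_Bp]
  constructor
  · rintro ⟨w, hw, h⟩
    refine ⟨pE E (j + 1) w, prN_mem _ _, prN_mem_CS _ _ hw, ?_⟩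
    have : c - bdE E (pE E (j + 1) w) = pE E j (c - bdE E w) := by
      rw [map_sub, pE_bd, prN_of_mem hc]
    rw [this]
    exact prN_mem_CS _ _ h
  · rintro ⟨w, -, hw, h⟩
    exact ⟨w, hw, h⟩

/-! ## vanishing in a degree -/

/-- `H_j(X, A) = 0` -/
def HZ (j : ℕ) (X A : Set E) : Prop := ∀ c ∈ gE E j, c ∈ CS X → bdE E c ∈ CS A → c ∈ Bp X A

theorem HZ.lift {j : ℕ} (h : HZ j X A) {c : CE E} (hc : c ∈ gE E j) (h1 : c ∈ CS X)
    (h2 : bdE E c ∈ CS A) : ∃ w ∈ gE E (j + 1), w ∈ CS X ∧ c - bdE E w ∈ CS A :=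
  (mem_Bp_gr hc).1 (h c hc h1 h2)




theorem HZ.refl (j : ℕ) (X : Set E) : HZ j X X := fun c _ h1 _ => Submodule.mem_sup_left h1

/-! ### exactness for a triple `A ⊆ B ⊆ X`, chain forms -/

/-- at `H_j(X, A)` -/
theorem exact_mid {j : ℕ} {c : CE E} (hc : c ∈ gE E j) (h2 : bdE E c ∈ CS A)
    (h3 : c ∈ Bp X B) : ∃ b ∈ gE E j, b ∈ CS B ∧ bdE E b ∈ CS A ∧
      ∃ w ∈ gE E (j + 1), w ∈ CS X ∧ c = b + bdE E w := by
  obtain ⟨w, hw, hw', h⟩ := (mem_Bp_gr hc).1 h3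
  refine ⟨c - bdE E w, Submodule.sub_mem _ hc (bd_mem_gr hw), h, ?_, w, hw, hw',
    (sub_add_cancel _ _).symm⟩
  rw [map_sub, bd_bdE, sub_zero]
  exact h2



theorem HZ.trans {j : ℕ} (hBX : B ⊆ X) (hAB : A ⊆ B) (h1 : HZ j X B) (h2 : HZ j B A) :
    HZ j X A := by
  intro c hc hcX hcA
  obtain ⟨b, hb, hbB, hbA, w, hw, hwX, rfl⟩ := exact_mid hc hcA (h1 c hc hcX (CS_mono hAB hcA))
  obtain ⟨v, hv, hvB, h⟩ := (h2.lift hb hbB hbA)
  rw [mem_Bp]
  refine ⟨v + w, Submodule.add_mem _ (CS_mono hBX hvB) hwX, ?_⟩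
  rw [map_add]
  have : b + bdE E w - (bdE E v + bdE E w) = b - bdE E v := by abel
  rw [this]; exact h




/-! ## small chains and excision in a degree -/






/-! ## invariance of the vanishing under deformations -/


/-! ## comparison with `H F2 (SS.Sing X)` -/






end Crest.Agent.R231.Pairx877
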