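import Mathlib

/-!
# Row 231, block P (bounded bars), ALGEBRAIC END  (helper969)

* `LC` : levelled complex over `F_2` (chains of `Ω_t`, `t : ℝ`, empty for `t < 0`).
* `POut D τ C Y` : THE OUTPUT OF THE CHAIN LEVEL PART of block P (cut + centrality), as one Prop.
* `FinRk Y` : finite rank of `H_j(Ω_s) → H_j(Ω_{s'})`, `s < s'`.
* `BD_of_POut` : `POut` + `FinRk` ⟹ bounded bars `BD Y`.
* `WangOut`, `BDLam_of` : coarse Wang sequence + `BD(Ω)` ⟹ `BD(Λ, Λ⁰)`.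
-/

set_option autoImplicit false

namespace Crest.Agent.R231.BDAx969

/-- levelled complex over `F_2`. -/
structure LC where
  C : ℕ → Type
  [ac : ∀ j, AddCommGroup (C j)]
  [mo : ∀ j, Module (ZMod 2) (C j)]
  d : ∀ j, C (j + 1) →ₗ[ZMod 2] C j
  dd : ∀ j x, d j (d (j + 1) x) = 0
  F : ℝ → ∀ j, Submodule (ZMod 2) (C j)
  F_mono : ∀ s t, s ≤ t → ∀ j, F s j ≤ F t j
  F_exh : ∀ j x, ∃ t, x ∈ F t j
  F_stab : ∀ t j x, x ∈ F t (j + 1) → d j x ∈ F t j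

attribute [instance] LC.ac LC.mo

variable {Y : LC}

/-- `x` is a cycle -/
def LC.Cyc (Y : LC) : ∀ j, Y.C j → Prop
  | 0, _ => True
  | (j + 1), x => Y.d j x = 0

/-- `x` is a boundary at level `t` -/
def LC.Bnd (Y : LC) (t : ℝ) (j : ℕ) (x : Y.C j) : Prop :=
  ∃ w ∈ Y.F t (j + 1), Y.d j w = x

/-- `x` is a boundary at some level -/
def LC.Fin (Y : LC) (j : ℕ) (x : Y.C j) : Prop := ∃ w : Y.C (j + 1), Y.d j w = x

/-- bounded bars -/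
def LC.BD (Y : LC) : Prop :=
  ∃ Cb : ℝ, 0 ≤ Cb ∧ ∀ (j : ℕ) (t : ℝ) (x : Y.C j), 0 ≤ t → x ∈ Y.F t j → Y.Fin j x →
    Y.Bnd (t + Cb) j x

/-- finite rank of `H_j(Ω_s) → H_j(Ω_{s'})` (only used on finite classes) -/
def LC.FinRk (Y : LC) : Prop :=
  ∀ (j : ℕ) (s s' : ℝ), 0 ≤ s → s < s' → ∃ S : Finset (Y.C j),
    (∀ z ∈ S, z ∈ Y.F s j) ∧ (∀ z ∈ S, Y.Fin j z) ∧
    ∀ x ∈ Y.F s j, Y.Fin j x → ∃ T ⊆ S, Y.Bnd s' j (x + ∑ z ∈ T, z)


theorem LC.Bnd.mono {s t : ℝ} (h : s ≤ t) {j : ℕ} {x : Y.C j} (hx : Y.Bnd s j x) : Y.Bnd t j x := by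
  obtain ⟨w, hw, rfl⟩ := hx
  exact ⟨w, Y.F_mono s t h _ hw, rfl⟩

theorem LC.Bnd.fin {s : ℝ} {j : ℕ} {x : Y.C j} (hx : Y.Bnd s j x) : Y.Fin j x := by
  obtain ⟨w, _, rfl⟩ := hx
  exact ⟨w, rfl⟩

theorem LC.Fin.add {j : ℕ} {x y : Y.C j} (hx : Y.Fin j x) (hy : Y.Fin j y) : Y.Fin j (x + y) := by
  obtain ⟨w, rfl⟩ := hx
  obtain ⟨v, rfl⟩ := hy
  exact ⟨w + v, by simp⟩

theorem LC.Bnd.add {s : ℝ} {j : ℕ} {x y : Y.C j} (hx : Y.Bnd s j x) (hy : Y.Bnd s j y) :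
    Y.Bnd s j (x + y) := by
  obtain ⟨w, hw, rfl⟩ := hx
  obtain ⟨v, hv, rfl⟩ := hy
  exact ⟨w + v, Submodule.add_mem _ hw hv, by simp⟩

theorem LC.Bnd.zero (s : ℝ) (j : ℕ) : Y.Bnd s j (0 : Y.C j) := ⟨0, Submodule.zero_mem _, by simp⟩

theorem LC.Bnd.sum {s : ℝ} {j : ℕ} (T : Finset (Y.C j)) (h : ∀ z ∈ T, Y.Bnd s j z) :
    Y.Bnd s j (∑ z ∈ T, z) := by
  classical
  induction T using Finset.induction_on with
  | empty => simpa using LC.Bnd.zero s j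
  | insert a T ha ih =>
    rw [Finset.sum_insert ha]
    exact (h a (Finset.mem_insert_self _ _)).add
      (ih fun z hz => h z (Finset.mem_insert_of_mem hz))

theorem two_add {M : Type*} [AddCommGroup M] [Module (ZMod 2) M] (x : M) : x + x = 0 := by
  have : (2 : ZMod 2) • x = 0 := by
    rw [show (2 : ZMod 2) = 0 from rfl, zero_smul]
  rwa [two_smul] at this

theorem add_add_self {M : Type*} [AddCommGroup M] [Module (ZMod 2) M] (x y : M) :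
    x + y + y = x := by
  rw [add_assoc, two_add, add_zero]




end Crest.Agent.R231.BDAx969
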