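import Crest.Agent.R231.IfWang_525
import Crest.Agent.R231.ArcSys_694
import Crest.Agent.R231.WgLv_525
import Crest.Agent.R231.YLc_475
import Crest.Agent.R231.InstA_895
import Crest.Agent.R231.BDLam_969
import Crest.Agent.R231.GLoop_576

-- ▼ part R231/WgGeo_525
section

/-!
# Row 231 (S0357), Wang package: the geometric data from two systems of arcs (helper525)

`wangGeo A A'` : `WangGeo M (Lp M)` with `X = X M`, `O = Om p`, from 694's `ArcSys M D p`,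
`ArcSys M D' p`.
-/

set_option autoImplicit false

noncomputable section

open Set Topology
open Crest.Agent.R204

namespace Crest.Agent.R231.WgGeox525

open GLugx576 ArcSysx694 ArcSysx694.ArcSys IfWangx525

variable {M : Type} [MetricSpace M] {D D' : Set M} {p : M}

/-- enlarge the constant -/
def enl (A : ArcSys M D p) (k : ℝ) (hk : A.c ≤ k) : ArcSys M D p where
  c := k
  arc := A.arc
  c_pos := A.c_pos.trans_le hk
  zero := A.zero
  one := A.one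
  lip m hm u hu v hv := (A.lip m hm u hu v hv).trans (mul_le_mul_of_nonneg_right hk (abs_nonneg _))
  cont := A.cont

@[simp] theorem enl_c (A : ArcSys M D p) (k : ℝ) (hk : A.c ≤ k) : (enl A k hk).c = k := rfl
@[simp] theorem enl_arc (A : ArcSys M D p) (k : ℝ) (hk : A.c ≤ k) : (enl A k hk).arc = A.arc := rfl

/-- evaluation at time `0` -/
def ev0 (M : Type) [MetricSpace M] : C(Lp M, M) :=
  ⟨fun γ => γ 0, continuous_eval_const _⟩

@[simp] theorem ev0_apply (γ : Lp M) : ev0 M γ = γ 0 := rfl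

theorem toXD {t : ℝ} {γ : Lp M} (h : γ ∈ X M t ∩ (ev0 M) ⁻¹' D) : γ ∈ XD D (t + 1) :=
  ⟨X_mono (by linarith) h.1, h.2⟩

theorem toXD' {t : ℝ} {γ : Lp M} (hp : p ∈ D) (h : γ ∈ Om p t) : γ ∈ XD D (t + 1) :=
  ⟨X_mono (by linarith) h.1, by rw [h.2]; exact hp⟩

theorem toOm' {t : ℝ} {γ : Lp M} (h : γ ∈ Om p t) : γ ∈ Om p (t + 1) :=
  Om_mono (by linarith) h

theorem subXD {t : ℝ} : X M t ∩ (ev0 M) ⁻¹' D ⊆ XD D (t + 1) := fun _ h => toXD h

variable (A : ArcSys M D p) {t s : ℝ} {γ : Lp M}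

theorem f_hn_cont (ht : 0 ≤ t) : ContinuousOn (fun x : Lp M × ℝ => A.h3 (t + 1) x.1 x.2)
    ((X M t ∩ (ev0 M) ⁻¹' D) ×ˢ Icc 0 1) :=
  ContinuousOn.mono (ArcSys.continuousOn_h3 (A := A) (t := t + 1) (by linarith))
    (prod_mono subXD Subset.rfl)

theorem f_hn_mem (ht : 0 ≤ t) (hγ : γ ∈ X M t ∩ (ev0 M) ⁻¹' D) (hs : s ∈ Icc (0 : ℝ) 1) :
    A.h3 (t + 1) γ s ∈ X M (t + (2 * A.c + 1)) :=
  X_mono (by linarith) (ArcSys.h3_mem (A := A) (t := t + 1) (by linarith) (toXD hγ) hs)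

theorem f_hn_one (ht : 0 ≤ t) (hγ : γ ∈ X M t ∩ (ev0 M) ⁻¹' D) :
    A.h3 (t + 1) γ 1 ∈ Om p (t + (2 * A.c + 1)) :=
  Om_mono (by linarith) (ArcSys.tr_mem (A := A) (t := t + 1) (by linarith) (toXD hγ))

theorem f_ho_cont (hp : p ∈ D) (ht : 0 ≤ t) :
    ContinuousOn (fun x : Lp M × ℝ => A.h3 (t + 1) x.1 x.2) (Om p t ×ˢ Icc 0 1) :=
  ContinuousOn.mono (ArcSys.continuousOn_h3 (A := A) (t := t + 1) (by linarith))
    (prod_mono (fun _ h => toXD' hp h) Subset.rfl)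

theorem f_ho_mem (hp : p ∈ D) (hcst : ∀ u ∈ Icc (0 : ℝ) 1, A.arc p u = p) (ht : 0 ≤ t)
    (hγ : γ ∈ Om p t) (hs : s ∈ Icc (0 : ℝ) 1) : A.h3 (t + 1) γ s ∈ Om p (t + (2 * A.c + 1)) :=
  Om_mono (by linarith)
    (ArcSys.h3_mem_Om (A := A) (t := t + 1) hp hcst (by linarith) (toOm' hγ) hs)

theorem f_cn_cont (ht : 0 ≤ t) : ContinuousOn (A.tr (t + 1)) (X M t ∩ (ev0 M) ⁻¹' D) :=
  ContinuousOn.mono (ArcSys.continuousOn_tr (A := A) (t := t + 1) (by linarith)) subXD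

theorem f_cn_mem (ht : 0 ≤ t) (hγ : γ ∈ X M t ∩ (ev0 M) ⁻¹' D) :
    A.tr (t + 1) γ ∈ Om p (t + (2 * A.c + 1)) :=
  Om_mono (by linarith) (ArcSys.tr_mem (A := A) (t := t + 1) (by linarith) (toXD hγ))

/-- the level used by `un` -/
def pl (t : ℝ) : ℝ := if 0 < t then t else 1

theorem pl_pos (t : ℝ) : 0 < pl t := by unfold pl; split_ifs with h; exacts [h, one_pos]
theorem le_pl (ht : 0 ≤ t) : t ≤ pl t := by unfold pl; split_ifs <;> linarith
theorem pl_le (ht : 0 ≤ t) : pl t ≤ t + 1 := by unfold pl; split_ifs <;> linarith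
theorem pl_of_pos (ht : 0 < t) : pl t = t := if_pos ht

theorem f_un_cont (ht : 0 ≤ t) :
    ContinuousOn (fun q : M × Lp M => A.un (pl t) q.1 q.2) (D ×ˢ Om p t) :=
  ContinuousOn.mono (ArcSys.continuousOn_un (A := A) (t := pl t) (pl_pos t))
    (prod_mono Subset.rfl (Om_mono (le_pl ht)))

theorem f_un_mem (ht : 0 ≤ t) {b : M} (hb : b ∈ D) (hγ : γ ∈ Om p t) :
    A.un (pl t) b γ ∈ X M (t + (2 * A.c + 1)) :=
  X_mono (by linarith [pl_le ht])
    (ArcSys.un_mem (A := A) (t := pl t) (pl_pos t) hb (Om_mono (le_pl ht) hγ)).1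

theorem f_un_e (ht : 0 ≤ t) {b : M} (hb : b ∈ D) (hγ : γ ∈ Om p t) :
    A.un (pl t) b γ 0 = b :=
  ArcSys.un_base (A := A) (t := pl t) (pl_pos t) hb (Om_mono (le_pl ht) hγ)

theorem f_h1_cont (ht : 0 ≤ t) : ContinuousOn (fun x : Lp M × ℝ => A.h1 (t + 1) x.1 x.2)
    ((X M t ∩ (ev0 M) ⁻¹' D) ×ˢ Icc 0 1) :=
  ContinuousOn.mono (ArcSys.continuousOn_h1 (A := A) (t := t + 1) (by linarith))
    (prod_mono subXD Subset.rfl)

theorem f_h1_one (ht : 0 ≤ t) (hγ : γ ∈ X M t ∩ (ev0 M) ⁻¹' D) :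
    A.h1 (t + 1) γ 1 = A.un (pl (t + (2 * A.c + 1))) (γ 0) (A.tr (t + 1) γ) := by
  rw [ArcSys.h1_one (A := A) (t := t + 1) (by linarith) (toXD hγ),
    pl_of_pos (by linarith [A.c_pos]), show t + 1 + 2 * A.c = t + (2 * A.c + 1) by ring]

theorem f_h1_mem (ht : 0 ≤ t) (hγ : γ ∈ X M t ∩ (ev0 M) ⁻¹' D) (hs : s ∈ Icc (0 : ℝ) 1) :
    A.h1 (t + 1) γ s ∈ X M (t + (2 * A.c + 1) + (2 * A.c + 1)) :=
  X_mono (by linarith) (ArcSys.h1_mem (A := A) (t := t + 1) (by linarith) (toXD hγ) hs).1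

theorem f_rc_cont {s t : ℝ} (hs : 0 ≤ s) (hst : s ≤ t) :
    ContinuousOn (fun x : Lp M × ℝ => A.tr (lev (s + 1) (t + 1) x.2) x.1)
      ((X M s ∩ (ev0 M) ⁻¹' D) ×ˢ Icc 0 1) :=
  ContinuousOn.mono (ArcSys.continuousOn_tr_lev (A := A) (t := s + 1) (t' := t + 1)
    (by linarith) (by linarith)) (prod_mono subXD Subset.rfl)

theorem f_rc_mem {s t u : ℝ} (hs : 0 ≤ s) (hst : s ≤ t) (hγ : γ ∈ X M s ∩ (ev0 M) ⁻¹' D)
    (hu : u ∈ Icc (0 : ℝ) 1) : A.tr (lev (s + 1) (t + 1) u) γ ∈ Om p (t + (2 * A.c + 1)) :=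
  Om_mono (by linarith)
    (ArcSys.tr_lev_mem (A := A) (t := s + 1) (t' := t + 1) (by linarith) (by linarith)
      (toXD hγ) hu)

/-- **the Wang data from two systems of arcs with the same constant** -/
def wangGeo' (A : ArcSys M D p) (A' : ArcSys M D' p) (k : ℝ) (hk : k = 2 * A.c + 1)
    (hk' : k = 2 * A'.c + 1) (oD : IsOpen D)
    (oD' : IsOpen D') (cov : ∀ b, b ∈ D ∨ b ∈ D') (hp : p ∈ D)
    (hcst : ∀ u ∈ Icc (0 : ℝ) 1, A.arc p u = p) : WangGeo M (Lp M) where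
  e := ev0 M
  D := D
  D' := D'
  isOpen_D := oD
  isOpen_D' := oD'
  cov := cov
  X := X M
  O := Om p
  X_mono := fun {_ _} h => X_mono h
  O_mono := fun {_ _} h => Om_mono h
  O_sub t := fun γ hγ => ⟨hγ.1, by
    show γ 0 ∈ D
    rw [hγ.2]; exact hp⟩
  c := k
  c_nonneg := by have := A.c_pos; rw [hk]; linarith
  hn t γ u := A.h3 (t + 1) γ u
  hn_cont t ht := f_hn_cont A ht
  hn_zero t ht γ hγ := ArcSys.h3_zero (A := A) (t := t + 1) (by linarith) (toXD hγ)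
  hn_mem t ht γ hγ u hu := by rw [hk]; exact f_hn_mem A ht hγ hu
  hn_one t ht γ hγ := by rw [hk]; exact f_hn_one A ht hγ
  ho t γ u := A.h3 (t + 1) γ u
  ho_cont t ht := f_ho_cont A hp ht
  ho_zero t ht γ hγ := ArcSys.h3_zero (A := A) (t := t + 1) (by linarith) (toXD' hp hγ)
  ho_one t ht γ hγ := rfl
  ho_mem t ht γ hγ u hu := by rw [hk]; exact f_ho_mem A hp hcst ht hγ hu
  cn t := A'.tr (t + 1)
  cn_cont t ht := f_cn_cont A' ht
  cn_mem t ht γ hγ := by rw [hk']; exact f_cn_mem A' ht hγ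
  un t q := A'.un (pl t) q.1 q.2
  un_cont t ht := f_un_cont A' ht
  un_mem t ht b hb γ hγ := by rw [hk']; exact f_un_mem A' ht hb hγ
  un_e t ht b hb γ hγ := f_un_e A' ht hb hγ
  hn' t γ u := A'.h1 (t + 1) γ u
  hn'_cont t ht := f_h1_cont A' ht
  hn'_zero t ht γ hγ := ArcSys.h1_zero (A := A') (t := t + 1) (by linarith) (toXD hγ)
  hn'_one t ht γ hγ := by rw [hk']; exact f_h1_one A' ht hγ
  hn'_mem t ht γ hγ u hu := by rw [hk']; exact f_h1_mem A' ht hγ hu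
  hn'_e t ht γ hγ u hu := ArcSys.h1_base (A := A') (t := t + 1) (by linarith) (toXD hγ) hu
  rc s t γ u := A'.tr (lev (s + 1) (t + 1) u) γ
  rc_cont s t hs hst := f_rc_cont A' hs hst
  rc_zero s t hs hst γ hγ := by
    show A'.tr (lev (s + 1) (t + 1) 0) γ = A'.tr (s + 1) γ
    rw [lev_zero]
  rc_one s t hs hst γ hγ := by
    show A'.tr (lev (s + 1) (t + 1) 1) γ = A'.tr (t + 1) γ
    rw [lev_one]
  rc_mem s t hs hst γ hγ u hu := by rw [hk']; exact f_rc_mem A' hs hst hγ hu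

/-- **the Wang data from two systems of arcs** -/
def wangGeo (A : ArcSys M D p) (A' : ArcSys M D' p) (oD : IsOpen D)
    (oD' : IsOpen D') (cov : ∀ b, b ∈ D ∨ b ∈ D') (hp : p ∈ D)
    (hcst : ∀ u ∈ Icc (0 : ℝ) 1, A.arc p u = p) : WangGeo M (Lp M) :=
  wangGeo' (enl A (max A.c A'.c) (le_max_left _ _)) (enl A' (max A.c A'.c) (le_max_right _ _))
    (2 * max A.c A'.c + 1) rfl rfl oD oD' cov hp hcst

end Crest.Agent.R231.WgGeox525
end
end

-- ▼ part R231/WgOut_525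

/-!
# Row 231 (S0357), Wang package: the literal `WangOut` (helper525)

`wangOut` : `WangOut (yLC (Om p)) (mix M) (FF M) n (iO p)` from `Kun`, `Deg n U` and `Onto`.
-/

set_option autoImplicit false

noncomputable section

open Set Topology Function
open Crest.Agent.R204

namespace Crest.Agent.R231.WgOutx525

open Pairx877 Capx226 CapCSx780 SingAct265 EZ271 Gr334 IfWangx525 WangAbsx525 WgLvx525 WgGeox525
open GLugx576 ArcSysx694 YLcx475 BDAx969 IfAx978 Instx895 TActx569 TCx569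

variable {M : Type} [MetricSpace M] {D D' : Set M} {p : M}

variable (p) in
theorem Om_monotone : Monotone (Om (M := M) p) := fun _ _ h => Om_mono h

variable (p) in
/-- chains of the based loops -/
abbrev YO : LC := yLC (Om (M := M) p) (Om_monotone p)

theorem WU_le_WL : WU (Om (M := M) p) ≤ WL M := by
  intro c hc
  obtain ⟨t, ht⟩ := (mem_WU (Om_monotone p)).1 hc
  exact CS_le_CL' (Om_sub_X t) ht

variable (p) in
/-- the inclusion of the based loops -/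
def iO (_ : ℝ) (j : ℕ) : (YO (M := M) p).C j →ₗ[ZMod 2] (mix M).C j where
  toFun y := mk (yv (Om_monotone p) j y) (yv_gr y) (WU_le_WL (yv_WU y))
  map_add' x y := vl_inj j (by
    refine (vl_mk _ _ _).trans ((map_add (yv (Om_monotone p) j) x y).trans ?_)
    rw [map_add, vl_mk, vl_mk])
  map_smul' a x := vl_inj j (by
    refine (vl_mk _ _ _).trans ((map_smul (yv (Om_monotone p) j) a x).trans ?_)
    rw [map_smul, vl_mk, RingHom.id_apply])

@[simp] theorem vl_iO (t : ℝ) (j : ℕ) (y : (YO (M := M) p).C j) :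
    vl j (iO p t j y) = yv (Om_monotone p) j y :=
  vl_mk (yv (Om_monotone p) j y) (yv_gr y) (WU_le_WL (yv_WU y))

variable (A : ArcSys M D p) (A' : ArcSys M D' p) (oD : IsOpen D)
    (oD' : IsOpen D') (cov : ∀ b, b ∈ D ∨ b ∈ D') (hp : p ∈ D)
    (hcst : ∀ u ∈ Icc (0 : ℝ) 1, A.arc p u = p)

/-- the constant loops -/
def kmap : KMap (wangGeo A A' oD oD' cov hp hcst) where
  k := ContinuousMap.const'.comp (ev0 M)
  kX γ := const_mem le_rfl (γ 0)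
  kO t γ hγ := ⟨const_mem le_rfl (γ 0), hγ.2⟩
  k_id γ hγ := by
    ext x
    exact (mem_X_zero.1 hγ x).symm

section fields

variable {G : WangGeo M (Lp M)} (hX : G.X = X M) (hOm : G.O = Om p) (κ : KMap G)
  {U : Co (SS.Sing M)} (hU : PtCo G.D U) (hK : ∀ O : Set (Lp M), Kun G.D G.D' U O)

include hX hOm κ hK in
theorem f_inj (hO : Onto G hU) (t : ℝ) (j : ℕ) (y : (YO (M := M) p).C j) (ht : 0 ≤ t)
    (hy : y ∈ (YO (M := M) p).F t j) (hc : (YO (M := M) p).Cyc j y)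
    (hb : iO p t j y ∈ Bd (FF M 0) ⊤ j) :
    ∃ y0 ∈ (YO (M := M) p).F 0 j, (YO (M := M) p).Cyc j y0 ∧ (YO (M := M) p).Fin j (y + y0) ∧
      iO p t j y0 ∈ Bd (FF M 0) (FF M t) j := by
  obtain ⟨t', ht'⟩ := mem_Bd_top.1 hb
  rw [vl_iO, ← hX] at ht'
  have hy' : yv (Om_monotone p) j y ∈ CS (G.O t) := by rw [hOm]; exact mem_F.1 hy
  obtain ⟨s', b, hb, e⟩ := inj_lv κ hU hK hO ht hy' (t' := t') ht'
  have hcy : bdE _ (yv (Om_monotone p) j y) = 0 := cyc_iff.1 hc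
  have hk0 := κ.memO hy'
  rw [hOm] at hk0 hb
  refine ⟨ymk (mp κ.k (yv (Om_monotone p) j y)) (κ.gr (yv_gr y)) (CS_le_WU _ _ hk0),
    mem_F.2 hk0, cyc_iff.2 ?_, fin_iff.2 ⟨s', b, hb, ?_⟩, ?_⟩
  · rw [yv_ymk, mp_bd, hcy, map_zero]
  · rw [e, map_add, yv_ymk]
  · refine mem_Bd_FF.2 ?_
    rw [vl_iO, yv_ymk, mem_Bp']
    exact ⟨_, CS_mono (Om_sub_X 0) hk0, 0, Submodule.zero_mem _, by rw [map_zero, add_zero]⟩

include hX hOm κ hU hK in
theorem f_exact {n : ℕ} (hn : Deg n U) (t : ℝ) (j : ℕ) (x : (mix M).C j) (ht : 0 ≤ t)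
    (hx : x ∈ Zc (FF M 0) (FF M t) j) :
    (j < n → ∃ y ∈ (YO (M := M) p).F (t + 3 * G.c) j, (YO (M := M) p).Cyc j y ∧
      x + iO p (t + 3 * G.c) j y ∈ Bd (FF M 0) (FF M (t + 3 * G.c)) j) ∧
    (∀ l, j = l + n → ∃ r ∈ (YO (M := M) p).F (t + 3 * G.c) l, (YO (M := M) p).Cyc l r ∧
      (x ∈ Bd (FF M 0) ⊤ j → (YO (M := M) p).Fin l r) ∧
      ∀ v, t + 3 * G.c ≤ v → (YO (M := M) p).Bnd v l r →
        ∃ y ∈ (YO (M := M) p).F (v + 3 * G.c) j, (YO (M := M) p).Cyc j y ∧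
          x + iO p (v + 3 * G.c) j y ∈ Bd (FF M 0) (FF M (v + 3 * G.c)) j) := by
  have hc := G.c_nonneg
  have hx' := mem_Zc_FF.1 hx
  obtain ⟨h1, h2⟩ := exact_lv κ hU hK hn ht (vl_mem_gr x) (by rw [hX]; exact hx'.1)
    (by rw [hX]; exact hx'.2)
  have fin : ∀ v : ℝ, (∃ y ∈ CS (G.O (v + 3 * G.c)), y ∈ N.gr F2 (SS.Sing (Lp M)) j ∧
      bdE (Lp M) y = 0 ∧ vl j x + y ∈ Bp (G.X (v + 3 * G.c)) (G.X 0)) →
      ∃ y ∈ (YO (M := M) p).F (v + 3 * G.c) j, (YO (M := M) p).Cyc j y ∧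
          x + iO p (v + 3 * G.c) j y ∈ Bd (FF M 0) (FF M (v + 3 * G.c)) j := by
    rintro v ⟨y, hy, hyj, hyb, hyB⟩
    rw [hOm] at hy
    refine ⟨ymk y hyj (CS_le_WU _ _ hy), mem_F.2 hy, cyc_iff.2 hyb, mem_Bd_FF.2 ?_⟩
    rw [map_add, vl_iO, yv_ymk, ← hX]
    exact hyB
  refine ⟨fun hj => fin t (h1 hj), fun l hl => ?_⟩
  obtain ⟨r, hr, hrl, hrb, hrf, hR⟩ := h2 l hl
  rw [hOm] at hr
  refine ⟨ymk r hrl (CS_le_WU _ _ hr), mem_F.2 hr, cyc_iff.2 hrb, fun hb => ?_,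
    fun v hv hB => ?_⟩
  · obtain ⟨t', ht'⟩ := mem_Bd_top.1 hb
    rw [← hX] at ht'
    obtain ⟨t'', w, hw, e⟩ := hrf ⟨t', ht'⟩
    rw [hOm] at hw
    exact fin_iff.2 ⟨t'', w, hw, e⟩
  · obtain ⟨w, hw, e⟩ := bnd_iff.1 hB
    rw [← hOm] at hw
    exact fin v (hR v (by linarith) ⟨w, hw, e⟩)

include hX hOm κ hK in
/-- **the output of the Wang package**, general form -/
theorem wangOut_of {n : ℕ} (hn : Deg n U) (hO : Onto G hU) :
    WangOut (YO (M := M) p) (mix M) (FF M) n (iO p) where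
  lev t j y _ hy := mem_FF.2 (by rw [vl_iO]; exact CS_mono (Om_sub_X t) (mem_F.1 hy))
  d_i t j y _ _ := vl_inj j (by rw [vl_d, vl_iO, vl_iO, yv_d])
  compat s t j y _ _ _ _ := by
    have : iO p s j y + iO p t j y = 0 :=
      vl_inj j (by rw [map_add, vl_iO, vl_iO, map_zero]; exact WangAbsx525.add_self _)
    rw [this]; exact Submodule.zero_mem _
  inj := f_inj hX hOm κ hU hK hO
  exact := ⟨3 * G.c, by have := G.c_nonneg; linarith, f_exact hX hOm κ hU hK hn⟩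

end fields

/-- **the output of the Wang package** -/
theorem wangOut {U : Co (SS.Sing M)} (hU : PtCo D U) (hK : ∀ O : Set (Lp M), Kun D D' U O) {n : ℕ}
    (hn : Deg n U) (hO : Onto (wangGeo A A' oD oD' cov hp hcst) hU) :
    WangOut (YO (M := M) p) (mix M) (FF M) n (iO p) :=
  wangOut_of (G := wangGeo A A' oD oD' cov hp hcst) rfl rfl (kmap A A' oD oD' cov hp hcst) hU hK
    hn hO

end Crest.Agent.R231.WgOutx525
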