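import Crest.Agent.R231.End_475
import Crest.Agent.R231.LevInstB_969
import Crest.Agent.R231.WgOut_525
import Crest.Agent.R231.CX_780
import Crest.Agent.R231.CrossCS_780
import Crest.Agent.R204.Cartan_888
import Crest.Agent.R231.CylQ_373
import Crest.Agent.R231.If_P_797
import Crest.Agent.R231.SmallCS_226
import Crest.Agent.R231.PairH_877
import Crest.Agent.R231.OmHt_725
import Crest.Agent.R231.PairGr_877
import Crest.Agent.R231.CapCS_780
import Crest.Agent.R204.EZInst_847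
import Crest.Agent.R231.OmSp_725
import Crest.Agent.R231.WgLv_525
import Crest.Agent.R231.ArcSys_694
import Crest.Agent.R231.Slerp_694
import Crest.Agent.R231.BiLip_218

-- ▼ part R231/End2_475
section

/-!
# Row 231 (S0357), block P: end wiring, concrete form (helper475)

`pouts_of` : `Asmx895.POuts M D` from 969's `CutH p D`, `HasTh` and 525's `WangOut (YO p) ..`.
-/

set_option autoImplicit false
set_option linter.unusedSectionVars false

noncomputable section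

open Set Topology
open scoped NNReal
open Crest.Agent.R204

namespace Crest.Agent.R231.End2x475

open SpecA (Hm)
open Pairx877 BDAx969 Levx969 LevInstx969 YLcx475 YOutx475 OmCmpx475 OmSpx725 FinDim315 IfAx978
  Instx895 Asmx895 WgOutx525 Endx475

variable {M : Type} [MetricSpace M] {p : M} {D : ℕ}

/-- the comparison for 969's instance -/
def cmpLev (C : CutH p D) (c3 : ℝ≥0) : Cmp (C.lev c3) (ArcSysx694.Om p) :=
  cmpOf (C.lev c3) (fun t => LinearEquiv.refl F2 (HS (OmT p t))) (fun _ _ _ => Iff.rfl)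
    (fun _ _ => rfl)

/-- **output of block P** -/
def pouts_of (hD : 1 ≤ D) (C : CutH p D) (c3 : ℝ≥0) (hT : (C.lev c3).HasTh)
    (W : WangOut (YO (M := M) p) (mix M) (FF M) (D + 1) (iO p)) : POuts M D where
  Y := YO (M := M) p
  BD := (cmpLev C c3).bd_of hD hT
  i := iO p
  wang := W
  Pw := (cmpLev C c3).Pw
  τ := fun m => (sg (C.lev c3) m : ℝ)
  pw := (cmpLev C c3).pw_of hD hT

end Crest.Agent.R231.End2x475
end
end

-- ▼ part R231/CXb_780
section

/-!
# Row 231, block P (helper780): bridge between the two homology level cross products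

`cx_crE` : `cx [a] [b] = [crE a b]`;  `cx_eq_hd2` : `cx = Q888.hd2 crE` (the definition used by helper226).
-/

set_option autoImplicit false

noncomputable section

namespace Crest.Agent.R231.CXx780

open Crest.Agent.R204 Crest.Agent.R204.SpecA SingAct265 FinDim315 CrossCSx780 Pairx877

variable {X Y : Type} [TopologicalSpace X] [TopologicalSpace Y]

theorem crE_cyc {a : CE X} {b : CE Y} (ha : bdE X a = 0) (hb : bdE Y b = 0) :
    bdE (X × Y) (crE a b) = 0 := by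
  rw [bd_crE, ha, hb, map_zero, LinearMap.zero_apply, map_zero, add_zero]

theorem cx_crE (a : CE X) (ha : bdE X a = 0) (b : CE Y) (hb : bdE Y b = 0) :
    cx (Hd.mk _ a ha) (Hd.mk _ b hb) = Hd.mk _ (crE a b) (crE_cyc ha hb) :=
  cx_mk a ha b hb (crE_cyc ha hb)


end Crest.Agent.R231.CXx780
end
end

-- ▼ part R231/SuspT_373
section

/-!
# Row 231, block P, leaf Q4d (helper373): the suspension family

For tethers `b`, `c` at `p`: `vz b c t h : C(c.V ∩ b.V, OmT p t)`, `ℓb + ℓc ≤ t`, `v_z = (b z)⁻¹ . (c z)`.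
Under `SuspData` (the path `b z` runs in `b.V` up to the time `m`, from then on in `c.V`; the path `c z`
runs in `c.V`): `cut (v_* σ) = s_* σ + s'_* σ`, `s z = (v z, ℓb)`, `s' z = (v z, ℓb - m)`.
-/

set_option autoImplicit false

noncomputable section

open Function Topology NNReal

namespace Crest.Agent.R231.SuspTx373

open Set Crest.Agent.R204 Crest.Agent.R204.SpecA Crest.Agent.R231.FinDim315 Crest.Agent.R231.CutWx749
  Crest.Agent.R231.Moorex725 Crest.Agent.R231.CutMx725 Crest.Agent.R231.OmSpx725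
  Crest.Agent.R231.CylQx373 Crest.Agent.R231.CutSuspx373

variable {M : Type} [PseudoMetricSpace M] {p : M}

/-! ### slices -/

section slice

variable {S : Type} [TopologicalSpace S] {t : ℝ≥0} {R : Set (Qt p t)}

/-- the slice `z ↦ (v z, τ)` -/
def slice (v : C(S, OmT p t)) (τ : Icc (0 : ℝ) (t : ℝ)) (h : ∀ z, (v z, τ) ∈ R) : C(S, R) where
  toFun z := ⟨(v z, τ), h z⟩
  continuous_toFun := (v.continuous.prodMk continuous_const).subtype_mk _

@[simp] theorem slice_val (v : C(S, OmT p t)) (τ : Icc (0 : ℝ) (t : ℝ)) (h : ∀ z, (v z, τ) ∈ R)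
    (z : S) : (slice v τ h z).1 = (v z, τ) := rfl

/-- affine combination of two times -/
def mix (τ₀ τ₁ : Icc (0 : ℝ) (t : ℝ)) (a : unitInterval) : Icc (0 : ℝ) (t : ℝ) :=
  ⟨(1 - (a : ℝ)) * τ₀ + a * τ₁, by
    have h0 := a.2.1
    have h1 : 0 ≤ 1 - (a : ℝ) := sub_nonneg.2 a.2.2
    exact add_nonneg (mul_nonneg h1 τ₀.2.1) (mul_nonneg h0 τ₁.2.1), by
    have h0 := a.2.1
    have h1 : 0 ≤ 1 - (a : ℝ) := sub_nonneg.2 a.2.2
    have e1 := mul_le_mul_of_nonneg_left τ₀.2.2 h1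
    have e2 := mul_le_mul_of_nonneg_left τ₁.2.2 h0
    nlinarith⟩

theorem continuous_mix (τ₀ τ₁ : Icc (0 : ℝ) (t : ℝ)) : Continuous (mix τ₀ τ₁) := by
  refine Continuous.subtype_mk ?_ _
  exact ((continuous_const.sub continuous_subtype_val).mul continuous_const).add
    (continuous_subtype_val.mul continuous_const)

theorem mix_zero (τ₀ τ₁ : Icc (0 : ℝ) (t : ℝ)) : mix τ₀ τ₁ 0 = τ₀ := by
  refine Subtype.ext ?_
  change (1 - ((0 : unitInterval) : ℝ)) * (τ₀ : ℝ) + ((0 : unitInterval) : ℝ) * τ₁ = τ₀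
  rw [Set.Icc.coe_zero]; ring

theorem mix_one (τ₀ τ₁ : Icc (0 : ℝ) (t : ℝ)) : mix τ₀ τ₁ 1 = τ₁ := by
  refine Subtype.ext ?_
  change (1 - ((1 : unitInterval) : ℝ)) * (τ₀ : ℝ) + ((1 : unitInterval) : ℝ) * τ₁ = τ₁
  rw [Set.Icc.coe_one]; ring

theorem mix_mem {τ₀ τ₁ : Icc (0 : ℝ) (t : ℝ)} (h : (τ₀ : ℝ) ≤ τ₁) (a : unitInterval) :
    (τ₀ : ℝ) ≤ mix τ₀ τ₁ a ∧ (mix τ₀ τ₁ a : ℝ) ≤ τ₁ := by
  have h0 := a.2.1
  have h1 : 0 ≤ 1 - (a : ℝ) := sub_nonneg.2 a.2.2
  have e : (mix τ₀ τ₁ a : ℝ) = (1 - (a : ℝ)) * τ₀ + a * τ₁ := rfl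
  rw [e]
  constructor <;> nlinarith

/-- slices over an interval of admissible times are homotopic -/
theorem slice_homotopic (v : C(S, OmT p t)) {τ₀ τ₁ : Icc (0 : ℝ) (t : ℝ)} (hle : (τ₀ : ℝ) ≤ τ₁)
    (h : ∀ z, ∀ τ : Icc (0 : ℝ) (t : ℝ), (τ₀ : ℝ) ≤ τ → (τ : ℝ) ≤ τ₁ → (v z, τ) ∈ R) :
    (slice v τ₀ fun z => h z τ₀ le_rfl hle).Homotopic (slice v τ₁ fun z => h z τ₁ hle le_rfl) := by
  refine ⟨{
    toFun := fun x => ⟨(v x.2, mix τ₀ τ₁ x.1), h x.2 _ (mix_mem hle x.1).1 (mix_mem hle x.1).2⟩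
    continuous_toFun := ?_
    map_zero_left := ?_
    map_one_left := ?_ }⟩
  · exact ((v.continuous.comp continuous_snd).prodMk
      ((continuous_mix τ₀ τ₁).comp continuous_fst)).subtype_mk _
  · intro x
    refine Subtype.ext ?_
    change (v x, mix τ₀ τ₁ 0) = (v x, τ₀)
    rw [mix_zero]
  · intro x
    refine Subtype.ext ?_
    change (v x, mix τ₀ τ₁ 1) = (v x, τ₁)
    rw [mix_one]

end slice

/-! ### the family `v_z` -/

section fam

variable (b c : Tether p) {t : ℝ≥0} (ht : b.L + c.L ≤ t)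

include ht in
theorem vz_mem (z : (c.V ∩ b.V : Set M)) :
    cc b.L (rev b.L (b.T z)) (c.T z) ∈ Om p (t : ℝ) :=
  Om_mono p ht (cc_mem (rev_mem (b.mem _ z.2.2)) (c.mem _ z.2.1) b.L_nonneg c.L_nonneg)

theorem continuous_T_sub (b : Tether p) {A : Set M} (hA : A ⊆ b.V) :
    Continuous fun z : A => b.T z :=
  b.cont.comp_continuous continuous_subtype_val fun z => hA z.2

/-- `v_z = (b z)⁻¹ . (c z)` -/
def vz : C((c.V ∩ b.V : Set M), OmT p t) where
  toFun z := ⟨cc b.L (rev b.L (b.T z)) (c.T z), vz_mem b c ht z⟩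
  continuous_toFun := by
    refine Continuous.subtype_mk ?_ _
    refine continuous_cc (c := fun _ => b.L) ?_ (continuous_T_sub c inter_subset_left)
      continuous_const (fun z => (c.mem _ z.2.1).1) fun z => ?_
    · exact continuous_rev (s := fun _ => b.L) (continuous_T_sub b inter_subset_right)
        (fun z => (b.mem _ z.2.2).1) continuous_const
    · rw [rev, sub_self, (b.mem _ z.2.2).2.1 _ le_rfl, (c.mem _ z.2.1).2.1 _ le_rfl]

@[simp] theorem vz_val (z : (c.V ∩ b.V : Set M)) :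
    (vz b c ht z).1 = cc b.L (rev b.L (b.T z)) (c.T z) := rfl

variable {b c}

theorem vz_le (z : (c.V ∩ b.V : Set M)) {s : ℝ} (h : s ≤ b.L) :
    (vz b c ht z).1 s = b.T z (b.L - s) :=
  cc_of_le _ _ h

theorem vz_ge (z : (c.V ∩ b.V : Set M)) {s : ℝ} (h : b.L ≤ s) :
    (vz b c ht z).1 s = c.T z (s - b.L) :=
  cc_of_ge (by rw [rev, sub_self, (b.mem _ z.2.2).2.1 _ le_rfl, (c.mem _ z.2.1).2.1 _ le_rfl]) h

end fam

/-! ### the data -/

/-- What is needed for the cut of the family `v_z`: the path `b z` runs in `b.V` up to the time `m` and in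
`c.V` from then on, the path `c z` runs in `c.V`. -/
structure SuspData (b c : Tether p) where
  m : ℝ
  m_nonneg : 0 ≤ m
  m_le : m ≤ b.L
  bV : ∀ z ∈ b.V, ∀ s, s ≤ m → b.T z s ∈ b.V
  bU : ∀ z ∈ b.V, ∀ s, m ≤ s → b.T z s ∈ c.V
  cU : ∀ z ∈ c.V, ∀ s, c.T z s ∈ c.V
  w₀ : M
  bw : ∀ z ∈ b.V, b.T z m = w₀

namespace SuspData

variable {b c : Tether p} (K : SuspData b c) {t : ℝ≥0} (ht : b.L + c.L ≤ t)

/-- the time `ℓb` -/
def tb : Icc (0 : ℝ) (t : ℝ) := ⟨b.L, b.L_nonneg, by linarith [c.L_nonneg]⟩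

/-- the time `ℓb - m` -/
def tm : Icc (0 : ℝ) (t : ℝ) :=
  ⟨b.L - K.m, by linarith [K.m_le], by linarith [c.L_nonneg, K.m_nonneg]⟩

@[simp] theorem tb_val : (tb ht : ℝ) = b.L := rfl
@[simp] theorem tm_val : (K.tm ht : ℝ) = b.L - K.m := rfl

include K in
theorem mem_U_high (z : (c.V ∩ b.V : Set M)) (τ : Icc (0 : ℝ) (t : ℝ))
    (h : b.L ≤ τ) : (vz b c ht z, τ) ∈ QW c.V p t := by
  rw [mem_QW]
  change (vz b c ht z).1 (τ : ℝ) ∈ c.V
  rw [vz_ge ht z h]
  exact K.cU _ z.2.1 _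

theorem mem_U_low (z : (c.V ∩ b.V : Set M)) (τ : Icc (0 : ℝ) (t : ℝ))
    (h : (τ : ℝ) ≤ b.L - K.m) : (vz b c ht z, τ) ∈ QW c.V p t := by
  rw [mem_QW]
  change (vz b c ht z).1 (τ : ℝ) ∈ c.V
  rw [vz_le ht z (by linarith [K.m_nonneg])]
  exact K.bU _ z.2.2 _ (by linarith)

theorem mem_V_mid (z : (c.V ∩ b.V : Set M)) (τ : Icc (0 : ℝ) (t : ℝ))
    (h : b.L - K.m ≤ τ) (h' : (τ : ℝ) ≤ b.L) : (vz b c ht z, τ) ∈ QW b.V p t := by
  rw [mem_QW]
  change (vz b c ht z).1 (τ : ℝ) ∈ b.V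
  rw [vz_le ht z h']
  exact K.bV _ z.2.2 _ (by linarith)

/-- the slice at the time `ℓb` (the point `z`) -/
def s1 : C((c.V ∩ b.V : Set M), (QW c.V p t ∩ QW b.V p t : Set _)) :=
  slice (vz b c ht) (tb ht) fun z => ⟨K.mem_U_high ht z _ le_rfl,
    K.mem_V_mid ht z _ (by rw [tb_val]; linarith [K.m_nonneg]) le_rfl⟩

/-- the slice at the time `ℓb - m` -/
def s0 : C((c.V ∩ b.V : Set M), (QW c.V p t ∩ QW b.V p t : Set _)) :=
  slice (vz b c ht) (K.tm ht) fun z => ⟨K.mem_U_low ht z _ le_rfl,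
    K.mem_V_mid ht z _ le_rfl (by rw [tm_val]; linarith [K.m_nonneg])⟩

/-- **the cut of the suspension family** -/
theorem cut_vz (hp : p ∈ c.V) (hcov : ∀ y, y ∈ c.V ∨ y ∈ b.V) (σ : HS (c.V ∩ b.V : Set M)) :
    (cylQ c.isOpen b.isOpen hp hcov t).cut (Hm (vz b c ht) σ) =
      Hm (K.s1 ht) σ + Hm (K.s0 ht) σ := by
  refine cut_susp _ (vz b c ht) (K.s1 ht) (K.s0 ht) ?_ ?_ ?_ σ
  · have h := slice_homotopic (R := QW c.V p t) (vz b c ht) (τ₀ := tb ht)
      (τ₁ := ⟨(t : ℝ), Icc_right _⟩) (tb ht).2.2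
      fun z τ h1 _ => K.mem_U_high ht z τ h1
    exact h
  · have h := slice_homotopic (R := QW c.V p t) (vz b c ht)
      (τ₀ := ⟨0, Icc_left _⟩) (τ₁ := K.tm ht) (K.tm ht).2.1
      fun z τ _ h2 => K.mem_U_low ht z τ h2
    exact h.symm
  · have h := slice_homotopic (R := QW b.V p t) (vz b c ht) (τ₀ := K.tm ht)
      (τ₁ := tb ht) (by rw [tm_val, tb_val]; linarith [K.m_nonneg])
      fun z τ h1 h2 => K.mem_V_mid ht z τ h1 h2
    exact h.symm

end SuspData

end Crest.Agent.R231.SuspTx373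
end
end

-- ▼ part R231/DxW_373
section

/-!
# Row 231, block P, leaf Q4d (helper373): `D(x) = [point]` for 797's `CutData`

* `diag_σ : Δ_* σ = σ × pt + pt × σ` for 780's `SphLike`; `sl_graph : ((f, id)_* σ) / φ = [f s₀]`;
* `evS U V p t : QW U ∩ QW V → U ∩ V`, `GE b c t = (GG b, ev)`;
* `cylW W t`, `susp W : SuspData W.bT W.cT`;
* **`GE_cut_x`** : `(GG b, ev)_* (cut x) = [m] × σ`, `m = GG b (v z₀, ℓb)` an explicit point of `Om2T`.
-/

set_option autoImplicit false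

noncomputable section

open Function Topology NNReal

namespace Crest.Agent.R231.DxWx373

open Set Crest.Agent.R204 Crest.Agent.R204.SpecA Crest.Agent.R231.FinDim315 Crest.Agent.R231.CutWx749
  Crest.Agent.R231.Moorex725 Crest.Agent.R231.CutMx725 Crest.Agent.R231.OmSpx725
  Crest.Agent.R231.CylQx373 Crest.Agent.R231.CutSuspx373 Crest.Agent.R231.SuspTx373
  Crest.Agent.R231.CXx780

/-! ### the diagonal class -/

section diag

variable {S : Type} [TopologicalSpace S] {m : ℕ} (D : SphLike S m)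

/-- the diagonal -/
def dg (S : Type) [TopologicalSpace S] : C(S, S × S) := ⟨fun x => (x, x), by fun_prop⟩

theorem Hm_fst_dg (a : HS S) : Hm (fstC S S) (Hm (dg S) a) = a := by
  rw [← Hm_comp_apply]
  exact Hm_id a

theorem Hm_snd_dg (a : HS S) : Hm (sndC S S) (Hm (dg S) a) = a := by
  rw [← Hm_comp_apply]
  exact Hm_id a

/-- the slant product of the diagonal class -/
theorem sl_dg : sl D.φ (Hm (dg S) D.σ) = ptc D.s₀ := by
  set a := sl D.φ (Hm (dg S) D.σ) with ha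
  have h0 : a ∈ hg S 0 := by
    have h : Hm (dg S) D.σ ∈ hg (S × S) (0 + m) := by
      rw [zero_add]; exact Hm_mem_hg (dg S) D.σ_mem
    exact sl_mem D.φ_deg h
  have h1 : D.φ a = 0 := D.φ_deg 0 (by have := D.pos; omega) _ h0
  have h2 : a = ep a • ptc D.s₀ := by
    conv_lhs => rw [D.decomp a, h1, zero_smul, add_zero]
  have h3 : Hm (sndC S S) (Hm (dg S) D.σ) = ep a • D.σ := by
    rw [D.cx_decomp (Hm (dg S) D.σ), Hm_fst_dg, map_add, Hm_snd_cx, Hm_snd_cx, D.ep_σ, zero_smul,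
      zero_add]
  rw [Hm_snd_dg] at h3
  have h4 : ep a = 1 := by
    have := congrArg D.φ h3
    rw [map_smul, D.φ_σ, smul_eq_mul, mul_one] at this
    exact this.symm
  rw [h2, h4, one_smul]

theorem diag_σ : Hm (dg S) D.σ = cx D.σ (ptc D.s₀) + cx (ptc D.s₀) D.σ := by
  conv_lhs => rw [D.cx_decomp (Hm (dg S) D.σ), Hm_fst_dg, sl_dg]

variable {X Y : Type} [TopologicalSpace X] [TopologicalSpace Y]

/-- primitivity of the fundamental class of a sphere -/
theorem Hm_prodMk_σ (f : C(S, X)) (g : C(S, Y)) : Hm (f.prodMk g) D.σ =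
    cx (Hm f D.σ) (ptc (g D.s₀)) + cx (ptc (f D.s₀)) (Hm g D.σ) := by
  have e : f.prodMk g = (f.prodMap g).comp (dg S) := rfl
  rw [e, Hm_comp_apply, diag_σ, map_add, Hm_cx, Hm_cx, Hm_ptc, Hm_ptc]

/-- the slant product of a graph -/
theorem sl_graph (f : C(S, X)) :
    sl D.φ (Hm (f.prodMk (ContinuousMap.id S)) D.σ) = ptc (f D.s₀) := by
  rw [Hm_prodMk_σ, map_add, sl_cx, sl_cx, D.φ_ptc, zero_smul, zero_add, Hm_id, D.φ_σ, one_smul]

/-- the slant product of a family with constant second component -/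
theorem sl_const (f : C(S, X)) (s : S) :
    sl D.φ (Hm (f.prodMk (ContinuousMap.const S s)) D.σ) = 0 := by
  have e : f.prodMk (ContinuousMap.const S s) = (atR X s).comp f := rfl
  rw [e, Hm_comp_apply, ← cx_ptc, sl_cx, D.φ_ptc, zero_smul]

end diag

/-! ### the cut class of the suspension family -/

section general

variable {M : Type} [PseudoMetricSpace M] {p : M}

/-- evaluation `QW U ∩ QW V → U ∩ V` -/
def evS (U V : Set M) (p : M) (t : ℝ≥0) :
    C((QW U p t ∩ QW V p t : Set (Qt p t)), (U ∩ V : Set M)) where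
  toFun x := ⟨x.1.1.1 x.1.2, x.2⟩
  continuous_toFun := ((evQ p t).continuous.comp continuous_subtype_val).subtype_mk _

/-- `(GG b, ev)` -/
def GE (b c : Tether p) (t : ℝ≥0) : C((QW c.V p t ∩ QW b.V p t : Set (Qt p t)),
    Om2T p (t + 2 * ell b) × (c.V ∩ b.V : Set M)) :=
  (GG b t inter_subset_right).prodMk (evS c.V b.V p t)

/-- the first component of `GE_*` of a cut class vanishes -/
theorem fst_GE_cut {b c : Tether p} {t : ℝ≥0} {Z : Type} [TopologicalSpace Z]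
    (C : Cyl Z (QW c.V p t) (QW b.V p t)) (y : HS Z) :
    Hm (fstC _ _) (Hm (GE b c t) (C.cut y)) = 0 := by
  have e : (fstC (Om2T p (t + 2 * ell b)) (c.V ∩ b.V : Set M)).comp (GE b c t) =
      (GG b t (R := QW b.V p t) subset_rfl).comp (ir (QW c.V p t) (QW b.V p t)) := rfl
  rw [← Hm_comp_apply, e, Hm_comp_apply, C.cut_r, map_zero]

variable {b c : Tether p} (K : SuspData b c) {t : ℝ≥0} (ht : b.L + c.L ≤ t)

theorem evS_s1 : (evS c.V b.V p t).comp (K.s1 ht) = ContinuousMap.id _ := by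
  refine ContinuousMap.ext fun z => Subtype.ext ?_
  change (vz b c ht z).1 b.L = z
  rw [vz_le ht z le_rfl, sub_self, (b.mem _ z.2.2).2.1 _ le_rfl]

theorem evS_s0 (z0 : (c.V ∩ b.V : Set M)) : (evS c.V b.V p t).comp (K.s0 ht) =
    ContinuousMap.const _ (evS c.V b.V p t (K.s0 ht z0)) := by
  refine ContinuousMap.ext fun z => Subtype.ext ?_
  change (vz b c ht z).1 (b.L - K.m) = (vz b c ht z0).1 (b.L - K.m)
  rw [vz_le ht z (by linarith [K.m_nonneg]), vz_le ht z0 (by linarith [K.m_nonneg]), sub_sub_cancel,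
    K.bw _ z.2.2, K.bw _ z0.2.2]

/-- the slant product of `GE_* (cut (v_* σ))` is the class of a point -/
theorem sl_cut_vz {d : ℕ} (D : SphLike (c.V ∩ b.V : Set M) d) (hp : p ∈ c.V)
    (hcov : ∀ y, y ∈ c.V ∨ y ∈ b.V) :
    sl D.φ (Hm (GE b c t)
      ((cylQ c.isOpen b.isOpen hp hcov t).cut (Hm (vz b c ht) D.σ))) =
      ptc (GG b t inter_subset_right (K.s1 ht D.s₀)) := by
  rw [K.cut_vz ht hp hcov, map_add, map_add, ← Hm_comp_apply, ← Hm_comp_apply]
  have e1 : (GE b c t).comp (K.s1 ht) =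
      ((GG b t inter_subset_right).comp (K.s1 ht)).prodMk (ContinuousMap.id _) := by
    rw [← evS_s1 K ht]; rfl
  have e0 : (GE b c t).comp (K.s0 ht) =
      ((GG b t inter_subset_right).comp (K.s0 ht)).prodMk
        (ContinuousMap.const _ (evS c.V b.V p t (K.s0 ht D.s₀))) := by
    rw [← evS_s0 K ht]; rfl
  rw [e1, e0, sl_graph, sl_const, add_zero]
  rfl

/-- **`GE_* (cut (v_* σ)) = [m] × σ`** -/
theorem GE_cut_vz {d : ℕ} (D : SphLike (c.V ∩ b.V : Set M) d) (hp : p ∈ c.V)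
    (hcov : ∀ y, y ∈ c.V ∨ y ∈ b.V) :
    Hm (GE b c t) ((cylQ c.isOpen b.isOpen hp hcov t).cut (Hm (vz b c ht) D.σ)) =
      cx (ptc (GG b t inter_subset_right (K.s1 ht D.s₀))) D.σ := by
  rw [← sl_cut_vz K ht D hp hcov]
  exact D.eq_cx_of_fst (fst_GE_cut _ _)

end general

/-! ### 797's `CutData` -/

section W

open Crest.Agent.R231.IfPx797

variable {M : Type} [MetricSpace M] {p : M} {n : ℕ} (W : CutData M p n)

theorem cov (y : M) : y ∈ W.cT.V ∨ y ∈ W.bT.V := by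
  have : y ∈ W.cT.V ∪ W.bT.V := by rw [W.cover]; trivial
  exact this

/-- the cylinder of `CutData` -/
def cylW (t : ℝ≥0) : Cyl (OmT p t) (QW W.cT.V p t) (QW W.bT.V p t) :=
  cylQ W.cT.isOpen W.bT.isOpen W.hp (cov W) t

/-- crossing time of `e` -/
def ct : ℝ := min (max W.s0 0) W.Le

theorem ct_nonneg : 0 ≤ ct W := le_min (le_max_right _ _) W.hLe
theorem ct_le : ct W ≤ W.Le := min_le_right _ _

theorem eV (s : ℝ) (hs : s ≤ ct W) : W.e s ∈ W.bT.V := by
  have h1 : s ≤ max W.s0 0 := hs.trans (min_le_left _ _)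
  rcases le_max_iff.1 h1 with h | h
  · exact W.e_V s h
  · rw [W.e_mem.2.1 s h]; exact W.hq

theorem eU (s : ℝ) (hs : ct W ≤ s) : W.e s ∈ W.cT.V := by
  rcases min_le_iff.1 hs with h | h
  · exact W.e_U s ((le_max_left _ _).trans h)
  · rw [W.e_mem.2.2 s h]; exact W.hp

/-- the data of the suspension family -/
def susp : SuspData W.bT W.cT where
  m := W.La + ct W
  m_nonneg := add_nonneg W.hLa (ct_nonneg W)
  m_le := by linarith [W.hLL, ct_le W]
  bV z hz s hs := by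
    rw [W.b_eq z hz]
    rcases le_or_gt s W.La with h | h
    · rw [cc_of_le _ _ h]; exact W.a_stay z hz s
    · rw [cc_of_lt _ _ h]; exact eV W _ (by linarith)
  bU z hz s hs := by
    rw [W.b_eq z hz]
    have hab : W.a z W.La = W.e 0 := by
      rw [(W.a_mem z hz).2.2 _ le_rfl, W.e_mem.2.1 _ le_rfl]
    rw [cc_of_ge hab (by linarith [ct_nonneg W])]
    exact eU W _ (by linarith)
  cU := W.c_stay
  w₀ := W.e (ct W)
  bw z hz := by
    rw [W.b_eq z hz]
    have hab : W.a z W.La = W.e 0 := by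
      rw [(W.a_mem z hz).2.2 _ le_rfl, W.e_mem.2.1 _ le_rfl]
    rw [cc_of_ge hab (by linarith [ct_nonneg W]), add_sub_cancel_left]

theorem bc_le : W.bT.L + W.cT.L ≤ ((W.ℓ + W.ℓ : ℝ≥0) : ℝ) := by
  rw [W.hL]; exact le_rfl




end W

end Crest.Agent.R231.DxWx373
end
end

-- ▼ part R231/XNe_373
section

/-!
# Row 231, block P, leaf (IV) (helper373): the class `x` of `CutData` never dies

* `sphOf` : 780's `SphLike` from a spanning pair; `sphW W : SphLike (U ∩ V) (n-1)` with `σ = W.sg`;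
* `GE_cut_Wx` (Q4d), `x_mem`, **`x_ne`**.
-/

set_option autoImplicit false

noncomputable section

open Function Topology NNReal

namespace Crest.Agent.R231.XNex373

open Set Crest.Agent.R204 Crest.Agent.R204.SpecA Crest.Agent.R231.FinDim315 Crest.Agent.R231.CutWx749
  Crest.Agent.R231.Moorex725 Crest.Agent.R231.CutMx725 Crest.Agent.R231.OmSpx725
  Crest.Agent.R231.CylQx373 Crest.Agent.R231.CutSuspx373 Crest.Agent.R231.SuspTx373
  Crest.Agent.R231.CXx780 Crest.Agent.R231.DxWx373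

/-! ### the class `x` never dies -/

section ne

open Crest.Agent.R231.IfPx797

variable {X : Type} [TopologicalSpace X]

theorem ptc_ne_zero (x : X) : (ptc x : HS X) ≠ 0 := by
  intro h
  have := congrArg ep h
  rw [ep_ptc, map_zero] at this
  exact one_ne_zero this

theorem f2c (a : F2) : a = 0 ∨ a = 1 := by revert a; decide

/-- a class which is homogeneous of two different degrees vanishes -/
theorem eq_zero_of_mem {i j : ℕ} (hij : i ≠ j) {a : HS X} (hi : a ∈ hg X i) (hj : a ∈ hg X j) :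
    a = 0 := by
  have h := (isInternal_hg (X := X)).submodule_iSupIndep
  have h2 := (h.pairwiseDisjoint hij).le_bot ⟨hi, hj⟩
  exact (Submodule.mem_bot F2).1 h2

section sphOf

variable {S : Type} [TopologicalSpace S] (z0 : S) (σ : HS S) {m : ℕ}

theorem exists_phi (hne : σ ≠ 0) (hep : ep σ = 0) :
    ∃ φ : HS S →ₗ[F2] F2, φ σ = 1 ∧ φ (ptc z0) = 0 := by
  obtain ⟨f, hf⟩ := Module.Projective.exists_dual_eq_one F2 hne
  refine ⟨f + (f (ptc z0)) • ep, ?_, ?_⟩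
  · rw [LinearMap.add_apply, LinearMap.smul_apply, hep, smul_zero, add_zero]
    exact hf
  · rw [LinearMap.add_apply, LinearMap.smul_apply, ep_ptc, smul_eq_mul, mul_one]
    exact CutWx749.add_self _

/-- `SphLike` from a spanning pair -/
def sphOf (hm : 0 < m) (hσ : σ ∈ hg S m) (hne : σ ≠ 0)
    (span : ∀ y : HS S, ∃ α β : F2, y = α • ptc z0 + β • σ) : SphLike S m where
  s₀ := z0
  σ := σ
  φ := (exists_phi z0 σ hne (ep_eq_zero (by omega) hσ)).choose
  σ_mem := hσ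
  pos := hm
  φ_deg := by
    have hep : ep σ = 0 := ep_eq_zero (by omega) hσ
    obtain ⟨h1, h0⟩ := (exists_phi z0 σ hne (ep_eq_zero (by omega) hσ)).choose_spec
    intro k hk b hb
    obtain ⟨α, β, h⟩ := span b
    have key : β = 0 := by
      rcases f2c β with h0 | h1
      · exact h0
      · exfalso
        subst h1
        rw [one_smul] at h
        by_cases hk0 : k = 0
        · subst hk0
          have : σ ∈ hg S 0 := by
            have e : σ = b - α • ptc z0 := by rw [h]; abel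
            rw [e]
            exact Submodule.sub_mem _ hb (Submodule.smul_mem _ _ (ptc_mem z0))
          exact hne (eq_zero_of_mem (by omega) this hσ)
        · have hα : α = 0 := by
            have e := congrArg ep h
            rw [map_add, map_smul, ep_ptc, hep, ep_eq_zero hk0 hb] at e
            simpa using e.symm
          rw [hα, zero_smul, zero_add] at h
          rw [h] at hb
          exact hne (eq_zero_of_mem hk hb hσ)
    rw [h, key, zero_smul, add_zero, map_smul, h0, smul_zero]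
  φ_σ := (exists_phi z0 σ hne (ep_eq_zero (by omega) hσ)).choose_spec.1
  decomp := by
    have hep : ep σ = 0 := ep_eq_zero (by omega) hσ
    obtain ⟨h1, h0⟩ := (exists_phi z0 σ hne (ep_eq_zero (by omega) hσ)).choose_spec
    intro a
    obtain ⟨α, β, h⟩ := span a
    have e1 : ep a = α := by
      rw [h, map_add, map_smul, map_smul, ep_ptc, hep, smul_eq_mul, smul_zero, mul_one, add_zero]
    have e2 : (exists_phi z0 σ hne (ep_eq_zero (by omega) hσ)).choose a = β := by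
      rw [h, map_add, map_smul, map_smul, h0, h1, smul_zero, zero_add, smul_eq_mul, mul_one]
    rw [e1, e2]
    exact h

end sphOf

@[simp] theorem sphOf_σ {S : Type} [TopologicalSpace S] (z0 : S) (σ : HS S) {m : ℕ} (hm : 0 < m)
    (hσ : σ ∈ hg S m) (hne : σ ≠ 0) (span : ∀ y : HS S, ∃ α β : F2, y = α • ptc z0 + β • σ) :
    (sphOf z0 σ hm hσ hne span).σ = σ := rfl

variable {M : Type} [MetricSpace M] {p : M} {n : ℕ} (W : CutData M p n)

theorem spanW (y : HS (W.cT.V ∩ W.bT.V : Set M)) :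
    ∃ α β : F2, y = α • ptc (⟨W.z0, W.hz0⟩ : (W.cT.V ∩ W.bT.V : Set M)) + β • W.sg := by
  obtain ⟨α, β, h⟩ := W.span y
  exact ⟨α, β, h⟩

/-- auxiliary: `sphOf` on `U ∩ V` -/
def sphWO (z0 : (W.cT.V ∩ W.bT.V : Set M)) (σ : HS (W.cT.V ∩ W.bT.V : Set M)) (hm : 0 < n - 1)
    (h : σ ∈ hg _ (n-1)) (h2 : σ ≠ 0)
    (h3 : ∀ y : HS (W.cT.V ∩ W.bT.V : Set M), ∃ α β : F2, y = α • ptc z0 + β • σ) :
    SphLike (W.cT.V ∩ W.bT.V : Set M) (n - 1) :=
  sphOf z0 σ hm h h2 h3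

theorem npos (W : CutData M p n) : 0 < n - 1 := by have := W.hn; omega

/-- the sphere `U ∩ V` of `CutData` -/
def sphW : SphLike (W.cT.V ∩ W.bT.V : Set M) (n - 1) :=
  sphWO W ⟨W.z0, W.hz0⟩ W.sg (npos W) W.sg_gr W.sg_ne (spanW W)





/-- an element with nonzero cross-product image is not zero -/
theorem ne_of_cx {A B S : Type} [TopologicalSpace A] [TopologicalSpace B] [TopologicalSpace S]
    {m : ℕ} (D : SphLike S m) (L : HS A →ₗ[F2] HS (B × S)) (a : HS A) (g : B)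
    (h : L a = CXx780.cx (ptc g) D.σ) : a ≠ 0 := by
  intro h0
  rw [h0, map_zero] at h
  have h2 : CXx780.cx (0 : HS B) D.σ = CXx780.cx (ptc g) D.σ := by
    rw [map_zero, LinearMap.zero_apply]; exact h
  exact ptc_ne_zero g (D.cx_σ_inj h2).symm

/-- **the class of the family `v_z` never dies** -/
theorem vz_ne {t : ℝ≥0} (ht : W.bT.L + W.cT.L ≤ (t : ℝ))
    {d : ℕ} (D : SphLike (W.cT.V ∩ W.bT.V : Set M) d) :
    Hm (vz W.bT W.cT ht) D.σ ≠ 0 :=
  ne_of_cx D ((Hm (GE W.bT W.cT t)) ∘ₗ (cylW W t).cut) _ _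
    (GE_cut_vz (susp W) ht D W.hp (cov W))

theorem inc_vC {t : ℝ≥0} (h : W.ℓ + W.ℓ ≤ t) (ht : W.bT.L + W.cT.L ≤ (t : ℝ))
    (a : HS (W.cT.V ∩ W.bT.V : Set M)) :
    Hm (OmSpx725.inc h) (Hm W.vC a) = Hm (vz W.bT W.cT ht) a :=
  (Hm_comp_apply _ _ a).symm

/-- **the class `x` never dies** -/
theorem x_ne {t : ℝ≥0} (h : W.ℓ + W.ℓ ≤ t) : Hm (OmSpx725.inc h) W.x ≠ 0 := by
  have ht : W.bT.L + W.cT.L ≤ (t : ℝ) := (bc_le W).trans (NNReal.coe_le_coe.2 h)
  intro h0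
  exact vz_ne W ht (sphW W) ((inc_vC W h ht W.sg).symm.trans h0)

end ne

end Crest.Agent.R231.XNex373
end
end

-- ▼ part R231/LocSl_682
section

/-!
# Row 231, block P, leaf Q3, part A (helper682, shadow of 607): the localised cap product

`LD Y` : a cover `Y = W ∪ V` (every point has `W` or `V` as a neighbourhood) and a cocycle `u` which
vanishes on the chains of `W`.
* `LD.lc : HS Y →ₗ HS V`, `[z] ↦ [u ∩ z]` for `z` small;
* naturality `LD.lc_nat`; products `lc_prodR`, `lc_prodL`; degrees `lc_mem`, `lc_eq_zero`;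
* `ep_lc` : `ε (lc x) = u x`;
* the `B = 0` lemma `lc_B`, `lc_B'`.
-/

set_option autoImplicit false

noncomputable section

namespace Crest.Agent.R231.LocSlx682

open Crest.Agent.R204 Crest.Agent.R204.SpecA Crest.Agent.R231.Capx226 SingAct265 EZ271 FinDim315
  CapCSx780 CrossCSx780 Pairx877 SmallCSx226 CXx780 Topology Set

variable {Y Y' Z B B' : Type} [TopologicalSpace Y] [TopologicalSpace Y'] [TopologicalSpace Z]
  [TopologicalSpace B] [TopologicalSpace B']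

/-- chain of a cycle for a cocycle, as a functional on homology -/
def evH (u : Co (SS.Sing Y)) (hu : cobd u = 0) : HS Y →ₗ[F2] F2 :=
  Submodule.liftQ _ (u ∘ₗ (LinearMap.ker (N.bd F2 (SS.Sing Y))).subtype) (by
    rintro ⟨z, hz⟩ ⟨w, hw⟩
    rw [LinearMap.mem_ker, LinearMap.comp_apply, ← hw]
    exact LinearMap.congr_fun hu w)

theorem evH_mk (u : Co (SS.Sing Y)) (hu : cobd u = 0) (z : CE Y) (hz : bdE Y z = 0) :
    evH u hu (Hd.mk _ z hz) = u z := rfl

/-- localisation data -/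
structure LD (Y : Type) [TopologicalSpace Y] where
  W : Set Y
  V : Set Y
  hc : ∀ y, W ∈ 𝓝 y ∨ V ∈ 𝓝 y
  u : Co (SS.Sing Y)
  hu : cobd u = 0
  hW : ∀ z ∈ CS W, u z = 0

namespace LD

variable (D : LD Y)

/-- small chains -/
def Sm : Submodule F2 (CE Y) := CS D.W ⊔ CS D.V



theorem T_Sm (O : SubOp Y) {z : CE Y} (hz : z ∈ D.Sm) : O.T z ∈ D.Sm := by
  obtain ⟨a, ha, b, hb, rfl⟩ := Submodule.mem_sup.1 hz
  rw [map_add]
  exact Submodule.add_mem_sup (O.T_mem _ a ha) (O.T_mem _ b hb)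

theorem prN_Sm (n : ℕ) {z : CE Y} (hz : z ∈ D.Sm) : Gr334.prN F2 _ n z ∈ D.Sm := by
  obtain ⟨a, ha, b, hb, rfl⟩ := Submodule.mem_sup.1 hz
  rw [map_add]
  exact Submodule.add_mem_sup (prN_mem_CS n a ha) (prN_mem_CS n b hb)

theorem exists_Sm (z : CE Y) : ∃ O : SubOp Y, O.S z ∈ D.Sm := by
  obtain ⟨O, c₁, h₁, c₂, h₂, h⟩ := exists_op_two (X := univ) (W := D.W) (V := D.V) (c := z)
    (fun x _ => by rw [nhdsWithin_univ]; exact D.hc x) (by rw [CS_univ]; trivial)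
  rw [univ_inter] at h₁ h₂
  exact ⟨O, by rw [h]; exact Submodule.add_mem_sup h₁ h₂⟩

theorem cap_mem {z : CE Y} (hz : z ∈ D.Sm) : cap D.u z ∈ CS D.V := cap_small D.hW hz

/-- the chain level operator -/
def kap : CE Y →ₗ[F2] CE D.V := res D.V ∘ₗ cap D.u

theorem kap_apply (z : CE Y) : D.kap z = res D.V (cap D.u z) := rfl

theorem inc_kap {z : CE Y} (hz : z ∈ D.Sm) :
    N.map F2 (SS.SingMap (SpecA.inc D.V)) (D.kap z) = cap D.u z :=
  map_inc_res _ (D.cap_mem hz)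

theorem bd_kap {z : CE Y} (hz : z ∈ D.Sm) : bdE D.V (D.kap z) = D.kap (bdE Y z) := by
  rw [kap_apply, kap_apply, bd_res _ (D.cap_mem hz), bd_cap_cocycle D.hu]

theorem kap_bd {z e : CE Y} (hz : z ∈ D.Sm) (he : bdE Y e = z) : ∃ w, bdE D.V w = D.kap z := by
  obtain ⟨O, hO⟩ := D.exists_Sm e
  refine ⟨D.kap (O.S e) + D.kap (O.T z), ?_⟩
  have h0 : bdE Y z = 0 := by rw [← he]; exact bd_bdE e
  have h1 := O.htp z
  rw [h0, map_zero, add_zero] at h1
  have h2 : bdE Y (O.S e) = O.S z := by rw [O.bd_S, he]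
  rw [map_add, D.bd_kap hO, D.bd_kap (D.T_Sm O hz), h2, ← map_add, ← h1]
  congr 1
  rw [add_comm z, ← add_assoc, Capx226.add_self, zero_add]

/-- small cycles -/
def Zs : Submodule F2 (CE Y) := D.Sm ⊓ LinearMap.ker (bdE Y)

/-- class of a small cycle -/
def toH : D.Zs →ₗ[F2] HS Y :=
  Submodule.mkQ _ ∘ₗ Submodule.inclusion (inf_le_right : D.Zs ≤ LinearMap.ker (bdE Y))

theorem Zs_bd {z : CE Y} (h : z ∈ D.Zs) : bdE Y z = 0 :=
  LinearMap.mem_ker.1 (Submodule.mem_inf.1 h).2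

theorem mem_Zs {z : CE Y} (hz : z ∈ D.Sm) (h : bdE Y z = 0) : z ∈ D.Zs :=
  Submodule.mem_inf.2 ⟨hz, LinearMap.mem_ker.2 h⟩

theorem toH_apply (z : CE Y) (h : z ∈ D.Zs) : D.toH ⟨z, h⟩ = Hd.mk _ z (D.Zs_bd h) := rfl

theorem toH_surj : Function.Surjective D.toH := by
  intro x
  obtain ⟨z, hz, rfl⟩ := Hd.mk_surj _ x
  obtain ⟨O, hO⟩ := D.exists_Sm z
  have hb : bdE Y (O.S z) = 0 := by
    rw [O.bd_S]
    have : bdE Y z = 0 := hz
    rw [this, map_zero]
  refine ⟨⟨O.S z, D.mem_Zs hO hb⟩, ?_⟩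
  refine Hd.mk_eq_mk.2 ⟨O.T z, ?_⟩
  have h1 := O.htp z
  have h0 : bdE Y z = 0 := hz
  rw [h0, map_zero, add_zero] at h1
  rw [sub_eq, add_comm]
  exact h1.symm

/-- class of `u ∩ z` -/
def toV : D.Zs →ₗ[F2] HS D.V :=
  Submodule.mkQ _ ∘ₗ LinearMap.codRestrict (LinearMap.ker (N.bd F2 (SS.Sing D.V)))
    (D.kap ∘ₗ D.Zs.subtype) (fun z => by
      rw [LinearMap.mem_ker]
      show bdE D.V (D.kap z.1) = 0
      rw [D.bd_kap z.2.1]
      have : bdE Y z.1 = 0 := z.2.2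
      rw [this, map_zero])

theorem kap_cyc {z : CE Y} (hz : z ∈ D.Sm) (h : bdE Y z = 0) : bdE D.V (D.kap z) = 0 := by
  rw [D.bd_kap hz, h, map_zero]

theorem toV_apply (z : CE Y) (h : z ∈ D.Zs) :
    D.toV ⟨z, h⟩ = Hd.mk _ (D.kap z) (D.kap_cyc (Submodule.mem_inf.1 h).1 (D.Zs_bd h)) := rfl

theorem toV_ker : LinearMap.ker D.toH ≤ LinearMap.ker D.toV := by
  rintro ⟨z, h⟩ hz
  rw [LinearMap.mem_ker, toH_apply] at hz
  obtain ⟨e, he⟩ := Hd.mk_eq_zero.1 hz
  rw [LinearMap.mem_ker, toV_apply]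
  exact Hd.mk_eq_zero.2 (D.kap_bd (Submodule.mem_inf.1 h).1 he)

/-- **the localised cap product** -/
def lc : HS Y →ₗ[F2] HS D.V :=
  (LinearMap.ker D.toH).liftQ D.toV D.toV_ker ∘ₗ
    (D.toH.quotKerEquivOfSurjective D.toH_surj).symm.toLinearMap

theorem lc_mk {z : CE Y} (hz : z ∈ D.Sm) (h : bdE Y z = 0) :
    D.lc (Hd.mk _ z h) = Hd.mk _ (D.kap z) (D.kap_cyc hz h) := by
  have e : (D.toH.quotKerEquivOfSurjective D.toH_surj).symm (Hd.mk _ z h) =
      Submodule.Quotient.mk ⟨z, D.mem_Zs hz h⟩ := by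
    rw [LinearEquiv.symm_apply_eq]
    rfl
  rw [lc, LinearMap.comp_apply, LinearEquiv.coe_coe, e]
  rfl

theorem exists_rep (x : HS Y) : ∃ z ∈ D.Sm, ∃ h : bdE Y z = 0, x = Hd.mk _ z h := by
  obtain ⟨⟨z, h⟩, rfl⟩ := D.toH_surj x
  exact ⟨z, (Submodule.mem_inf.1 h).1, D.Zs_bd h, rfl⟩

theorem exists_rep_gr {n : ℕ} {x : HS Y} (hx : x ∈ hg Y n) :
    ∃ z ∈ D.Sm, z ∈ N.gr F2 (SS.Sing Y) n ∧ ∃ h : bdE Y z = 0, x = Hd.mk _ z h := by
  obtain ⟨z, hz, h, rfl⟩ := D.exists_rep x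
  refine ⟨Gr334.prN F2 _ n z, D.prN_Sm n hz, Gr334.prN_mem _ _, Gr334.bd_prN_eq_zero h n, ?_⟩
  have := Gr334.prH_of_mem hx
  rw [← this]
  exact Gr334.prH_mk n z h

/-! ### degrees, augmentation -/

theorem lc_mem {q n : ℕ} (hq : Deg q D.u) {x : HS Y} (hx : x ∈ hg Y (q + n)) :
    D.lc x ∈ hg D.V n := by
  obtain ⟨z, hz, hn, h, rfl⟩ := D.exists_rep_gr hx
  rw [D.lc_mk hz h]
  exact Gr334.mk_mem_gr (res_gr (cap_mem_gr hq hn)) _

theorem lc_eq_zero {q n : ℕ} (hq : Deg q D.u) (hn : n < q) {x : HS Y} (hx : x ∈ hg Y n) :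
    D.lc x = 0 := by
  obtain ⟨z, hz, hn', h, rfl⟩ := D.exists_rep_gr hx
  rw [D.lc_mk hz h, Hd.mk_eq_zero]
  refine ⟨0, ?_⟩
  rw [map_zero, kap_apply, cap_gr_eq_zero hq hn hn', map_zero]

/-- nothing is left if `W` is everything -/
theorem lc_univ (h : D.W = univ) (x : HS Y) : D.lc x = 0 := by
  obtain ⟨z, hz, h', rfl⟩ := D.exists_rep x
  rw [D.lc_mk hz h', Hd.mk_eq_zero]
  refine ⟨0, ?_⟩
  have hz' : z ∈ CS D.W := by rw [h, CS_univ]; trivial
  rw [map_zero, kap_apply, cap_eq_zero_CS D.hW z hz', map_zero]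

theorem aug_cap (u : Co (SS.Sing Y)) (z : CE Y) : aug F2 (cap u z) = u z := by
  rw [← cup_apply, cup_aug_right]

theorem ep_mk {X : Type} [TopologicalSpace X] (z : CE X) (hz : bdE X z = 0) :
    ep (Hd.mk _ z hz) = aug F2 z := by
  rw [ep, Coalg847.eps_mk]
  have : Coalg847.nAug (SS.Sing X) = EZ271.aug F2 := by
    refine Gr334.N_ext fun n x => ?_
    rcases n with _ | n
    · rw [Coalg847.nAug_sx_zero, aug_sx_zero]
    · rw [Coalg847.nAug_gr (Nat.succ_ne_zero n) (Gr334.sx_mem_gr x), aug_sx_succ]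
  rw [this]

theorem ep_lc (x : HS Y) : ep (D.lc x) = evH D.u D.hu x := by
  obtain ⟨z, hz, h, rfl⟩ := D.exists_rep x
  rw [D.lc_mk hz h, evH_mk, ep_mk, ← aug_cap D.u z, ← D.inc_kap hz, aug_map]

/-! ### naturality -/

section nat

variable {D} {D' : LD Y'}

/-- restriction of a continuous map to subsets -/
def cr (f : C(Y, Z)) {V : Set Y} {V' : Set Z} (h : MapsTo f V V') : C(V, V') :=
  ⟨h.restrict f V V', f.continuous.restrict h⟩

@[simp] theorem cr_apply (f : C(Y, Z)) {V : Set Y} {V' : Set Z} (h : MapsTo f V V') (x : V) :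
    (cr f h x : Z) = f x := rfl

theorem map_CS {f : C(Y, Z)} {V : Set Y} {V' : Set Z} (h : MapsTo f V V') {z : CE Y}
    (hz : z ∈ CS V) : N.map F2 (SS.SingMap f) z ∈ CS V' := by
  rw [CS_eq_range] at hz ⊢
  obtain ⟨y, rfl⟩ := hz
  refine ⟨N.map F2 (SS.SingMap (cr f h)) y, ?_⟩
  rw [map_map, map_map]
  rfl

theorem res_map {f : C(Y, Z)} {V : Set Y} {V' : Set Z} (h : MapsTo f V V') {z : CE Y}
    (hz : z ∈ CS V) : res V' (N.map F2 (SS.SingMap f) z) = N.map F2 (SS.SingMap (cr f h)) (res V z) := by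
  rw [CS_eq_range] at hz
  obtain ⟨y, rfl⟩ := hz
  rw [res_map_inc, map_map]
  have e : (SS.SingMap f).comp (SS.SingMap (SpecA.inc V)) =
      (SS.SingMap (SpecA.inc V')).comp (SS.SingMap (cr f h)) := rfl
  rw [e, ← map_map, res_map_inc]

theorem map_Sm {f : C(Y, Y')} (hW : MapsTo f D.W D'.W) (hV : MapsTo f D.V D'.V) {z : CE Y}
    (hz : z ∈ D.Sm) : N.map F2 (SS.SingMap f) z ∈ D'.Sm := by
  obtain ⟨a, ha, b, hb, rfl⟩ := Submodule.mem_sup.1 hz
  rw [map_add]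
  exact Submodule.add_mem_sup (map_CS hW ha) (map_CS hV hb)

theorem kap_map {f : C(Y, Y')} (hV : MapsTo f D.V D'.V)
    (hu : D.u = pull (SS.SingMap f) D'.u) {z : CE Y} (hz : z ∈ D.Sm) :
    D'.kap (N.map F2 (SS.SingMap f) z) = N.map F2 (SS.SingMap (cr f hV)) (D.kap z) := by
  rw [kap_apply, kap_apply, ← map_cap, ← hu, res_map hV (D.cap_mem hz)]

/-- **naturality** -/
theorem lc_nat (f : C(Y, Y')) (hW : MapsTo f D.W D'.W) (hV : MapsTo f D.V D'.V)
    (hu : D.u = pull (SS.SingMap f) D'.u) (x : HS Y) :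
    D'.lc (Hm f x) = Hm (cr f hV) (D.lc x) := by
  obtain ⟨z, hz, h, rfl⟩ := D.exists_rep x
  have h' : bdE Y' (N.map F2 (SS.SingMap f) z) = 0 := by
    rw [← map_bd', h, map_zero]
  have e1 : Hm f (Hd.mk _ z h) = Hd.mk _ (N.map F2 (SS.SingMap f) z) h' := rfl
  rw [e1, D'.lc_mk (map_Sm hW hV hz) h', D.lc_mk hz h]
  have e2 : Hm (cr f hV) (Hd.mk _ (D.kap z) (D.kap_cyc hz h)) =
      Hd.mk _ (N.map F2 (SS.SingMap (cr f hV)) (D.kap z)) (by
        rw [← map_bd', D.kap_cyc hz h, map_zero]) := rfl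
  rw [e2]
  congr 1
  exact kap_map hV hu hz

end nat

/-! ### products -/

/-- `D × Z` -/
def prodR (Z : Type) [TopologicalSpace Z] : LD (Y × Z) where
  W := Prod.fst ⁻¹' D.W
  V := Prod.fst ⁻¹' D.V
  hc y := by
    rcases D.hc y.1 with h | h
    · exact Or.inl (continuous_fst.continuousAt.preimage_mem_nhds h)
    · exact Or.inr (continuous_fst.continuousAt.preimage_mem_nhds h)
  u := pull (SS.SingMap (fstC Y Z)) D.u
  hu := by rw [← pull_cobd, D.hu]; rfl
  hW z hz := D.hW _ (map_CS (f := fstC Y Z) (fun _ h => h) hz)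

/-- `Z × D` -/
def prodL (Z : Type) [TopologicalSpace Z] : LD (Z × Y) where
  W := Prod.snd ⁻¹' D.W
  V := Prod.snd ⁻¹' D.V
  hc y := by
    rcases D.hc y.2 with h | h
    · exact Or.inl (continuous_snd.continuousAt.preimage_mem_nhds h)
    · exact Or.inr (continuous_snd.continuousAt.preimage_mem_nhds h)
  u := pull (SS.SingMap (sndC Z Y)) D.u
  hu := by rw [← pull_cobd, D.hu]; rfl
  hW z hz := D.hW _ (map_CS (f := sndC Z Y) (fun _ h => h) hz)

/-- `V × Z → (V × Z ⊆ Y × Z)` -/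
def jR (Z : Type) [TopologicalSpace Z] : C(D.V × Z, (D.prodR Z).V) :=
  ⟨fun p => ⟨(p.1.1, p.2), p.1.2⟩, by fun_prop⟩

/-- `Z × V → (Z × V ⊆ Z × Y)` -/
def jL (Z : Type) [TopologicalSpace Z] : C(Z × D.V, (D.prodL Z).V) :=
  ⟨fun p => ⟨(p.1, p.2.1), p.2.2⟩, by fun_prop⟩

theorem lc_prodR (x : HS Y) (a : HS Z) :
    (D.prodR Z).lc (cx x a) = Hm (D.jR Z) (cx (D.lc x) a) := by
  obtain ⟨z, hz, h, rfl⟩ := D.exists_rep x
  obtain ⟨b, hb, rfl⟩ := Hd.mk_surj _ a
  have hs : crE z b ∈ (D.prodR Z).Sm := by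
    obtain ⟨z1, h1, z2, h2, rfl⟩ := Submodule.mem_sup.1 hz
    rw [map_add, LinearMap.add_apply]
    refine Submodule.add_mem_sup ?_ ?_
    · exact CS_mono (fun p hp => hp.1) (crE_mem (B := univ) h1 (by rw [CS_univ]; trivial))
    · exact CS_mono (fun p hp => hp.1) (crE_mem (B := univ) h2 (by rw [CS_univ]; trivial))
  rw [cx_crE z h b hb, (D.prodR Z).lc_mk hs, D.lc_mk hz h, cx_crE _ _ b hb]
  have e2 : Hm (D.jR Z) (Hd.mk _ (crE (D.kap z) b) (crE_cyc (D.kap_cyc hz h) hb)) =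
      Hd.mk _ (N.map F2 (SS.SingMap (D.jR Z)) (crE (D.kap z) b)) (by
        rw [← map_bd', crE_cyc (D.kap_cyc hz h) hb, map_zero]) := rfl
  rw [e2]
  congr 1
  rw [kap_apply]
  show res _ (cap (pull (SS.SingMap ⟨Prod.fst, continuous_fst⟩) D.u) (crE z b)) = _
  rw [cap_crE_fst, ← D.inc_kap hz]
  have e3 : crE (N.map F2 (SS.SingMap (SpecA.inc D.V)) (D.kap z)) b =
      N.map F2 (SS.SingMap (SpecA.inc (D.prodR Z).V))
        (N.map F2 (SS.SingMap (D.jR Z)) (crE (D.kap z) b)) := by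
    have := crE_map (SpecA.inc D.V) (ContinuousMap.id Z) (D.kap z) b
    have hid : N.map F2 (SS.SingMap (ContinuousMap.id Z)) b = b := by
      have : SS.SingMap (ContinuousMap.id Z) = SS.Hom.id _ := rfl
      rw [this, map_idHom]
    rw [hid] at this
    rw [← this, map_map]
    rfl
  rw [e3, res_map_inc]

theorem lc_prodL (a : HS Z) (x : HS Y) :
    (D.prodL Z).lc (cx a x) = Hm (D.jL Z) (cx a (D.lc x)) := by
  obtain ⟨z, hz, h, rfl⟩ := D.exists_rep x
  obtain ⟨b, hb, rfl⟩ := Hd.mk_surj _ a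
  have hs : crE b z ∈ (D.prodL Z).Sm := by
    obtain ⟨z1, h1, z2, h2, rfl⟩ := Submodule.mem_sup.1 hz
    rw [map_add]
    refine Submodule.add_mem_sup ?_ ?_
    · exact CS_mono (fun p hp => hp.2) (crE_mem (A := univ) (by rw [CS_univ]; trivial) h1)
    · exact CS_mono (fun p hp => hp.2) (crE_mem (A := univ) (by rw [CS_univ]; trivial) h2)
  rw [cx_crE b hb z h, (D.prodL Z).lc_mk hs, D.lc_mk hz h, cx_crE b hb]
  have e2 : Hm (D.jL Z) (Hd.mk _ (crE b (D.kap z)) (crE_cyc hb (D.kap_cyc hz h))) =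
      Hd.mk _ (N.map F2 (SS.SingMap (D.jL Z)) (crE b (D.kap z))) (by
        rw [← map_bd', crE_cyc hb (D.kap_cyc hz h), map_zero]) := rfl
  rw [e2]
  congr 1
  rw [kap_apply]
  show res _ (cap (pull (SS.SingMap ⟨Prod.snd, continuous_snd⟩) D.u) (crE b z)) = _
  rw [cap_crE_snd, ← D.inc_kap hz]
  have e3 : crE b (N.map F2 (SS.SingMap (SpecA.inc D.V)) (D.kap z)) =
      N.map F2 (SS.SingMap (SpecA.inc (D.prodL Z).V))
        (N.map F2 (SS.SingMap (D.jL Z)) (crE b (D.kap z))) := by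
    have := crE_map (ContinuousMap.id Z) (SpecA.inc D.V) b (D.kap z)
    have hid : N.map F2 (SS.SingMap (ContinuousMap.id Z)) b = b := by
      have : SS.SingMap (ContinuousMap.id Z) = SS.Hom.id _ := rfl
      rw [this, map_idHom]
    rw [hid] at this
    rw [← this, map_map]
    rfl
  rw [e3, res_map_inc]

/-! ### the `B = 0` lemma -/

/-- **`B = 0`** : `a × x`, `a` of degree bigger than the degree of the cochain, pushed by a map which
forgets `a` -/
theorem lc_B (W₀ V₀ : Set Y) (hc₀ : ∀ y, W₀ ∈ 𝓝 y ∨ V₀ ∈ 𝓝 y) {D' : LD Y'} {q p : ℕ}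
    (hq : Deg q D'.u) (hqp : q < p) (f : C(Z × Y, Y'))
    (hfW : ∀ a, ∀ y ∈ W₀, f (a, y) ∈ D'.W) (hfV : ∀ a, ∀ y ∈ V₀, f (a, y) ∈ D'.V)
    (g' : C(D'.V, B)) (g₀ : C(V₀, B))
    (hgg : ∀ (a : Z) (y : V₀), g' ⟨f (a, y), hfV a y y.2⟩ = g₀ y)
    {a : HS Z} (ha : a ∈ hg Z p) (x : HS Y) : Hm g' (D'.lc (Hm f (cx a x))) = 0 := by
  obtain ⟨z, hz, h, rfl⟩ := (LD.mk W₀ V₀ hc₀ 0 rfl (fun _ _ => rfl)).exists_rep x
  obtain ⟨b, hbp, hb, rfl⟩ := Gr334.mem_H_gr.1 ha
  obtain ⟨z1, h1, z2, h2, rfl⟩ := Submodule.mem_sup.1 hz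
  have h1' : crE b z1 ∈ CS (Prod.snd ⁻¹' W₀ : Set (Z × Y)) :=
    CS_mono (fun p hp => hp.2) (crE_mem (A := univ) (by rw [CS_univ]; trivial) h1)
  have h2' : crE b z2 ∈ CS (Prod.snd ⁻¹' V₀ : Set (Z × Y)) :=
    CS_mono (fun p hp => hp.2) (crE_mem (A := univ) (by rw [CS_univ]; trivial) h2)
  have mW : MapsTo f (Prod.snd ⁻¹' W₀ : Set (Z × Y)) D'.W := fun p hp => hfW p.1 p.2 hp
  have mV : MapsTo f (Prod.snd ⁻¹' V₀ : Set (Z × Y)) D'.V := fun p hp => hfV p.1 p.2 hp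
  have hs : N.map F2 (SS.SingMap f) (crE b (z1 + z2)) ∈ D'.Sm := by
    rw [map_add, map_add]
    exact Submodule.add_mem_sup (map_CS mW h1') (map_CS mV h2')
  have hcyc : bdE Y' (N.map F2 (SS.SingMap f) (crE b (z1 + z2))) = 0 := by
    rw [← map_bd', crE_cyc hb h, map_zero]
  have e1 : Hm f (cx (Hd.mk _ b hb) (Hd.mk _ (z1 + z2) h)) =
      Hd.mk _ (N.map F2 (SS.SingMap f) (crE b (z1 + z2))) hcyc := by
    rw [cx_crE b hb _ h]; rfl
  rw [e1, D'.lc_mk hs hcyc]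
  refine Hd.mk_eq_zero.2 ⟨0, ?_⟩
  rw [map_zero]
  symm
  show N.map F2 (SS.SingMap g') (D'.kap (N.map F2 (SS.SingMap f) (crE b (z1 + z2)))) = 0
  rw [kap_apply, ← map_cap, map_add (crE b), map_add (cap _)]
  have c1 : cap (pull (SS.SingMap f) D'.u) (crE b z1) = 0 :=
    cap_eq_zero_CS (A := Prod.snd ⁻¹' W₀) (fun w hw => D'.hW _ (map_CS mW hw)) _ h1'
  rw [c1, zero_add, res_map mV (cap_mem_CS _ _ h2'), map_map]
  have mS : MapsTo (sndC Z Y) (Prod.snd ⁻¹' V₀ : Set (Z × Y)) V₀ := fun _ h => h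
  have e2 : (SS.SingMap g').comp (SS.SingMap (cr f mV)) =
      (SS.SingMap g₀).comp (SS.SingMap (cr (sndC Z Y) mS)) := by
    rw [← SingMap_comp, ← SingMap_comp]
    congr 1
    exact ContinuousMap.ext fun p => hgg p.1.1 ⟨p.1.2, p.2⟩
  rw [e2, ← map_map, ← res_map mS (cap_mem_CS _ _ h2')]
  have e3 : N.map F2 (SS.SingMap (sndC Z Y)) (cap (pull (SS.SingMap f) D'.u) (crE b z2)) = 0 :=
    snd_cap_crE_eq_zero hqp (hq.pull _) hbp z2
  rw [e3, map_zero, map_zero]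

/-- the same with the forgotten factor on the right -/
theorem lc_B' (W₀ V₀ : Set Y) (hc₀ : ∀ y, W₀ ∈ 𝓝 y ∨ V₀ ∈ 𝓝 y) {D' : LD Y'} {q p : ℕ}
    (hq : Deg q D'.u) (hqp : q < p) (f : C(Y × Z, Y'))
    (hfW : ∀ a, ∀ y ∈ W₀, f (y, a) ∈ D'.W) (hfV : ∀ a, ∀ y ∈ V₀, f (y, a) ∈ D'.V)
    (g' : C(D'.V, B)) (g₀ : C(V₀, B))
    (hgg : ∀ (a : Z) (y : V₀), g' ⟨f (y, a), hfV a y y.2⟩ = g₀ y)
    (x : HS Y) {a : HS Z} (ha : a ∈ hg Z p) : Hm g' (D'.lc (Hm f (cx x a))) = 0 := by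
  have h := lc_B W₀ V₀ hc₀ hq hqp (f.comp (swC Z Y)) hfW hfV g' g₀ hgg ha x
  rwa [Hm_comp_apply, cx_swap] at h

end LD

end Crest.Agent.R231.LocSlx682
end
end

-- ▼ part R231/Th_682
section

/-!
# Row 231, block P, leaf Q3 (helper682): `Th w = S_*(w ∩ F^*ω)` on marked loops

`Cw p s' q` : cochains `ω` of degree `q` on `Sing (ℝ → M)`, cocycles on every `Om p T`, zero on `Om p s'`.
`Cw.Th : HS (Om2T p T) →ₗ HS (OmT p u)` for `T + 1 ≤ u + s'`.
-/

set_option autoImplicit false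
set_option linter.unusedVariables false

noncomputable section

namespace Crest.Agent.R231.Thx682

open Crest.Agent.R204 Crest.Agent.R231.Capx226 SingAct265 EZ271 FinDim315 CapCSx780 CrossCSx780
  Pairx877 CXx780 Topology Set NNReal OmSpx725 Moorex725 LocSlx682 LocSlx682.LD

open Crest.Agent.R204.SpecA (Hm)

variable {M : Type} [PseudoMetricSpace M] {p : M}

/-- the underlying curve -/
def valO (p : M) (t : ℝ≥0) : C(OmT p t, ℝ → M) := ⟨Subtype.val, continuous_subtype_val⟩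

/-- the first curve of a marked loop -/
def FO (p : M) (T : ℝ≥0) : C(Om2T p T, ℝ → M) := ⟨fun x => x.1.1, continuous_F⟩

/-- chains which come from a map with values in a set -/
theorem map_mem {Y E : Type} [TopologicalSpace Y] [TopologicalSpace E] (f : C(Y, E)) {X : Set E}
    (h : ∀ y, f y ∈ X) (z : CE Y) : N.map F2 (SS.SingMap f) z ∈ CS X :=
  map_CS (V := univ) (fun y _ => h y) (by rw [CS_univ]; trivial)

theorem Hm_cx_cr {X Y Y' Z : Type} [TopologicalSpace X] [TopologicalSpace Y] [TopologicalSpace Y']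
    [TopologicalSpace Z] (g : C(Y, Y')) (m : C(X × Y', Z)) (x : HS X) (y : HS Y) :
    Hm m (cx x (Hm g y)) = Hm (m.comp ((ContinuousMap.id X).prodMap g)) (cx x y) := by
  rw [← Hm_cx_right, ← Hm_comp_apply]

theorem Hm_cx_cl {X Y Y' Z : Type} [TopologicalSpace X] [TopologicalSpace Y] [TopologicalSpace Y']
    [TopologicalSpace Z] (g : C(Y, Y')) (m : C(Y' × X, Z)) (x : HS X) (y : HS Y) :
    Hm m (cx (Hm g y) x) = Hm (m.comp (g.prodMap (ContinuousMap.id X))) (cx y x) := by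
  rw [← Hm_cx_left, ← Hm_comp_apply]

theorem Hm_eq_of {X Y : Type} [TopologicalSpace X] [TopologicalSpace Y] {f g : C(X, Y)}
    (h : f.Homotopic g) (x : HS X) : Hm f x = Hm g x := LinearMap.congr_fun (Hm_homotopic h) x

/-- cochain data -/
structure Cw (p : M) (s' : ℝ≥0) (q : ℕ) where
  c : Co (SS.Sing (ℝ → M))
  deg : Deg q c
  cyc : ∀ T : ℝ≥0, ∀ z ∈ CS (Om p (T : ℝ)), c (bdE _ z) = 0
  van : ∀ z ∈ CS (Om p (s' : ℝ)), c z = 0

namespace Cw

variable {s' : ℝ≥0} {q : ℕ} (C : Cw p s' q)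

/-- the cocycle on `OmT p t` -/
def cO (t : ℝ≥0) : Co (SS.Sing (OmT p t)) := pull (SS.SingMap (valO p t)) C.c

theorem cobd_cO (t : ℝ≥0) : cobd (C.cO t) = 0 := by
  refine LinearMap.ext fun z => ?_
  rw [cobd_apply, cO, pull_apply, map_bd']
  exact C.cyc t _ (map_mem _ (fun y => y.2) z)

/-- the functional on the homology of `OmT p t` -/
def om (t : ℝ≥0) : HS (OmT p t) →ₗ[F2] F2 := evH (C.cO t) (C.cobd_cO t)

theorem om_inc {t t' : ℝ≥0} (h : t ≤ t') (x : HS (OmT p t)) :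
    C.om t' (Hm (inc h) x) = C.om t x := by
  obtain ⟨z, hz, rfl⟩ := Hd.mk_surj _ x
  show C.c (N.map F2 (SS.SingMap (valO p t')) (N.map F2 (SS.SingMap (inc h)) z)) =
    C.c (N.map F2 (SS.SingMap (valO p t)) z)
  rw [map_map]
  rfl

/-- the cocycle on `Om2T p T` -/
def cF (T : ℝ≥0) : Co (SS.Sing (Om2T p T)) := pull (SS.SingMap (FO p T)) C.c

theorem deg_cF (T : ℝ≥0) : Deg q (C.cF T) := C.deg.pull _

theorem cobd_cF (T : ℝ≥0) : cobd (C.cF T) = 0 := by
  refine LinearMap.ext fun z => ?_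
  rw [cobd_apply, cF, pull_apply, map_bd']
  exact C.cyc T _ (map_mem _ (fun y => Om_mono p y.2.2.2.2 y.2.1) z)

/-- localisation data on `Om2T p T` -/
def ld (T : ℝ≥0) : LD (Om2T p T) where
  W := {x | x.1.2.2 ≤ (s' : ℝ)}
  V := {x | (s' : ℝ) - 1 < x.1.2.2}
  hc x := by
    rcases lt_or_ge x.1.2.2 (s' : ℝ) with h | h
    · exact Or.inl (Filter.mem_of_superset
        ((isOpen_lt continuous_r continuous_const).mem_nhds h)
        fun (y : Om2T p T) (hy : y.1.2.2 < (s' : ℝ)) => hy.le)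
    · exact Or.inr ((isOpen_lt continuous_const continuous_r).mem_nhds
        (show (s' : ℝ) - 1 < x.1.2.2 by linarith))
  u := C.cF T
  hu := C.cobd_cF T
  hW z hz := C.van _ (map_CS (f := FO p T) (fun y hy => Om_mono p hy y.2.1) hz)

@[simp] theorem mem_ldW {T : ℝ≥0} {x : Om2T p T} : x ∈ (C.ld T).W ↔ x.1.2.2 ≤ (s' : ℝ) := Iff.rfl

@[simp] theorem mem_ldV {T : ℝ≥0} {x : Om2T p T} : x ∈ (C.ld T).V ↔ (s' : ℝ) - 1 < x.1.2.2 := Iff.rfl

/-- the second loop -/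
def gS {T u : ℝ≥0} (h : T + 1 ≤ u + s') : C((C.ld T).V, OmT p u) where
  toFun x := ⟨x.1.1.2.1, Om_mono p (by
    have h1 : (T : ℝ) + 1 ≤ u + s' := by exact_mod_cast h
    have h2 := (C.mem_ldV).1 x.2
    linarith) x.1.2.2.1⟩
  continuous_toFun := (continuous_S.comp continuous_subtype_val).subtype_mk _

@[simp] theorem gS_val {T u : ℝ≥0} (h : T + 1 ≤ u + s') (x : (C.ld T).V) :
    (C.gS h x).1 = x.1.1.2.1 := rfl

/-- **the operator** `Th w = S_*(w ∩ F^*ω)` -/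
def Th {T u : ℝ≥0} (h : T + 1 ≤ u + s') : HS (Om2T p T) →ₗ[F2] HS (OmT p u) :=
  Hm (C.gS h) ∘ₗ (C.ld T).lc

theorem Th_apply {T u : ℝ≥0} (h : T + 1 ≤ u + s') (w : HS (Om2T p T)) :
    C.Th h w = Hm (C.gS h) ((C.ld T).lc w) := rfl

theorem Th_gr {T u : ℝ≥0} (h : T + 1 ≤ u + s') (j : ℕ) {w : HS (Om2T p T)}
    (hw : w ∈ hg (Om2T p T) (j + q)) : C.Th h w ∈ hg (OmT p u) j :=
  Hm_mem_hg _ ((C.ld T).lc_mem (C.deg_cF T) (by rwa [add_comm]))

theorem Th_lt {T u : ℝ≥0} (h : T + 1 ≤ u + s') {j : ℕ} {w : HS (Om2T p T)}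
    (hw : w ∈ hg (Om2T p T) j) (hj : j < q) : C.Th h w = 0 := by
  rw [Th_apply, (C.ld T).lc_eq_zero (C.deg_cF T) hj hw, map_zero]

theorem Th_inc {T u v : ℝ≥0} (h : T + 1 ≤ u + s') (h1 : u ≤ v) (h2 : T + 1 ≤ v + s')
    (w : HS (Om2T p T)) : Hm (inc h1) (C.Th h w) = C.Th h2 w := by
  rw [Th_apply, Th_apply, ← Hm_comp_apply]
  rfl

/-- naturality of the localised cap product for maps into `Om2T` which do not change `F`
and the side of the mark -/
theorem Th_nat {Y : Type} [TopologicalSpace Y] (D : LD Y) {T u : ℝ≥0} (h : T + 1 ≤ u + s')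
    (f : C(Y, Om2T p T)) (hW : MapsTo f D.W (C.ld T).W) (hV : MapsTo f D.V (C.ld T).V)
    (hu : D.u = pull (SS.SingMap f) (C.cF T)) (x : HS Y) :
    C.Th h (Hm f x) = Hm ((C.gS h).comp (cr f hV)) (D.lc x) := by
  rw [Th_apply, lc_nat (D := D) (D' := C.ld T) f hW hV hu, ← Hm_comp_apply]

theorem Th_inc2 {T T' u : ℝ≥0} (h1 : T ≤ T') (h : T' + 1 ≤ u + s') (h2 : T + 1 ≤ u + s')
    (w : HS (Om2T p T)) : C.Th h (Hm (inc2 h1) w) = C.Th h2 w := by
  rw [C.Th_nat (C.ld T) h (inc2 h1) (fun x hx => hx) (fun x hx => hx) (by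
    refine LinearMap.ext fun z => ?_
    show C.c (N.map F2 (SS.SingMap (FO p T)) z) =
      C.c (N.map F2 (SS.SingMap (FO p T')) (N.map F2 (SS.SingMap (inc2 h1)) z))
    rw [map_map]
    rfl)]
  rfl

/-- everything is in `W` -/
theorem Th_small {Y : Type} [TopologicalSpace Y] {T u : ℝ≥0} (h : T + 1 ≤ u + s')
    (f : C(Y, Om2T p T)) (hf : ∀ y, (f y).1.2.2 ≤ (s' : ℝ)) (x : HS Y) :
    C.Th h (Hm f x) = 0 := by
  let D : LD Y :=
    { W := univ
      V := ∅
      hc := fun y => Or.inl Filter.univ_mem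
      u := pull (SS.SingMap f) (C.cF T)
      hu := by rw [← pull_cobd, C.cobd_cF]; rfl
      hW := fun z hz => (C.ld T).hW _ (map_CS (f := f) (V := univ) (fun y _ => hf y) hz) }
  rw [C.Th_nat D h f (fun y _ => hf y) (fun y hy => hy.elim) rfl, D.lc_univ rfl, map_zero]

/-- **`B = 0`**, the forgotten factor on the right -/
theorem Th_B' {Y Z : Type} [TopologicalSpace Y] [TopologicalSpace Z] {T u : ℝ≥0}
    (h : T + 1 ≤ u + s') (f : C(Y × Z, Om2T p T)) (ρ : Y → ℝ) (hρ : Continuous ρ)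
    (hr : ∀ y a, (f (y, a)).1.2.2 = ρ y) (z₀ : Z)
    (hS : ∀ y a, (f (y, a)).1.2.1 = (f (y, z₀)).1.2.1) (x : HS Y) {i : ℕ} {a : HS Z}
    (ha : a ∈ hg Z i) (hqi : q < i) : C.Th h (Hm f (cx x a)) = 0 := by
  rw [Th_apply]
  refine lc_B' (D' := C.ld T) {y | ρ y ≤ (s' : ℝ)} {y | (s' : ℝ) - 1 < ρ y} (fun y => ?_)
    (C.deg_cF T) hqi f (fun a y hy => ?_) (fun a y hy => ?_) (C.gS h)
    ((C.gS h).comp ⟨fun y => ⟨f (y.1, z₀), ?_⟩, ?_⟩) (fun a y => ?_) x ha
  · rcases lt_or_ge (ρ y) (s' : ℝ) with h | h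
    · exact Or.inl (Filter.mem_of_superset
        ((isOpen_lt hρ continuous_const).mem_nhds h)
        fun (y : Y) (hy : ρ y < (s' : ℝ)) => hy.le)
    · exact Or.inr ((isOpen_lt continuous_const hρ).mem_nhds
        (show (s' : ℝ) - 1 < ρ y by linarith))
  · show (f (y, a)).1.2.2 ≤ (s' : ℝ)
    rw [hr]; exact hy
  · show (s' : ℝ) - 1 < (f (y, a)).1.2.2
    rw [hr]; exact hy
  · show (s' : ℝ) - 1 < (f (y.1, z₀)).1.2.2
    rw [hr]; exact y.2
  · exact Continuous.subtype_mk (f.continuous.comp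
      ((continuous_subtype_val).prodMk continuous_const)) _
  · exact OmT_ext (hS y.1 a)

/-- **`B = 0`**, the forgotten factor on the left -/
theorem Th_B {Y Z : Type} [TopologicalSpace Y] [TopologicalSpace Z] {T u : ℝ≥0}
    (h : T + 1 ≤ u + s') (f : C(Z × Y, Om2T p T)) (ρ : Y → ℝ) (hρ : Continuous ρ)
    (hr : ∀ y a, (f (a, y)).1.2.2 = ρ y) (z₀ : Z)
    (hS : ∀ y a, (f (a, y)).1.2.1 = (f (z₀, y)).1.2.1) {i : ℕ} {a : HS Z}
    (ha : a ∈ hg Z i) (hqi : q < i) (x : HS Y) : C.Th h (Hm f (cx a x)) = 0 := by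
  have h2 := C.Th_B' h (f.comp (swC Y Z)) ρ hρ (fun y a => hr y a) z₀ (fun y a => hS y a) x ha hqi
  rwa [Hm_comp_apply, cx_swap] at h2

/-- `ε (Th w) = ω (F_* w)` -/
theorem ep_Th {T u T' : ℝ≥0} (h : T + 1 ≤ u + s') (h' : T ≤ T') (w : HS (Om2T p T)) :
    ep (C.Th h w) = C.om T' (Hm (inc h') (Hm (fsF p T) w)) := by
  rw [Th_apply, ep_Hm, ep_lc, C.om_inc]
  obtain ⟨z, hz, rfl⟩ := Hd.mk_surj _ w
  show C.c (N.map F2 (SS.SingMap (FO p T)) z) =
    C.c (N.map F2 (SS.SingMap (valO p T)) (N.map F2 (SS.SingMap (fsF p T)) z))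
  rw [map_map]
  rfl

/-! ### the maps of `OmSp_725` in homology -/

end Cw

/-- `(y, 1)` -/
def i1H (p : M) {t t' : ℝ≥0} (h : t ≤ t') : HS (OmT p t) →ₗ[F2] HS (Om2T p t') :=
  Hm ((inc2 h).comp (i1 p t))

/-- `(1, y)` -/
def i2H (p : M) {t t' : ℝ≥0} (h : t ≤ t') : HS (OmT p t) →ₗ[F2] HS (Om2T p t') :=
  Hm ((inc2 h).comp (i2 p t))

/-- composition at the mark -/
def oH (p : M) {s t u : ℝ≥0} (h : s + t ≤ u) :
    HS (Om2T p s) →ₗ[F2] HS (Om2T p t) →ₗ[F2] HS (Om2T p u) :=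
  cx.compr₂ (Hm ((inc2 h).comp (cmp p s t)))

/-- concatenation -/
def mH (p : M) {s t u : ℝ≥0} (h : s + t ≤ u) :
    HS (OmT p s) →ₗ[F2] HS (OmT p t) →ₗ[F2] HS (OmT p u) :=
  cx.compr₂ (Hm ((inc h).comp (mul p s t)))

theorem oH_apply {s t u : ℝ≥0} (h : s + t ≤ u) (a : HS (Om2T p s)) (b : HS (Om2T p t)) :
    oH p h a b = Hm ((inc2 h).comp (cmp p s t)) (cx a b) := rfl


theorem oH_right {s t t' u : ℝ≥0} (h : s + t' ≤ u) (ζ : C(OmT p t, Om2T p t'))
    (a : HS (Om2T p s)) (b : HS (OmT p t)) : oH p h a (Hm ζ b) =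
      Hm (((inc2 h).comp (cmp p s t')).comp ((ContinuousMap.id _).prodMap ζ)) (cx a b) := by
  rw [oH_apply, ← Hm_cx_right, ← Hm_comp_apply]

theorem oH_left {s t t' u : ℝ≥0} (h : t' + s ≤ u) (ζ : C(OmT p t, Om2T p t'))
    (a : HS (Om2T p s)) (b : HS (OmT p t)) : oH p h (Hm ζ b) a =
      Hm (((inc2 h).comp (cmp p t' s)).comp (ζ.prodMap (ContinuousMap.id _))) (cx b a) := by
  rw [oH_apply, ← Hm_cx_left, ← Hm_comp_apply]

namespace Cw

variable {s' : ℝ≥0} {q : ℕ} (C : Cw p s' q)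

/-- `Th (F z, S) = 0` if `deg z > q` -/
theorem Th_o_i1 {s t t' T u : ℝ≥0} (h1 : t ≤ t') (h : s + t' ≤ T) (h2 : T + 1 ≤ u + s') {i : ℕ}
    (w : HS (Om2T p s)) {z : HS (OmT p t)} (hz : z ∈ hg (OmT p t) i) (hi : q < i) :
    C.Th h2 (oH p h w (i1H p h1 z)) = 0 := by
  rw [i1H, oH_right]
  exact C.Th_B' h2 _ (fun y : Om2T p s => y.1.2.2 + (t : ℝ)) (continuous_r.add continuous_const)
    (fun y a => rfl) (one p t) (fun y a => rfl) w hz hi

/-- `Th (y F, S) = 0` if `deg y > q` -/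
theorem Th_i1_o {s t t' T u : ℝ≥0} (h1 : t ≤ t') (h : t' + s ≤ T) (h2 : T + 1 ≤ u + s') {i : ℕ}
    (w : HS (Om2T p s)) {y : HS (OmT p t)} (hy : y ∈ hg (OmT p t) i) (hi : q < i) :
    C.Th h2 (oH p h (i1H p h1 y) w) = 0 := by
  rw [i1H, oH_left]
  exact C.Th_B h2 _ (fun y : Om2T p s => (t : ℝ) + y.1.2.2) (continuous_const.add continuous_r)
    (fun y a => rfl) (one p t) (fun y a => rfl) hy hi w

/-- `(z, (F, S, r)) ↦ (F, z S, r)` -/
def fo2 (p : M) {s t t' T : ℝ≥0} (h1 : t ≤ t') (h : s + t' ≤ T) :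
    C(OmT p t × Om2T p s, Om2T p T) :=
  (((inc2 h).comp (cmp p s t')).comp
    ((ContinuousMap.id (Om2T p s)).prodMap ((inc2 h1).comp (i2 p t)))).comp
      (swC (OmT p t) (Om2T p s))

theorem fo2_F {s t t' T : ℝ≥0} (h1 : t ≤ t') (h : s + t' ≤ T) (y : OmT p t × Om2T p s) :
    (fo2 p h1 h y).1.1 = y.2.1.1 := cc_const_right y.2.2.1

theorem fo2_S {s t t' T : ℝ≥0} (h1 : t ≤ t') (h : s + t' ≤ T) (y : OmT p t × Om2T p s) :
    (fo2 p h1 h y).1.2.1 = cc (t' : ℝ) y.1.1 y.2.1.2.1 := by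
  rw [← sub_zero (t' : ℝ)]; rfl

theorem fo2_r {s t t' T : ℝ≥0} (h1 : t ≤ t') (h : s + t' ≤ T) (y : OmT p t × Om2T p s) :
    (fo2 p h1 h y).1.2.2 = y.2.1.2.2 := add_zero _

theorem oH_i2 {s t t' T : ℝ≥0} (h1 : t ≤ t') (h : s + t' ≤ T) (w : HS (Om2T p s))
    (z : HS (OmT p t)) : oH p h w (i2H p h1 z) = Hm (fo2 p h1 h) (cx z w) := by
  rw [i2H, oH_right, ← cx_swap, ← Hm_comp_apply, fo2]

/-- `((F, S, r), y) ↦ (F, S y, r)` -/
def f2o (p : M) {s t t' T : ℝ≥0} (h1 : t ≤ t') (h : t' + s ≤ T) :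
    C(Om2T p s × OmT p t, Om2T p T) :=
  (((inc2 h).comp (cmp p t' s)).comp
    (((inc2 h1).comp (i2 p t)).prodMap (ContinuousMap.id (Om2T p s)))).comp
      (swC (Om2T p s) (OmT p t))

theorem f2o_F {s t t' T : ℝ≥0} (h1 : t ≤ t') (h : t' + s ≤ T) (y : Om2T p s × OmT p t) :
    (f2o p h1 h y).1.1 = y.1.1.1 := cc_const_left y.1.2.1

theorem f2o_S {s t t' T : ℝ≥0} (h1 : t ≤ t') (h : t' + s ≤ T) (y : Om2T p s × OmT p t) :
    (f2o p h1 h y).1.2.1 = cc ((s : ℝ) - y.1.1.2.2) y.1.1.2.1 y.2.1 := rfl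

theorem f2o_r {s t t' T : ℝ≥0} (h1 : t ≤ t') (h : t' + s ≤ T) (y : Om2T p s × OmT p t) :
    (f2o p h1 h y).1.2.2 = y.1.1.2.2 := zero_add _

theorem i2_oH {s t t' T : ℝ≥0} (h1 : t ≤ t') (h : t' + s ≤ T) (w : HS (Om2T p s))
    (y : HS (OmT p t)) : oH p h (i2H p h1 y) w = Hm (f2o p h1 h) (cx w y) := by
  rw [i2H, oH_left, ← cx_swap, ← Hm_comp_apply, f2o]

/-- a map into `Om2T` which keeps the first loop of one factor pulls back the cocycle -/
theorem pull_cF {Y : Type} [TopologicalSpace Y] {s T : ℝ≥0} (f : C(Y, Om2T p T))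
    (g : C(Y, Om2T p s)) (h : ∀ y, (f y).1.1 = (g y).1.1) :
    pull (SS.SingMap g) (C.cF s) = pull (SS.SingMap f) (C.cF T) := by
  refine LinearMap.ext fun z => ?_
  have e1 : pull (SS.SingMap g) (C.cF s) z =
      C.c (N.map F2 (SS.SingMap ((FO p s).comp g)) z) := by
    rw [SingMap_comp, ← map_map]; rfl
  have e2 : pull (SS.SingMap f) (C.cF T) z =
      C.c (N.map F2 (SS.SingMap ((FO p T).comp f)) z) := by
    rw [SingMap_comp, ← map_map]; rfl
  have e3 : (FO p T).comp f = (FO p s).comp g := ContinuousMap.ext fun y => h y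
  rw [e1, e2, e3]

/-- `Th (F, z S) = z · Th (F, S)` -/
theorem Th_fo2 {s t t' T u v : ℝ≥0} (h1 : t ≤ t') (h : s + t' ≤ T) (h2 : T + 1 ≤ u + s')
    (h3 : s + 1 ≤ v + s') (h4 : t + v ≤ u) (w : HS (Om2T p s)) (z : HS (OmT p t)) :
    C.Th h2 (Hm (fo2 p h1 h) (cx z w)) = mH p h4 z (C.Th h3 w) := by
  have k1 : (t : ℝ) ≤ t' := by exact_mod_cast h1
  have k2 : (s : ℝ) + t' ≤ T := by exact_mod_cast h
  have k3 : (T : ℝ) + 1 ≤ u + s' := by exact_mod_cast h2
  have hW : MapsTo (fo2 p h1 h) ((C.ld s).prodL (OmT p t)).W (C.ld T).W := fun y hy => by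
    rw [C.mem_ldW, fo2_r]; exact hy
  have hV : MapsTo (fo2 p h1 h) ((C.ld s).prodL (OmT p t)).V (C.ld T).V := fun y hy => by
    rw [C.mem_ldV, fo2_r]; exact hy
  have key := C.Th_nat ((C.ld s).prodL (OmT p t)) h2 (fo2 p h1 h) hW hV
    (C.pull_cF (fo2 p h1 h) (sndC (OmT p t) (Om2T p s)) (fo2_F h1 h)) (cx z w)
  have e1 := congrArg (Hm ((C.gS h2).comp (cr (fo2 p h1 h) hV))) ((C.ld s).lc_prodL z w)
  have e2 := Hm_comp_apply ((C.gS h2).comp (cr (fo2 p h1 h) hV)) ((C.ld s).jL (OmT p t))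
    (cx z ((C.ld s).lc w))
  have e3 := Hm_cx_cr (C.gS h3) ((inc h4).comp (mul p t v)) z ((C.ld s).lc w)
  refine key.trans (e1.trans (e2.symm.trans ((Hm_eq_of ?_ _).trans e3.symm)))
  have kV : ∀ x : (C.ld s).V, (s' : ℝ) - 1 < x.1.1.2.2 := fun x => x.2
  refine htpO (fun l x => cc (mix l t' t) x.1.1 x.2.1.1.2.1) (fun l x => ?_) ?_ (fun x => ?_)
    (fun x => ?_)
  · refine cc_mem_of_le x.1.2 x.2.1.2.2.1 (le_mix k1 le_rfl) (le_mix t'.2 t.2)
      (by linarith [x.2.1.2.2.2.2]) ?_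
    have h5 := mix_le (u := l) (le_refl (t' : ℝ)) k1
    linarith [kV x.2]
  · refine continuous_cc (continuous_subtype_val.comp (continuous_fst.comp continuous_snd))
      (continuous_S.comp (continuous_subtype_val.comp (continuous_snd.comp continuous_snd)))
      (continuous_mixc _ _) (fun x => x.2.2.1.2.2.1.1) fun x => ?_
    exact (x.2.1.2.2.2 _ (le_mix k1 le_rfl)).trans (x.2.2.1.2.2.1.2.1 _ le_rfl).symm
  · rw [mix_zero]
    exact (fo2_S h1 h (x.1, x.2.1)).symm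
  · rw [mix_one]; rfl

theorem Th_o_i2 {s t t' T u v : ℝ≥0} (h1 : t ≤ t') (h : s + t' ≤ T) (h2 : T + 1 ≤ u + s')
    (h3 : s + 1 ≤ v + s') (h4 : t + v ≤ u) (w : HS (Om2T p s)) (z : HS (OmT p t)) :
    C.Th h2 (oH p h w (i2H p h1 z)) = mH p h4 z (C.Th h3 w) := by
  rw [oH_i2, C.Th_fo2 h1 h h2 h3 h4]

/-- `Th (F, S y) = Th (F, S) · y` -/
theorem Th_f2o {s t t' T u v : ℝ≥0} (h1 : t ≤ t') (h : t' + s ≤ T) (h2 : T + 1 ≤ u + s')
    (h3 : s + 1 ≤ v + s') (h4 : v + t ≤ u) (w : HS (Om2T p s)) (y : HS (OmT p t)) :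
    C.Th h2 (Hm (f2o p h1 h) (cx w y)) = mH p h4 (C.Th h3 w) y := by
  have k1 : (t : ℝ) ≤ t' := by exact_mod_cast h1
  have k2 : (t' : ℝ) + s ≤ T := by exact_mod_cast h
  have k3 : (T : ℝ) + 1 ≤ u + s' := by exact_mod_cast h2
  have k4 : (s : ℝ) + 1 ≤ v + s' := by exact_mod_cast h3
  have k5 : (v : ℝ) + t ≤ u := by exact_mod_cast h4
  have hW : MapsTo (f2o p h1 h) ((C.ld s).prodR (OmT p t)).W (C.ld T).W := fun y hy => by
    rw [C.mem_ldW, f2o_r]; exact hy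
  have hV : MapsTo (f2o p h1 h) ((C.ld s).prodR (OmT p t)).V (C.ld T).V := fun y hy => by
    rw [C.mem_ldV, f2o_r]; exact hy
  have key := C.Th_nat ((C.ld s).prodR (OmT p t)) h2 (f2o p h1 h) hW hV
    (C.pull_cF (f2o p h1 h) (fstC (Om2T p s) (OmT p t)) (f2o_F h1 h)) (cx w y)
  have e1 := congrArg (Hm ((C.gS h2).comp (cr (f2o p h1 h) hV))) ((C.ld s).lc_prodR w y)
  have e2 := Hm_comp_apply ((C.gS h2).comp (cr (f2o p h1 h) hV)) ((C.ld s).jR (OmT p t))
    (cx ((C.ld s).lc w) y)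
  have e3 := Hm_cx_cl (C.gS h3) ((inc h4).comp (mul p v t)) y ((C.ld s).lc w)
  refine key.trans (e1.trans (e2.symm.trans ((Hm_eq_of ?_ _).trans e3.symm)))
  have kV : ∀ x : (C.ld s).V, (s' : ℝ) - 1 < x.1.1.2.2 := fun x => x.2
  have kv : ∀ x : (C.ld s).V, (s : ℝ) - x.1.1.2.2 ≤ v := fun x => by linarith [kV x]
  refine htpO (fun l x => cc (mix l ((s : ℝ) - x.1.1.1.2.2) v) x.1.1.1.2.1 x.2.1) (fun l x => ?_) ?_
    (fun x => ?_) (fun x => ?_)
  · have h0 : 0 ≤ (s : ℝ) - x.1.1.1.2.2 := by linarith [x.1.1.2.2.2.2]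
    refine cc_mem_of_le x.1.1.2.2.1 x.2.2 (le_mix le_rfl (kv x.1)) (le_mix h0 v.2) t.2 ?_
    have h5 := mix_le (u := l) (kv x.1) (le_refl (v : ℝ))
    linarith
  · refine continuous_cc
      (continuous_S.comp (continuous_subtype_val.comp (continuous_fst.comp continuous_snd)))
      (continuous_subtype_val.comp (continuous_snd.comp continuous_snd))
      (continuous_mix (continuous_const.sub (continuous_r.comp
        (continuous_subtype_val.comp continuous_fst))) continuous_const) (fun x => x.2.2.2.1)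
      fun x => ?_
    exact (x.2.1.1.2.2.1.2.2 _ (le_mix le_rfl (kv x.2.1))).trans (x.2.2.2.2.1 _ le_rfl).symm
  · rw [mix_zero]
    exact (f2o_S h1 h (x.1.1, x.2)).symm
  · rw [mix_one]; rfl

theorem Th_i2_o {s t t' T u v : ℝ≥0} (h1 : t ≤ t') (h : t' + s ≤ T) (h2 : T + 1 ≤ u + s')
    (h3 : s + 1 ≤ v + s') (h4 : v + t ≤ u) (w : HS (Om2T p s)) (y : HS (OmT p t)) :
    C.Th h2 (oH p h (i2H p h1 y) w) = mH p h4 (C.Th h3 w) y := by
  rw [i2_oH, C.Th_f2o h1 h h2 h3 h4]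

/-- `Th (F, z S) = 0` if the level of `(F, S)` is at most `s'` -/
theorem Th_o_i2_small {s t t' T u : ℝ≥0} (h1 : t ≤ t') (h : s + t' ≤ T) (h2 : T + 1 ≤ u + s')
    (hs : s ≤ s') (w : HS (Om2T p s)) (z : HS (OmT p t)) :
    C.Th h2 (oH p h w (i2H p h1 z)) = 0 := by
  rw [i2H, oH_right]
  refine C.Th_small h2 _ (fun y => ?_) _
  have k1 : (s : ℝ) ≤ s' := by exact_mod_cast hs
  show y.1.1.2.2 + 0 ≤ (s' : ℝ)
  linarith [y.1.2.2.2.2]

end Cw

end Crest.Agent.R231.Thx682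
end
end

-- ▼ part R231/ThLoc_530
section

/-!
# Row 231, block P, leaf (V), hedge (helper530): localised cap product

`Y = U ∪ V` open, `ψ` a cocycle on `Y` which vanishes on the chains of `U`.
`lc : HS Y →ₗ HS V`, `lc [z] = [cap ψ z]` for every cycle `z ∈ CS U ⊔ CS V`.
-/

set_option autoImplicit false

noncomputable section

namespace Crest.Agent.R231.Thx530

open Set Topology Function
open Crest.Agent.R204 FinDim315 CXx780 Capx226 CapCSx780 Pairx877 CrossCSx780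
open Crest.Agent.R204.SpecA (Hm)

/-! ## general facts -/

section gen

variable {X Y : Type} [TopologicalSpace X] [TopologicalSpace Y]

/-- class of a cycle -/
def cl (z : CE X) (hz : bdE X z = 0) : HS X := Hd.mk _ z hz


theorem cl_eq {z z' : CE X} {hz : bdE X z = 0} {hz' : bdE X z' = 0} :
    cl z hz = cl z' hz' ↔ ∃ w, bdE X w = z - z' := Hd.mk_eq_mk





/-- chain map of a continuous map -/
abbrev mp (f : C(X, Y)) : CE X →ₗ[F2] CE Y := N.map F2 (SS.SingMap f)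

theorem bd_mp (f : C(X, Y)) (z : CE X) : bdE Y (mp f z) = mp f (bdE X z) :=
  (LinearMap.congr_fun (N.map_bd (R := F2) (SS.SingMap f)) z).symm

theorem mp_cyc (f : C(X, Y)) {z : CE X} (hz : bdE X z = 0) : bdE Y (mp f z) = 0 := by
  rw [bd_mp, hz, map_zero]

theorem Hm_cl (f : C(X, Y)) (z : CE X) (hz : bdE X z = 0) :
    Hm f (cl z hz) = cl (mp f z) (mp_cyc f hz) := rfl


theorem mp_mp {Z : Type} [TopologicalSpace Z] (g : C(Y, Z)) (f : C(X, Y)) (z : CE X) :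
    mp g (mp f z) = mp (g.comp f) z := by
  rw [mp, mp, EZ271.map_map]; rfl


end gen

/-! ## the localised cap product -/

section loc

variable {Y : Type} [TopologicalSpace Y]

/-- data: an open cover and a cocycle which vanishes on `U` -/
structure Loc (U V : Set Y) (ψ : Co (SS.Sing Y)) : Prop where
  hU : IsOpen U
  hV : IsOpen V
  cov : U ∪ V = univ
  cyc : cobd ψ = 0
  van : ∀ z ∈ CS U, ψ z = 0

variable {U V : Set Y} {ψ : Co (SS.Sing Y)}




namespace Loc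

variable (L : Loc U V ψ)

include L








end Loc

end loc

/-! ## properties -/

section props

variable {Y Y' B Z : Type} [TopologicalSpace Y] [TopologicalSpace Y'] [TopologicalSpace B]
  [TopologicalSpace Z] {U V : Set Y} {ψ : Co (SS.Sing Y)} {U' V' : Set Y'} {ψ' : Co (SS.Sing Y')}

theorem res_inc_mp {X A : Type} [TopologicalSpace X] [TopologicalSpace A] {W : Set X} {f : C(A, X)}
    {g : C(A, W)} (h : ∀ a, (g a : X) = f a) (z : CE A) : res W (mp f z) = mp g z := by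
  have e : f = (SpecA.inc W).comp g := ContinuousMap.ext fun a => (h a).symm
  rw [e, ← mp_mp, res_map_inc]










end props

end Crest.Agent.R231.Thx530
end
end

-- ▼ part R231/OmEx_530
section

/-!
# Row 231, block P, leaf (V) (helper530): existence of the cocycle `ω`

`exists_cocycle` : for a monotone family `X t` of subsets of a space `E`, and a cycle `z0` of degree `q`
in `X t0` which is homologous to no cycle of `X s'`, there is a cochain `ω` of degree `q` on `E` which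
vanishes on `X s'`, is a cocycle on every `X t`, and is `1` on `z0`.
`exists_om` : the same for based Moore loops.
-/

set_option autoImplicit false

noncomputable section

namespace Crest.Agent.R231.Thx530

open Set Topology Function
open scoped NNReal
open Crest.Agent.R204 FinDim315 CXx780 Capx226 CapCSx780 Pairx877 CrossCSx780
open Crest.Agent.R204.SpecA (Hm)
open Crest.Agent.R231.Moorex725 Crest.Agent.R231.OmSpx725

theorem exists_cocycle {E : Type} [TopologicalSpace E] (X : ℝ≥0 → Set E) (hX : Monotone X)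
    {q : ℕ} {s' : ℝ≥0} {z0 : CE E} (hq : z0 ∈ gE E q) (hc : bdE E z0 = 0)
    (h : ∀ c ∈ CS (X s'), c ∈ gE E q → bdE E c = 0 → ∀ t, ∀ b ∈ CS (X t), z0 ≠ c + bdE E b) :
    ∃ ω : Co (SS.Sing E), Deg q ω ∧ (∀ z ∈ CS (X s'), ω z = 0) ∧
      (∀ t, ∀ z ∈ CS (X t), ω (bdE E z) = 0) ∧ ω z0 = 1 := by
  set P : Submodule F2 (CE E) := (⨆ t, CS (X t)).map (bdE E) ⊔ CS (X s') with hP
  have h0 : z0 ∉ P := by
    intro hz
    obtain ⟨a, ha, c, hc', e⟩ := Submodule.mem_sup.1 hz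
    obtain ⟨b, hb, rfl⟩ := ha
    obtain ⟨t, ht⟩ := (Submodule.mem_iSup_of_directed _ (fun s t => ⟨max s t,
      CS_mono (hX (le_max_left s t)), CS_mono (hX (le_max_right s t))⟩)).1 hb
    have e2 : z0 = pE E q c + bdE E (pE E (q + 1) b) := by
      have e3 := congrArg (pE E q) e
      rw [map_add, pE_bd, Gr334.prN_of_mem hq] at e3
      rw [← e3, add_comm]
    refine h (pE E q c) (prN_mem_CS q c hc') (Gr334.prN_mem q c) ?_ t (pE E (q + 1) b)
      (prN_mem_CS _ b ht) e2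
    have e4 := congrArg (bdE E) e2
    rw [hc, map_add, bd_bdE, add_zero] at e4
    exact e4.symm
  obtain ⟨f, hf, hPf⟩ := Submodule.exists_le_ker_of_notMem h0
  refine ⟨f ∘ₗ pE E q, ?_, ?_, ?_, ?_⟩
  · intro n hn z hz
    rw [LinearMap.comp_apply, Gr334.prN_of_mem_ne hn hz, map_zero]
  · intro z hz
    rw [LinearMap.comp_apply]
    exact hPf (Submodule.mem_sup_right (prN_mem_CS q z hz))
  · intro t z hz
    rw [LinearMap.comp_apply, pE_bd]
    exact hPf (Submodule.mem_sup_left ⟨_, Submodule.mem_iSup_of_mem t (prN_mem_CS _ z hz), rfl⟩)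
  · rw [LinearMap.comp_apply, Gr334.prN_of_mem hq]
    have : ∀ r : F2, r ≠ 0 → r = 1 := by decide
    exact this _ hf

variable {M : Type} [PseudoMetricSpace M] {p : M}

/-- the loop as a point of the ambient space -/
def valC (p : M) (t : ℝ≥0) : C(OmT p t, ℝ → M) := ⟨fun x => x.1, continuous_subtype_val⟩

theorem mp_val_mem (t : ℝ≥0) (z : CE (OmT p t)) : mp (valC p t) z ∈ CS (Om p (t : ℝ)) := by
  rw [CS_eq_range]
  exact ⟨z, rfl⟩


theorem res_val {t u : ℝ≥0} (h : t ≤ u) (z : CE (OmT p t)) :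
    res (Om p (u : ℝ)) (mp (valC p t) z) = mp (inc h) z :=
  res_inc_mp (W := Om p (u : ℝ)) (g := inc h) (fun _ => rfl) z

/-- existence of the cocycle -/
theorem exists_om {q : ℕ} {s' t0 : ℝ≥0} {xh : HS (OmT p t0)} (hx : xh ∈ hg (OmT p t0) q)
    (h : ∀ y ∈ hg (OmT p s') q, ¬ ∃ (u : ℝ≥0) (h1 : s' ≤ u) (h2 : t0 ≤ u),
      Hm (inc h1) y = Hm (inc h2) xh) :
    ∃ ω : Co (SS.Sing (ℝ → M)), Deg q ω ∧ (∀ z ∈ CS (Om p (s' : ℝ)), ω z = 0) ∧
      (∀ t : ℝ≥0, ∀ z ∈ CS (Om p (t : ℝ)), ω (bdE _ z) = 0) ∧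
      ∀ (T : ℝ≥0) (z : CE (OmT p T)) (hz : bdE _ z = 0), (∃ (u : ℝ≥0) (h1 : T ≤ u) (h2 : t0 ≤ u),
        Hm (inc h1) (cl z hz) = Hm (inc h2) xh) → ω (mp (valC p T) z) = 1 := by
  obtain ⟨z1, hz1, hz1q, rfl⟩ := Coalg847.mem_gr_iff.1 hx
  change (∀ y ∈ hg (OmT p s') q, ¬ ∃ (u : ℝ≥0) (h1 : s' ≤ u) (h2 : t0 ≤ u),
      Hm (inc h1) y = Hm (inc h2) (cl z1 hz1)) at h
  obtain ⟨ω, h1, h2, h3, h4⟩ := exists_cocycle (fun t : ℝ≥0 => Om p (t : ℝ))
    (fun s t hst => Om_mono p (NNReal.coe_le_coe.2 hst)) (q := q) (s' := s')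
    (z0 := mp (valC p t0) z1) (Gr334.map_mem_gr _ hz1q) (mp_cyc _ hz1) (by
      intro c hc hcq hcc t b hb e
      have hcc' : bdE _ (res (Om p (s' : ℝ)) c) = 0 := by rw [bd_res _ hc, hcc, map_zero]
      refine h (cl (X := OmT p s') (res (Om p (s' : ℝ)) c) hcc')
        (Coalg847.mem_gr_iff.2 ⟨_, hcc', res_gr hcq, rfl⟩) ⟨max s' (max t0 t), le_max_left _ _,
          (le_max_left _ _).trans (le_max_right _ _), ?_⟩
      rw [Hm_cl, Hm_cl]
      have ht : t ≤ max s' (max t0 t) := (le_max_right _ _).trans (le_max_right _ _)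
      have hb' : b ∈ CS (Om p ((max s' (max t0 t) : ℝ≥0) : ℝ)) :=
        CS_mono (Om_mono p (NNReal.coe_le_coe.2 ht)) hb
      refine cl_eq.2 ⟨res (Om p ((max s' (max t0 t) : ℝ≥0) : ℝ)) b, ?_⟩
      have e5 : bdE (ℝ → M) b = c - mp (valC p t0) z1 := by
        rw [e, sub_eq, ← add_assoc, add_self, zero_add]
      have e6 : res (Om p ((max s' (max t0 t) : ℝ≥0) : ℝ)) c =
          mp (inc (le_max_left s' (max t0 t))) (res (Om p (s' : ℝ)) c) := by
        conv_lhs => rw [← map_inc_res c hc]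
        exact res_inc_mp (W := Om p ((max s' (max t0 t) : ℝ≥0) : ℝ))
          (g := inc (p := p) (le_max_left s' (max t0 t))) (fun _ => rfl) _
      rw [← e6]
      refine (bd_res _ hb').trans ?_
      rw [e5, map_sub, res_val ((le_max_left t0 t).trans (le_max_right s' (max t0 t)))])
  refine ⟨ω, h1, h2, h3, ?_⟩
  rintro T z hz ⟨u, k1, k2, e⟩
  change Hm (inc k1) (cl z hz) = Hm (inc k2) (cl z1 hz1) at e
  rw [Hm_cl, Hm_cl] at e
  obtain ⟨w, hw⟩ := cl_eq.1 e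
  have e7 := congrArg (mp (valC p u)) hw
  rw [map_sub, mp_mp, mp_mp, ← bd_mp] at e7
  have e8 : ω (bdE (ℝ → M) (mp (valC p u) w)) = 0 := h3 u _ (mp_val_mem u w)
  rw [e7, map_sub] at e8
  have e9 : ω (mp (valC p T) z) = ω (mp (valC p t0) z1) := sub_eq_zero.1 e8
  rw [e9, h4]

end Crest.Agent.R231.Thx530
end
end

-- ▼ part R231/HasTh_682
section

/-!
# Row 231, block P, leaf (V) (helper682): `HasTh` for the levelled algebra of based loops

`hasTh K : (K.lev 1).HasTh` for every `K : CutH p D` (969), from `Th_682` and 530's `exists_om`.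
-/

set_option autoImplicit false

noncomputable section

namespace Crest.Agent.R231.HasThx682

open Crest.Agent.R204 FinDim315 CXx780 Capx226 CapCSx780 Pairx877 OmSpx725 Moorex725 Levx969
  LevInstx969 Thx682 NNReal
open Crest.Agent.R204.SpecA (Hm)

variable {M : Type} [PseudoMetricSpace M] {p : M} {D : ℕ}

theorem SmA_swA {T T' : ℝ≥0} (h : T ≤ T') (w : HS (Om2T p T)) :
    SmA h (swA w) = Hm (inc h) (Hm (fsF p T) w) := by
  have e1 : SmA h (swA w) = Hm (((inc h).comp (fsS p T)).comp (sw p T)) w :=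
    (Hm_comp_apply ((inc h).comp (fsS p T)) (sw p T) w).symm
  have e2 : ((inc h).comp (fsS p T)).comp (sw p T) = (inc h).comp (fsF p T) := rfl
  rw [e1, e2]
  exact Hm_comp_apply (inc h) (fsF p T) w

/-- the structure `ThData` from a cochain which is `1` on `xh` -/
def thData (K : CutH p D) {q : ℕ} {s' t0 : ℝ≥0} (xh : HS (OmT p t0)) (C : Cw p s' q)
    (hC : ∀ (T : ℝ≥0) (v : HS (OmT p T)), (∃ (u : ℝ≥0) (h1 : T ≤ u) (h2 : t0 ≤ u),
      Hm (inc h1) v = Hm (inc h2) xh) → C.om T v = 1) : ThData (K.lev 1) q s' (t0 := t0) xh where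
  Th h := C.Th h
  gr h j w hw := C.Th_gr h j hw
  lt h j w hw hj := C.Th_lt h hw hj
  inc h h1 h2 w := C.Th_inc h h1 h2 w
  inc2 h1 h h2 w := C.Th_inc2 h1 h h2 w
  o_i1 h1 h h2 i w z hz hi := C.Th_o_i1 h1 h h2 w hz hi
  i1_o h1 h h2 i w y hy hi := C.Th_i1_o h1 h h2 w hy hi
  o_i2 h1 h h2 h3 h4 w z := C.Th_o_i2 h1 h h2 h3 h4 w z
  i2_o h1 h h2 h3 h4 w y := C.Th_i2_o h1 h h2 h3 h4 w y
  small h1 h h2 hs w z := C.Th_o_i2_small h1 h h2 hs w z
  eps := by
    intro T T' u h h' w hw he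
    obtain ⟨v, g1, g2, e⟩ := he
    have e1 := C.ep_Th h h' w
    refine e1.trans (hC T' _ ⟨v, g1, g2, ?_⟩)
    rw [← SmA_swA h' w]
    exact e

/-- **leaf (V)** -/
theorem hasTh (K : CutH p D) : (K.lev 1).HasTh := by
  intro q s' t0 xh hq hxh hne
  obtain ⟨ω, h1, h2, h3, h4⟩ := Thx530.exists_om (p := p) (s' := s') (xh := xh) hxh (by
    rintro y hy ⟨u, g1, g2, e⟩
    exact hne y hy ⟨u, g1, g2, e⟩)
  refine ⟨thData K xh ⟨ω, h1, h3, h2⟩ fun T v hv => ?_⟩
  obtain ⟨z, hz, rfl⟩ := Hd.mk_surj _ v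
  exact h4 T z hz hv

end Crest.Agent.R231.HasThx682
end
end

-- ▼ part R231/WgOnto_525
section

/-!
# Row 231 (S0357), Wang package: `j_!` is onto in the limit (helper525)

`onto_of` : `Onto G hU` from
* `dim` : two based cycles of the same degree are linearly dependent in `H(Ω_∞)`
* `gen` : if a based cycle of degree `l` is not a boundary, there is an absolute cycle of degree `l + n`
  which is not trivial modulo the loops over `D`
-/

set_option autoImplicit false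

noncomputable section

open Set Topology Function
open Crest.Agent.R204

namespace Crest.Agent.R231.WgLvx525

open Pairx877 Capx226 CapCSx780 SmallCSx226 SingAct265 EZ271 Gr334 IfWangx525 WangAbsx525
open IfWangx525.WangGeo

variable {E B : Type} [TopologicalSpace E] [TopologicalSpace B]
variable {G : WangGeo B E} {U : Co (SS.Sing B)} (hU : PtCo G.D U)

/-- `j_! [v] = [y]` at level `s` -/
def HitAt (s : ℝ) (v y : CE E) : Prop :=
  ∃ hs : 0 ≤ s, ∃ hv : v ∈ CS (G.X s), ∃ hb : bdE E v = 0,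
    ∃ hy : y ∈ CS (G.O (s + G.c)), ∃ hy' : bdE E y = 0,
      jsh hU hs (Hr.mk _ _ _ v hv (by rw [hb]; exact Submodule.zero_mem _)) =
        Hr.mk _ _ _ y hy (by rw [hy']; exact Submodule.zero_mem _)

variable {hU} in
theorem HitAt.up {s s' : ℝ} (h : s ≤ s') {v y : CE E} (H : HitAt hU s v y) : HitAt hU s' v y := by
  obtain ⟨hs, hv, hb, hy, hy', e⟩ := H
  refine ⟨hs.trans h, CS_mono (G.X_mono h) hv, hb, CS_mono (G.O_mono (by linarith)) hy, hy', ?_⟩
  have h1 := jsh_inc hU hs h (Hr.mk _ _ _ v hv (by rw [hb]; exact Submodule.zero_mem _))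
  rw [e, Hr.inc_mk, Hr.inc_mk] at h1
  exact h1

variable {hU} in
theorem HitAt.add {s : ℝ} {v y v' y' : CE E} (H : HitAt hU s v y) (H' : HitAt hU s v' y') :
    HitAt hU s (v + v') (y + y') := by
  obtain ⟨hs, hv, hb, hy, hy', e⟩ := H
  obtain ⟨_, gv, gb, gy, gy', e'⟩ := H'
  refine ⟨hs, Submodule.add_mem _ hv gv, by rw [map_add, hb, gb, add_zero],
    Submodule.add_mem _ hy gy, by rw [map_add, hy', gy', add_zero], ?_⟩
  have h1 := Hr.mk_add (d := bdE E) (X := CS (G.X s)) (A := CS (G.W s)) hv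
    (by rw [hb]; exact Submodule.zero_mem _) gv (by rw [gb]; exact Submodule.zero_mem _)
  have h2 := Hr.mk_add (d := bdE E) (X := CS (G.O (s + G.c))) (A := CS (∅ : Set E)) hy
    (by rw [hy']; exact Submodule.zero_mem _) gy (by rw [gy']; exact Submodule.zero_mem _)
  rw [h1, h2, map_add, e, e']

/-- `y` is in the image of `j_!` of the absolute cycles -/
def Hit (y : CE E) : Prop := ∃ s v, HitAt hU s v y

variable {hU} in
theorem Hit.add {y y' : CE E} (H : Hit hU y) (H' : Hit hU y') : Hit hU (y + y') := by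
  obtain ⟨s, v, h⟩ := H
  obtain ⟨s', v', h'⟩ := H'
  exact ⟨max s s', v + v', (h.up (le_max_left _ _)).add (h'.up (le_max_right _ _))⟩

/-- boundaries are hit -/
theorem hit_bd {t : ℝ} {y : CE E} (h : ∃ w ∈ CS (G.O t), bdE E w = y) : Hit hU y := by
  obtain ⟨w, hw, rfl⟩ := h
  have hc := G.c_nonneg
  have hle : t ≤ max t 0 + G.c := (le_max_left t 0).trans (by linarith)
  have hw' : w ∈ CS (G.O (max t 0 + G.c)) := CS_mono (G.O_mono hle) hw
  refine ⟨max t 0, 0, le_max_right _ _, Submodule.zero_mem _, map_zero _, bd_mem_CS _ hw',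
    bd_bdE w, ?_⟩
  have h1 : Hr.mk (bdE E) (CS (G.X (max t 0))) (CS (G.W (max t 0))) 0 (Submodule.zero_mem _)
      (by rw [map_zero]; exact Submodule.zero_mem _) = 0 := by
    rw [HP_mk_eq_zero]; exact Submodule.zero_mem _
  rw [h1, map_zero]
  refine Eq.symm ?_
  rw [HP_mk_eq_zero, mem_Bp_empty]
  exact ⟨w, hw', rfl⟩

variable {hU} in
theorem Hit.add_bd {y y' : CE E} (H : Hit hU y) {t : ℝ} (h : ∃ w ∈ CS (G.O t), bdE E w = y + y') :
    Hit hU y' := by
  have := H.add (hit_bd hU h)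
  rwa [← add_assoc, WangAbsx525.add_self, zero_add] at this

theorem hit_of_gr {t : ℝ} (h : ∀ l, ∀ y ∈ CS (G.O t), y ∈ N.gr F2 (SS.Sing E) l → bdE E y = 0 →
    Hit hU y) {y : CE E} (hy : y ∈ CS (G.O t)) (hb : bdE E y = 0) : Hit hU y := by
  obtain ⟨M, -, hM⟩ := exists_sum_prN y
  rw [hM]
  refine Finset.sum_induction _ (Hit hU) (fun a b => Hit.add) ?_ ?_
  · exact hit_bd hU ⟨0, Submodule.zero_mem (CS (G.O t)), map_zero _⟩
  · intro l _
    refine h l _ (prN_mem_CS _ _ hy) (prN_mem _ _) ?_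
    rcases l with _ | l
    · exact bd_pE_zero y
    · exact (pE_bd l y).symm.trans (by rw [hb, map_zero])

/-- **the inputs of the surjectivity** -/
structure OntoIn (G : WangGeo B E) (n : ℕ) : Prop where
  dim : ∀ t l, ∀ y ∈ CS (G.O t), y ∈ N.gr F2 (SS.Sing E) l → bdE E y = 0 →
    ∀ r ∈ CS (G.O t), r ∈ N.gr F2 (SS.Sing E) l → bdE E r = 0 →
    (∃ t', ∃ w ∈ CS (G.O t'), bdE E w = y) ∨ (∃ t', ∃ w ∈ CS (G.O t'), bdE E w = r) ∨
      ∃ t', ∃ w ∈ CS (G.O t'), bdE E w = r + y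
  gen : ∀ t l, ∀ y ∈ CS (G.O t), y ∈ N.gr F2 (SS.Sing E) l → bdE E y = 0 →
    (∃ t', ∃ w ∈ CS (G.O t'), bdE E w = y) ∨ ∃ s, ∃ v ∈ CS (G.X s),
      v ∈ N.gr F2 (SS.Sing E) (l + n) ∧ bdE E v = 0 ∧ ∀ s', v ∉ Bp (G.X s') (G.W s')

/-- **`j_!` is onto in the limit** -/
theorem onto_of (hK : ∀ O : Set E, Kun G.D G.D' U O) {n : ℕ} (hn : Deg n U) (I : OntoIn G n) :
    Onto G hU := by
  have hc := G.c_nonneg
  have key : ∀ t, ∀ l, ∀ y ∈ CS (G.O t), y ∈ N.gr F2 (SS.Sing E) l → bdE E y = 0 →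
      Hit hU y := by
    intro t l y hy hl hb
    rcases I.gen t l y hy hl hb with h | ⟨s0, v, hv, hvj, hvb, hvne⟩
    · obtain ⟨t', h⟩ := h
      exact hit_bd hU h
    set s := max (max s0 t) 0 with hs
    have hs0 : 0 ≤ s := le_max_right _ _
    have hss : s0 ≤ s := (le_max_left _ _).trans (le_max_left _ _)
    have hts : t ≤ s := (le_max_right _ _).trans (le_max_left _ _)
    have hvX : v ∈ CS (G.X s) := CS_mono (G.X_mono hss) hv
    have hvW : bdE E v ∈ CS (G.W s) := by rw [hvb]; exact Submodule.zero_mem _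
    obtain ⟨z₁, h₁, z₂, h₂, h₂j, w, hw, e⟩ := exists_dec_gr hvj hvX hvW
    have hjm := jsh_mk hU hs0 hvX hvW h₁ h₂ hw e
    set r := push (G.V s) (G.cn s) (G.cn_cont s hs0) (cap (pb G.e U) z₂) with hr
    have hrO : r ∈ CS (G.O (s + G.c)) := push_mem (G.cn_mem s hs0) _ (cap_mem_CS _ _ h₂)
    have hrb : bdE E r = 0 := by
      have h3 : bdE E r ∈ CS (∅ : Set E) := by
        rw [hr, bd_push _ (cap_mem_CS _ _ h₂)]
        exact push_mem (mapsTo_empty _ _) _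
            (cap_cyc (pb_zero G.e hU) (pb_cocycle G.e hU) h₂ (bd_mem_inf hvW h₁ h₂ e))
      rwa [CS_empty, Submodule.mem_bot] at h3
    have hrl : r ∈ N.gr F2 (SS.Sing E) l :=
      push_mem_gr (cap_mem_gr (q := n) (n := l) (hn.pull _) (by rwa [add_comm n l]))
    have hit : Hit hU r := ⟨s, v, hs0, hvX, hvb, hrO, hrb, hjm⟩
    have hyO : y ∈ CS (G.O (s + G.c)) := CS_mono (G.O_mono (by linarith)) hy
    rcases I.dim (s + G.c) l y hyO hl hb r hrO hrl hrb with h | h | h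
    · obtain ⟨t', h⟩ := h
      exact hit_bd hU h
    · exfalso
      obtain ⟨t', q, hq, eq⟩ := h
      set s' := max s t' with hs'
      have h1 := jsh_inc hU hs0 (le_max_left s t') (Hr.mk _ _ _ v hvX hvW)
      rw [hjm, Hr.inc_mk, Hr.inc_mk] at h1
      have h2 : Hr.mk (bdE E) (CS (G.O (max s t' + G.c))) (CS (∅ : Set E)) r
          (CS_mono (G.O_mono (by linarith [le_max_left s t'])) hrO)
          (by rw [hrb]; exact Submodule.zero_mem _) = 0 := by
        rw [HP_mk_eq_zero, mem_Bp_empty]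
        exact ⟨q, CS_mono (G.O_mono (by linarith [le_max_right s t'])) hq, eq.symm⟩
      rw [h2] at h1
      exact hvne _ (wang_one hU hK (hs0.trans (le_max_left s t'))
        (CS_mono (G.X_mono (le_max_left s t')) hvX) (by rw [hvb]; exact Submodule.zero_mem _) h1)
    · obtain ⟨t', h⟩ := h
      exact hit.add_bd h
  intro t ht y hy hb
  obtain ⟨s, v, H⟩ := hit_of_gr hU (fun l y hy hl hb => key t l y hy hl hb) hy hb
  obtain ⟨hs, hv, hb', hy', hyb, e⟩ := H.up (le_max_left s t)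
  exact ⟨max s t, hs, le_max_right _ _, v, hv, hb', hy', hyb, e⟩

end Crest.Agent.R231.WgLvx525
end
end

-- ▼ part R231/ArcInst_694

/-!
# Row 231 (S0357), leaf GEO (helper694): arcs on `(S^n, g)`

* `neg : SG g → SG g` : the antipode
* `slerp p : ArcSys (SG g) {neg p}ᶜ p`, with `arc p` constant
* `slerpN p : ArcSys (SG g) {p}ᶜ p`
-/

set_option autoImplicit false

open Set Filter Topology Real
open scoped InnerProductSpace

noncomputable section

namespace Crest.Agent.R231.ArcInstx694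

open Crest.Agent.R231.GeoBasex724 Crest.Agent.R231.BiLipx218 Crest.Agent.R231.ArcSysx694
  Crest.Agent.R231.Slerpx694

/-- restriction of the arcs to a smaller set of end points -/
def _root_.Crest.Agent.R231.ArcSysx694.ArcSys.restrict {M : Type*} [MetricSpace M] {D D' : Set M}
    {p : M} (A : ArcSys M D p) (h : D' ⊆ D) : ArcSys M D' p where
  c := A.c
  arc := A.arc
  c_pos := A.c_pos
  zero m hm := A.zero m (h hm)
  one m hm := A.one m (h hm)
  lip m hm := A.lip m (h hm)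
  cont := A.cont.mono (prod_mono_left h)

variable {n : ℕ} [NeZero n] {g : Met n}

/-- the antipode -/
def neg (p : SG g) : SG g := toSG g (-((toSG g).symm p))

theorem vec_neg (p : SG g) : vec (neg p) = -vec p := rfl

theorem neg_neg' (p : SG g) : neg (neg p) = p := by
  apply vec_injective
  rw [vec_neg, vec_neg, neg_neg]

theorem vec_ne_zero (p : SG g) : vec p ≠ 0 := by
  intro h
  have := norm_vec p
  rw [h, norm_zero] at this
  exact zero_ne_one this

theorem neg_ne (p : SG g) : neg p ≠ p := by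
  intro h
  have h1 := congrArg vec h
  rw [vec_neg, neg_eq_iff_add_eq_zero, ← two_smul ℝ, smul_eq_zero] at h1
  rcases h1 with h1 | h1
  · norm_num at h1
  · exact vec_ne_zero p h1



/-- a point of the sphere from a unit vector (`p` otherwise) -/
def mkp (p : SG g) (x : Amb n) : SG g :=
  if h : ‖x‖ = 1 then toSG g ⟨x, by rw [mem_sphere_zero_iff_norm]; exact h⟩ else p

theorem vec_mkp {p : SG g} {x : Amb n} (h : ‖x‖ = 1) : vec (mkp p x) = x := by
  unfold mkp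
  rw [dif_pos h]
  rfl

theorem isEmbedding_vec : IsEmbedding (vec : SG g → Amb n) :=
  IsEmbedding.subtypeVal.comp (toSG g).symm.isEmbedding

theorem continuousOn_mkp {α : Type*} [TopologicalSpace α] {S : Set α} {f : α → Amb n} {p : SG g}
    (hf : ContinuousOn f S) (h : ∀ a ∈ S, ‖f a‖ = 1) : ContinuousOn (fun a => mkp p (f a)) S := by
  rw [isEmbedding_vec.continuousOn_iff]
  exact hf.congr fun a ha => vec_mkp (h a ha)

/-- **great circle arcs from `p`** -/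
def slerp (p : SG g) : ArcSys (SG g) {neg p}ᶜ p where
  c := CL g * π
  arc b u := mkp p (slp (vec p) (vec b) u)
  c_pos := mul_pos (CL_pos g) pi_pos
  zero b _ := by
    apply vec_injective
    rw [slp_zero, vec_mkp (norm_vec p)]
  one b _ := by
    apply vec_injective
    rw [slp_one (norm_vec p) (norm_vec b), vec_mkp (norm_vec b)]
  lip b hb u _ v _ := by
    have h1 : vec b ≠ -vec p := fun h => hb (vec_injective (h.trans (vec_neg p).symm))
    rw [mul_assoc]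
    refine dist_le_of_norm g ?_
    rw [vec_mkp (norm_slp (norm_vec p) (norm_vec b) h1 u),
      vec_mkp (norm_slp (norm_vec p) (norm_vec b) h1 v)]
    exact norm_slp_sub (norm_vec p) u v
  cont := by
    have h1 : ∀ b : SG g, b ∈ ({neg p}ᶜ : Set (SG g)) → vec b ≠ -vec p :=
      fun b hb h => hb (vec_injective (h.trans (vec_neg p).symm))
    refine continuousOn_mkp (f := fun q : SG g × ℝ => slp (vec p) (vec q.1) q.2) ?_ ?_
    · refine (continuousOn_slp (norm_vec p)).comp (f := fun q : SG g × ℝ => (vec q.1, q.2)) ?_ ?_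
      · exact ((continuous_vec.comp continuous_fst).prodMk continuous_snd).continuousOn
      · exact fun q hq => ⟨⟨norm_vec q.1, h1 q.1 hq.1⟩, trivial⟩
    · exact fun q hq => norm_slp (norm_vec p) (norm_vec q.1) (h1 q.1 hq.1) q.2

theorem slerp_self (p : SG g) (u : ℝ) : (slerp p).arc p u = p := by
  apply vec_injective
  show vec (mkp p (slp (vec p) (vec p) u)) = vec p
  rw [slp_self (norm_vec p), vec_mkp (norm_vec p)]


theorem exists_orth (p : SG g) : ∃ e : Amb n, ‖e‖ = 1 ∧ ⟪vec p, e⟫_ℝ = 0 := by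
  have h1 : Module.finrank ℝ (ℝ ∙ vec p)ᗮ = n :=
    Submodule.finrank_orthogonal_span_singleton (vec_ne_zero p)
  have h2 : 0 < Module.finrank ℝ (ℝ ∙ vec p)ᗮ := by rw [h1]; exact Nat.pos_of_ne_zero (NeZero.ne n)
  have h3 : Nontrivial (ℝ ∙ vec p)ᗮ := Module.finrank_pos_iff.1 h2
  obtain ⟨⟨x, hx⟩, hx0⟩ := exists_ne (0 : (ℝ ∙ vec p)ᗮ)
  have hx1 : x ≠ 0 := fun h => hx0 (Subtype.ext h)
  refine ⟨‖x‖⁻¹ • x, ?_, ?_⟩
  · rw [norm_smul, norm_inv, norm_norm, inv_mul_cancel₀ (norm_ne_zero_iff.2 hx1)]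
  · rw [inner_smul_right, Submodule.mem_orthogonal_singleton_iff_inner_right.1 hx, mul_zero]

/-- a unit vector orthogonal to `p` -/
def ort (p : SG g) : Amb n := Classical.choose (exists_orth p)

theorem norm_ort (p : SG g) : ‖ort p‖ = 1 := (Classical.choose_spec (exists_orth p)).1

theorem inner_ort (p : SG g) : ⟪vec p, ort p⟫_ℝ = 0 := (Classical.choose_spec (exists_orth p)).2

/-- a half great circle from `p` to `-p` -/
def half (p : SG g) (u : ℝ) : SG g := mkp p (crc (vec p) (ort p) (u * π))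

theorem vec_half (p : SG g) (u : ℝ) : vec (half p u) = crc (vec p) (ort p) (u * π) :=
  vec_mkp (norm_crc (norm_vec p) (norm_ort p) (inner_ort p) _)

theorem half_zero (p : SG g) : half p 0 = p := by
  apply vec_injective
  rw [vec_half, zero_mul, crc_zero]

theorem half_one (p : SG g) : half p 1 = neg p := by
  apply vec_injective
  rw [vec_half, one_mul, crc_pi, vec_neg]

theorem half_lip (p : SG g) (u v : ℝ) : dist (half p u) (half p v) ≤ CL g * π * |u - v| := by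
  rw [mul_assoc]
  refine dist_le_of_norm g ?_
  rw [vec_half, vec_half]
  refine (norm_crc_sub (norm_vec p) (norm_ort p).le (inner_ort p) _ _).trans (le_of_eq ?_)
  rw [← sub_mul, abs_mul, abs_of_pos pi_pos, mul_comm]

/-- arcs from `p` to the points `b ≠ p`, through `-p` -/
def slerpN (p : SG g) : ArcSys (SG g) {p}ᶜ p :=
  ((slerp (neg p)).pre (half p) (CL g * π) (half_zero p) (half_one p)
    (fun u _ v _ => half_lip p u v)).restrict (by rw [neg_neg'])

end Crest.Agent.R231.ArcInstx694
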