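import Crest.Agent.R226.GeoBasic_616
import Crest.Agent.R226.RadialSmooth_542
import Crest.Agent.R231.GeoBase_724
import Crest.Agent.R231.GeoLug_724
import Crest.Agent.R231.CritPM_893

-- ▼ part R231/VarA_67
section

/-!
# Row 231 (S0357), energy of curves and its first variation (helper67)

General compact Riemannian manifold `M`, `G : GeoData n M`.

* `dist_sq_le` : `d(c a, c b)² ≤ (b - a) ∫_a^b ‖c'‖²`
* `contDiff_speed` : smoothness of `‖∂ₜΓ(s,t)‖²`;  `exists_deriv_energy` : the energy is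
  differentiable along smooth variations
* `hasDerivAt_cost_curve` : first variation of the cost
-/

set_option autoImplicit false
set_option linter.unusedSectionVars false

open MeasureTheory Set Filter Topology Bundle
open scoped Manifold ContDiff Bundle ENNReal
open Manifold
open Crest.GeometryTopology.MTW

noncomputable section

namespace Crest.Agent.R231

open Crest.Agent.R226

variable {n : ℕ} {M : Type*} [MetricSpace M] [ChartedSpace (EuclideanSpace ℝ (Fin n)) M]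
  [IsManifold (𝓡 n) ∞ M]
  [RiemannianBundle (fun p : M => TangentSpace (𝓡 n) p)]
  [IsContMDiffRiemannianBundle (𝓡 n) ∞ (EuclideanSpace ℝ (Fin n))
    (fun p : M => TangentSpace (𝓡 n) p)]

/-! ### speed -/

/-- the tangent map of a smooth curve is smooth -/
theorem contMDiff_curveVel {c : ℝ → M} (hc : ContMDiff 𝓘(ℝ, ℝ) (𝓡 n) ∞ c) :
    ContMDiff 𝓘(ℝ, ℝ) (𝓡 n).tangent ∞
      (fun t : ℝ => (⟨c t, curveVel n c t⟩ : TangentBundle (𝓡 n) M)) := by
  have h1 : ContMDiff 𝓘(ℝ, ℝ) (𝓘(ℝ, ℝ)).tangent ∞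
      (fun s : ℝ => (⟨s, (1 : ℝ)⟩ : TangentBundle 𝓘(ℝ, ℝ) ℝ)) :=
    (contMDiff_vectorSpace_iff_contDiff (𝕜 := ℝ) (E := ℝ) (n := ∞) (V := fun _ => (1 : ℝ))).2
      contDiff_const
  exact (hc.contMDiff_tangentMap (m := ∞) (by simp)).comp h1

/-- speed of a smooth curve, squared -/
theorem contDiff_speed_curve {c : ℝ → M} (hc : ContMDiff 𝓘(ℝ, ℝ) (𝓡 n) ∞ c) :
    ContDiff ℝ ∞ (fun t : ℝ => ‖curveVel n c t‖ ^ 2) := by
  have h := contMDiff_curveVel hc
  have h2 : ContMDiff 𝓘(ℝ, ℝ) 𝓘(ℝ, ℝ) ∞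
      (fun t : ℝ => inner ℝ (curveVel n c t) (curveVel n c t)) :=
    ContMDiff.inner_bundle (IM := 𝓘(ℝ, ℝ)) (IB := 𝓡 n) (F := EuclideanSpace ℝ (Fin n))
      (E := fun p : M => TangentSpace (𝓡 n) p) (b := c) (v := fun t => curveVel n c t)
      (w := fun t => curveVel n c t) h h
  have h3 := h2.contDiff
  simpa only [real_inner_self_eq_norm_sq] using h3

/-- the partial velocity of a smooth map of the plane -/
theorem curveVel_slice {Γ : ℝ × ℝ → M} (hΓ : ContMDiff 𝓘(ℝ, ℝ × ℝ) (𝓡 n) ∞ Γ) (s t : ℝ) :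
    curveVel n (fun t => Γ (s, t)) t = mfderiv 𝓘(ℝ, ℝ × ℝ) (𝓡 n) Γ (s, t) ((0 : ℝ), (1 : ℝ)) := by
  have h1 : HasMFDerivAt 𝓘(ℝ, ℝ) 𝓘(ℝ, ℝ × ℝ) (fun t : ℝ => (s, t)) t
      (ContinuousLinearMap.inr ℝ ℝ ℝ) :=
    (hasFDerivAt_prodMk_right s t).hasMFDerivAt
  have h2 := ((hΓ.mdifferentiableAt (by simp)).hasMFDerivAt (x := (s, t))).comp t h1
  have h3 := h2.mfderiv
  unfold curveVel
  rw [show (fun t => Γ (s, t)) = Γ ∘ fun t : ℝ => (s, t) from rfl, h3]
  rfl

/-- **the integrand of the energy is smooth** -/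
theorem contDiff_speed {Γ : ℝ × ℝ → M} (hΓ : ContMDiff 𝓘(ℝ, ℝ × ℝ) (𝓡 n) ∞ Γ) :
    ContDiff ℝ ∞ (fun q : ℝ × ℝ => ‖curveVel n (fun t => Γ (q.1, t)) q.2‖ ^ 2) := by
  have h1 : ContMDiff 𝓘(ℝ, ℝ × ℝ) (𝓘(ℝ, ℝ × ℝ)).tangent ∞
      (fun q : ℝ × ℝ => (⟨q, ((0 : ℝ), (1 : ℝ))⟩ : TangentBundle 𝓘(ℝ, ℝ × ℝ) (ℝ × ℝ))) :=
    (contMDiff_vectorSpace_iff_contDiff (𝕜 := ℝ) (E := ℝ × ℝ) (n := ∞)
      (V := fun _ => ((0 : ℝ), (1 : ℝ)))).2 contDiff_const
  have h := (hΓ.contMDiff_tangentMap (m := ∞) (by simp)).comp h1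
  have h2 : ContMDiff 𝓘(ℝ, ℝ × ℝ) 𝓘(ℝ, ℝ) ∞
      (fun q : ℝ × ℝ => inner ℝ (mfderiv 𝓘(ℝ, ℝ × ℝ) (𝓡 n) Γ q ((0 : ℝ), (1 : ℝ)))
        (mfderiv 𝓘(ℝ, ℝ × ℝ) (𝓡 n) Γ q ((0 : ℝ), (1 : ℝ)))) :=
    ContMDiff.inner_bundle (IM := 𝓘(ℝ, ℝ × ℝ)) (IB := 𝓡 n) (F := EuclideanSpace ℝ (Fin n))
      (E := fun p : M => TangentSpace (𝓡 n) p) (b := Γ)
      (v := fun q => mfderiv 𝓘(ℝ, ℝ × ℝ) (𝓡 n) Γ q ((0 : ℝ), (1 : ℝ)))
      (w := fun q => mfderiv 𝓘(ℝ, ℝ × ℝ) (𝓡 n) Γ q ((0 : ℝ), (1 : ℝ))) h h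
  have h3 := h2.contDiff
  have h4 : (fun q : ℝ × ℝ => ‖curveVel n (fun t => Γ (q.1, t)) q.2‖ ^ 2) =
      fun q : ℝ × ℝ => inner ℝ (mfderiv 𝓘(ℝ, ℝ × ℝ) (𝓡 n) Γ q ((0 : ℝ), (1 : ℝ)))
        (mfderiv 𝓘(ℝ, ℝ × ℝ) (𝓡 n) Γ q ((0 : ℝ), (1 : ℝ))) := by
    funext q
    rw [real_inner_self_eq_norm_sq, curveVel_slice hΓ]
  rw [h4]
  exact h3

/-- the energy of a family of curves is differentiable -/
theorem exists_deriv_integral {e : ℝ × ℝ → ℝ} (he : ContDiff ℝ ∞ e) (a b : ℝ) :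
    ∃ e' : ℝ, HasDerivAt (fun s : ℝ => ∫ t in a..b, e (s, t)) e' 0 := by
  have hd : ∀ s t : ℝ, HasDerivAt (fun s => e (s, t)) (fderiv ℝ e (s, t) ((1 : ℝ), (0 : ℝ))) s := by
    intro s t
    have h1 := (he.differentiable (by simp) (s, t)).hasFDerivAt
    have h2 : HasDerivAt (fun s : ℝ => (s, t)) ((1 : ℝ), (0 : ℝ)) s :=
      (hasDerivAt_id s).prodMk (hasDerivAt_const s t)
    exact h1.comp_hasDerivAt s h2
  have hc : Continuous fun q : ℝ × ℝ => fderiv ℝ e q ((1 : ℝ), (0 : ℝ)) :=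
    (he.continuous_fderiv (by simp)).clm_apply continuous_const
  obtain ⟨C, hC⟩ := ((isCompact_Icc (a := (-1 : ℝ)) (b := 1)).prod
    (isCompact_uIcc (a := a) (b := b))).exists_bound_of_continuousOn hc.continuousOn
  refine ⟨_, (intervalIntegral.hasDerivAt_integral_of_dominated_loc_of_deriv_le (μ := volume)
    (F := fun s t => e (s, t)) (F' := fun s t => fderiv ℝ e (s, t) ((1 : ℝ), (0 : ℝ)))
    (x₀ := 0) (s := Set.Icc (-1) 1) (bound := fun _ => C)
    (Icc_mem_nhds (by norm_num) (by norm_num)) ?_ ?_ ?_ ?_ ?_ ?_).2⟩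
  · exact Eventually.of_forall fun s =>
      (he.continuous.comp (by fun_prop : Continuous fun t : ℝ => (s, t))).aestronglyMeasurable
  · exact (he.continuous.comp (by fun_prop : Continuous fun t : ℝ => ((0 : ℝ), t))).intervalIntegrable _ _
  · exact (hc.comp (by fun_prop : Continuous fun t : ℝ => ((0 : ℝ), t))).aestronglyMeasurable
  · refine Eventually.of_forall fun t ht s hs => hC (s, t) ⟨hs, ?_⟩
    exact Set.uIoc_subset_uIcc ht
  · exact intervalIntegrable_const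
  · exact Eventually.of_forall fun t _ s _ => hd s t

/-- **the energy is differentiable along smooth variations** -/
theorem exists_deriv_energy {Γ : ℝ × ℝ → M} (hΓ : ContMDiff 𝓘(ℝ, ℝ × ℝ) (𝓡 n) ∞ Γ) (a b : ℝ) :
    ∃ e' : ℝ, HasDerivAt (fun s : ℝ => ∫ t in a..b, ‖curveVel n (fun t => Γ (s, t)) t‖ ^ 2) e' 0 :=
  exists_deriv_integral (contDiff_speed hΓ) a b

/-! ### length and energy -/

theorem dist_le_length [IsRiemannianManifold (𝓡 n) M] {c : ℝ → M}
    (hc : ContMDiff 𝓘(ℝ, ℝ) (𝓡 n) ∞ c) {a b : ℝ} (hab : a ≤ b) :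
    dist (c a) (c b) ≤ ∫ t in a..b, ‖curveVel n c t‖ := by
  have hcont : Continuous fun t => ‖curveVel n c t‖ :=
    continuous_normT.comp (contMDiff_curveVel hc).continuous
  have h1 : edist (c a) (c b) ≤ pathELength (𝓡 n) c a b := by
    rw [IsRiemannianManifold.out (I := 𝓡 n) (c a) (c b)]
    exact riemannianEDist_le_pathELength ((hc.of_le (by simp)).contMDiffOn) rfl rfl hab
  have h2 : pathELength (𝓡 n) c a b = ENNReal.ofReal (∫ t in a..b, ‖curveVel n c t‖) := by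
    rw [pathELength_eq_lintegral_mfderiv_Icc, intervalIntegral.integral_of_le hab,
      ← integral_Icc_eq_integral_Ioc,
      ofReal_integral_eq_lintegral_ofReal hcont.integrableOn_Icc
        (Eventually.of_forall fun _ => norm_nonneg _)]
    refine lintegral_congr fun t => ?_
    rw [ofReal_norm]
    rfl
  rw [h2, edist_dist] at h1
  exact (ENNReal.ofReal_le_ofReal_iff (intervalIntegral.integral_nonneg hab
    fun t _ => norm_nonneg _)).1 h1

/-- Cauchy–Schwarz -/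
theorem sq_integral_le {f : ℝ → ℝ} (hf : Continuous f) {a b : ℝ} (hab : a ≤ b) :
    (∫ t in a..b, f t) ^ 2 ≤ (b - a) * ∫ t in a..b, f t ^ 2 := by
  set I := ∫ t in a..b, f t with hI
  rcases hab.eq_or_lt with rfl | hlt
  · simp [hI]
  · have h0 : 0 < b - a := sub_pos.2 hlt
    set m := I / (b - a) with hm
    have h1 : 0 ≤ ∫ t in a..b, (f t - m) ^ 2 :=
      intervalIntegral.integral_nonneg hab fun t _ => sq_nonneg _
    have h2 : ∫ t in a..b, (f t - m) ^ 2 = (∫ t in a..b, f t ^ 2) - 2 * m * I + m ^ 2 * (b - a) := by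
      have e1 : (fun t => (f t - m) ^ 2) = fun t => f t ^ 2 - 2 * m * f t + m ^ 2 := by
        funext t; ring
      rw [e1, intervalIntegral.integral_add, intervalIntegral.integral_sub,
        intervalIntegral.integral_const_mul, intervalIntegral.integral_const]
      · simp only [smul_eq_mul]; ring
      · exact (hf.pow 2).intervalIntegrable _ _
      · exact (hf.const_mul _).intervalIntegrable _ _
      · exact ((hf.pow 2).sub (hf.const_mul _)).intervalIntegrable _ _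
      · exact intervalIntegrable_const
    rw [h2] at h1
    have h3 : m * (b - a) = I := by rw [hm]; field_simp
    have h4 : m ^ 2 * (b - a) = m * I := by rw [← h3]; ring
    rw [h4] at h1
    have h5 : m * I ≤ ∫ t in a..b, f t ^ 2 := by linarith
    calc I ^ 2 = (b - a) * (m * I) := by rw [← h3]; ring
      _ ≤ _ := mul_le_mul_of_nonneg_left h5 h0.le

/-- **distance and energy** -/
theorem dist_sq_le [IsRiemannianManifold (𝓡 n) M] {c : ℝ → M}
    (hc : ContMDiff 𝓘(ℝ, ℝ) (𝓡 n) ∞ c) {a b : ℝ} (hab : a ≤ b) :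
    dist (c a) (c b) ^ 2 ≤ (b - a) * ∫ t in a..b, ‖curveVel n c t‖ ^ 2 := by
  have hcont : Continuous fun t => ‖curveVel n c t‖ :=
    continuous_normT.comp (contMDiff_curveVel hc).continuous
  exact (pow_le_pow_left₀ dist_nonneg (dist_le_length hc hab) 2).trans (sq_integral_le hcont hab)

end Crest.Agent.R231
end
end

-- ▼ part R231/VarB_67
section

/-!
# Row 231 (S0357): closed orbits of the geodesic flow are critical points of the energy (helper67)

* `hasDerivAt_cost_left`, `hasDerivAt_cost_joint` : first variation of `d²/2`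
* `hasDerivAt_energy` : **closed geodesics are critical for the energy**
-/

set_option autoImplicit false
set_option linter.unusedSectionVars false

open MeasureTheory Set Filter Topology Bundle
open scoped Manifold ContDiff Bundle ENNReal
open Manifold
open Crest.GeometryTopology.MTW

noncomputable section

namespace Crest.Agent.R231

open Crest.Agent.R226

variable {n : ℕ} {M : Type*} [MetricSpace M] [ChartedSpace (EuclideanSpace ℝ (Fin n)) M]
  [IsManifold (𝓡 n) ∞ M]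
  [RiemannianBundle (fun p : M => TangentSpace (𝓡 n) p)]

/-- the cost is smooth near close pairs -/
theorem contMDiffAt_cost (G : GeoData n M) {x y : M} (h : dist x y < G.r₀) :
    ContMDiffAt ((𝓡 n).prod (𝓡 n)) 𝓘(ℝ) ∞ (fun q : M × M => halfDistSq q.1 q.2) (x, y) :=
  G.smooth_cost.contMDiffAt
    ((isOpen_lt (continuous_fst.dist continuous_snd) continuous_const).mem_nhds h)

/-- **first variation of the cost**, first variable -/
theorem hasDerivAt_cost_left (G : GeoData n M) {p : ℝ → M} (hp : MDifferentiableAt 𝓘(ℝ, ℝ) (𝓡 n) p 0)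
    {x : M} (hx : p 0 = x) {v : TangentSpace (𝓡 n) x} (hv : ‖v‖ < G.r₀) :
    HasDerivAt (fun s => halfDistSq (p s) (G.ex x v)) (-inner ℝ v (curveVel n p 0)) 0 := by
  subst hx
  set y := G.ex (p 0) v with hy
  have hd : dist (p 0) y < G.r₀ := by rw [hy, GeoBasic616.dist_ex_of_norm_lt G hv]; exact hv
  have h1 : MDifferentiableAt (𝓡 n) 𝓘(ℝ, ℝ) (fun x' : M => halfDistSq x' y) (p 0) := by
    have h2 := contMDiffAt_cost G hd
    have h3 : ContMDiffAt (𝓡 n) ((𝓡 n).prod (𝓡 n)) ∞ (fun x' : M => (x', y)) (p 0) :=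
      contMDiffAt_id.prodMk contMDiffAt_const
    exact (ContMDiffAt.comp (p 0) h2 h3).mdifferentiableAt (by simp)
  set L : EuclideanSpace ℝ (Fin n) →L[ℝ] ℝ :=
    mfderiv (𝓡 n) 𝓘(ℝ, ℝ) (fun x' : M => halfDistSq x' y) (p 0) with hL
  have hLz : ∀ z : M, z = p 0 →
      HasMFDerivAt (𝓡 n) 𝓘(ℝ, ℝ) (fun x' : M => halfDistSq x' y) z L := by
    rintro z rfl
    exact h1.hasMFDerivAt
  have key : ∀ c : ℝ → M, MDifferentiableAt 𝓘(ℝ, ℝ) (𝓡 n) c 0 → c 0 = p 0 →
      HasDerivAt (fun s => halfDistSq (c s) y) (L (curveVel n c 0)) 0 := by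
    intro c hc hc0
    set D : ℝ →L[ℝ] EuclideanSpace ℝ (Fin n) := mfderiv 𝓘(ℝ, ℝ) (𝓡 n) c 0 with hD
    have h4 : HasMFDerivAt 𝓘(ℝ, ℝ) 𝓘(ℝ, ℝ) (fun s => halfDistSq (c s) y) 0 (L.comp D) :=
      (hLz _ hc0).comp 0 hc.hasMFDerivAt
    have h5 : HasFDerivAt (fun s => halfDistSq (c s) y) (L.comp D) 0 :=
      hasMFDerivAt_iff_hasFDerivAt.1 h4
    exact h5.hasDerivAt
  have hray : MDifferentiableAt 𝓘(ℝ, ℝ) (𝓡 n) (fun t : ℝ => G.ex (p 0) (t • curveVel n p 0)) 0 :=
    GeoBasic616.mdifferentiableAt_ray G (p 0) (curveVel n p 0) 0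
  have h5 := key _ hray (by simp only [zero_smul]; exact G.ex_zero _)
  have h6 := G.hasDerivAt_cost (p 0) v (curveVel n p 0) hv
  have h7 := h5.unique h6
  have h8 := key p hp rfl
  have h9 : curveVel n (fun t : ℝ => G.ex (p 0) (t • curveVel n p 0)) 0 = curveVel n p 0 :=
    G.vel_zero (p 0) (curveVel n p 0)
  have h10 : L (curveVel n p 0) = -inner ℝ v (curveVel n p 0) := by
    rw [← h7]
    exact congrArg L h9.symm
  rw [← h10]
  exact h8

/-- **first variation of the cost**, both variables -/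
theorem hasDerivAt_cost_joint (G : GeoData n M) {p q : ℝ → M}
    (hp : ContMDiff 𝓘(ℝ, ℝ) (𝓡 n) ∞ p) (hq : ContMDiff 𝓘(ℝ, ℝ) (𝓡 n) ∞ q) {x y : M} (hx : p 0 = x)
    (hy : q 0 = y) {v : TangentSpace (𝓡 n) x} {w : TangentSpace (𝓡 n) y} (hv : ‖v‖ < G.r₀)
    (hw : ‖w‖ < G.r₀) (hxy : G.ex x v = y) (hyx : G.ex y w = x) :
    HasDerivAt (fun s => halfDistSq (p s) (q s))
      (-inner ℝ v (curveVel n p 0) - inner ℝ w (curveVel n q 0)) 0 := by
  have hd : dist (p 0) (q 0) < G.r₀ := by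
    rw [hx, hy, ← hxy, GeoBasic616.dist_ex_of_norm_lt G hv]; exact hv
  have h1 : ContMDiffAt 𝓘(ℝ, ℝ × ℝ) 𝓘(ℝ, ℝ) ∞
      (fun s : ℝ × ℝ => halfDistSq (p s.1) (q s.2)) (0, 0) := by
    have f1 : ContMDiff 𝓘(ℝ, ℝ × ℝ) 𝓘(ℝ, ℝ) ∞ (fun s : ℝ × ℝ => s.1) := contDiff_fst.contMDiff
    have f2 : ContMDiff 𝓘(ℝ, ℝ × ℝ) 𝓘(ℝ, ℝ) ∞ (fun s : ℝ × ℝ => s.2) := contDiff_snd.contMDiff
    have h3 : ContMDiff 𝓘(ℝ, ℝ × ℝ) ((𝓡 n).prod (𝓡 n)) ∞ (fun s : ℝ × ℝ => (p s.1, q s.2)) :=
      (hp.comp f1).prodMk (hq.comp f2)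
    exact ContMDiffAt.comp (g := fun q : M × M => halfDistSq q.1 q.2) (0, 0)
      (contMDiffAt_cost G hd) h3.contMDiffAt
  have h2 : DifferentiableAt ℝ (fun s : ℝ × ℝ => halfDistSq (p s.1) (q s.2)) (0, 0) :=
    h1.contDiffAt.differentiableAt (by simp)
  obtain ⟨Φ, hΦ⟩ := h2
  have a1 : HasDerivAt (fun s : ℝ => (s, (0 : ℝ))) ((1 : ℝ), (0 : ℝ)) 0 :=
    (hasDerivAt_id 0).prodMk (hasDerivAt_const 0 0)
  have a2 : HasDerivAt (fun s : ℝ => ((0 : ℝ), s)) ((0 : ℝ), (1 : ℝ)) 0 :=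
    (hasDerivAt_const 0 0).prodMk (hasDerivAt_id 0)
  have a3 : HasDerivAt (fun s : ℝ => (s, s)) ((1 : ℝ), (1 : ℝ)) 0 :=
    (hasDerivAt_id 0).prodMk (hasDerivAt_id 0)
  have b1 := HasFDerivAt.comp_hasDerivAt (0 : ℝ) (l := fun s : ℝ × ℝ => halfDistSq (p s.1) (q s.2))
    (f := fun s : ℝ => (s, (0 : ℝ))) hΦ a1
  have b2 := HasFDerivAt.comp_hasDerivAt (0 : ℝ) (l := fun s : ℝ × ℝ => halfDistSq (p s.1) (q s.2))
    (f := fun s : ℝ => ((0 : ℝ), s)) hΦ a2
  have b3 := HasFDerivAt.comp_hasDerivAt (0 : ℝ) (l := fun s : ℝ × ℝ => halfDistSq (p s.1) (q s.2))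
    (f := fun s : ℝ => (s, s)) hΦ a3
  have c1 : HasDerivAt (fun s => halfDistSq (p s) (q 0)) (-inner ℝ v (curveVel n p 0)) 0 := by
    have := hasDerivAt_cost_left G (hp.mdifferentiable (by simp) 0) hx hv
    rwa [hxy, ← hy] at this
  have c2 : HasDerivAt (fun s => halfDistSq (p 0) (q s)) (-inner ℝ w (curveVel n q 0)) 0 := by
    have := hasDerivAt_cost_left G (hq.mdifferentiable (by simp) 0) hy hw
    rw [hyx, ← hx] at this
    refine this.congr_of_eventuallyEq (Eventually.of_forall fun s => ?_)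
    simp only [halfDistSq, dist_comm]
  have e1 : Φ ((1 : ℝ), (0 : ℝ)) = -inner ℝ v (curveVel n p 0) := b1.unique c1
  have e2 : Φ ((0 : ℝ), (1 : ℝ)) = -inner ℝ w (curveVel n q 0) := b2.unique c2
  have e3 : Φ ((1 : ℝ), (1 : ℝ)) = -inner ℝ v (curveVel n p 0) - inner ℝ w (curveVel n q 0) := by
    have : ((1 : ℝ), (1 : ℝ)) = ((1 : ℝ), (0 : ℝ)) + ((0 : ℝ), (1 : ℝ)) := by simp
    rw [this, map_add, e1, e2]
    ring
  rw [← e3]
  exact b3

/-! ### closed geodesics are critical -/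

variable [IsContMDiffRiemannianBundle (𝓡 n) ∞ (EuclideanSpace ℝ (Fin n))
    (fun p : M => TangentSpace (𝓡 n) p)] [IsRiemannianManifold (𝓡 n) M]

/-- slices of smooth maps of the plane -/
theorem contMDiff_slice_fst {Γ : ℝ × ℝ → M} (hΓ : ContMDiff 𝓘(ℝ, ℝ × ℝ) (𝓡 n) ∞ Γ) (t : ℝ) :
    ContMDiff 𝓘(ℝ, ℝ) (𝓡 n) ∞ (fun s => Γ (s, t)) := by
  have f1 : ContMDiff 𝓘(ℝ, ℝ) 𝓘(ℝ, ℝ × ℝ) ∞ (fun s : ℝ => (s, t)) :=
    (contDiff_id.prodMk contDiff_const).contMDiff
  exact hΓ.comp f1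

theorem contMDiff_slice_snd {Γ : ℝ × ℝ → M} (hΓ : ContMDiff 𝓘(ℝ, ℝ × ℝ) (𝓡 n) ∞ Γ) (s : ℝ) :
    ContMDiff 𝓘(ℝ, ℝ) (𝓡 n) ∞ (fun t => Γ (s, t)) := by
  have f1 : ContMDiff 𝓘(ℝ, ℝ) 𝓘(ℝ, ℝ × ℝ) ∞ (fun t : ℝ => (s, t)) :=
    (contDiff_const.prodMk contDiff_id).contMDiff
  exact hΓ.comp f1

/-- partition points -/
def tp (N i : ℕ) : ℝ := (i : ℝ) / N

theorem tp_succ {N : ℕ} (i : ℕ) : tp N (i + 1) = tp N i + 1 / N := by
  unfold tp; push_cast; ring

/-- the polygonal energy is at most the energy -/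
theorem sum_le_energy {c : ℝ → M} (hc : ContMDiff 𝓘(ℝ, ℝ) (𝓡 n) ∞ c) {N : ℕ} (hN : 0 < N) :
    ∑ i ∈ Finset.range N, 2 * N * halfDistSq (c (tp N i)) (c (tp N (i + 1))) ≤
      ∫ t in (0 : ℝ)..1, ‖curveVel n c t‖ ^ 2 := by
  have hN' : (0 : ℝ) < N := by exact_mod_cast hN
  have hcont : Continuous fun t => ‖curveVel n c t‖ ^ 2 := (contDiff_speed_curve hc).continuous
  have h1 : ∑ i ∈ Finset.range N, ∫ t in (tp N i)..(tp N (i + 1)), ‖curveVel n c t‖ ^ 2 =
      ∫ t in (tp N 0)..(tp N N), ‖curveVel n c t‖ ^ 2 :=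
    intervalIntegral.sum_integral_adjacent_intervals fun k _ => hcont.intervalIntegrable _ _
  have h2 : tp N 0 = 0 := by simp [tp]
  have h3 : tp N N = 1 := by unfold tp; field_simp
  rw [h2, h3] at h1
  rw [← h1]
  refine Finset.sum_le_sum fun i _ => ?_
  have h4 : tp N i ≤ tp N (i + 1) := by rw [tp_succ]; have := one_div_pos.2 hN'; linarith
  have h5 := dist_sq_le hc h4
  have h6 : tp N (i + 1) - tp N i = 1 / N := by rw [tp_succ]; ring
  rw [h6] at h5
  unfold halfDistSq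
  calc 2 * (N : ℝ) * (dist (c (tp N i)) (c (tp N (i + 1))) ^ 2 / 2) =
        N * dist (c (tp N i)) (c (tp N (i + 1))) ^ 2 := by ring
    _ ≤ N * (1 / N * ∫ t in (tp N i)..(tp N (i + 1)), ‖curveVel n c t‖ ^ 2) :=
        mul_le_mul_of_nonneg_left h5 hN'.le
    _ = _ := by field_simp

/-- **closed orbits of the geodesic flow are critical points of the energy** -/
theorem hasDerivAt_energy (G : GeoData n M) {p : TangentBundle (𝓡 n) M} (hp : G.Flow 1 p = p)
    {Γ : ℝ × ℝ → M} (hΓ : ContMDiff 𝓘(ℝ, ℝ × ℝ) (𝓡 n) ∞ Γ)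
    (h0 : ∀ t, Γ (0, t) = G.ex p.1 (t • p.2)) (hper : ∀ s, Function.Periodic (fun t => Γ (s, t)) 1) :
    HasDerivAt (fun s => ∫ t in (0 : ℝ)..1, ‖curveVel n (fun t => Γ (s, t)) t‖ ^ 2) 0 0 := by
  obtain ⟨e', he'⟩ := exists_deriv_energy hΓ 0 1
  set E : ℝ → ℝ := fun s => ∫ t in (0 : ℝ)..1, ‖curveVel n (fun t => Γ (s, t)) t‖ ^ 2 with hE
  -- the number of vertices
  obtain ⟨N, hN⟩ := exists_nat_gt (‖p.2‖ / G.r₀)
  have hr := G.r₀_pos
  have hN' : (0 : ℝ) < N := (div_nonneg (norm_nonneg _) hr.le).trans_lt hN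
  have hN0 : 0 < N := by exact_mod_cast hN'
  have hsm : 1 / N * ‖p.2‖ < G.r₀ := by
    rw [div_lt_iff₀ hr] at hN
    rw [one_div, inv_mul_lt_iff₀ hN']
    linarith
  -- the orbit
  set c : ℝ → M := fun t => G.ex p.1 (t • p.2) with hc
  have hnv : ∀ t, ‖G.vel p.1 p.2 t‖ = ‖p.2‖ := fun t => G.norm_vel p.1 p.2 t
  have hfl : ∀ t s : ℝ, G.ex (c t) (s • G.vel p.1 p.2 t) = c (t + s) := fun t s => G.flow p.1 p.2 t s
  set P : ℝ → ℝ := fun s => ∑ i ∈ Finset.range N,
    2 * N * halfDistSq (Γ (s, tp N i)) (Γ (s, tp N (i + 1))) with hP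
  -- `P` is below the energy, with equality at `0`
  have hle : ∀ s, P s ≤ E s := fun s => sum_le_energy (contMDiff_slice_snd hΓ s) hN0
  have hΓ0 : (fun t => Γ (0, t)) = c := funext h0
  have hE0 : E 0 = ‖p.2‖ ^ 2 := by
    have h1 : ∀ γ : ℝ → M, γ = c → ∫ t in (0 : ℝ)..1, ‖curveVel n γ t‖ ^ 2 =
        ∫ t in (0 : ℝ)..1, ‖curveVel n c t‖ ^ 2 := by
      rintro γ rfl
      rfl
    rw [show E 0 = _ from h1 _ hΓ0]
    have h2 : (fun t => ‖curveVel n c t‖ ^ 2) = fun _ => ‖p.2‖ ^ 2 := by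
      funext t
      have : ‖curveVel n c t‖ = ‖p.2‖ := G.norm_vel p.1 p.2 t
      rw [this]
    rw [h2]
    simp
  have hdist : ∀ i, dist (c (tp N i)) (c (tp N (i + 1))) = 1 / N * ‖p.2‖ := by
    intro i
    have h1 : |tp N i - tp N (i + 1)| = 1 / N := by
      rw [tp_succ, abs_sub_comm, add_sub_cancel_left, abs_of_pos (one_div_pos.2 hN')]
    have h2 := G.dist_eq p.1 p.2 (tp N i) (tp N (i + 1)) (by rw [h1]; exact hsm)
    rw [h1] at h2
    exact h2
  have hP0 : P 0 = ‖p.2‖ ^ 2 := by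
    simp only [hP, h0]
    have h1 : ∀ i ∈ Finset.range N, 2 * (N : ℝ) * halfDistSq (G.ex p.1 (tp N i • p.2))
        (G.ex p.1 (tp N (i + 1) • p.2)) = 1 / N * ‖p.2‖ ^ 2 := by
      intro i _
      have := hdist i
      simp only [hc] at this
      unfold halfDistSq
      rw [this]
      field_simp
    rw [Finset.sum_congr rfl h1, Finset.sum_const, Finset.card_range, nsmul_eq_mul]
    field_simp
  -- the derivative of `P`
  set F : TangentBundle (𝓡 n) M → EuclideanSpace ℝ (Fin n) → ℝ := fun q ξ =>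
    inner ℝ q.2 (ξ : TangentSpace (𝓡 n) q.1) with hF
  set ξ : ℝ → EuclideanSpace ℝ (Fin n) := fun t => curveVel n (fun s => Γ (s, t)) 0 with hξ
  have hterm : ∀ i : ℕ, HasDerivAt
      (fun s => 2 * N * halfDistSq (Γ (s, tp N i)) (Γ (s, tp N (i + 1))))
      (2 * (F (G.Flow (tp N (i + 1)) p) (ξ (tp N (i + 1))) - F (G.Flow (tp N i) p) (ξ (tp N i))))
      0 := by
    intro i
    have h1 := hasDerivAt_cost_joint G (contMDiff_slice_fst hΓ (tp N i))
      (contMDiff_slice_fst hΓ (tp N (i + 1))) (h0 (tp N i)) (h0 (tp N (i + 1)))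
      (v := (1 / (N : ℝ)) • G.vel p.1 p.2 (tp N i))
      (w := (-(1 / (N : ℝ))) • G.vel p.1 p.2 (tp N (i + 1)))
      (by rw [norm_smul, hnv, Real.norm_eq_abs, abs_of_pos (one_div_pos.2 hN')]; exact hsm)
      (by rw [norm_smul, hnv, norm_neg, Real.norm_eq_abs, abs_of_pos (one_div_pos.2 hN')]
          exact hsm)
      (by
        have := hfl (tp N i) (1 / N)
        rw [← tp_succ] at this
        exact this)
      (by
        have := hfl (tp N (i + 1)) (-(1 / N))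
        rw [show tp N (i + 1) + -(1 / (N : ℝ)) = tp N i by rw [tp_succ]; ring] at this
        exact this)
    have h2 := h1.const_mul (2 * (N : ℝ))
    refine h2.congr_deriv ?_
    have e1 : inner ℝ ((1 / (N : ℝ)) • G.vel p.1 p.2 (tp N i))
        (curveVel n (fun s => Γ (s, tp N i)) 0) =
        1 / N * F (G.Flow (tp N i) p) (ξ (tp N i)) :=
      real_inner_smul_left (F := TangentSpace (𝓡 n) (G.ex p.1 (tp N i • p.2)))
        (G.vel p.1 p.2 (tp N i)) (curveVel n (fun s => Γ (s, tp N i)) 0) _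
    have e2 : inner ℝ ((-(1 / (N : ℝ))) • G.vel p.1 p.2 (tp N (i + 1)))
        (curveVel n (fun s => Γ (s, tp N (i + 1))) 0) =
        -(1 / N) * F (G.Flow (tp N (i + 1)) p) (ξ (tp N (i + 1))) :=
      real_inner_smul_left (F := TangentSpace (𝓡 n) (G.ex p.1 (tp N (i + 1) • p.2)))
        (G.vel p.1 p.2 (tp N (i + 1))) (curveVel n (fun s => Γ (s, tp N (i + 1))) 0) _
    rw [e1, e2]
    field_simp
    ring
  have hPd : HasDerivAt P 0 0 := by
    have h1 := HasDerivAt.fun_sum (u := Finset.range N) fun i _ => hterm i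
    refine h1.congr_deriv ?_
    rw [← Finset.mul_sum, Finset.sum_range_sub
      (fun i => F (G.Flow (tp N i) p) (ξ (tp N i)))]
    have h2 : tp N 0 = 0 := by simp [tp]
    have h3 : tp N N = 1 := by unfold tp; field_simp
    rw [h2, h3, GeoBasic616.Flow_zero, hp]
    have h4 : ξ 1 = ξ 0 := by
      simp only [hξ]
      have : (fun s => Γ (s, (1 : ℝ))) = fun s => Γ (s, (0 : ℝ)) := by
        funext s
        have := hper s 0
        simpa using this
      rw [this]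
    rw [h4, sub_self, mul_zero]
  -- conclusion
  have hmin : IsLocalMin (fun s => E s - P s) 0 := by
    refine Eventually.of_forall fun s => ?_
    have h1 := hle s
    simp only [hE0, hP0, sub_self]
    linarith
  have h5 := hmin.hasDerivAt_eq_zero (he'.sub hPd)
  rw [sub_zero] at h5
  rw [h5] at he'
  exact he'

end Crest.Agent.R231
end
end

-- ▼ part R231/VarC_67
section

/-!
# Row 231 (S0357): closed orbits of the geodesic flow of `g` are closed geodesics (helper67)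

* `isClosedGeodesic_of_flow` : `G.Flow 1 p = p ⟹ IsClosedGeodesic (𝓡 n) g (t ↦ G.ex p.1 (t • p.2))`
* `nonconstant_of_flow` : nonconstant if `p.2 ≠ 0`
* `mem_S0357` : the image belongs to the set of S0357
-/

set_option autoImplicit false
set_option linter.unusedSectionVars false

open MeasureTheory Set Filter Topology Bundle
open scoped Manifold ContDiff Bundle ENNReal
open Manifold
open Crest.GeometryTopology.MTW Crest.GeometryTopology.Geodesic

noncomputable section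

namespace Crest.Agent.R231

open Crest.Agent.R226 Crest.Agent.R231.GeoBasex724

section generic

variable {n : ℕ} {M : Type*} [MetricSpace M] [ChartedSpace (EuclideanSpace ℝ (Fin n)) M]
  [IsManifold (𝓡 n) ∞ M]
  [RiemannianBundle (fun p : M => TangentSpace (𝓡 n) p)]

/-- closed orbits are periodic curves -/
theorem periodic_of_flow (G : GeoData n M) {p : TangentBundle (𝓡 n) M} (hp : G.Flow 1 p = p) :
    Function.Periodic (fun t : ℝ => G.ex p.1 (t • p.2)) 1 := by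
  intro t
  have h1 := GeoBasic616.Flow_add G t 1 p
  have h2 : G.Flow (t + 1) p = G.Flow t p := by rw [add_comm, ← h1, hp]
  exact congrArg TotalSpace.proj h2

/-- nonzero velocity: nonconstant -/
theorem nonconstant_of_ne (G : GeoData n M) {x : M} {v : TangentSpace (𝓡 n) x} (hv : v ≠ 0) :
    ∃ s t : ℝ, G.ex x (s • v) ≠ G.ex x (t • v) := by
  have hv' : 0 < ‖v‖ := norm_pos_iff.2 hv
  have hr := G.r₀_pos
  refine ⟨0, G.r₀ / (2 * ‖v‖), fun h => ?_⟩
  have h1 : |(0 : ℝ) - G.r₀ / (2 * ‖v‖)| * ‖v‖ = G.r₀ / 2 := by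
    rw [zero_sub, abs_neg, abs_of_pos (by positivity)]
    field_simp
  have h2 := G.dist_eq x v 0 (G.r₀ / (2 * ‖v‖)) (by rw [h1]; linarith)
  rw [h, dist_self, h1] at h2
  linarith

end generic

section sphere

variable {n : ℕ} [NeZero n] (g : Met n)

/-- squared speed -/
def sp2 (c : ℝ → SG g) (t : ℝ) : ℝ := ‖curveVel n c t‖ ^ 2

theorem loopEnergy_eq (c : ℝ → SG g) :
    loopEnergy (𝓡 n) g (M := Sph n) c = ∫ t in (0 : ℝ)..1, sp2 g c t := by
  unfold loopEnergy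
  refine intervalIntegral.integral_congr fun t _ => ?_
  exact real_inner_self_eq_norm_sq (curveVel n c t)

/-- **closed orbits of the geodesic flow are closed geodesics** (definition of the Prelude) -/
theorem isClosedGeodesic_of_flow (G : GeoData n (SG g)) {p : TangentBundle (𝓡 n) (SG g)}
    (hp : G.Flow 1 p = p) :
    IsClosedGeodesic (𝓡 n) g (M := Sph n) (fun t : ℝ => (G.ex p.1 (t • p.2) : Sph n)) where
  contMDiff := GeoBasic616.contMDiff_ray G p.1 p.2
  periodic := periodic_of_flow G hp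
  isCritical Γ hΓ h0 hper := by
    have h := hasDerivAt_energy G hp (Γ := Γ) hΓ h0 hper
    have e : (fun s => loopEnergy (𝓡 n) g fun t => Γ (s, t)) = fun s => ∫ t in (0 : ℝ)..1,
        sp2 g (fun t => Γ (s, t)) t := funext fun s => loopEnergy_eq g fun t => Γ (s, t)
    rw [e]
    exact h

/-- the image of a nonconstant closed orbit belongs to the set of S0357 -/
theorem mem_S0357 (G : GeoData n (SG g)) {p : TangentBundle (𝓡 n) (SG g)}
    (hp : G.Flow 1 p = p) (hv : p.2 ≠ 0) :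
    Set.range (fun t : ℝ => (G.ex p.1 (t • p.2) : Sph n)) ∈
      {S : Set (Sph n) | ∃ γ : ℝ → Sph n, IsClosedGeodesic (𝓡 n) g γ ∧ (∃ s t, γ s ≠ γ t) ∧
        Set.range γ = S} :=
  ⟨_, isClosedGeodesic_of_flow g G hp, nonconstant_of_ne G hv, rfl⟩

end sphere

end Crest.Agent.R231
end
end

-- ▼ part R231/Front_893

/-!
# Row 231 (S0357), block W (helper893): the front end

* `nonBr` : `NonBr M G.r₀` for a geodesic package `G : GeoData n M`
* `isGeo_of_isLoopG`, `isLoopG_iff` : metric closed geodesics versus `IsLoopG`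
* `mem_set` : a metric closed geodesic of `(S^n, g)` has its image in the set of S0357
* `exists_primeSys_of_finite` : if the set of S0357 is finite, there is a finite complete system of
  prime closed geodesics
* `infinite_of` : S0357 for `g` follows if no finite prime system exists
* `exists_count` : at most `B` critical levels in every interval of length `C`
-/

set_option autoImplicit false
set_option linter.unusedSectionVars false

noncomputable section

open Bundle Set Filter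
open scoped Manifold ContDiff Bundle ENNReal Topology
open Crest.GeometryTopology.MTW Crest.GeometryTopology.Geodesic
open Crest.Agent.R226 Crest.Agent.R226.GeoBasic616 Crest.Agent.R226.TB616

namespace Crest.Agent.R231.Frontx893

open GLugx576 GeoLugx724 PrimeGeox893 CritPMx893 GeoBasex724

section generic

variable {n : ℕ} {M : Type*} [MetricSpace M] [ChartedSpace (EuclideanSpace ℝ (Fin n)) M]
  [IsManifold (𝓡 n) ∞ M]
  [RiemannianBundle (fun p : M => TangentSpace (𝓡 n) p)]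

variable (G : GeoData n M)

/-- two unit local geodesics that agree on `[m, m+η]` agree on `[m, ∞)` -/
theorem agree_fwd {c c' : ℝ → M} (h : IsLG G.r₀ c) (h' : IsLG G.r₀ c') {m η : ℝ} (hη : 0 < η)
    (hag : ∀ s ∈ Icc m (m + η), c s = c' s) {t : ℝ} (ht : m ≤ t) : c t = c' t := by
  have hr := G.r₀_pos
  have loc : ∀ {c : ℝ → M}, IsLG G.r₀ c → ∀ x ∈ Icc m (t + 1), ∀ y ∈ Icc m (t + 1),
      |x - y| ≤ G.r₀ / 2 → dist (c x) (c y) = 1 * |x - y| := by
    intro c h x _ y _ hxy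
    rw [one_mul]
    exact h x y (by linarith)
  have hmt : m < t + 1 := by linarith
  have hcm : c' m = c m := (hag m ⟨le_rfl, by linarith⟩).symm
  obtain ⟨w, hw1, hw⟩ := exline_Icc G hmt (half_pos hr) zero_le_one (loc h) rfl
  obtain ⟨w', hw1', hw'⟩ := exline_Icc G hmt (half_pos hr) zero_le_one (loc h') hcm
  set ε : ℝ := min η (min (G.r₀ / 2) (t + 1 - m)) with hε
  have hε0 : 0 < ε := lt_min hη (lt_min (half_pos hr) (by linarith))
  have hε1 : ε ≤ η := min_le_left _ _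
  have hε2 : ε ≤ G.r₀ / 2 := (min_le_right _ _).trans (min_le_left _ _)
  have hε3 : ε ≤ t + 1 - m := (min_le_right _ _).trans (min_le_right _ _)
  have hww : w = w' := by
    have e1 : G.ex (c m) (ε • w) = G.ex (c m) (ε • w') := by
      rw [← hw ε ⟨hε0.le, hε3⟩, ← hw' ε ⟨hε0.le, hε3⟩]
      exact hag _ ⟨by linarith, by linarith⟩
    have e2 : ε • w = ε • w' := by
      refine G.inj (c m) _ _ ?_ ?_ e1
      · rw [norm_smul, hw1, Real.norm_of_nonneg hε0.le]; linarith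
      · rw [norm_smul, hw1', Real.norm_of_nonneg hε0.le]; linarith
    exact smul_right_injective _ hε0.ne' e2
  have h1 := hw (t - m) ⟨by linarith, by linarith⟩
  have h2 := hw' (t - m) ⟨by linarith, by linarith⟩
  rw [show m + (t - m) = t by ring] at h1 h2
  rw [h1, h2, hww]

/-- **non-branching** -/
theorem nonBr : NonBr M G.r₀ := by
  intro c c' h h' a b hab hag
  set m : ℝ := (a + b) / 2 with hm
  set η : ℝ := (b - a) / 4 with hη
  have hη0 : 0 < η := by rw [hη]; linarith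
  funext t
  rcases le_total m t with ht | ht
  · refine agree_fwd G h h' hη0 (fun s hs => hag s ⟨?_, ?_⟩) ht
    · rw [hm] at hs; linarith [hs.1]
    · rw [hm, hη] at hs; linarith [hs.2]
  · have hc := h.affine (ε := -1) (by simp) (2 * m)
    have hc' := h'.affine (ε := -1) (by simp) (2 * m)
    have h1 := agree_fwd G hc hc' (m := m) hη0 (fun s hs => ?_) (t := 2 * m - t) (by linarith)
    · have e : -1 * (2 * m - t) + 2 * m = t := by ring
      simp only [e] at h1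
      exact h1
    · refine hag _ ⟨?_, ?_⟩
      · rw [hm, hη] at hs; rw [hm]; linarith [hs.2]
      · rw [hm] at hs; rw [hm]; linarith [hs.1]

theorem isGeo_iff' {s : ℝ} {γ : Lp M} : IsGeo s γ ↔ 0 < s ∧ IsLoopG G.r₀ s (up γ) :=
  CritPMx893.isGeo_iff (lug G) (locMin G)

end generic

section sphere

variable {n : ℕ} [NeZero n] (g : Met n)

/-- the set of images of S0357 -/
def imgs : Set (Set (Sph n)) :=
  {S : Set (Sph n) | ∃ γ : ℝ → Sph n, IsClosedGeodesic (𝓡 n) g γ ∧ (∃ s t, γ s ≠ γ t) ∧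
    Set.range γ = S}

variable (G : GeoData n (SG g))

/-- the image of a metric closed geodesic belongs to the set of S0357 -/
theorem mem_imgs {γ : ℝ → SG g} {L : ℝ} (hL : 0 < L) (h : IsLoopG G.r₀ L γ) :
    (range γ : Set (SG g)) ∈ (imgs g : Set (Set (SG g))) := by
  obtain ⟨γ', hγ'⟩ := exists_up (h.continuous G.r₀_pos hL) h.per
  have hg : IsGeo L γ' := (isGeo_iff' G).2 ⟨hL, by rw [hγ']; exact h⟩
  obtain ⟨p, -, hp2, hp3, hp4⟩ := exists_line G hg
  have hne : p.2 ≠ 0 := by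
    intro h0
    rw [h0, norm_zero] at hp2
    exact hL.ne hp2
  have h1 := mem_S0357 g G hp3 hne
  have e : γ = fun t : ℝ => G.ex p.1 (t • p.2) := by
    funext t
    rw [← hp4 t, ← hγ']
    rfl
  rw [e]
  exact h1

/-- **finitely many images give a finite prime system** -/
theorem exists_primeSys_of_finite (hfin : (imgs g).Finite) :
    ∃ N : ℕ, Nonempty (PrimeSys (SG g) G.r₀ (Fin N)) := by
  refine exists_primeSys G.r₀_pos (Set.Finite.subset (s := (imgs g : Set (Set (SG g)))) hfin ?_)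
  rintro S ⟨γ, L, hL, hγ, rfl⟩
  exact mem_imgs g G hL hγ

end sphere

/-- **the front end of S0357**: it is enough to refute finite prime systems -/
theorem infinite_of (n : ℕ) (hn : 2 ≤ n)
    (H : ∀ [NeZero n] (g : Met n) (G : GeoData n (SG g)) (N : ℕ)
      (_ : PrimeSys (SG g) G.r₀ (Fin N)), False) (g : Met n) :
    {S : Set (Metric.sphere (0 : EuclideanSpace ℝ (Fin (n + 1))) 1) |
      ∃ γ : ℝ → Metric.sphere (0 : EuclideanSpace ℝ (Fin (n + 1))) 1,
      IsClosedGeodesic (𝓡 n) g γ ∧ (∃ s t, γ s ≠ γ t) ∧ Set.range γ = S}.Infinite := by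
  have : NeZero n := ⟨by omega⟩
  intro hfin
  obtain ⟨G⟩ := nonempty_geoData g
  obtain ⟨N, ⟨S⟩⟩ := exists_primeSys_of_finite g G hfin
  exact H g G N S

/-! ### counting critical levels -/

section count

variable {M : Type*} [MetricSpace M] {r : ℝ} {ι : Type}


end count

end Crest.Agent.R231.Frontx893
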