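import Mathlib
import Crest.Agent.R231.IfA_978
import Crest.Agent.R231.BDLam_969
import Crest.Agent.R231.InstC_895
import Crest.Agent.R231.LvAlg_969
import Crest.Agent.R231.IfPT_200_Mg
import Crest.Agent.R231.Front_893

-- ▼ part R231/A2_969
section

/-!
# Row 231, block P, algebraic end, part 3 (helper969): the field `Core.A2`

`A2_of` : `BDLam` + bounded number of critical levels in windows + Gromoll–Meyer bound `dim L(s) ≤ B`
⟹ `Core.A2` (literally).  `window_of_multiples` : the window hypothesis for `Crit ⊆ {m l_i}`.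
-/

set_option autoImplicit false

namespace Crest.Agent.R231.BDAx969

open Crest.Agent.R231.IfAx978

section modules
variable {V : Type*} [AddCommGroup V] [Module (ZMod 2) V]

/-- `length M ≤ length N + length P` if `ker g ≤ range f` -/
theorem length_le_add {N M P : Type*} [AddCommGroup N] [Module (ZMod 2) N] [AddCommGroup M]
    [Module (ZMod 2) M] [AddCommGroup P] [Module (ZMod 2) P] (f : N →ₗ[ZMod 2] M)
    (g : M →ₗ[ZMod 2] P) (h : LinearMap.ker g ≤ LinearMap.range f) :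
    Module.length (ZMod 2) M ≤ Module.length (ZMod 2) N + Module.length (ZMod 2) P := by
  have h1 : Module.length (ZMod 2) M = Module.length (ZMod 2) (LinearMap.ker g) +
      Module.length (ZMod 2) (M ⧸ LinearMap.ker g) :=
    Module.length_eq_add_of_exact (LinearMap.ker g).subtype (LinearMap.ker g).mkQ
      (Submodule.injective_subtype _) (Submodule.mkQ_surjective _)
      (LinearMap.exact_subtype_mkQ _)
  rw [h1]
  refine add_le_add ?_ ?_
  · calc Module.length (ZMod 2) (LinearMap.ker g)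
        ≤ Module.length (ZMod 2) (LinearMap.range f) :=
          Module.length_le_of_injective (Submodule.inclusion h) (Submodule.inclusion_injective h)
      _ ≤ Module.length (ZMod 2) N :=
          Module.length_le_of_surjective f.rangeRestrict (LinearMap.surjective_rangeRestrict f)
  · exact Module.length_le_of_injective _
      (LinearMap.ker_eq_bot.1 (Submodule.ker_liftQ_eq_bot _ g le_rfl le_rfl))

/-- the comparison map `Q/P → Q'/P'` -/
noncomputable def cmp (P Q P' Q' : Submodule (ZMod 2) V) (hQ : Q ≤ Q') (hP : P ≤ P') :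
    (Q ⧸ P.submoduleOf Q) →ₗ[ZMod 2] (Q' ⧸ P'.submoduleOf Q') :=
  Submodule.mapQ (P.submoduleOf Q) (P'.submoduleOf Q') (Submodule.inclusion hQ)
    (fun _ hx => Submodule.mem_comap.2 (hP hx))

theorem cmp_mk (P Q P' Q' : Submodule (ZMod 2) V) (hQ : Q ≤ Q') (hP : P ≤ P') (x : Q) :
    cmp P Q P' Q' hQ hP (Submodule.Quotient.mk x) = Submodule.Quotient.mk ⟨x.1, hQ x.2⟩ := rfl

theorem rd_exact (P Q P1 Q1 P2 Q2 : Submodule (ZMod 2) V) (h1 : Q1 ≤ Q) (h2 : P1 ≤ P) (h3 : Q ≤ Q2)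
    (h4 : P ≤ P2) (h5 : Q ⊓ P2 ≤ Q1 ⊔ P) : rd P Q ≤ rd P1 Q1 + rd P2 Q2 := by
  refine length_le_add (cmp P1 Q1 P Q h1 h2) (cmp P Q P2 Q2 h3 h4) ?_
  intro x hx
  induction x using Submodule.Quotient.induction_on with
  | H x =>
    have hx2 : (x : V) ∈ P2 := by
      have := (LinearMap.mem_ker.1 hx)
      rw [cmp_mk, Submodule.Quotient.mk_eq_zero] at this
      exact this
    obtain ⟨a, ha, b, hb, hab⟩ := Submodule.mem_sup.1 (h5 ⟨x.2, hx2⟩)
    refine ⟨Submodule.Quotient.mk ⟨a, ha⟩, ?_⟩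
    rw [cmp_mk, Submodule.Quotient.eq]
    show (a : V) - (x : V) ∈ P
    rw [← hab]
    have : a - (a + b) = -b := by abel
    rw [this]
    exact P.neg_mem hb

theorem rd_eq_zero {P Q : Submodule (ZMod 2) V} (h : Q ≤ P) : rd P Q = 0 := by
  unfold rd
  rw [Module.length_eq_zero_iff]
  have : P.submoduleOf Q = ⊤ := by
    rw [eq_top_iff]
    rintro x -
    exact h x.2
  rw [this]
  exact Submodule.Quotient.subsingleton_iff.2 rfl


end modules

variable {X : Mix}

theorem Zc_mono {A B A' B' : GS X} (hA : ∀ j, A j ≤ A' j) (hB : ∀ j, B j ≤ B' j) (j : ℕ) :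
    Zc A B j ≤ Zc A' B' j := by
  cases j with
  | zero => exact hB 0
  | succ j => exact inf_le_inf (hB _) (Submodule.comap_mono (hA j))

/-- triple inequality -/
theorem rd_triple {A B C : GS X} (hAB : ∀ j, A j ≤ B j) (hBC : ∀ j, B j ≤ C j) (j : ℕ) :
    rd (Bd A C j) (Zc A C j) ≤ rd (Bd A B j) (Zc A B j) + rd (Bd B C j) (Zc B C j) := by
  refine rd_exact _ _ _ _ _ _ (Zc_mono (fun _ => le_rfl) hBC j) (Bd_mono hBC j)
    (Zc_mono hAB (fun _ => le_rfl) j) (Bd_mono' hAB (fun _ => le_rfl) j) ?_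
  rintro x ⟨hx1, hx2⟩
  obtain ⟨u, hu, b, hb, rfl⟩ := Submodule.mem_sup.1 hx2
  rw [add_comm]
  refine Submodule.add_mem_sup ?_ (Submodule.mem_sup_left hu)
  cases j with
  | zero => exact hb
  | succ j =>
    refine ⟨hb, ?_⟩
    obtain ⟨w, _, rfl⟩ := hu
    have := hx1.2
    show X.d j b ∈ A j
    have h2 : X.d j (X.d (j + 1) w + b) ∈ A j := this
    rwa [map_add, X.dd, zero_add] at h2

/-- the kernel of `N_j(t) → N_j(u)` is a quotient of `H_{j+1}(X_u, X_t)` -/
theorem rd_ker_le {O A B : GS X} (hOA : ∀ j, O j ≤ A j) (j : ℕ) :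
    rd (Bd O A j) (A j ⊓ Bd O B j) ≤ rd (Bd A B (j + 1)) (Zc A B (j + 1)) := by
  have hmem : ∀ z : Zc A B (j + 1), X.d j (z : X.C (j + 1)) ∈ A j ⊓ Bd O B j := by
    intro z
    exact ⟨z.2.2, Submodule.mem_sup_left ⟨z, z.2.1, rfl⟩⟩
  let f : Zc A B (j + 1) →ₗ[ZMod 2] (A j ⊓ Bd O B j : Submodule (ZMod 2) (X.C j)) :=
    ((X.d j).comp (Zc A B (j + 1)).subtype).codRestrict _ hmem
  let g : (Zc A B (j + 1) ⧸ (Bd A B (j + 1)).submoduleOf (Zc A B (j + 1))) →ₗ[ZMod 2]
      ((A j ⊓ Bd O B j : Submodule (ZMod 2) (X.C j)) ⧸ (Bd O A j).submoduleOf (A j ⊓ Bd O B j)) :=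
    Submodule.mapQ _ _ f (by
      rintro ⟨z, hz⟩ hz2
      show X.d j z ∈ Bd O A j
      obtain ⟨u, hu, b, hb, hzub⟩ := Submodule.mem_sup.1 (show z ∈ Bd A B (j + 1) from hz2)
      obtain ⟨w, _, rfl⟩ := hu
      rw [← hzub, map_add, X.dd, zero_add]
      exact Submodule.mem_sup_left ⟨b, hb, rfl⟩)
  refine Module.length_le_of_surjective g ?_
  intro x
  induction x using Submodule.Quotient.induction_on with
  | H x =>
    obtain ⟨u, hu, b, hb, hub⟩ := Submodule.mem_sup.1 x.2.2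
    obtain ⟨w, hw, rfl⟩ := hu
    have hwz : w ∈ Zc A B (j + 1) := by
      refine ⟨hw, ?_⟩
      show X.d j w ∈ A j
      have : X.d j w = (x : X.C j) - b := by rw [← hub]; abel
      rw [this]
      exact Submodule.sub_mem _ x.2.1 (hOA j hb)
    refine ⟨Submodule.Quotient.mk ⟨w, hwz⟩, ?_⟩
    rw [Submodule.mapQ_apply, Submodule.Quotient.eq]
    show X.d j w - (x : X.C j) ∈ Bd O A j
    have : X.d j w - (x : X.C j) = -b := by rw [← hub]; abel
    rw [this]
    exact Submodule.neg_mem _ (Submodule.mem_sup_right hb)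

/-- Gromoll–Meyer bound, in the form delivered by block GM. -/
def GMBound (F : ℝ → GS X) (Crit : Set ℝ) : Prop :=
  ∃ B : ℕ, ∀ s ∈ Crit, ∃ δ : ℝ, 0 < δ ∧ ∀ a b : ℝ, 0 ≤ a → s - δ < a → a < s → s < b → b < s + δ →
    (∀ s' ∈ Crit, a ≤ s' → s' ≤ b → s' = s) →
    ∀ M : ℕ, ∑ j ∈ Finset.range M, rd (Bd (F a) (F b) j) (Zc (F a) (F b) j) ≤ B

/-- bounded number of critical levels in windows of bounded length -/
def Window (Crit : Set ℝ) : Prop :=
  ∀ L : ℝ, ∃ n : ℕ, ∀ t : ℝ, 0 ≤ t → (Crit ∩ Set.Icc t (t + L)).ncard ≤ n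

theorem count_le {F : ℝ → GS X} {Crit : Set ℝ} (hmono : ∀ s t, s ≤ t → ∀ j, F s j ≤ F t j)
    (hfin : ∀ T : ℝ, (Crit ∩ Set.Iic T).Finite)
    (hnon : ∀ a b : ℝ, 0 ≤ a → a ≤ b → (∀ s ∈ Crit, ¬ (a ≤ s ∧ s ≤ b)) →
      ∀ j, Zc (F a) (F b) j ≤ Bd (F a) (F b) j)
    {B : ℕ} (hB : ∀ s ∈ Crit, ∃ δ : ℝ, 0 < δ ∧ ∀ a b : ℝ, 0 ≤ a → s - δ < a → a < s → s < b →
      b < s + δ → (∀ s' ∈ Crit, a ≤ s' → s' ≤ b → s' = s) →
      ∀ M : ℕ, ∑ j ∈ Finset.range M, rd (Bd (F a) (F b) j) (Zc (F a) (F b) j) ≤ B) :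
    ∀ N : ℕ, ∀ a b : ℝ, 0 ≤ a → a ≤ b → a ∉ Crit → b ∉ Crit →
      (Crit ∩ Set.Icc a b).ncard ≤ N → ∀ M : ℕ,
      ∑ j ∈ Finset.range M, rd (Bd (F a) (F b) j) (Zc (F a) (F b) j) ≤ ((N * B : ℕ) : ℕ∞) := by
  have hfin2 : ∀ a b : ℝ, (Crit ∩ Set.Icc a b).Finite := fun a b =>
    (hfin b).subset fun x hx => ⟨hx.1, hx.2.2⟩
  intro N
  induction N with
  | zero =>
    intro a b ha hab _ _ hN M
    have he : Crit ∩ Set.Icc a b = ∅ := by
      rw [← Set.ncard_eq_zero (hfin2 a b)]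
      omega
    have hz := hnon a b ha hab (fun s hs h => by
      have : s ∈ Crit ∩ Set.Icc a b := ⟨hs, h⟩
      rw [he] at this
      exact this)
    simp only [Nat.zero_mul, Nat.cast_zero]
    refine le_of_eq (Finset.sum_eq_zero fun j _ => rd_eq_zero (hz j))
  | succ N ih =>
    intro a b ha hab haC hbC hN M
    by_cases he : Crit ∩ Set.Icc a b = ∅
    · have hz := hnon a b ha hab (fun s hs h => by
        have : s ∈ Crit ∩ Set.Icc a b := ⟨hs, h⟩
        rw [he] at this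
        exact this)
      refine le_trans (le_of_eq (Finset.sum_eq_zero fun j _ => rd_eq_zero (hz j))) bot_le
    · -- the largest critical value
      have hne : (Crit ∩ Set.Icc a b).Nonempty := Set.nonempty_iff_ne_empty.2 he
      obtain ⟨s, ⟨hsC, hsa, hsb⟩, hmax⟩ := (hfin2 a b).exists_maximal hne
      have hmax' : ∀ s' ∈ Crit, a ≤ s' → s' ≤ b → s' ≤ s := by
        intro s' h1 h2 h3
        by_contra hlt
        push Not at hlt
        exact absurd (hmax (y := s') ⟨h1, h2, h3⟩ hlt.le) (not_le.2 hlt)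
      have hsa' : a < s := lt_of_le_of_ne hsa (fun h => haC (h ▸ hsC))
      have hsb' : s < b := lt_of_le_of_ne hsb (fun h => hbC (h ▸ hsC))
      obtain ⟨δ, hδ, hGM⟩ := hB s hsC
      -- largest critical value below `s` (or `a`)
      obtain ⟨p, hp1, hp2, hp3⟩ : ∃ p : ℝ, a ≤ p ∧ p < s ∧ ∀ s' ∈ Crit, p < s' → s' ≤ b → s' = s := by
        by_cases he2 : (Crit ∩ Set.Icc a b) \ {s} = ∅
        · refine ⟨a, le_rfl, hsa', fun s' h1 h2 h3 => ?_⟩
          by_contra hne'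
          have : s' ∈ (Crit ∩ Set.Icc a b) \ {s} := ⟨⟨h1, h2.le, h3⟩, hne'⟩
          rw [he2] at this
          exact this
        · have hne2 : ((Crit ∩ Set.Icc a b) \ {s}).Nonempty := Set.nonempty_iff_ne_empty.2 he2
          obtain ⟨p, ⟨⟨hpC, hpa, hpb⟩, hps⟩, hpmax⟩ :=
            ((hfin2 a b).subset Set.sdiff_subset).exists_maximal hne2
          refine ⟨p, hpa, lt_of_le_of_ne (hmax' p hpC hpa hpb) hps, fun s' h1 h2 h3 => ?_⟩
          by_contra hne'
          have hm : s' ∈ (Crit ∩ Set.Icc a b) \ {s} := ⟨⟨h1, hpa.trans h2.le, h3⟩, hne'⟩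
          exact absurd (hpmax hm h2.le) (not_le.2 h2)
      set a' : ℝ := (max p (s - δ) + s) / 2 with ha'
      set b' : ℝ := (s + min b (s + δ)) / 2 with hb'
      have hm1 : max p (s - δ) < s := max_lt hp2 (by linarith)
      have hm2 : s < min b (s + δ) := lt_min hsb' (by linarith)
      have e1 : max p (s - δ) < a' := by rw [ha']; linarith
      have e2 : a' < s := by rw [ha']; linarith
      have e3 : s < b' := by rw [hb']; linarith
      have e4 : b' < min b (s + δ) := by rw [hb']; linarith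
      have e5 : p < a' := lt_of_le_of_lt (le_max_left _ _) e1
      have e6 : s - δ < a' := lt_of_le_of_lt (le_max_right _ _) e1
      have e7 : b' < b := lt_of_lt_of_le e4 (min_le_left _ _)
      have e8 : b' < s + δ := lt_of_lt_of_le e4 (min_le_right _ _)
      have ha'0 : 0 ≤ a' := by linarith
      have ha'C : a' ∉ Crit := fun h => by
        have := hp3 a' h e5 (by linarith)
        linarith
      -- the middle piece
      have hmid := hGM a' b' ha'0 e6 e2 e3 e8 (fun s' h1 h2 h3 => hp3 s' h1 (by linarith) (by linarith)) M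
      -- the upper piece
      have hup := hnon b' b (by linarith) e7.le (fun s' h1 h2 => by
        have := hp3 s' h1 (by linarith [h2.1]) h2.2
        linarith [h2.1])
      -- the lower piece
      have hlowcard : (Crit ∩ Set.Icc a a').ncard ≤ N := by
        have hsub : Crit ∩ Set.Icc a a' ⊆ (Crit ∩ Set.Icc a b) \ {s} := by
          rintro y ⟨hy1, hy2, hy3⟩
          refine ⟨⟨hy1, hy2, by linarith⟩, fun h => ?_⟩
          have : y = s := h
          linarith
        have h1 := Set.ncard_le_ncard hsub ((hfin2 a b).subset Set.sdiff_subset)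
        have h2 : ((Crit ∩ Set.Icc a b) \ {s}).ncard + 1 = (Crit ∩ Set.Icc a b).ncard :=
          Set.ncard_sdiff_singleton_add_one ⟨hsC, hsa, hsb⟩ (hfin2 a b)
        omega
      have hlow := ih a a' ha (by linarith) haC ha'C hlowcard M
      have hle1 : ∀ j, rd (Bd (F a) (F b) j) (Zc (F a) (F b) j) ≤
          rd (Bd (F a) (F a') j) (Zc (F a) (F a') j) + rd (Bd (F a') (F b') j) (Zc (F a') (F b') j) := by
        intro j
        have t1 := rd_triple (X := X) (hmono a a' (by linarith)) (hmono a' b (by linarith)) j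
        have t2 := rd_triple (X := X) (hmono a' b' (by linarith)) (hmono b' b (by linarith)) j
        rw [rd_eq_zero (hup j), add_zero] at t2
        exact t1.trans (add_le_add le_rfl t2)
      calc ∑ j ∈ Finset.range M, rd (Bd (F a) (F b) j) (Zc (F a) (F b) j)
          ≤ ∑ j ∈ Finset.range M, (rd (Bd (F a) (F a') j) (Zc (F a) (F a') j) +
              rd (Bd (F a') (F b') j) (Zc (F a') (F b') j)) := Finset.sum_le_sum fun j _ => hle1 j
        _ = ∑ j ∈ Finset.range M, rd (Bd (F a) (F a') j) (Zc (F a) (F a') j) +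
              ∑ j ∈ Finset.range M, rd (Bd (F a') (F b') j) (Zc (F a') (F b') j) :=
            Finset.sum_add_distrib
        _ ≤ ((N * B : ℕ) : ℕ∞) + (B : ℕ∞) := add_le_add hlow hmid
        _ = (((N + 1) * B : ℕ) : ℕ∞) := by
            rw [← Nat.cast_add]
            congr 1
            ring

/-- **the field `A2` of `Core`** -/
theorem A2_of {F : ℝ → GS X} {Crit : Set ℝ} (hmono : ∀ s t, s ≤ t → ∀ j, F s j ≤ F t j)
    (hfin : ∀ T : ℝ, (Crit ∩ Set.Iic T).Finite)
    (hnon : ∀ a b : ℝ, 0 ≤ a → a ≤ b → (∀ s ∈ Crit, ¬ (a ≤ s ∧ s ≤ b)) →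
      ∀ j, Zc (F a) (F b) j ≤ Bd (F a) (F b) j)
    (hW : Window Crit) (hGM : GMBound F Crit) (hBD : BDLam X F) :
    ∃ C0 : ℕ, ∀ t : ℝ, 0 ≤ t → t ∉ Crit → ∀ M : ℕ,
      ∑ j ∈ Finset.range M, rd (Bd (F 0) (F t) j) (F t j ⊓ Bd (F 0) ⊤ j) ≤ C0 := by
  obtain ⟨C, hC, hBD⟩ := hBD
  obtain ⟨B, hB⟩ := hGM
  obtain ⟨n, hn⟩ := hW (C + 1)
  refine ⟨n * B, fun t ht htC M => ?_⟩
  -- a non-critical level in `[t + C, t + C + 1]`
  obtain ⟨u, hu1, hu2, huC⟩ : ∃ u, t + C ≤ u ∧ u ≤ t + (C + 1) ∧ u ∉ Crit := by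
    by_contra hcon
    push Not at hcon
    have hsub : Set.Icc (t + C) (t + (C + 1)) ⊆ Crit ∩ Set.Iic (t + (C + 1)) :=
      fun u hu => ⟨hcon u hu.1 hu.2, hu.2⟩
    have hfin' := (hfin (t + (C + 1))).subset hsub
    exact absurd hfin' (Set.Icc_infinite (by linarith))
  have hcard : (Crit ∩ Set.Icc t u).ncard ≤ n := by
    refine le_trans (Set.ncard_le_ncard ?_ ?_) (hn t ht)
    · exact fun x hx => ⟨hx.1, hx.2.1, hx.2.2.trans hu2⟩
    · exact (hfin (t + (C + 1))).subset fun x hx => ⟨hx.1, hx.2.2⟩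
  have hcnt := count_le hmono hfin hnon hB n t u ht (by linarith) htC huC hcard (M + 1)
  have hj : ∀ j, rd (Bd (F 0) (F t) j) (F t j ⊓ Bd (F 0) ⊤ j) ≤
      rd (Bd (F t) (F u) (j + 1)) (Zc (F t) (F u) (j + 1)) := by
    intro j
    have heq : F t j ⊓ Bd (F 0) ⊤ j = F t j ⊓ Bd (F 0) (F u) j := by
      apply le_antisymm
      · exact le_inf inf_le_left ((hBD t ht j).trans (Bd_mono (hmono _ _ hu1) j))
      · exact inf_le_inf le_rfl (Bd_mono (fun _ => le_top) j)
    rw [heq]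
    exact rd_ker_le (hmono 0 t ht) j
  calc ∑ j ∈ Finset.range M, rd (Bd (F 0) (F t) j) (F t j ⊓ Bd (F 0) ⊤ j)
      ≤ ∑ j ∈ Finset.range M, rd (Bd (F t) (F u) (j + 1)) (Zc (F t) (F u) (j + 1)) :=
        Finset.sum_le_sum fun j _ => hj j
    _ ≤ ∑ j ∈ Finset.range (M + 1), rd (Bd (F t) (F u) j) (Zc (F t) (F u) j) := by
        rw [Finset.sum_range_succ']
        exact le_self_add
    _ ≤ _ := hcnt

/-- the window hypothesis when all critical values are multiples of finitely many lengths -/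
theorem window_of_multiples {ι : Type} [Finite ι] (l : ι → ℝ) (hl : ∀ i, 0 < l i) (Crit : Set ℝ)
    (h : ∀ s ∈ Crit, ∃ i, ∃ m : ℕ, s = m * l i) : Window Crit := by
  classical
  have := Fintype.ofFinite ι
  intro L
  refine ⟨∑ i : ι, (⌊L / l i⌋₊ + 1), fun t ht => ?_⟩
  -- for each `i`, the multiples of `l i` in `[t, t+L]`
  have hsub : Crit ∩ Set.Icc t (t + L) ⊆ ⋃ i : ι,
      ((fun m : ℕ => (m : ℝ) * l i) '' (Set.Icc ⌈t / l i⌉₊ (⌈t / l i⌉₊ + ⌊L / l i⌋₊))) := by
    rintro s ⟨hs, hs1, hs2⟩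
    obtain ⟨i, m, rfl⟩ := h s hs
    refine Set.mem_iUnion.2 ⟨i, m, ⟨?_, ?_⟩, rfl⟩
    · exact Nat.ceil_le.2 (by rw [div_le_iff₀ (hl i)]; exact hs1)
    · -- `m ≤ (t+L)/l`, `m - ceil (t/l) ≤ L/l`
      have hm : ⌈t / l i⌉₊ ≤ m := Nat.ceil_le.2 (by rw [div_le_iff₀ (hl i)]; exact hs1)
      have h1 : ((m - ⌈t / l i⌉₊ : ℕ) : ℝ) ≤ L / l i := by
        rw [Nat.cast_sub hm]
        have h2 : t / l i ≤ ⌈t / l i⌉₊ := Nat.le_ceil _
        have h3 : (m : ℝ) ≤ (t + L) / l i := by rw [le_div_iff₀ (hl i)]; exact hs2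
        have h4 : (t + L) / l i = t / l i + L / l i := by ring
        linarith
      have h5 : m - ⌈t / l i⌉₊ ≤ ⌊L / l i⌋₊ := Nat.le_floor h1
      omega
  refine le_trans (Set.ncard_le_ncard hsub (Set.finite_iUnion fun i => (Set.finite_Icc _ _).image _)) ?_
  refine le_trans (Set.ncard_iUnion_le_of_fintype _) ?_
  refine Finset.sum_le_sum fun i _ => ?_
  refine le_trans (Set.ncard_image_le (Set.finite_Icc _ _)) ?_
  rw [← Nat.card_coe_set_eq, Nat.card_eq_fintype_card, Fintype.card_ofFinset]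
  simp
  omega

end Crest.Agent.R231.BDAx969
end

-- ▼ part R231/Asm_895

/-!
# Row 231 (S0357): assembly of the outputs of all blocks (helper895)

* `Outs M D` : the outputs of the blocks G, H, R, GM, W, P, T for a metric space `M` (`D = n - 1`);
* `coreHyp_of : Outs M D → ∃ e lv, CoreHyp M D e lv`
* adapters into `Outs`: `bd_of_pouts`, `lv_of_pouts` (969), `lv_of_step`, `outs_of_PT` (200's IfPT),
  `A1s_of_perm` (901)
* `infinite_of_outs` : the literal conclusion of S0357 from `Core → False` and `Outs (SG g) (n-1)` for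
  all finite prime systems.
-/

set_option autoImplicit false
set_option linter.unusedSectionVars false

noncomputable section

open Bundle Set Filter Function
open scoped Manifold ContDiff Bundle ENNReal Topology
open Crest.GeometryTopology.MTW Crest.GeometryTopology.Geodesic
open Crest.Agent.R226 Crest.Agent.R226.GeoBasic616 Crest.Agent.R226.TB616
open Crest.Agent.R204

namespace Crest.Agent.R231.Asmx895

open SingAct265 EZ271 EZ847 Pairx877 GLugx576 TActx569 TCx569 IfAx978 Gr334 Instx895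
open BDAx969 A1Spanx901 A1Fldx901 PrimeGeox893 CritPMx893 GeoLugx724 GeoBasex724 Frontx893

section generic

variable {M : Type} [MetricSpace M]

variable (M) in
/-- **(GM)**, weakest form: the level `s` is the only critical one in `[a, b]` -/
def GMW : Prop := ∃ B : ℕ, ∀ s ∈ CritS M, ∃ δ : ℝ, 0 < δ ∧ ∀ a b : ℝ, 0 ≤ a → s - δ < a → a < s →
  s < b → b < s + δ → (∀ s' ∈ CritS M, a ≤ s' → s' ≤ b → s' = s) →
  Module.length F2 (HP (X M b) (X M a)) ≤ B

theorem gmBound_of (h : GMW M) : GMBound (FF M) (CritS M) := by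
  obtain ⟨B, h⟩ := h
  refine ⟨B, fun s hs => ?_⟩
  obtain ⟨δ, hδ, h⟩ := h s hs
  exact ⟨δ, hδ, fun a b ha h1 h2 h3 h4 h5 m =>
    (sum_rd_le_length_FF a b m).trans (h a b ha h1 h2 h3 h4 h5)⟩


variable (M) in
/-- output of the blocks P and T about the based loops and the Wang sequence -/
structure POuts (D : ℕ) where
  /-- chains of the based loops -/
  Y : LC
  BD : Y.BD
  i : ℝ → ∀ j, Y.C j →ₗ[ZMod 2] (mix M).C j
  wang : WangOut Y (mix M) (FF M) (D + 1) i
  Pw : ℕ → ∀ j, Y.C j → Prop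
  τ : ℕ → ℝ
  pw : PwData Y D Pw τ

variable (M) in
/-- (P8) first levels of the degrees `e a + 1` -/
def LvP (e : ℕ → ℕ) : Prop := ∃ lv : ℕ → ℝ,
  (∀ a t, 0 ≤ t → t ∉ CritS M → t < lv a → LowP M (e a + 1) t) ∧
  (∀ a t, 0 ≤ t → t ∉ CritS M → lv a < t → ¬ LowP M (e a + 1) t) ∧
  (∀ T : ℝ, ∃ i0 : ℕ, ∀ a, i0 ≤ a → T < lv a) ∧
  (∃ C1 : ℝ, ∀ a, lv (a + 1) ≤ lv a + C1)

variable (M) in
/-- (T-A1), strong form -/
def A1sP (D : ℕ) : Prop := ∀ j : ℕ, j % 2 = D % 2 → ∀ c : (∀ i, (mix M).C i),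
  (∀ i, i < j → DD c i ∈ FF M 0 i) → DD c j ∈ Bd (FF M 0) ⊤ j

variable (M) in
/-- (T-A3) + (P8): the degrees `e a + 1` of parity `D` -/
structure DegP (D : ℕ) (e : ℕ → ℕ) : Prop where
  mono : StrictMono e
  par : ∀ a, (e a + 1) % 2 = D % 2
  lv : LvP M e
  A3op : ∀ a, A3opP M (e a)
  A3tau : ∀ a, A3tauP M (e a)

variable (M) in
/-- **outputs of all blocks** -/
structure Outs (D : ℕ) : Prop where
  /-- (W), (G), (H) -/
  base : BaseHyp M
  /-- (W) -/
  window : Window (CritS M)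
  /-- (GM) -/
  gm : GMW M
  /-- (P) bounded bars of `(X_t, X_0)` -/
  bd : BDLam (mix M) (FF M)
  /-- (T-A1) -/
  A1s : A1sP M D
  /-- (P8), (T-A3) -/
  deg : ∃ e, DegP M D e
  /-- (R) -/
  A4 : A4P M

theorem FF_mono' (s t : ℝ) (h : s ≤ t) (j : ℕ) : FF M s j ≤ FF M t j := FL_mono M h j

/-! ### adapters -/

/-- `bd` from the outputs of the blocks P and T -/
theorem bd_of_pouts {D : ℕ} (P : POuts M D) : BDLam (mix M) (FF M) :=
  BDLam_of FF_mono' (stab_FF 0).d P.BD P.wang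


/-- the same for the degrees `(2a + κ) D` (`κ` odd if `D = 1`) -/
theorem lv_of_pouts' {D : ℕ} (hD : 1 ≤ D) (hb : BaseHyp M) (P : POuts M D) (e : ℕ → ℕ) (κ : ℕ)
    (hκ : 1 ≤ κ) (hκ2 : D = 1 → κ % 2 = 1) (he : ∀ a, e a + 1 = (2 * a + κ) * D) : LvP M e := by
  by_cases h1 : D = 1
  · obtain ⟨c, hc⟩ : ∃ c, κ = 2 * c + 1 := ⟨κ / 2, by have := hκ2 h1; omega⟩
    have he0 : ∀ a, (fun a => (2 * a + 1) * D - 1) a + 1 = (2 * a + 1) * D := by
      intro a
      have : 1 ≤ (2 * a + 1) * D := Nat.one_le_iff_ne_zero.2 (Nat.mul_ne_zero (by omega) (by omega))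
      show (2 * a + 1) * D - 1 + 1 = _
      omega
    obtain ⟨lv, g1, g2, g3, C1, g4⟩ := levels_of hD rfl FF_mono' hb.crit_fin
      (Instx895.base hb).bdd P.BD P.wang P.pw (fun a => (2 * a + 1) * D - 1) 1 le_rfl
      (fun _ => rfl) he0
    have hE : ∀ a, (fun a => (2 * a + 1) * D - 1) (a + c) + 1 = e a + 1 := by
      intro a
      rw [he0, he, hc]
      ring_nf
    refine ⟨fun a => lv (a + c), fun a t h0 h2 h3 => ?_, fun a t h0 h2 h3 => ?_, fun T => ?_,
      C1, fun a => ?_⟩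
    · have := g1 (a + c) t h0 h2 h3
      rw [hE] at this
      exact this
    · have := g2 (a + c) t h0 h2 h3
      rw [hE] at this
      exact this
    · obtain ⟨i0, hi⟩ := g3 T
      exact ⟨i0, fun a ha => hi _ (by omega)⟩
    · have := g4 (a + c)
      rwa [show a + c + 1 = a + 1 + c by ring] at this
  · exact levels_of hD rfl FF_mono' hb.crit_fin (Instx895.base hb).bdd P.BD P.wang P.pw e κ hκ
      (fun h => absurd h h1) he



/-- the strong form of (A1) from permanence (901) -/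
theorem A1s_of_perm {D : ℕ} (h : ∀ i, i % 2 = (D + 1) % 2 → Zc (FF M 0) ⊤ i ≤ Perm (FF M 0) i) :
    A1sP M D := fun j hj c hc => A1_of (stab_FF 0) D h j hj c hc

/-- the field `A1` from the strong form and `A2` -/
theorem A1_of_A1s {D : ℕ} (h : A1sP M D) (A2 : A2P M) : A1P M D := by
  obtain ⟨C0, h0⟩ := A2
  refine ⟨C0, fun t ht htc m => (Finset.sum_le_sum fun j _ => ?_).trans (h0 t ht htc m)⟩
  split_ifs with hj
  · refine A1Fldx901.rd_mono (le_inf (Binf_le_self (stab_FF t) (FF_mono' 0 t ht) j) ?_)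
    rintro x ⟨c, -, h2, h3⟩
    exact add_mem_cancel (Submodule.mem_sup_right h3) (h j hj c h2)
  · exact zero_le

theorem coreHyp_of {D : ℕ} (h : Outs M D) :
    ∃ (e : ℕ → ℕ) (lv : ℕ → ℝ), CoreHyp M D e lv := by
  have hnon := (Instx895.base h.base).noncrit
  have A2 : A2P M := A2_of FF_mono' h.base.crit_fin hnon h.window (gmBound_of h.gm) h.bd
  have A1 : A1P M D := A1_of_A1s h.A1s A2
  obtain ⟨e, he⟩ := h.deg
  obtain ⟨lv, h1, h2, h3, h4⟩ := he.lv
  exact ⟨e, lv, h.base, A1, A2, he.mono, he.par, h1, h2, h3, h4, he.A3op, he.A3tau, h.A4⟩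

theorem false_of_outs (core : Core → False) {D : ℕ} (h : Outs M D) : False := by
  obtain ⟨e, lv, h⟩ := coreHyp_of h
  exact core (coreL h)


/-! ### all odd `K ≥ 3` (200's decision κ = 3; 617, 482, 89) -/

/-- `e3 D a + 1 = (2 a + 3) D` -/
def e3 (D a : ℕ) : ℕ := (2 * a + 3) * D - 1

theorem e3_succ {D : ℕ} (hD : 1 ≤ D) (a : ℕ) : e3 D a + 1 = (2 * a + 3) * D := by
  have h : 1 ≤ (2 * a + 3) * D := Nat.one_le_iff_ne_zero.2 (Nat.mul_ne_zero (by omega) (by omega))
  unfold e3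
  omega

theorem e3_mono {D : ℕ} (hD : 1 ≤ D) : StrictMono (e3 D) := by
  refine strictMono_nat_of_lt_succ fun a => ?_
  have h1 := e3_succ hD a
  have h2 := e3_succ hD (a + 1)
  have h3 : (2 * (a + 1) + 3) * D = (2 * a + 3) * D + 2 * D := by ring
  omega

theorem e3_par {D : ℕ} (hD : 1 ≤ D) (a : ℕ) : (e3 D a + 1) % 2 = D % 2 := by
  rw [e3_succ hD, Nat.mul_mod, show (2 * a + 3) % 2 = 1 by omega, one_mul, Nat.mod_mod]





/-- the critical levels of a finite prime system are discrete -/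
theorem crit_fin_of {ι : Type} [Finite ι] (L : LUG M) (hL : L.LocMin) (nb : NonBr M L.r0)
    (S : PrimeSys M L.r0 ι) (T : ℝ) : (CritS M ∩ Set.Iic T).Finite := isCrit_finite L hL nb S T

theorem window_of {ι : Type} [Finite ι] (L : LUG M) (hL : L.LocMin) (nb : NonBr M L.r0)
    (S : PrimeSys M L.r0 ι) : Window (CritS M) := by
  refine window_of_multiples S.l S.l_pos _ fun s hs => ?_
  obtain ⟨i, m, -, h⟩ := (isCrit_iff L hL nb S).1 hs
  exact ⟨i, m, h⟩

end generic

/-- **S0357** from `Core → False` and the outputs of the blocks for all finite prime systems -/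
theorem infinite_of_outs (core : Core → False) (n : ℕ) (hn : 2 ≤ n)
    (H : ∀ [NeZero n] (g : Met n) (G : GeoData n (SG g)) (N : ℕ)
      (_ : PrimeSys (SG g) G.r₀ (Fin N)), Outs (SG g) (n - 1)) (g : Met n) :
    {S : Set (Metric.sphere (0 : EuclideanSpace ℝ (Fin (n + 1))) 1) |
      ∃ γ : ℝ → Metric.sphere (0 : EuclideanSpace ℝ (Fin (n + 1))) 1,
      IsClosedGeodesic (𝓡 n) g γ ∧ (∃ s t, γ s ≠ γ t) ∧ Set.range γ = S}.Infinite :=
  infinite_of n hn (fun g G N S => false_of_outs core (H g G N S)) g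

end Crest.Agent.R231.Asmx895
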