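import Crest.Agent.R204.EZAW_271
import Crest.Agent.R204.EZSym_847
import Crest.Agent.R204.ExcD_406

-- ▼ part R204/EZCop_766
section

/-!
# Row 204, A1s (helper766): the cross product is a strict map of coalgebras

`cop (cross a b) = Φ (cop a) (cop b)`, `Φ (a₁ ⊗ a₂) (b₁ ⊗ b₂) = ± cross a₁ b₁ ⊗ cross a₂ b₂`, sign
`(-1)^{|a₂||b₁|}`, over any commutative ring; sign-free form over `F2`; explicit form on simplices.
-/

set_option autoImplicit false

noncomputable section

namespace Crest.Agent.R204.EZCop766

open Finsupp TensorProduct EZ271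

variable {R : Type} [CommRing R]

theorem cop_sg {K : SS} (z : N R K) :
    cop R (sg R z) = TensorProduct.map (sg R) (sg R) (cop R z) := by
  have : cop R ∘ₗ sg R = TensorProduct.map (sg R) (sg R) ∘ₗ cop R (K := K) := by
    refine hom_ext fun n x => ?_
    simp only [LinearMap.comp_apply, sg_sx, map_smul, cop_sx, map_sum, TensorProduct.map_tmul,
      Finset.smul_sum]
    refine Finset.sum_congr rfl fun a ha => ?_
    rw [Finset.mem_range] at ha
    rw [TensorProduct.smul_tmul_smul, ← pow_add]
    congr 2
    omega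
  exact LinearMap.congr_fun this z

/-- iterated sign operator -/
def sgp (R : Type) [CommRing R] {K : SS} (p : ℕ) : N R K →ₗ[R] N R K := (sg R) ^ p

theorem sgp_sx {K : SS} (p : ℕ) {n : ℕ} (x : K.S n) :
    sgp R p (N.sx R x) = ((-1 : R) ^ (n * p)) • N.sx R x := by
  induction p with
  | zero => simp [sgp]
  | succ p ih =>
    have : sgp R (p + 1) (N.sx R x) = sg R (sgp R p (N.sx R x)) := by
      simp only [sgp, pow_succ', Module.End.mul_apply]
    rw [this, ih, map_smul, sg_sx, smul_smul, ← pow_add]
    congr 2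

/-- the graded twist -/
def tw {K L : SS} : N R K →ₗ[R] N R L →ₗ[R] N R L ⊗[R] N R K :=
  liftN (fun p x => ((TensorProduct.mk R (N R L) (N R K)).flip (N.sx R x)) ∘ₗ sgp R p)
    (fun n j y => by
      rw [N.sx_dgn]
      ext b
      simp)

theorem tw_sx {K L : SS} {p : ℕ} (x : K.S p) (b : N R L) :
    tw (N.sx R x) b = sgp R p b ⊗ₜ[R] N.sx R x := by
  rw [tw, liftN_sx]
  rfl

theorem tw_sx_sx {K L : SS} {p q : ℕ} (x : K.S p) (y : L.S q) :
    tw (N.sx R x) (N.sx R y) = ((-1 : R) ^ (p * q)) • (N.sx R y ⊗ₜ[R] N.sx R x) := by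
  rw [tw_sx, sgp_sx, TensorProduct.smul_tmul', mul_comm]

theorem tw_map {K L K' L' : SS} (g : SS.Hom K K') (h : SS.Hom L L') (a : N R K) (b : N R L) :
    tw (N.map R g a) (N.map R h b) = TensorProduct.map (N.map R h) (N.map R g) (tw a b) := by
  have : (tw (R := R) (K := K') (L := L')).compl₁₂ (N.map R g) (N.map R h) =
      (tw (K := K) (L := L)).compr₂ (TensorProduct.map (N.map R h) (N.map R g)) := by
    refine bilin_ext R fun p x q y => ?_
    simp only [LinearMap.compl₁₂_apply, LinearMap.compr₂_apply, N.map_sx, tw_sx_sx, map_smul,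
      TensorProduct.map_tmul]
  exact LinearMap.congr_fun₂ this a b

theorem tw_c_right {K L : SS} (B : Cone L) (a : N R K) (b : N R L) :
    tw a (B.c R b) = TensorProduct.map (B.c R) LinearMap.id (tw (sg R a) b) := by
  have : (tw (R := R) (K := K) (L := L)).compl₂ (B.c R) =
      ((tw (K := K) (L := L)) ∘ₗ sg R).compr₂ (TensorProduct.map (B.c R) LinearMap.id) := by
    refine bilin_ext R fun p x q y => ?_
    simp only [LinearMap.compl₂_apply, LinearMap.compr₂_apply, LinearMap.comp_apply, Cone.c_sx,
      sg_sx, map_smul, LinearMap.smul_apply, tw_sx_sx, TensorProduct.map_tmul, LinearMap.id_apply,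
      smul_smul]
    rw [← pow_add]
    congr 2
    ring
  exact LinearMap.congr_fun₂ this a b

theorem tw_vertex_right {K L : SS} (a : N R K) (v : L.S 0) :
    tw a (N.sx R v) = N.sx R v ⊗ₜ[R] a := by
  have : (tw (R := R) (K := K) (L := L)).flip (N.sx R v) = TensorProduct.mk R _ _ (N.sx R v) := by
    refine hom_ext fun p x => ?_
    simp only [LinearMap.flip_apply, tw_sx_sx, TensorProduct.mk_apply, mul_zero, pow_zero, one_smul]
  exact LinearMap.congr_fun this a


/-- the product of two chain tensors -/
def Phi {K L : SS} : (N R K ⊗[R] N R K) →ₗ[R] (N R L ⊗[R] N R L) →ₗ[R]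
    N R (K.prod L) ⊗[R] N R (K.prod L) :=
  TensorProduct.lift (LinearMap.mk₂ R (fun a₁ a₂ =>
      (TensorProduct.lift (LinearMap.mk₂ R (fun b₁ b₂ =>
        TensorProduct.map (cross R a₁) ((cross R).flip b₂) (tw a₂ b₁))
        (fun b b' c => by rw [map_add, map_add]) (fun r b c => by rw [map_smul, map_smul])
        (fun b c c' => by rw [map_add, TensorProduct.map_add_right]; rfl)
        (fun r b c => by rw [map_smul, TensorProduct.map_smul_right]; rfl)) :
      (N R L ⊗[R] N R L) →ₗ[R] N R (K.prod L) ⊗[R] N R (K.prod L)))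
    (fun a a' c => by
      refine TensorProduct.ext' fun b₁ b₂ => ?_
      simp only [TensorProduct.lift.tmul, LinearMap.mk₂_apply, LinearMap.add_apply, map_add,
        TensorProduct.map_add_left])
    (fun r a c => by
      refine TensorProduct.ext' fun b₁ b₂ => ?_
      simp only [TensorProduct.lift.tmul, LinearMap.mk₂_apply, LinearMap.smul_apply, map_smul,
        TensorProduct.map_smul_left])
    (fun a c c' => by
      refine TensorProduct.ext' fun b₁ b₂ => ?_
      simp only [TensorProduct.lift.tmul, LinearMap.mk₂_apply, LinearMap.add_apply, map_add])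
    (fun r a c => by
      refine TensorProduct.ext' fun b₁ b₂ => ?_
      simp only [TensorProduct.lift.tmul, LinearMap.mk₂_apply, LinearMap.smul_apply, map_smul]))

theorem Phi_tmul {K L : SS} (a₁ a₂ : N R K) (b₁ b₂ : N R L) :
    Phi (a₁ ⊗ₜ[R] a₂) (b₁ ⊗ₜ[R] b₂) =
      TensorProduct.map (cross R a₁) ((cross R).flip b₂) (tw a₂ b₁) := by
  rw [Phi, TensorProduct.lift.tmul, LinearMap.mk₂_apply, TensorProduct.lift.tmul, LinearMap.mk₂_apply]


theorem map_map_tmul {M M' N₁ N₁' P P' : Type*} [AddCommGroup M] [AddCommGroup M'] [AddCommGroup N₁]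
    [AddCommGroup N₁'] [AddCommGroup P] [AddCommGroup P'] [Module R M] [Module R M'] [Module R N₁]
    [Module R N₁'] [Module R P] [Module R P'] (f : M →ₗ[R] N₁) (f' : M' →ₗ[R] N₁') (g : N₁ →ₗ[R] P)
    (g' : N₁' →ₗ[R] P') (t : M ⊗[R] M') :
    TensorProduct.map g g' (TensorProduct.map f f' t) =
      TensorProduct.map (g ∘ₗ f) (g' ∘ₗ f') t := by
  rw [TensorProduct.map_comp]; rfl

theorem Phi_map {K L K' L' : SS} (g : SS.Hom K K') (h : SS.Hom L L') (t : N R K ⊗[R] N R K)
    (u : N R L ⊗[R] N R L) :
    Phi (TensorProduct.map (N.map R g) (N.map R g) t) (TensorProduct.map (N.map R h) (N.map R h) u) =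
      TensorProduct.map (N.map R (SS.prodMap g h)) (N.map R (SS.prodMap g h)) (Phi t u) := by
  induction t using TensorProduct.induction_on with
  | zero => simp
  | add x y hx hy => simp only [map_add, LinearMap.add_apply, hx, hy]
  | tmul a₁ a₂ =>
    induction u using TensorProduct.induction_on with
    | zero => simp
    | add x y hx hy => simp only [map_add, hx, hy]
    | tmul b₁ b₂ =>
      rw [TensorProduct.map_tmul, TensorProduct.map_tmul, Phi_tmul, Phi_tmul, tw_map, map_map_tmul,
        map_map_tmul]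
      congr 2
      · refine LinearMap.ext fun b => ?_
        simp only [LinearMap.comp_apply, map_cross]
      · refine LinearMap.ext fun b => ?_
        simp only [LinearMap.comp_apply, LinearMap.flip_apply, map_cross]

section steps

variable {K L : SS} (A : Cone K) (B : Cone L)

theorem step_i (t : N R K ⊗[R] N R K) (b : N R L) :
    TensorProduct.map ((A.prod B).c R) LinearMap.id (Phi t (N.sx R B.bot ⊗ₜ[R] b)) =
      Phi (TensorProduct.map (A.c R) LinearMap.id t) (N.sx R B.bot ⊗ₜ[R] b) := by
  induction t using TensorProduct.induction_on with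
  | zero => simp
  | add x y hx hy => simp only [map_add, LinearMap.add_apply, hx, hy]
  | tmul a₁ a₂ =>
    rw [TensorProduct.map_tmul, Phi_tmul, Phi_tmul, LinearMap.id_apply, tw_vertex_right,
      TensorProduct.map_tmul, TensorProduct.map_tmul, TensorProduct.map_tmul, cross_c_bot]
    rfl

theorem step_ii (a : N R K) (u : N R L ⊗[R] N R L) :
    TensorProduct.map ((A.prod B).c R) LinearMap.id (Phi (N.sx R A.bot ⊗ₜ[R] sg R a) u) =
      Phi (N.sx R A.bot ⊗ₜ[R] a) (TensorProduct.map (B.c R) LinearMap.id u) := by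
  induction u using TensorProduct.induction_on with
  | zero => simp
  | add x y hx hy => simp only [map_add, hx, hy]
  | tmul b₁ b₂ =>
    rw [TensorProduct.map_tmul, Phi_tmul, Phi_tmul, LinearMap.id_apply, tw_c_right, map_map_tmul,
      map_map_tmul]
    congr 2
    refine LinearMap.ext fun b => ?_
    simp only [LinearMap.comp_apply, cross_bot_c]

theorem step_iii (t : N R K ⊗[R] N R K) (u : N R L ⊗[R] N R L) :
    TensorProduct.map ((A.prod B).c R) LinearMap.id
      (Phi t (TensorProduct.map (B.c R) LinearMap.id u) +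
        Phi (TensorProduct.map (sg R ∘ₗ A.c R) (sg R) t) u) =
      Phi (TensorProduct.map (A.c R) LinearMap.id t) (TensorProduct.map (B.c R) LinearMap.id u) := by
  induction t using TensorProduct.induction_on with
  | zero => simp
  | add x y hx hy =>
    simp only [map_add, LinearMap.add_apply] at hx hy ⊢
    rw [← hx, ← hy]; abel
  | tmul a₁ a₂ =>
    induction u using TensorProduct.induction_on with
    | zero => simp
    | add x y hx hy =>
      simp only [map_add] at hx hy ⊢
      rw [← hx, ← hy]; abel
    | tmul b₁ b₂ =>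
      simp only [TensorProduct.map_tmul, Phi_tmul, LinearMap.id_apply, tw_c_right, map_map_tmul,
        LinearMap.comp_apply, map_add, LinearMap.id_comp, LinearMap.comp_id]
      rw [← LinearMap.add_apply, ← TensorProduct.map_add_left]
      congr 2
      refine LinearMap.ext fun b => ?_
      simp only [LinearMap.comp_apply, LinearMap.add_apply, cross_c_c, map_add]

end steps

/-- THE CROSS PRODUCT IS A STRICT COALGEBRA MAP -/
theorem cop_cross {K L : SS} (a : N R K) (b : N R L) :
    cop R (cross R a b) = Phi (cop R a) (cop R b) := by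
  refine ind2 R (M := fun K L => N R (K.prod L) ⊗[R] N R (K.prod L)) (fun K L =>
    (cross R (K := K) (L := L)).compr₂ (cop R)) (fun K L =>
      (Phi (K := K) (L := L)).compl₁₂ (cop R) (cop R)) ?_ ?_ ?_ ?_ ?_ K L a b
  · intro K L K' L' g h a b hab
    simp only [LinearMap.compr₂_apply, LinearMap.compl₁₂_apply] at hab ⊢
    rw [← map_cross, cop_map, hab, cop_map, cop_map, Phi_map]
  · intro K L A B
    simp only [LinearMap.compr₂_apply, LinearMap.compl₁₂_apply]
    rw [cross_bot, cop_bot, cop_bot, cop_bot, Phi_tmul, tw_vertex_right, TensorProduct.map_tmul,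
      LinearMap.flip_apply, cross_bot]
  · intro K L A B a h
    simp only [LinearMap.compr₂_apply, LinearMap.compl₁₂_apply] at h ⊢
    rw [cross_c_bot, cop_c, h, cop_bot, step_i, cop_c, map_add, LinearMap.add_apply, Phi_tmul,
      tw_vertex_right, TensorProduct.map_tmul, LinearMap.flip_apply, cross_bot, cross_c_bot]
  · intro K L A B b h
    simp only [LinearMap.compr₂_apply, LinearMap.compl₁₂_apply] at h ⊢
    rw [cross_bot_c, cop_c, h, cop_bot, cop_c, map_add, Phi_tmul, tw_vertex_right,
      TensorProduct.map_tmul, LinearMap.flip_apply, cross_bot, cross_bot_c, ← step_ii]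
    simp only [sg_sx, pow_zero, one_smul]
  · intro K L A B a b h1 _ h2
    simp only [LinearMap.compr₂_apply, LinearMap.compl₁₂_apply] at h1 h2 ⊢
    rw [cross_c_c, cop_c, ← cross_c_c, map_add (cop R), h1, h2, cop_sg, cop_c R A a, cop_c R B b,
      map_add (TensorProduct.map (sg R) (sg R)), TensorProduct.map_tmul, map_map_tmul]
    simp only [map_add, LinearMap.add_apply, sg_sx, pow_zero, one_smul, LinearMap.comp_id]
    rw [← step_iii, ← step_ii, ← step_i, map_add, Phi_tmul (N.sx R A.bot) (A.c R a),
      tw_vertex_right, TensorProduct.map_tmul, LinearMap.flip_apply, cross_bot]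
    simp only [map_add, step_i]
    abel


/-! ## sign-free form over `F2` -/

theorem sg_F2 {K : SS} (a : N F2 K) : sg F2 a = a := by
  have : sg F2 = (LinearMap.id : N F2 K →ₗ[F2] N F2 K) := by
    refine hom_ext fun n x => ?_
    have h : (-1 : F2) = 1 := by decide
    rw [sg_sx, h, one_pow, one_smul]; rfl
  exact LinearMap.congr_fun this a

theorem sgp_F2 {K : SS} (p : ℕ) (a : N F2 K) : sgp F2 p a = a := by
  have h : sg F2 = (1 : Module.End F2 (N F2 K)) := LinearMap.ext sg_F2
  rw [sgp, h, one_pow]; rfl

theorem tw_F2 {K L : SS} (a : N F2 K) (b : N F2 L) : tw a b = b ⊗ₜ[F2] a := by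
  have : tw (R := F2) (K := K) (L := L) = (TensorProduct.mk F2 _ _).flip := by
    refine hom_ext fun p x => ?_
    refine LinearMap.ext fun b => ?_
    rw [tw_sx, sgp_F2]; rfl
  exact LinearMap.congr_fun₂ this a b

theorem Phi_F2 {K L : SS} (a₁ a₂ : N F2 K) (b₁ b₂ : N F2 L) :
    Phi (a₁ ⊗ₜ[F2] a₂) (b₁ ⊗ₜ[F2] b₂) = cross F2 a₁ b₁ ⊗ₜ[F2] cross F2 a₂ b₂ := by
  rw [Phi_tmul, tw_F2, TensorProduct.map_tmul]; rfl

theorem Phi_eq_F2 {K L : SS} (t : N F2 K ⊗[F2] N F2 K) (u : N F2 L ⊗[F2] N F2 L) :
    Phi t u = TensorProduct.map (TensorProduct.lift (cross F2)) (TensorProduct.lift (cross F2))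
      (TensorProduct.tensorTensorTensorComm F2 _ _ _ _ (t ⊗ₜ[F2] u)) := by
  induction t using TensorProduct.induction_on with
  | zero => simp
  | add x y hx hy => simp only [map_add, LinearMap.add_apply, hx, hy, TensorProduct.add_tmul]
  | tmul a₁ a₂ =>
    induction u using TensorProduct.induction_on with
    | zero => simp
    | add x y hx hy => simp only [map_add, hx, hy, TensorProduct.tmul_add]
    | tmul b₁ b₂ =>
      rw [Phi_F2, TensorProduct.tensorTensorTensorComm_tmul, TensorProduct.map_tmul,
        TensorProduct.lift.tmul, TensorProduct.lift.tmul]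

theorem cop_cross_F2 {K L : SS} (a : N F2 K) (b : N F2 L) :
    cop F2 (cross F2 a b) =
      TensorProduct.map (TensorProduct.lift (cross F2)) (TensorProduct.lift (cross F2))
        (TensorProduct.tensorTensorTensorComm F2 _ _ _ _ (cop F2 a ⊗ₜ[F2] cop F2 b)) := by
  rw [cop_cross, Phi_eq_F2]

end Crest.Agent.R204.EZCop766
end
end

-- ▼ part R231/Cap_226

/-!
# Row 231, block P (helper226): chain level cap product on the mod 2 chains of row 204

`cap u z = (u ⊗ id) (cop z)` (the cochain eats the front face).  Leibniz rule, naturality,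
associativity with the cup product, behaviour on cross products, slant products, degrees, supports.
-/

set_option autoImplicit false

noncomputable section

namespace Crest.Agent.R231.Capx226

open Crest.Agent.R204 Crest.Agent.R204.EZ271 TensorProduct

variable {K L J : SS}

theorem add_self {M : Type*} [AddCommGroup M] [Module F2 M] (x : M) : x + x = 0 := by
  have h : (2 : F2) • x = 0 := by
    have : (2 : F2) = 0 := by decide
    rw [this, zero_smul]
  rwa [two_smul] at h

theorem neg_eq {M : Type*} [AddCommGroup M] [Module F2 M] (x : M) : -x = x :=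
  neg_eq_of_add_eq_zero_left (add_self x)

theorem sub_eq {M : Type*} [AddCommGroup M] [Module F2 M] (x y : M) : x - y = x + y := by
  rw [sub_eq_add_neg, neg_eq]


/-- mod 2 cochains (all degrees together) -/
abbrev Co (K : SS) : Type := N F2 K →ₗ[F2] F2

/-- coboundary -/
def cobd (u : Co K) : Co K := u ∘ₗ N.bd F2 K

theorem cobd_apply (u : Co K) (z : N F2 K) : cobd u z = u (N.bd F2 K z) := rfl


/-- pull back of cochains -/
def pull (f : SS.Hom K L) (u : Co L) : Co K := u ∘ₗ N.map F2 f

theorem pull_apply (f : SS.Hom K L) (u : Co L) (z : N F2 K) : pull f u z = u (N.map F2 f z) := rfl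

theorem pull_cobd (f : SS.Hom K L) (u : Co L) : pull f (cobd u) = cobd (pull f u) := by
  refine LinearMap.ext fun z => ?_
  rw [pull_apply, cobd_apply, cobd_apply, pull_apply]
  exact congrArg u (LinearMap.congr_fun (N.map_bd f) z).symm

/-- cap product as a bilinear map -/
def capL : Co K →ₗ[F2] N F2 K →ₗ[F2] N F2 K :=
  { toFun := fun u => (TensorProduct.lid F2 (N F2 K)).toLinearMap ∘ₗ
      TensorProduct.map u LinearMap.id ∘ₗ cop F2
    map_add' := fun u v => by
      rw [TensorProduct.map_add_left, LinearMap.add_comp, LinearMap.comp_add]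
    map_smul' := fun r u => by
      rw [TensorProduct.map_smul_left, LinearMap.smul_comp, LinearMap.comp_smul]
      rfl }

/-- cap product -/
def cap (u : Co K) : N F2 K →ₗ[F2] N F2 K := capL u

theorem cap_apply (u : Co K) (z : N F2 K) :
    cap u z = TensorProduct.lid F2 _ (TensorProduct.map u LinearMap.id (cop F2 z)) := rfl


theorem cap_zero_left (z : N F2 K) : cap (0 : Co K) z = 0 := by
  unfold cap; rw [map_zero]; rfl


theorem cap_sx (u : Co K) {n : ℕ} (x : K.S n) :
    cap u (N.sx F2 x) = ∑ a ∈ Finset.range (n + 1),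
      u (N.sx F2 (K.act (front a n) x)) • N.sx F2 (K.act (back (n - a) n) x) := by
  rw [cap_apply, cop_sx, map_sum, map_sum]
  refine Finset.sum_congr rfl fun a _ => ?_
  rw [TensorProduct.map_tmul, TensorProduct.lid_tmul]
  rfl

/-- evaluation of `t ∈ N ⊗ N` on a cochain in the first factor -/
def evl (u : Co K) : N F2 K ⊗[F2] N F2 L →ₗ[F2] N F2 L :=
  (TensorProduct.lid F2 (N F2 L)).toLinearMap ∘ₗ TensorProduct.map u LinearMap.id

theorem evl_tmul (u : Co K) (a : N F2 K) (b : N F2 L) : evl u (a ⊗ₜ[F2] b) = u a • b := by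
  simp [evl]

theorem cap_eq_evl (u : Co K) (z : N F2 K) : cap u z = evl u (cop F2 z) := rfl

/-- Leibniz rule -/
theorem cap_bd (u : Co K) (z : N F2 K) :
    cap u (N.bd F2 K z) = cap (cobd u) z + N.bd F2 K (cap u z) := by
  rw [cap_eq_evl, cap_eq_evl, cap_eq_evl, ← bd_cop]
  generalize cop F2 z = t
  induction t using TensorProduct.induction_on with
  | zero => simp
  | add x y hx hy => simp only [map_add, hx, hy]; abel
  | tmul a b =>
    rw [tbd_tmul, EZCop766.sg_F2, map_add, evl_tmul, evl_tmul, evl_tmul, evl_tmul, cobd_apply,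
      map_smul]

theorem bd_cap (u : Co K) (z : N F2 K) :
    N.bd F2 K (cap u z) = cap u (N.bd F2 K z) + cap (cobd u) z := by
  rw [cap_bd, add_comm, ← add_assoc, add_self, zero_add]

theorem bd_cap_cocycle {u : Co K} (hu : cobd u = 0) (z : N F2 K) :
    N.bd F2 K (cap u z) = cap u (N.bd F2 K z) := by
  rw [bd_cap, hu, cap_zero_left, add_zero]

/-- naturality (projection formula) -/
theorem map_cap (f : SS.Hom K L) (u : Co L) (z : N F2 K) :
    N.map F2 f (cap (pull f u) z) = cap u (N.map F2 f z) := by
  rw [cap_eq_evl, cap_eq_evl, cop_map]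
  generalize cop F2 z = t
  induction t using TensorProduct.induction_on with
  | zero => simp
  | add x y hx hy => simp only [map_add, hx, hy]
  | tmul a b => rw [TensorProduct.map_tmul, evl_tmul, evl_tmul, map_smul, pull_apply]

/-- cup product -/
def cup (u v : Co K) : Co K :=
  (TensorProduct.lid F2 F2).toLinearMap ∘ₗ TensorProduct.map u v ∘ₗ cop F2

theorem cup_apply (u v : Co K) (z : N F2 K) : cup u v z = v (cap u z) := by
  rw [cap_eq_evl]
  show (TensorProduct.lid F2 F2) (TensorProduct.map u v (cop F2 z)) = _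
  generalize cop F2 z = t
  induction t using TensorProduct.induction_on with
  | zero => simp
  | add x y hx hy => simp only [map_add, hx, hy]
  | tmul a b => rw [TensorProduct.map_tmul, evl_tmul, TensorProduct.lid_tmul, map_smul]

theorem cobd_cup (u v : Co K) : cobd (cup u v) = cup (cobd u) v + cup u (cobd v) := by
  refine LinearMap.ext fun z => ?_
  rw [cobd_apply, cup_apply, LinearMap.add_apply, cup_apply, cup_apply, cap_bd, map_add,
    cobd_apply]



theorem cap_aug (z : N F2 K) : cap (aug F2) z = z := aug_cop_left F2 z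

theorem cup_aug_right (u : Co K) : cup u (aug F2) = u := by
  refine LinearMap.ext fun z => ?_
  show (TensorProduct.lid F2 F2) (TensorProduct.map u (aug F2) (cop F2 z)) = _
  conv_rhs => rw [← aug_cop_right F2 z]
  generalize cop F2 z = t
  induction t using TensorProduct.induction_on with
  | zero => simp
  | add x y hx hy => simp only [map_add, hx, hy]
  | tmul a b => simp [mul_comm]

/-! ## cross products -/

/-- external product of cochains -/
def crs (u : Co K) (v : Co L) : Co (K.prod L) :=
  (TensorProduct.lid F2 F2).toLinearMap ∘ₗ TensorProduct.map u v ∘ₗ aw F2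

theorem crs_cross (u : Co K) (v : Co L) (a : N F2 K) (b : N F2 L) :
    crs u v (cross F2 a b) = u a * v b := by
  show (TensorProduct.lid F2 F2) (TensorProduct.map u v (aw F2 (cross F2 a b))) = _
  rw [aw_cross, TensorProduct.map_tmul, TensorProduct.lid_tmul, smul_eq_mul]

theorem crs_eq_cup (u : Co K) (v : Co L) :
    crs u v = cup (pull (SS.fst K L) u) (pull (SS.snd K L) v) := by
  refine LinearMap.ext fun z => ?_
  show (TensorProduct.lid F2 F2) (TensorProduct.map u v (TensorProduct.map
    (N.map F2 (SS.fst K L)) (N.map F2 (SS.snd K L)) (cop F2 z))) =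
    (TensorProduct.lid F2 F2) (TensorProduct.map (pull (SS.fst K L) u) (pull (SS.snd K L) v)
      (cop F2 z))
  rw [← LinearMap.comp_apply (TensorProduct.map u v), ← TensorProduct.map_comp]
  rfl


/-- the general formula for a cap with a cross product -/
def capX (c : Co (K.prod L)) : (N F2 K ⊗[F2] N F2 K) →ₗ[F2] (N F2 L ⊗[F2] N F2 L) →ₗ[F2]
    N F2 (K.prod L) :=
  TensorProduct.curry (evl (L := K.prod L) c ∘ₗ
    TensorProduct.map (TensorProduct.lift (cross F2)) (TensorProduct.lift (cross F2)) ∘ₗ
      (TensorProduct.tensorTensorTensorComm F2 _ _ _ _).toLinearMap)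

theorem capX_tmul (c : Co (K.prod L)) (a₁ a₂ : N F2 K) (b₁ b₂ : N F2 L) :
    capX c (a₁ ⊗ₜ a₂) (b₁ ⊗ₜ b₂) = c (cross F2 a₁ b₁) • cross F2 a₂ b₂ := by
  simp only [capX, TensorProduct.curry_apply, LinearMap.comp_apply, LinearEquiv.coe_coe,
    TensorProduct.tensorTensorTensorComm_tmul, TensorProduct.map_tmul, TensorProduct.lift.tmul,
    evl_tmul]

theorem cap_cross_gen (c : Co (K.prod L)) (a : N F2 K) (b : N F2 L) :
    cap c (cross F2 a b) = capX c (cop F2 a) (cop F2 b) := by
  rw [cap_eq_evl, EZCop766.cop_cross_F2]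
  rfl

/-- bilinear induction for tensors -/
theorem tensor_ext2 {M₁ M₂ N₁ N₂ P : Type*} [AddCommGroup M₁] [Module F2 M₁] [AddCommGroup M₂]
    [Module F2 M₂] [AddCommGroup N₁] [Module F2 N₁] [AddCommGroup N₂] [Module F2 N₂]
    [AddCommGroup P] [Module F2 P]
    (f g : (M₁ ⊗[F2] M₂) →ₗ[F2] (N₁ ⊗[F2] N₂) →ₗ[F2] P)
    (h : ∀ a₁ a₂ b₁ b₂, f (a₁ ⊗ₜ a₂) (b₁ ⊗ₜ b₂) = g (a₁ ⊗ₜ a₂) (b₁ ⊗ₜ b₂))
    (t : M₁ ⊗[F2] M₂) (s : N₁ ⊗[F2] N₂) : f t s = g t s := by
  induction t using TensorProduct.induction_on with
  | zero => simp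
  | add x y hx hy => simp only [map_add, LinearMap.add_apply, hx, hy]
  | tmul a₁ a₂ =>
    induction s using TensorProduct.induction_on with
    | zero => simp
    | add x y hx hy => simp only [map_add, hx, hy]
    | tmul b₁ b₂ => exact h _ _ _ _

theorem cap_crs_cross (u : Co K) (v : Co L) (a : N F2 K) (b : N F2 L) :
    cap (crs u v) (cross F2 a b) = cross F2 (cap u a) (cap v b) := by
  rw [cap_cross_gen, cap_eq_evl, cap_eq_evl]
  refine tensor_ext2 (capX (crs u v)) ((cross F2).compl₁₂ (evl (L := K) u) (evl (L := L) v)) ?_ _ _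
  intro a₁ a₂ b₁ b₂
  rw [capX_tmul, crs_cross, LinearMap.compl₁₂_apply, evl_tmul, evl_tmul]
  simp only [map_smul, LinearMap.smul_apply, smul_smul, mul_comm]

/-- slant product `c / a` -/
def slant (c : Co (K.prod L)) (a : N F2 K) : Co L := c ∘ₗ cross F2 a

theorem slant_apply (c : Co (K.prod L)) (a : N F2 K) (b : N F2 L) :
    slant c a b = c (cross F2 a b) := rfl



theorem snd_cap_cross (c : Co (K.prod L)) (a : N F2 K) (b : N F2 L) :
    N.map F2 (SS.snd K L) (cap c (cross F2 a b)) = cap (slant c a) b := by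
  rw [cap_cross_gen, cap_eq_evl]
  have key : ∀ (t : N F2 K ⊗[F2] N F2 K) (s : N F2 L ⊗[F2] N F2 L),
      N.map F2 (SS.snd K L) (capX c t s) =
        evl (L := L) (slant c (TensorProduct.rid F2 _ (TensorProduct.map LinearMap.id (aug F2) t))) s := by
    intro t s
    induction t using TensorProduct.induction_on with
    | zero => simp [evl, slant]
    | add x y hx hy =>
      simp only [map_add, LinearMap.add_apply, hx, hy]
      have : slant c (TensorProduct.rid F2 _ (TensorProduct.map LinearMap.id (aug F2) x) +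
          TensorProduct.rid F2 _ (TensorProduct.map LinearMap.id (aug F2) y)) =
          slant c (TensorProduct.rid F2 _ (TensorProduct.map LinearMap.id (aug F2) x)) +
          slant c (TensorProduct.rid F2 _ (TensorProduct.map LinearMap.id (aug F2) y)) := by
        unfold slant; rw [map_add, LinearMap.comp_add]
      rw [this]
      unfold evl
      rw [TensorProduct.map_add_left, LinearMap.comp_add, LinearMap.add_apply]
    | tmul a₁ a₂ =>
      induction s using TensorProduct.induction_on with
      | zero => simp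
      | add x y hx hy => simp only [map_add, hx, hy]
      | tmul b₁ b₂ =>
        rw [capX_tmul, map_smul, snd_cross, TensorProduct.map_tmul, TensorProduct.rid_tmul,
          evl_tmul, slant_apply, LinearMap.id_apply, map_smul, LinearMap.smul_apply, map_smul,
          smul_smul, smul_eq_mul, mul_comm]
  rw [key, aug_cop_right]




end Crest.Agent.R231.Capx226
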