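import Crest.Agent.R231.CX_780
import Crest.Agent.R231.SphH_543
import Crest.Agent.R231.CutW_749
import Crest.Agent.R231.CylQ_373
import Crest.Agent.R231.OmTet_725

-- ▼ part R231/PrimCX_720
section

/-!
# Row 231 (S0357), block P, leaf Q2c (helper720): the primitive class in the language of `CX_780`

* `toSphLike : HSph S m → SphLike S m` (543 → 780), `s₀ = z0`, `σ = fs`;
* `diag_σ` : `Δ_* σ = σ × pt + pt × σ`;
* `pair_σ` : `(f, g)_* σ = f_* σ × pt + pt × g_* σ`;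
* `rel_σ` : if `μ ∘ (f, g)` is homotopic to a constant then `μ(·, g s₀)_* f_* σ = μ(f s₀, ·)_* g_* σ`.
-/

set_option autoImplicit false

noncomputable section

namespace Crest.Agent.R231.PrimCXx720

open Crest.Agent.R204 Crest.Agent.R204.SpecA FinDim315 CXx780

variable {S X Y Y' Z : Type} [TopologicalSpace S] [TopologicalSpace X] [TopologicalSpace Y]
  [TopologicalSpace Y'] [TopologicalSpace Z] {m : ℕ}

theorem ptc_eq_543 (z : S) : SphQx543.ptc z = ptc z := rfl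

/-! ## from `HSph` to `SphLike` -/

theorem f2_ne_zero {a : F2} (h : a ≠ 0) : a = 1 := by
  revert a; decide

theorem exists_fun {V : Type} [AddCommGroup V] [Module F2 V] {a : V} (ha : a ≠ 0) :
    ∃ f : V →ₗ[F2] F2, f a = 1 := by
  obtain ⟨f, h1, -⟩ := Submodule.exists_le_ker_of_notMem (p := (⊥ : Submodule F2 V)) (v := a)
    (by simpa using ha)
  exact ⟨f, f2_ne_zero h1⟩

/-- the functional of the fundamental class -/
def phi (h : SphQx543.HSph S m) : HS S →ₗ[F2] F2 :=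
  (exists_fun h.fs_ne).choose ∘ₗ Gr334.prH F2 (SS.Sing S) m

theorem phi_fs (h : SphQx543.HSph S m) : phi h h.fs = 1 := by
  rw [phi, LinearMap.comp_apply, Gr334.prH_of_mem h.fs_mem]
  exact (exists_fun h.fs_ne).choose_spec

theorem phi_deg (h : SphQx543.HSph S m) : DegF m (phi h) := by
  intro n hn b hb
  rw [phi, LinearMap.comp_apply, Gr334.prH_of_mem_ne hn hb, map_zero]

/-- 543's `HSph` is 780's `SphLike` -/
def toSphLike (h : SphQx543.HSph S m) : SphLike S m where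
  s₀ := h.z0
  σ := h.fs
  φ := phi h
  σ_mem := h.fs_mem
  pos := Nat.pos_of_ne_zero h.m_ne
  φ_deg := phi_deg h
  φ_σ := phi_fs h
  decomp a := by
    refine hg_induction (p := fun a => a = ep a • ptc h.z0 + phi h a • h.fs) a ?_ ?_
    · intro a b ha hb
      conv_lhs => rw [ha, hb]
      rw [map_add, map_add, add_smul, add_smul]
      abel
    · intro n a ha
      by_cases h0 : n = 0
      · subst h0
        obtain ⟨r, hr⟩ := h.gr_zero a ha
        rw [phi_deg h 0 (fun e => h.m_ne e.symm) a ha, zero_smul, add_zero]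
        have : ep a = r := by
          rw [hr, map_smul, ptc_eq_543, ep_ptc, smul_eq_mul, mul_one]
        rw [this]; exact hr
      · rw [ep_eq_zero h0 ha, zero_smul, zero_add]
        by_cases hm : n = m
        · subst hm
          obtain ⟨r, hr⟩ := h.gr_m a ha
          rw [hr, map_smul, phi_fs, smul_eq_mul, mul_one]
        · have h1 : a ∈ (⊥ : Submodule F2 (HS S)) := by
            rw [← h.gr_other n h0 hm]; exact ha
          rw [(Submodule.mem_bot F2).1 h1, map_zero, zero_smul]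

@[simp] theorem toSphLike_s₀ (h : SphQx543.HSph S m) : (toSphLike h).s₀ = h.z0 := rfl
@[simp] theorem toSphLike_σ (h : SphQx543.HSph S m) : (toSphLike h).σ = h.fs := rfl

/-! ## the primitive class -/

/-- the diagonal -/
def diagC (S : Type) [TopologicalSpace S] : C(S, S × S) := ⟨fun s => (s, s), by fun_prop⟩

/-- **primitivity** -/
theorem diag_σ (D : SphLike S m) :
    Hm (diagC S) D.σ = cx D.σ (ptc D.s₀) + cx (ptc D.s₀) D.σ := by
  have hm := D.pos
  have h0 : m ≠ 0 := by omega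
  have e1 : Hm (fstC S S) (Hm (diagC S) D.σ) = D.σ := by
    rw [← Hm_comp_apply]; exact Hm_id _
  have e2 : Hm (sndC S S) (Hm (diagC S) D.σ) = D.σ := by
    rw [← Hm_comp_apply]; exact Hm_id _
  have h1 := D.cx_decomp (Hm (diagC S) D.σ)
  rw [e1] at h1
  have h2 : Hm (diagC S) D.σ ∈ hg (S × S) (0 + m) := by
    rw [zero_add]; exact Hm_mem_hg _ D.σ_mem
  have h3 : sl D.φ (Hm (diagC S) D.σ) ∈ hg S 0 := sl_mem D.φ_deg h2
  have h4 : sl D.φ (Hm (diagC S) D.σ) = ep (sl D.φ (Hm (diagC S) D.σ)) • ptc D.s₀ := by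
    conv_lhs => rw [D.decomp (sl D.φ (Hm (diagC S) D.σ))]
    rw [D.φ_deg 0 (Ne.symm h0) _ h3, zero_smul, add_zero]
  have h5 := congrArg (Hm (sndC S S)) h1
  rw [e2, map_add, Hm_snd_cx, Hm_snd_cx, D.ep_σ, zero_smul, zero_add] at h5
  have h6 : ep (sl D.φ (Hm (diagC S) D.σ)) = 1 := by
    have h7 := congrArg D.φ h5
    rw [map_smul, D.φ_σ, smul_eq_mul, mul_one] at h7
    exact h7.symm
  rw [h6, one_smul] at h4
  rw [h4] at h1
  exact h1

/-- **the primitive class**: `(f, g)_* σ = f_* σ × pt + pt × g_* σ` -/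
theorem pair_σ (D : SphLike S m) (f : C(S, Y)) (g : C(S, Y')) :
    Hm (f.prodMk g) D.σ = cx (Hm f D.σ) (ptc (g D.s₀)) + cx (ptc (f D.s₀)) (Hm g D.σ) := by
  have e : f.prodMk g = (f.prodMap g).comp (diagC S) := rfl
  rw [e, Hm_comp_apply, diag_σ, map_add, Hm_cx, Hm_cx, Hm_ptc, Hm_ptc]


theorem Hm_const' (D : SphLike S m) (c : Y) : Hm (ContinuousMap.const S c) D.σ = 0 := by
  have e : ContinuousMap.const S c = (ContinuousMap.const PUnit c).comp
      (ContinuousMap.const S PUnit.unit) := rfl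
  rw [e, Hm_comp_apply]
  have h1 : Hm (ContinuousMap.const S PUnit.unit) D.σ =
      ep (Hm (ContinuousMap.const S PUnit.unit) D.σ) • ptc PUnit.unit := eq_ep_ptc _ _
  rw [ep_Hm, D.ep_σ, zero_smul] at h1
  rw [h1, map_zero]


end Crest.Agent.R231.PrimCXx720
end
end

-- ▼ part R231/RelA_749
section

/-!
# Row 231, block P (helper749): the cut operator and relation (R), abstractly

`CD Q Z B S U V` : a cylinder `Q` over `Z` covered by `U`, `V`, a map `Gb : V → B`, a map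
`ev : U ∩ V → S`.  If `H(S) = ⟨pt, σ⟩` (`SphLike S m`, helper780) the cut operator `D : H(Z) → H(B)` is
defined by `(Gb, ev)_* (cut y) = D y × σ` (`D_spec`, `D_unique`).

* `rel_mu` : `Gc : U → B'`, `μ : B × S → B'`, `Gc ~ μ (Gb, ev)` on `U ∩ V` ⟹
  `(Gc i0)_* y + (Gc i1)_* y = μ_* (D y × σ)`;
* `rel_nu` : the same for `μ (b, z) = ν (b, (v z, v' z))`, with the diagonal formula for `σ`.
* `map_D`, `D_mem` (degrees), `ev_cut`.
-/

set_option autoImplicit false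
set_option maxHeartbeats 200000

noncomputable section

open Function Topology

namespace Crest.Agent.R231.RelAx749

open Crest.Agent.R204 Crest.Agent.R204.SpecA Crest.Agent.R231.FinDim315 CutWx749 CXx780

/-- homogeneous part -/
def pr {X : Type} [TopologicalSpace X] (k : ℕ) : HS X →ₗ[F2] HS X := Gr334.prH F2 (SS.Sing X) k

theorem pr_of_mem {X : Type} [TopologicalSpace X] {k : ℕ} {a : HS X} (ha : a ∈ hg X k) :
    pr k a = a := Gr334.prH_of_mem ha

theorem pr_mem {X : Type} [TopologicalSpace X] (k : ℕ) (a : HS X) : pr k a ∈ hg X k :=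
  Gr334.prH_mem k a

theorem pr_Hm {X Y : Type} [TopologicalSpace X] [TopologicalSpace Y] (f : C(X, Y)) (k : ℕ)
    (a : HS X) : Hm f (pr k a) = pr k (Hm f a) := (Gr334.prH_map (SS.SingMap f) k a).symm

/-- the cut class of a homogeneous class is homogeneous -/
theorem cut_mem {Q Z : Type} [TopologicalSpace Q] [TopologicalSpace Z] {U V : Set Q}
    (c : Cyl Z U V) {k : ℕ} {y : HS Z} (hy : y ∈ hg Z k) :
    c.cut y ∈ hg (U ∩ V : Set Q) k := by
  have h : pr k (c.cut y) = c.cut y := by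
    refine c.unique (α := c.bdry y) ⟨?_, ?_⟩ (c.isW_cut y)
    · rw [pr_Hm, (c.isW_cut y).1]
      refine pr_of_mem ?_
      rw [c.bdry_apply]
      exact Submodule.add_mem _ (Hm_mem_hg _ hy) (Hm_mem_hg _ hy)
    · rw [pr_Hm, (c.isW_cut y).2, map_zero]
  rw [← h]
  exact pr_mem k _

/-- cut data -/
structure CD {Q : Type} [TopologicalSpace Q] (Z B S : Type) [TopologicalSpace Z]
    [TopologicalSpace B] [TopologicalSpace S] (U V : Set Q) where
  cyl : Cyl Z U V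
  Gb : C(V, B)
  ev : C((U ∩ V : Set Q), S)

namespace CD

variable {Q Z B S : Type} [TopologicalSpace Q] [TopologicalSpace Z] [TopologicalSpace B]
  [TopologicalSpace S] {U V : Set Q} (c : CD Z B S U V) {m : ℕ} (hS : SphLike S m)

/-- `(Gb, ev)` -/
def bc : C((U ∩ V : Set Q), B × S) := (c.Gb.comp (ir U V)).prodMk c.ev

@[simp] theorem bc_apply (x : (U ∩ V : Set Q)) : c.bc x = (c.Gb (ir U V x), c.ev x) := rfl

theorem fst_bc : (fstC B S).comp c.bc = c.Gb.comp (ir U V) := rfl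


theorem bc_eq {α : HS U} {w : HS (U ∩ V : Set Q)} (hw : IsW (il U V) (ir U V) α w) :
    Hm c.bc w = cx (sl hS.φ (Hm c.bc w)) hS.σ := by
  refine hS.eq_cx_of_fst ?_
  rw [← Hm_comp_apply, c.fst_bc, Hm_comp_apply, hw.2, map_zero]

/-- **the cut operator** -/
def D : HS Z →ₗ[F2] HS B := sl hS.φ ∘ₗ Hm c.bc ∘ₗ c.cyl.cut

theorem D_apply (y : HS Z) : c.D hS y = sl hS.φ (Hm c.bc (c.cyl.cut y)) := rfl

theorem D_spec (y : HS Z) : Hm c.bc (c.cyl.cut y) = cx (c.D hS y) hS.σ :=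
  c.bc_eq hS (c.cyl.isW_cut y)

theorem D_unique {y : HS Z} {w : HS (U ∩ V : Set Q)}
    (hw : IsW (il U V) (ir U V) (c.cyl.bdry y) w) {D' : HS B} (h : Hm c.bc w = cx D' hS.σ) :
    c.D hS y = D' := by
  refine hS.cx_σ_inj ?_
  rw [← c.D_spec, ← h, c.cyl.unique hw (c.cyl.isW_cut y)]


/-- `D` has degree `-m` -/
theorem D_mem {j : ℕ} {y : HS Z} (hy : y ∈ hg Z (j + m)) : c.D hS y ∈ hg B j := by
  have h1 := Hm_mem_hg c.bc (cut_mem c.cyl hy)
  rw [D_apply]
  exact sl_mem (q := m) hS.φ_deg (n := j) h1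

theorem D_low {j : ℕ} {y : HS Z} (hy : y ∈ hg Z j) (hj : j < m) : c.D hS y = 0 := by
  have h1 := Hm_mem_hg c.bc (cut_mem c.cyl hy)
  rw [D_apply]
  exact sl_eq_zero (q := m) hS.φ_deg (n := j) hj h1


/-- **relation (R)**, first form -/
theorem rel_mu {B' : Type} [TopologicalSpace B'] (Gc : C(U, B')) (μ : C(B × S, B'))
    (h : (Gc.comp (il U V)).Homotopic (μ.comp c.bc)) (y : HS Z) :
    Hm Gc (Hm c.cyl.i0 y) + Hm Gc (Hm c.cyl.i1 y) = Hm μ (cx (c.D hS y) hS.σ) := by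
  rw [← map_add, ← c.cyl.cut_l, ← Hm_comp_apply, Hm_homotopic h, Hm_comp_apply, c.D_spec hS]

/-- **relation (R)**, second form -/
theorem rel_nu {B' O O' : Type} [TopologicalSpace B'] [TopologicalSpace O]
    [TopologicalSpace O'] (Gc : C(U, B')) (v : C(S, O)) (v' : C(S, O')) (ν : C(B × (O × O'), B'))
    (h : (Gc.comp (il U V)).Homotopic
      ((ν.comp ((ContinuousMap.id B).prodMap (v.prodMk v'))).comp c.bc)) (y : HS Z) :
    Hm Gc (Hm c.cyl.i0 y) + Hm Gc (Hm c.cyl.i1 y) =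
      Hm ν (cx (c.D hS y) (cx (Hm v hS.σ) (ptc (v' hS.s₀)))) +
      Hm ν (cx (c.D hS y) (cx (ptc (v hS.s₀)) (Hm v' hS.σ))) := by
  rw [c.rel_mu hS Gc _ h, Hm_comp_apply, Hm_cx, Hm_id, PrimCXx720.pair_σ, map_add, map_add]

/-- naturality of the cut operator -/
theorem map_D {Q' Z' B' : Type} [TopologicalSpace Q'] [TopologicalSpace Z'] [TopologicalSpace B']
    {U' V' : Set Q'} (c' : CD Z' B' S U' V') (f : C(Q, Q')) (hU : Set.MapsTo f U U')
    (hV : Set.MapsTo f V V') (g : C(B, B')) {y : HS Z} {y' : HS Z'}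
    (hy : Hm (rmap f hU) (c.cyl.bdry y) = c'.cyl.bdry y')
    (h : (c'.bc.comp (rmap f (hU.inter_inter hV))).Homotopic
      ((g.prodMap (ContinuousMap.id S)).comp c.bc)) :
    c'.D hS y' = Hm g (c.D hS y) := by
  refine c'.D_unique hS (w := Hm (rmap f (hU.inter_inter hV)) (c.cyl.cut y)) ?_ ?_
  · rw [← hy]
    exact (c.cyl.isW_cut y).rmap f hU hV
  · rw [← Hm_comp_apply, Hm_homotopic h, Hm_comp_apply, c.D_spec hS, Hm_cx, Hm_id]

end CD

end Crest.Agent.R231.RelAx749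
end
end

-- ▼ part R231/RelR_749

/-!
# Row 231, block P, leaf Q4a (helper749): the cut operator `D : H(Om t) → H(Om2 (t + 2ℓ))`, relation (R)

`TD p m` : two tethers `Wc` (domain `U ∋ p`, constant at `p`), `Wb` (domain `V`), `U ∪ V = M`,
`U ∩ V` a homology `m`-sphere (`SphLike`), `v s₀ ~ 1`, where `v z = b_z⁻¹ . c_z`.

* `W.D t` : the cut operator, of degree `-m` (`D_mem`, `D_low`), natural in `t` (`D_inc`);
* `W.x` the class `v_* σ`;
* `W.rel` : **relation (R)** `i1 y + i2 y = mid1 (D y × x) + mid2 (D y × x)` in `H(Om2 U)`.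
-/

set_option autoImplicit false
set_option maxHeartbeats 200000

noncomputable section

open Function Topology NNReal

namespace Crest.Agent.R231.RelRx749

open Set Crest.Agent.R204 Crest.Agent.R231.FinDim315 CutWx749 CXx780 RelAx749
  Moorex725 CutMx725 OmSpx725

open Crest.Agent.R204.SpecA hiding inc

/-- the geometric data of the cut -/
structure TD {M : Type} [PseudoMetricSpace M] (p : M) (m : ℕ) where
  Wc : Tether p
  Wb : Tether p
  hp : p ∈ Wc.V
  cp : Wc.T p = fun _ => p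
  cov : ∀ y, y ∈ Wc.V ∨ y ∈ Wb.V
  sph : SphLike (Wc.V ∩ Wb.V : Set M) m
  j0 : Joined (vv Wb Wc (S := Wc.V ∩ Wb.V) inter_subset_right inter_subset_left sph.s₀)
    (one p (ell Wb + ell Wc))


theorem mid2_lift {M : Type} [PseudoMetricSpace M] {p : M} {T U a a' : ℝ≥0} (k : a ≤ a')
    (h2 : T + a' ≤ U) (h3 : T + a ≤ U) (d : HS (Om2T p T)) (w : HS (OmT p a)) :
    Hm (inc2 h3) (Hm (mid2 p T a) (cx d w)) =
      Hm (inc2 h2) (Hm (mid2 p T a') (cx d (Hm (inc k) w))) := by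
  have e1 := Hm_homotopic (mid2_inc_right (p := p) (T := T) k h2 h3)
  calc Hm (inc2 h3) (Hm (mid2 p T a) (cx d w)) = Hm ((inc2 h3).comp (mid2 p T a)) (cx d w) :=
        (Hm_comp_apply _ _ _).symm
    _ = Hm ((inc2 h2).comp ((mid2 p T a').comp ((ContinuousMap.id _).prodMap (inc k))))
          (cx d w) := by rw [e1]
    _ = Hm (inc2 h2) (Hm (mid2 p T a') (Hm ((ContinuousMap.id _).prodMap (inc k)) (cx d w))) := by
        rw [Hm_comp_apply, Hm_comp_apply]
    _ = _ := by rw [Hm_cx_right]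

theorem add_eq {V : Type*} [AddCommGroup V] {a b r s a' b' r' s' : V} (h : a + b = r + s)
    (e1 : a = a') (e2 : b = b') (e3 : r = r') (e4 : s = s') : a' + b' = r' + s' := by
  rw [← e1, ← e2, ← e3, ← e4, h]

theorem add_eq' {V : Type*} [AddCommGroup V] {a b r s s' : V} (h : a + b = r + s)
    (e4 : s = s') : b + a = r + s' := by
  rw [← e4, ← h, add_comm]

namespace TD

variable {M : Type} [PseudoMetricSpace M] {p : M} {m : ℕ} (W : TD p m)

/-- `U ∩ V` -/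
abbrev S : Set M := W.Wc.V ∩ W.Wb.V

/-- the level of `x` -/
def a : ℝ≥0 := ell W.Wb + ell W.Wc

/-- the loss of the cut -/
def b : ℝ≥0 := 2 * ell W.Wb

/-- the loops `b_z⁻¹ . c_z` -/
def v : C(W.S, OmT p W.a) := vv W.Wb W.Wc inter_subset_right inter_subset_left

/-- the loops `c_z⁻¹ . b_z` -/
def v' : C(W.S, OmT p W.a) := (inv p W.a).comp W.v

/-- the class `x = v_* σ` -/
def x : HS (OmT p W.a) := Hm W.v W.sph.σ

theorem x_mem : W.x ∈ hg (OmT p W.a) m := Hm_mem_hg _ W.sph.σ_mem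

/-- `U` -/
abbrev QU (t : ℝ≥0) : Set (Qt p t) := QW W.Wc.V p t

/-- `V` -/
abbrev QV (t : ℝ≥0) : Set (Qt p t) := QW W.Wb.V p t

/-- the cut data at level `t` -/
def cd (t : ℝ≥0) : CD (OmT p t) (Om2T p (t + W.b)) (W.S : Set M) (W.QU t) (W.QV t) where
  cyl := CylQx373.cylQ W.Wc.isOpen W.Wb.isOpen W.hp W.cov t
  Gb := GG W.Wb t (R := W.QV t) subset_rfl
  ev := evR p t (R := W.QU t ∩ W.QV t) (S := W.S) subset_rfl

/-- **the cut operator** -/
def D (t : ℝ≥0) : HS (OmT p t) →ₗ[F2] HS (Om2T p (t + W.b)) := (W.cd t).D W.sph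

theorem D_mem {t : ℝ≥0} {j : ℕ} {y : HS (OmT p t)} (hy : y ∈ hg (OmT p t) (j + m)) :
    W.D t y ∈ hg (Om2T p (t + W.b)) j := (W.cd t).D_mem W.sph hy

theorem D_low {t : ℝ≥0} {j : ℕ} {y : HS (OmT p t)} (hy : y ∈ hg (OmT p t) j) (hj : j < m) :
    W.D t y = 0 := (W.cd t).D_low W.sph hy hj

/-! ### change of level -/

theorem incQ_mapsTo {s t : ℝ≥0} (h : s ≤ t) (V : Set M) :
    MapsTo (incQ (p := p) h) (QW V p s) (QW V p t) := fun _ hx => hx

theorem inc_i0 {s t : ℝ≥0} (h : s ≤ t) :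
    (rmap (incQ (p := p) h) (incQ_mapsTo h W.Wc.V)).comp (W.cd s).cyl.i0 =
      (W.cd t).cyl.i0.comp (inc h) :=
  ContinuousMap.ext fun _ => rfl

theorem inc_i1 {s t : ℝ≥0} (h : s ≤ t) :
    ((rmap (incQ (p := p) h) (incQ_mapsTo h W.Wc.V)).comp (W.cd s).cyl.i1).Homotopic
      ((W.cd t).cyl.i1.comp (OmSpx725.inc h)) := by
  have hst : (s : ℝ) ≤ t := NNReal.coe_le_coe.2 h
  refine homotopic_of (fun u g => ⟨(inc h g, ⟨mix u s t, le_mix s.2 t.2, mix_le hst le_rfl⟩), ?_⟩)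
    ?_ (fun g => ?_) (fun g => ?_)
  · change g.1 (mix u s t) ∈ W.Wc.V
    rw [g.2.2.2 _ (le_mix le_rfl hst)]
    exact W.hp
  · exact Continuous.subtype_mk (((inc h).continuous.comp continuous_snd).prodMk
      (Continuous.subtype_mk (continuous_mixc _ _) _)) _
  · exact Subtype.ext (Prod.ext rfl (Subtype.ext (mix_zero _ _)))
  · exact Subtype.ext (Prod.ext rfl (Subtype.ext (mix_one _ _)))

/-- **the cut operator is natural in the level** -/
theorem D_inc {s t : ℝ≥0} (h : s ≤ t) (h' : s + W.b ≤ t + W.b) (y : HS (OmT p s)) :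
    W.D t (Hm (inc h) y) = Hm (inc2 h') (W.D s y) := by
  refine (W.cd s).map_D W.sph (W.cd t) (incQ h) (incQ_mapsTo h W.Wc.V) (incQ_mapsTo h W.Wb.V)
    (inc2 h') ?_ ?_
  · rw [Cyl.bdry_apply, Cyl.bdry_apply, map_add, ← Hm_comp_apply, ← Hm_comp_apply,
      ← Hm_comp_apply, ← Hm_comp_apply, inc_i0, Hm_homotopic (W.inc_i1 h)]
  · have e : (W.cd t).bc.comp (rmap (incQ h)
        ((incQ_mapsTo h W.Wc.V).inter_inter (incQ_mapsTo h W.Wb.V))) =
        ((inc2 h').prodMap (ContinuousMap.id _)).comp (W.cd s).bc :=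
      ContinuousMap.ext fun _ => rfl
    rw [e]

/-! ### the relation (R) -/

theorem end_i0 (t : ℝ≥0) {U : ℝ≥0} (h1 : t + 2 * ell W.Wc ≤ U) (h2 : t ≤ U) (y : HS (OmT p t)) :
    Hm ((inc2 h1).comp (GG W.Wc t (R := W.QU t) subset_rfl)) (Hm (W.cd t).cyl.i0 y) =
      Hm (inc2 h2) (Hm (i2 p t) y) := by
  rw [← Hm_comp_apply, ← Hm_comp_apply]
  exact congrFun (congrArg DFunLike.coe (Hm_homotopic
    (GG_startR W.Wc W.cp t (R := W.QU t) subset_rfl (startQ_mem W.hp t) h1 h2))) y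

theorem end_i1 (t : ℝ≥0) {U : ℝ≥0} (h1 : t + 2 * ell W.Wc ≤ U) (h2 : t ≤ U) (y : HS (OmT p t)) :
    Hm ((inc2 h1).comp (GG W.Wc t (R := W.QU t) subset_rfl)) (Hm (W.cd t).cyl.i1 y) =
      Hm (inc2 h2) (Hm (i1 p t) y) := by
  rw [← Hm_comp_apply, ← Hm_comp_apply]
  exact congrFun (congrArg DFunLike.coe (Hm_homotopic
    (GG_endR W.Wc W.cp t (R := W.QU t) subset_rfl (endQ_mem W.hp t) h1 h2))) y

theorem ptc_v : ptc (W.v W.sph.s₀) = ptc (one p W.a) := ptc_eq_of_joined W.j0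

theorem ptc_v' : ptc (W.v' W.sph.s₀) = ptc (one p W.a) := by
  have h1 : ptc (W.v' W.sph.s₀) = Hm (inv p W.a) (ptc (W.v W.sph.s₀)) := by
    rw [Hm_ptc]; rfl
  rw [h1, W.ptc_v, Hm_ptc]
  rfl

theorem htp (t : ℝ≥0) {U : ℝ≥0} (h1 : t + 2 * ell W.Wc ≤ U) (h2 : t + W.b + W.a + W.a ≤ U) :
    (((inc2 h1).comp (GG W.Wc t (R := W.QU t) subset_rfl)).comp
      (il (W.QU t) (W.QV t))).Homotopic
      ((((inc2 h2).comp (midd p (t + W.b) W.a W.a)).comp ((ContinuousMap.id _).prodMap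
        (W.v.prodMk W.v'))).comp (W.cd t).bc) :=
  GG_htp W.Wb W.Wc t (S := W.S) inter_subset_right inter_subset_left
    (R := W.QU t ∩ W.QV t) subset_rfl h1 h2

theorem mid_right {T U : ℝ≥0} (h1 : T + W.a + W.a ≤ U) (h2 : T + W.a ≤ U) (d : HS (Om2T p T))
    (w : HS (OmT p W.a)) :
    Hm ((inc2 h1).comp (midd p T W.a W.a)) (cx d (cx w (ptc (one p W.a)))) =
      Hm (inc2 h2) (Hm (mid1 p T W.a) (cx d w)) := by
  have h := Hm_homotopic (midd_one_right (p := p) (T := T) (a := W.a) (b := W.a) h1 h2)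
  rw [cx_ptc, ← Hm_cx_right, ← Hm_comp_apply, ← Hm_comp_apply (inc2 h2), ← h]
  rfl

theorem mid_left {T U : ℝ≥0} (h1 : T + W.a + W.a ≤ U) (h2 : T + W.a ≤ U) (d : HS (Om2T p T))
    (w : HS (OmT p W.a)) :
    Hm ((inc2 h1).comp (midd p T W.a W.a)) (cx d (cx (ptc (one p W.a)) w)) =
      Hm (inc2 h2) (Hm (mid2 p T W.a) (cx d w)) := by
  have h := Hm_homotopic (midd_one_left (p := p) (T := T) (a := W.a) (b := W.a) h1 h2)
  rw [ptc_cx, ← Hm_cx_right, ← Hm_comp_apply, ← Hm_comp_apply (inc2 h2), ← h]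
  rfl

/-- the class `x' = v'_* σ` -/
def x' : HS (OmT p W.a) := Hm W.v' W.sph.σ

/-- relation (R) with `x'` -/
theorem rel0 (t : ℝ≥0) {U : ℝ≥0} (h0 : t ≤ U) (h1 : t + 2 * ell W.Wc ≤ U)
    (h2 : t + W.b + W.a + W.a ≤ U) (h3 : t + W.b + W.a ≤ U) (y : HS (OmT p t)) :
    Hm (inc2 h0) (Hm (i2 p t) y) + Hm (inc2 h0) (Hm (i1 p t) y) =
      Hm (inc2 h3) (Hm (mid1 p (t + W.b) W.a) (cx (W.D t y) W.x)) +
      Hm (inc2 h3) (Hm (mid2 p (t + W.b) W.a) (cx (W.D t y) W.x')) := by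
  have h := (W.cd t).rel_nu W.sph ((inc2 h1).comp (GG W.Wc t (R := W.QU t) subset_rfl)) W.v W.v'
    ((inc2 h2).comp (midd p (t + W.b) W.a W.a)) (W.htp t h1 h2) y
  have e1 : Hm ((inc2 h2).comp (midd p (t + W.b) W.a W.a))
      (cx (W.D t y) (cx W.x (ptc (W.v' W.sph.s₀)))) =
      Hm (inc2 h3) (Hm (mid1 p (t + W.b) W.a) (cx (W.D t y) W.x)) := by
    rw [W.ptc_v']
    exact W.mid_right h2 h3 (W.D t y) W.x
  have e2 : Hm ((inc2 h2).comp (midd p (t + W.b) W.a W.a))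
      (cx (W.D t y) (cx (ptc (W.v W.sph.s₀)) W.x')) =
      Hm (inc2 h3) (Hm (mid2 p (t + W.b) W.a) (cx (W.D t y) W.x')) := by
    rw [W.ptc_v]
    exact W.mid_left h2 h3 (W.D t y) W.x'
  exact add_eq h (W.end_i0 t h1 h0 y) (W.end_i1 t h1 h0 y) e1 e2

theorem mul_x (w : HS (OmT p W.a)) {T : ℝ≥0} (h : W.a + W.a ≤ T) (h' : W.a ≤ T) :
    Hm (inc h) (Hm (mul p W.a W.a) (cx w (ptc (one p W.a)))) = Hm (inc h') w := by
  rw [cx_ptc, ← Hm_comp_apply, ← Hm_comp_apply]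
  have e : ((inc h).comp (mul p W.a W.a)).comp (atR (OmT p W.a) (one p W.a)) = inc h' :=
    ContinuousMap.ext fun g => by
      change inc h (mul p W.a W.a (g, one p W.a)) = inc h' g
      rw [mul_one']
      rfl
  rw [e]

theorem x_mul (w : HS (OmT p W.a)) {T : ℝ≥0} (h : W.a + W.a ≤ T) (h' : W.a ≤ T) :
    Hm (inc h) (Hm (mul p W.a W.a) (cx (ptc (one p W.a)) w)) = Hm (inc h') w := by
  have e := Hm_homotopic (one_mul_htp (p := p) (a := W.a) (b := W.a) h h')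
  rw [ptc_cx, ← Hm_comp_apply, ← Hm_comp_apply, ← e]
  rfl

/-- `x = x'` after a loss -/
theorem x_eq {T : ℝ≥0} (h : W.a + W.a ≤ T) (h' : W.a ≤ T) :
    Hm (inc h') W.x = Hm (inc h') W.x' := by
  have h1 : Hm (W.v.prodMk W.v') W.sph.σ =
      cx W.x (ptc (one p W.a)) + cx (ptc (one p W.a)) W.x' := by
    refine (PrimCXx720.pair_σ W.sph W.v W.v').trans ?_
    congr 1
    · exact congrArg (cx W.x) W.ptc_v'
    · exact congrArg (fun z => cx z W.x') W.ptc_v
  have h2 := congrArg (fun z => Hm (inc h) (Hm (mul p W.a W.a) z)) h1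
  simp only [map_add] at h2
  rw [W.mul_x _ h h', W.x_mul _ h h', ← Hm_comp_apply (mul p W.a W.a)] at h2
  have h3 : ((mul p W.a W.a).comp (W.v.prodMk W.v')).Homotopic
      (ContinuousMap.const _ (one p (W.a + W.a))) :=
    (mul_inv_htp (p := p) W.a).comp (ContinuousMap.Homotopic.refl W.v)
  rw [Hm_homotopic h3, PrimCXx720.Hm_const', map_zero] at h2
  exact eq_of_add h2.symm

/-- **relation (R)** -/
theorem rel (t : ℝ≥0) {U : ℝ≥0} (h0 : t ≤ U) (h1 : t + 2 * ell W.Wc ≤ U)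
    (h2 : t + W.b + (W.a + W.a) ≤ U) (h3 : t + W.b + W.a ≤ U) (y : HS (OmT p t)) :
    Hm (inc2 h0) (Hm (i1 p t) y) + Hm (inc2 h0) (Hm (i2 p t) y) =
      Hm (inc2 h3) (Hm (mid1 p (t + W.b) W.a) (cx (W.D t y) W.x)) +
      Hm (inc2 h3) (Hm (mid2 p (t + W.b) W.a) (cx (W.D t y) W.x)) := by
  have k : W.a ≤ W.a + W.a := le_self_add
  have e' : Hm (inc2 h3) (Hm (mid2 p (t + W.b) W.a) (cx (W.D t y) W.x')) =
      Hm (inc2 h3) (Hm (mid2 p (t + W.b) W.a) (cx (W.D t y) W.x)) := by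
    rw [mid2_lift k h2 h3, mid2_lift k h2 h3, W.x_eq le_rfl k]
  exact add_eq' (W.rel0 t h0 h1 (by rwa [add_assoc]) h3 y) e'

end TD

end Crest.Agent.R231.RelRx749
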