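import Crest.Agent.R231.CX_780
import Crest.Agent.R231.CutW_749
import Crest.Agent.R231.OmSp_725
import Crest.Agent.R231.LevInstB_969
import Crest.Agent.R231.RelR_749

-- ▼ part R231/Deriv_671
section

/-!
# Row 231, block P, leaf Q4b (helper671): the cut is a derivation

`cut (m_* (a × b)) = f1_* (cut a × b) + f2_* (a × cut b)` for cylinders `QA`, `QB`, `Q` with maps
`f1 : QA × B → Q`, `f2 : A × QB → Q` which cover the cylinder over `m : A × B → C`.
-/

set_option autoImplicit false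

noncomputable section

open Function Topology

namespace Crest.Agent.R231.Derivx671

open Crest.Agent.R204 Crest.Agent.R204.SpecA Crest.Agent.R231.FinDim315
open Crest.Agent.R231.CutWx749 Crest.Agent.R231.CXx780

section aux

variable {X Y Z X' Y' : Type} [TopologicalSpace X] [TopologicalSpace Y] [TopologicalSpace Z]
  [TopologicalSpace X'] [TopologicalSpace Y']

theorem Hm_ext {f g : C(X, Y)} (h : ∀ x, f x = g x) (a : HS X) : Hm f a = Hm g a := by
  rw [ContinuousMap.ext h]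

theorem cx_left (f : C(X, X')) (a : HS X) (b : HS Y) :
    cx (Hm f a) b = Hm (f.prodMap (ContinuousMap.id Y)) (cx a b) := (Hm_cx_left f a b).symm

theorem cx_right (g : C(Y, Y')) (a : HS X) (b : HS Y) :
    cx a (Hm g b) = Hm ((ContinuousMap.id X).prodMap g) (cx a b) := (Hm_cx_right g a b).symm

/-- `((x, y), z) ↦ ((x, z), y)` -/
def perm : C((X × Y) × Z, (X × Z) × Y) :=
  ⟨fun p => ((p.1.1, p.2), p.1.2), by fun_prop⟩

theorem cx_perm (a : HS X) (b : HS Y) (c : HS Z) :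
    Hm perm (cx (cx a b) c) = cx (cx a c) b := by
  have h : (perm : C((X × Y) × Z, (X × Z) × Y)) =
      ((casC X Z Y).comp ((ContinuousMap.id X).prodMap (swC Y Z))).comp (assC X Y Z) :=
    ContinuousMap.ext fun _ => rfl
  rw [h, Hm_comp_apply, Hm_comp_apply, cx_assoc, ← cx_right, cx_swap, cx_assoc']

end aux

/-- the map `(A ⊆ Q) × B → (A' ⊆ Q')` -/
def rl {Q B Q' : Type} [TopologicalSpace Q] [TopologicalSpace B] [TopologicalSpace Q']
    {A : Set Q} {A' : Set Q'} (f : C(Q × B, Q')) (h : ∀ q ∈ A, ∀ b, f (q, b) ∈ A') : C(A × B, A') :=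
  ⟨fun x => ⟨f (x.1, x.2), h x.1 x.1.2 x.2⟩, by
    refine Continuous.subtype_mk (f.continuous.comp ?_) _
    exact (continuous_subtype_val.comp continuous_fst).prodMk continuous_snd⟩

/-- the map `B × (A ⊆ Q) → (A' ⊆ Q')` -/
def rr {Q B Q' : Type} [TopologicalSpace Q] [TopologicalSpace B] [TopologicalSpace Q']
    {A : Set Q} {A' : Set Q'} (f : C(B × Q, Q')) (h : ∀ q ∈ A, ∀ b, f (b, q) ∈ A') : C(B × A, A') :=
  ⟨fun x => ⟨f (x.1, x.2), h x.2 x.2.2 x.1⟩, by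
    refine Continuous.subtype_mk (f.continuous.comp ?_) _
    exact continuous_fst.prodMk (continuous_subtype_val.comp continuous_snd)⟩

section

variable {QA QB Q A B C : Type} [TopologicalSpace QA] [TopologicalSpace QB] [TopologicalSpace Q]
  [TopologicalSpace A] [TopologicalSpace B] [TopologicalSpace C]
  {UA VA : Set QA} {UB VB : Set QB} {U V : Set Q}

theorem inter_l {f : C(QA × B, Q)} (hU : ∀ q ∈ UA, ∀ b, f (q, b) ∈ U)
    (hV : ∀ q ∈ VA, ∀ b, f (q, b) ∈ V) : ∀ q ∈ UA ∩ VA, ∀ b, f (q, b) ∈ U ∩ V :=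
  fun q hq b => ⟨hU q hq.1 b, hV q hq.2 b⟩

theorem inter_r {f : C(A × QB, Q)} (hU : ∀ q ∈ UB, ∀ a, f (a, q) ∈ U)
    (hV : ∀ q ∈ VB, ∀ a, f (a, q) ∈ V) : ∀ q ∈ UB ∩ VB, ∀ a, f (a, q) ∈ U ∩ V :=
  fun q hq b => ⟨hU q hq.1 b, hV q hq.2 b⟩

/-- **the cut class of a product** -/
theorem cut_mul (cA : Cyl A UA VA) (cB : Cyl B UB VB) (c : Cyl C U V) (m : C(A × B, C))
    (f1 : C(QA × B, Q)) (f2 : C(A × QB, Q))
    (h1U : ∀ q ∈ UA, ∀ b, f1 (q, b) ∈ U) (h1V : ∀ q ∈ VA, ∀ b, f1 (q, b) ∈ V)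
    (h2U : ∀ q ∈ UB, ∀ a, f2 (a, q) ∈ U) (h2V : ∀ q ∈ VB, ∀ a, f2 (a, q) ∈ V)
    (e0 : ∀ a b, f1 (cA.i0 a, b) = c.i0 (m (a, b)))
    (e1 : ∀ a b, f1 (cA.i1 a, b) = f2 (a, cB.i0 b))
    (e2 : ∀ a b, f2 (a, cB.i1 b) = c.i1 (m (a, b))) (a : HS A) (b : HS B) :
    c.cut (Hm m (cx a b)) = Hm (rl f1 (inter_l h1U h1V)) (cx (cA.cut a) b) +
      Hm (rr f2 (inter_r h2U h2V)) (cx a (cB.cut b)) := by
  refine (c.eq_cut ⟨?_, ?_⟩).symm
  · have d1 : ∀ w : HS (UA ∩ VA : Set QA), Hm (il U V) (Hm (rl f1 (inter_l h1U h1V)) (cx w b)) =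
        Hm (rl f1 h1U) (cx (Hm (il UA VA) w) b) := fun w => by
      rw [cx_left, ← Hm_comp_apply, ← Hm_comp_apply]
      exact Hm_ext (fun _ => rfl) _
    have d2 : ∀ w : HS (UB ∩ VB : Set QB), Hm (il U V) (Hm (rr f2 (inter_r h2U h2V)) (cx a w)) =
        Hm (rr f2 h2U) (cx a (Hm (il UB VB) w)) := fun w => by
      rw [cx_right, ← Hm_comp_apply, ← Hm_comp_apply]
      exact Hm_ext (fun _ => rfl) _
    have g0 : Hm (rl f1 h1U) (cx (Hm cA.i0 a) b) = Hm c.i0 (Hm m (cx a b)) := by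
      rw [cx_left, ← Hm_comp_apply, ← Hm_comp_apply]
      exact Hm_ext (fun x => Subtype.ext (e0 x.1 x.2)) _
    have g1 : Hm (rl f1 h1U) (cx (Hm cA.i1 a) b) = Hm (rr f2 h2U) (cx a (Hm cB.i0 b)) := by
      rw [cx_left, cx_right, ← Hm_comp_apply, ← Hm_comp_apply]
      exact Hm_ext (fun x => Subtype.ext (e1 x.1 x.2)) _
    have g2 : Hm (rr f2 h2U) (cx a (Hm cB.i1 b)) = Hm c.i1 (Hm m (cx a b)) := by
      rw [cx_right, ← Hm_comp_apply, ← Hm_comp_apply]
      exact Hm_ext (fun x => Subtype.ext (e2 x.1 x.2)) _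
    rw [LinearMap.map_add, d1, d2, cA.cut_l, cB.cut_l, LinearMap.map_add cx, LinearMap.add_apply,
      LinearMap.map_add, LinearMap.map_add (cx a), LinearMap.map_add]
    rw [g0, g1, g2, add_assoc, ← add_assoc (Hm (rr f2 h2U) _), add_self, zero_add]
  · have d1 : ∀ w : HS (UA ∩ VA : Set QA), Hm (ir U V) (Hm (rl f1 (inter_l h1U h1V)) (cx w b)) =
        Hm (rl f1 h1V) (cx (Hm (ir UA VA) w) b) := fun w => by
      rw [cx_left, ← Hm_comp_apply, ← Hm_comp_apply]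
      exact Hm_ext (fun _ => rfl) _
    have d2 : ∀ w : HS (UB ∩ VB : Set QB), Hm (ir U V) (Hm (rr f2 (inter_r h2U h2V)) (cx a w)) =
        Hm (rr f2 h2V) (cx a (Hm (ir UB VB) w)) := fun w => by
      rw [cx_right, ← Hm_comp_apply, ← Hm_comp_apply]
      exact Hm_ext (fun _ => rfl) _
    rw [LinearMap.map_add, d1, d2, cA.cut_r, cB.cut_r, LinearMap.map_zero cx, LinearMap.zero_apply,
      LinearMap.map_zero (cx a), LinearMap.map_zero, LinearMap.map_zero, add_zero]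

/-! ### the class `D` -/

variable {XA XB X S : Type} [TopologicalSpace XA] [TopologicalSpace XB] [TopologicalSpace X]
  [TopologicalSpace S]

/-- **the derivation property**: if `G_* (cut a) = dA × σ` and `G_* (cut b) = dB × σ`, then
`G_* (cut (m_* (a × b))) = (rm_* (dA × b) + lm_* (a × dB)) × σ`. -/
theorem der (cA : Cyl A UA VA) (cB : Cyl B UB VB) (c : Cyl C U V) (m : C(A × B, C))
    (f1 : C(QA × B, Q)) (f2 : C(A × QB, Q))
    (h1U : ∀ q ∈ UA, ∀ b, f1 (q, b) ∈ U) (h1V : ∀ q ∈ VA, ∀ b, f1 (q, b) ∈ V)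
    (h2U : ∀ q ∈ UB, ∀ a, f2 (a, q) ∈ U) (h2V : ∀ q ∈ VB, ∀ a, f2 (a, q) ∈ V)
    (e0 : ∀ a b, f1 (cA.i0 a, b) = c.i0 (m (a, b)))
    (e1 : ∀ a b, f1 (cA.i1 a, b) = f2 (a, cB.i0 b))
    (e2 : ∀ a b, f2 (a, cB.i1 b) = c.i1 (m (a, b)))
    (GA : C((UA ∩ VA : Set QA), XA × S)) (GB : C((UB ∩ VB : Set QB), XB × S))
    (G : C((U ∩ V : Set Q), X × S)) (rm : C(XA × B, X)) (lm : C(A × XB, X))
    (k1 : ∀ q b, G (rl f1 (inter_l h1U h1V) (q, b)) = (rm ((GA q).1, b), (GA q).2))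
    (k2 : ∀ a q, G (rr f2 (inter_r h2U h2V) (a, q)) = (lm (a, (GB q).1), (GB q).2))
    {a : HS A} {b : HS B} {dA : HS XA} {dB : HS XB} {σ : HS S}
    (hA : Hm GA (cA.cut a) = cx dA σ) (hB : Hm GB (cB.cut b) = cx dB σ) :
    Hm G (c.cut (Hm m (cx a b))) = cx (Hm rm (cx dA b) + Hm lm (cx a dB)) σ := by
  rw [cut_mul cA cB c m f1 f2 h1U h1V h2U h2V e0 e1 e2, LinearMap.map_add, LinearMap.map_add,
    LinearMap.add_apply]
  congr 1
  · have h1 : Hm G (Hm (rl f1 (inter_l h1U h1V)) (cx (cA.cut a) b)) =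
        Hm (rm.prodMap (ContinuousMap.id S)) (Hm perm (cx (Hm GA (cA.cut a)) b)) := by
      rw [cx_left, ← Hm_comp_apply, ← Hm_comp_apply, ← Hm_comp_apply]
      exact Hm_ext (fun x => k1 x.1 x.2) _
    rw [h1, hA, cx_perm, ← cx_left]
  · have h1 : Hm G (Hm (rr f2 (inter_r h2U h2V)) (cx a (cB.cut b))) =
        Hm (lm.prodMap (ContinuousMap.id S)) (Hm (casC A XB S) (cx a (Hm GB (cB.cut b)))) := by
      rw [cx_right, ← Hm_comp_apply, ← Hm_comp_apply, ← Hm_comp_apply]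
      exact Hm_ext (fun x => k2 x.1 x.2) _
    rw [h1, hB, cx_assoc', ← cx_left]

end

end Crest.Agent.R231.Derivx671
end
end

-- ▼ part R231/DerOm_671
section

/-!
# Row 231, block P, leaf Q4b (helper671): the cut `D` of based loops is a derivation

`GE W U t` : cut map and evaluation on `Q_U ∩ Q_V`;
`D_mul` : `D(m(a × b)) = rm(D a × b) + lm(a × D b)` in `Om2T p T`, `a + b + 2 ℓ ≤ T`;
`S_mul` : after forgetting the first piece, `S_* D(ab) = S_* D(a) . b + ε(a) S_* D(b)`.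
-/

set_option autoImplicit false

noncomputable section

open Function Topology NNReal

namespace Crest.Agent.R231.Derivx671

open Crest.Agent.R204 Crest.Agent.R204.SpecA Crest.Agent.R231.FinDim315
open Crest.Agent.R231.CutWx749 Crest.Agent.R231.CXx780 Crest.Agent.R231.OmSpx725
open Crest.Agent.R231.Moorex725 Crest.Agent.R231.CutMx725

variable {M : Type} [PseudoMetricSpace M] {p : M}

/-- cut map and evaluation on `Q_U ∩ Q_V` -/
def GE (W : Tether p) (U : Set M) (t : ℝ≥0) :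
    C((QW U p t ∩ QW W.V p t : Set (Qt p t)), Om2T p (t + 2 * ell W) × (U ∩ W.V : Set M)) where
  toFun x := (GG W t (Set.inter_subset_right : QW U p t ∩ QW W.V p t ⊆ QW W.V p t) x,
    ⟨evQ p t x.1, x.2.1, x.2.2⟩)
  continuous_toFun := (GG W t _).continuous.prodMk
    (Continuous.subtype_mk ((evQ p t).continuous.comp continuous_subtype_val) _)

theorem mulQ1_memU (a b : ℝ≥0) (V : Set M) : ∀ q ∈ QW V p a, ∀ w : OmT p b,
    mulQ1 p a b (q, w) ∈ QW V p (a + b) := fun q hq w => (mulQ1_mem a b V q w).2 hq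

theorem mulQ2_memU (a b : ℝ≥0) (V : Set M) : ∀ q ∈ QW V p b, ∀ w : OmT p a,
    mulQ2 p a b (w, q) ∈ QW V p (a + b) := fun q hq w => (mulQ2_mem a b V q w).2 hq

/-- ends of the cylinder of loops with a time -/
structure Ends {U V : Set M} {t : ℝ≥0} (c : Cyl (OmT p t) (QW U p t) (QW V p t)) : Prop where
  e0 : ∀ g, ((c.i0 g : QW U p t) : Qt p t) = (g, ⟨0, le_rfl, t.2⟩)
  e1 : ∀ g, ((c.i1 g : QW U p t) : Qt p t) = (g, ⟨t, t.2, le_rfl⟩)

/-- **the derivation property**, at the level of the classes on `Om2 × S` -/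
theorem der_Om (W : Tether p) {U : Set M} (a b : ℝ≥0)
    {cA : Cyl (OmT p a) (QW U p a) (QW W.V p a)} (eA : Ends cA)
    {cB : Cyl (OmT p b) (QW U p b) (QW W.V p b)} (eB : Ends cB)
    {c : Cyl (OmT p (a + b)) (QW U p (a + b)) (QW W.V p (a + b))} (eC : Ends c)
    {x : HS (OmT p a)} {y : HS (OmT p b)} {σ : HS (U ∩ W.V : Set M)}
    {dA : HS (Om2T p (a + 2 * ell W))} {dB : HS (Om2T p (b + 2 * ell W))}
    (hA : Hm (GE W U a) (cA.cut x) = cx dA σ) (hB : Hm (GE W U b) (cB.cut y) = cx dB σ)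
    {T : ℝ≥0} (h : a + b + 2 * ell W ≤ T) (h1 : a + 2 * ell W + b ≤ T)
    (h2 : a + (b + 2 * ell W) ≤ T) :
    Hm ((inc2 h).prodMap (ContinuousMap.id _)) (Hm (GE W U (a + b)) (c.cut (Hm (mul p a b) (cx x y))))
      = cx (Hm ((inc2 h1).comp (rm p (a + 2 * ell W) b)) (cx dA y) +
          Hm ((inc2 h2).comp (lm p a (b + 2 * ell W))) (cx x dB)) σ := by
  rw [← Hm_comp_apply]
  refine der cA cB c (mul p a b) (mulQ1 p a b) (mulQ2 p a b) (mulQ1_memU a b U)
    (mulQ1_memU a b W.V) (mulQ2_memU a b U) (mulQ2_memU a b W.V) ?_ ?_ ?_ (GE W U a) (GE W U b)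
    _ _ _ ?_ ?_ hA hB
  · intro g w
    rw [eA.e0, eC.e0]
    rfl
  · intro g w
    rw [eA.e1, eB.e0]
    refine Prod.ext rfl (Subtype.ext ?_)
    show (a : ℝ) = a + 0
    rw [add_zero]
  · intro g w
    rw [eB.e1, eC.e1]
    refine Prod.ext rfl (Subtype.ext ?_)
    show (a : ℝ) + b = ((a + b : ℝ≥0) : ℝ)
    rw [NNReal.coe_add]
  · intro q w
    refine Prod.ext ?_ (Subtype.ext ?_)
    · exact GG_mulQ1 W a b _ _ q w _ h h1
    · exact evQ_mulQ1 a b q.1 w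
  · intro w q
    refine Prod.ext ?_ (Subtype.ext ?_)
    · exact GG_mulQ2 W a b _ _ q w _ h h2
    · exact evQ_mulQ2 a b q.1 w

/-- **Q4b**: `D(ab) = D(a).b + a.D(b)` -/
theorem D_mul (W : Tether p) {U : Set M} (a b : ℝ≥0)
    {cA : Cyl (OmT p a) (QW U p a) (QW W.V p a)} (eA : Ends cA)
    {cB : Cyl (OmT p b) (QW U p b) (QW W.V p b)} (eB : Ends cB)
    {c : Cyl (OmT p (a + b)) (QW U p (a + b)) (QW W.V p (a + b))} (eC : Ends c)
    {x : HS (OmT p a)} {y : HS (OmT p b)} {σ : HS (U ∩ W.V : Set M)}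
    {dA : HS (Om2T p (a + 2 * ell W))} {dB : HS (Om2T p (b + 2 * ell W))}
    {d : HS (Om2T p (a + b + 2 * ell W))}
    (hA : Hm (GE W U a) (cA.cut x) = cx dA σ) (hB : Hm (GE W U b) (cB.cut y) = cx dB σ)
    (hC : Hm (GE W U (a + b)) (c.cut (Hm (mul p a b) (cx x y))) = cx d σ)
    {T : ℝ≥0} (hσ : ∀ z z' : HS (Om2T p T), cx z σ = cx z' σ → z = z')
    (h : a + b + 2 * ell W ≤ T) (h1 : a + 2 * ell W + b ≤ T)
    (h2 : a + (b + 2 * ell W) ≤ T) :
    Hm (inc2 h) d = Hm (inc2 h1) (Hm (rm p (a + 2 * ell W) b) (cx dA y)) +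
      Hm (inc2 h2) (Hm (lm p a (b + 2 * ell W)) (cx x dB)) := by
  have h3 := der_Om W a b eA eB eC hA hB h h1 h2
  rw [hC, Hm_cx_left] at h3
  rw [← Hm_comp_apply, ← Hm_comp_apply]
  exact hσ _ _ h3

end Crest.Agent.R231.Derivx671
end
end

-- ▼ part R231/Leib_671
section

/-!
# Row 231, block P, leaf (III) (helper671): one-sided Leibniz rule after `S_*`

`leib` : for `D : ∀ t, H(Ω_t) → H(Ω²_{t+2ℓ})` natural and with the derivation property (`D_mul`),
`S_* D(a b) = (S_* D a) b + ε(a) S_* D b`, with arbitrary levels, literally the field `leib` of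
`Levx969.LevA`.
-/

set_option autoImplicit false

noncomputable section

open Function Topology NNReal

namespace Crest.Agent.R231.Derivx671

open Crest.Agent.R204 Crest.Agent.R231.FinDim315
open Crest.Agent.R204.SpecA (Hm)
open Crest.Agent.R231.CutWx749 Crest.Agent.R231.CXx780 Crest.Agent.R231.OmSpx725
open Crest.Agent.R231.Moorex725 Crest.Agent.R231.CutMx725

variable {M : Type} [PseudoMetricSpace M] {p : M}

section htpy

variable {X : Type} [TopologicalSpace X]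

/-- concatenation at a time depending on the point -/
def ccAt {T b u : ℝ≥0} (S : C(X, OmT p T)) (w : C(X, OmT p b)) (c : C(X, ℝ))
    (h0 : ∀ x, 0 ≤ c x) (h1 : ∀ x, c x + b ≤ u) (hS : ∀ x, (S x).1 ∈ Om p (c x)) :
    C(X, OmT p u) where
  toFun x := ⟨cc (c x) (S x).1 (w x).1, Om_mono p (h1 x) (cc_mem_Om (hS x) (w x).2 (h0 x) b.2)⟩
  continuous_toFun := by
    refine Continuous.subtype_mk (continuous_cc (continuous_subtype_val.comp S.continuous)
      (continuous_subtype_val.comp w.continuous) c.continuous (fun x => (w x).2.1) fun x => ?_) _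
    exact ((hS x).2.2 _ le_rfl).trans ((w x).2.2.1 _ le_rfl).symm

/-- two concatenation times give homotopic maps -/
theorem ccAt_homotopic {T b u : ℝ≥0} (S : C(X, OmT p T)) (w : C(X, OmT p b)) (c c' : C(X, ℝ))
    (h0 : ∀ x, 0 ≤ c x) (h1 : ∀ x, c x + b ≤ u) (hS : ∀ x, (S x).1 ∈ Om p (c x))
    (h0' : ∀ x, 0 ≤ c' x) (h1' : ∀ x, c' x + b ≤ u) (hS' : ∀ x, (S x).1 ∈ Om p (c' x)) :
    (ccAt S w c h0 h1 hS).Homotopic (ccAt S w c' h0' h1' hS') := by
  have hmem : ∀ (θ : unitInterval) (x : X), (S x).1 ∈ Om p ((1 - (θ : ℝ)) * c x + θ * c' x) := by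
    intro θ x
    rcases le_total (c x) (c' x) with h | h
    · refine Om_mono p ?_ (hS x)
      nlinarith [θ.2.1, θ.2.2, mul_nonneg θ.2.1 (sub_nonneg.2 h)]
    · refine Om_mono p ?_ (hS' x)
      nlinarith [θ.2.1, θ.2.2, mul_nonneg (sub_nonneg.2 θ.2.2) (sub_nonneg.2 h)]
  have hc : Continuous fun q : unitInterval × X => (1 - (q.1 : ℝ)) * c q.2 + q.1 * c' q.2 := by
    fun_prop
  refine ⟨{ toFun := fun q => ⟨cc ((1 - (q.1 : ℝ)) * c q.2 + q.1 * c' q.2) (S q.2).1 (w q.2).1, ?_⟩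
            continuous_toFun := ?_
            map_zero_left := ?_
            map_one_left := ?_ }⟩
  · have e1 := h1 q.2
    have e2 := h1' q.2
    have e3 := q.1.2.1
    have e4 := q.1.2.2
    refine Om_mono p ?_ (cc_mem_Om (hmem q.1 q.2) (w q.2).2 ?_ b.2)
    · have := add_le_add (mul_le_mul_of_nonneg_left e1 (sub_nonneg.2 e4))
        (mul_le_mul_of_nonneg_left e2 e3)
      linarith
    · exact add_nonneg (mul_nonneg (sub_nonneg.2 e4) (h0 _)) (mul_nonneg e3 (h0' _))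
  · refine Continuous.subtype_mk (continuous_cc
      (continuous_subtype_val.comp (S.continuous.comp continuous_snd))
      (continuous_subtype_val.comp (w.continuous.comp continuous_snd)) hc
      (fun q => (w q.2).2.1) fun q => ?_) _
    exact ((hmem q.1 q.2).2.2 _ le_rfl).trans ((w q.2).2.2.1 _ le_rfl).symm
  · intro x
    refine OmT_ext ?_
    show cc ((1 - ((0 : unitInterval) : ℝ)) * c x + ((0 : unitInterval) : ℝ) * c' x) _ _ = cc (c x) _ _
    simp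
  · intro x
    refine OmT_ext ?_
    show cc ((1 - ((1 : unitInterval) : ℝ)) * c x + ((1 : unitInterval) : ℝ) * c' x) _ _ =
      cc (c' x) _ _
    simp

end htpy

/-- `S_* ∘ rm` is the product with `S_*`, at arbitrary levels -/
theorem S_rm {T v b u w : ℝ≥0} (hT : T ≤ v) (h1 : T + b ≤ w) (h2 : w ≤ u) (h3 : v + b ≤ u)
    (d : HS (Om2T p T)) (y : HS (OmT p b)) :
    Hm ((inc h2).comp (fsS p w)) (Hm (inc2 h1) (Hm (rm p T b) (cx d y))) =
      Hm ((inc h3).comp (mul p v b)) (cx (Hm ((inc (le_refl v)).comp (fsS p v)) (Hm (inc2 hT) d)) y) := by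
  rw [cx_left, cx_left, ← Hm_comp_apply, ← Hm_comp_apply, ← Hm_comp_apply, ← Hm_comp_apply]
  let S : C(Om2T p T × OmT p b, OmT p T) := (fsS p T).comp ⟨Prod.fst, continuous_fst⟩
  let w' : C(Om2T p T × OmT p b, OmT p b) := ⟨Prod.snd, continuous_snd⟩
  let c0 : C(Om2T p T × OmT p b, ℝ) := ⟨fun x => (T : ℝ) - x.1.1.2.2, by
    exact continuous_const.sub (continuous_r.comp continuous_fst)⟩
  let c1 : C(Om2T p T × OmT p b, ℝ) := ContinuousMap.const _ (v : ℝ)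
  have hTv : (T : ℝ) ≤ v := NNReal.coe_le_coe.2 hT
  have hTb : (T : ℝ) + b ≤ u := by
    have := NNReal.coe_le_coe.2 (h1.trans h2)
    push_cast at this
    exact this
  have hvb : (v : ℝ) + b ≤ u := by
    have := NNReal.coe_le_coe.2 h3
    push_cast at this
    exact this
  have key := ccAt_homotopic (u := u) S w' c0 c1
    (fun x => sub_nonneg.2 x.1.2.2.2.2)
    (fun x => by
      show (T : ℝ) - x.1.1.2.2 + b ≤ u
      linarith [x.1.2.2.2.1])
    (fun x => x.1.2.2.1)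
    (fun _ => v.2)
    (fun _ => hvb)
    (fun x => Om_mono p (by
      show (T : ℝ) - x.1.1.2.2 ≤ v
      linarith [x.1.2.2.2.1]) x.1.2.2.1)
  have e := Hm_homotopic key
  have e1 := LinearMap.congr_fun e (cx d y)
  refine (Hm_ext (fun x => OmT_ext ?_) _).trans (e1.trans (Hm_ext (fun x => OmT_ext ?_) _))
  · rfl
  · rfl

/-- `S_* ∘ lm` forgets the first factor -/
theorem S_lm {a T u w : ℝ≥0} (h1 : a + T ≤ w) (h2 : w ≤ u) (h3 : T ≤ u)
    (x : HS (OmT p a)) (d : HS (Om2T p T)) :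
    Hm ((inc h2).comp (fsS p w)) (Hm (inc2 h1) (Hm (lm p a T) (cx x d))) =
      ep x • Hm ((inc h3).comp (fsS p T)) d := by
  rw [← LinearMap.map_smul, ← Hm_snd_cx, ← Hm_comp_apply, ← Hm_comp_apply, ← Hm_comp_apply]
  exact Hm_ext (fun x => rfl) _

/-- **one-sided Leibniz rule** (literal field `leib` of `Levx969.LevA`) -/
theorem leib (W : Tether p) (D : ∀ t : ℝ≥0, HS (OmT p t) →ₗ[F2] HS (Om2T p (t + 2 * ell W)))
    (hnat : ∀ {s t : ℝ≥0} (h : s ≤ t) (h' : s + 2 * ell W ≤ t + 2 * ell W) (y : HS (OmT p s)),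
      D t (Hm (inc h) y) = Hm (inc2 h') (D s y))
    (hmul : ∀ (s t : ℝ≥0) (h1 : s + 2 * ell W + t ≤ s + t + 2 * ell W)
      (h2 : s + (t + 2 * ell W) ≤ s + t + 2 * ell W) (a : HS (OmT p s)) (b : HS (OmT p t)),
      D (s + t) (Hm (mul p s t) (cx a b)) =
        Hm (inc2 h1) (Hm (rm p (s + 2 * ell W) t) (cx (D s a) b)) +
        Hm (inc2 h2) (Hm (lm p s (t + 2 * ell W)) (cx a (D t b))))
    {s t p' q v w u : ℝ≥0} (h1 : s + t ≤ p') (h2 : p' + 2 * ell W ≤ q) (h3 : q ≤ u)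
    (h4 : s + 2 * ell W ≤ v) (h5 : v + t ≤ u) (h6 : t + 2 * ell W ≤ w) (h7 : w ≤ u)
    (a : HS (OmT p s)) (b : HS (OmT p t)) :
    Hm ((inc h3).comp (fsS p q)) (Hm (inc2 h2) (D p' (Hm ((inc h1).comp (mul p s t)) (cx a b)))) =
      Hm ((inc h5).comp (mul p v t))
        (cx (Hm ((inc (le_refl v)).comp (fsS p v)) (Hm (inc2 h4) (D s a))) b) +
      ep a • Hm ((inc h7).comp (fsS p w)) (Hm (inc2 h6) (D t b)) := by
  have k1 : s + 2 * ell W + t ≤ s + t + 2 * ell W := le_of_eq (by ring)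
  have k2 : s + (t + 2 * ell W) ≤ s + t + 2 * ell W := le_of_eq (by ring)
  have k3 : s + t + 2 * ell W ≤ p' + 2 * ell W := add_le_add_left h1 _
  have k4 : s + t + 2 * ell W ≤ u := (k3.trans h2).trans h3
  have e1 : Hm ((inc h3).comp (fsS p q)) (Hm (inc2 h2) (Hm (inc2 k3)
      (D (s + t) (Hm (mul p s t) (cx a b))))) =
      Hm ((inc k4).comp (fsS p (s + t + 2 * ell W))) (D (s + t) (Hm (mul p s t) (cx a b))) := by
    rw [← Hm_comp_apply, ← Hm_comp_apply]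
    exact Hm_ext (fun _ => rfl) _
  have e2 : Hm ((inc h7).comp (fsS p w)) (Hm (inc2 h6) (D t b)) =
      Hm ((inc (h6.trans h7)).comp (fsS p (t + 2 * ell W))) (D t b) := by
    rw [← Hm_comp_apply]
    exact Hm_ext (fun _ => rfl) _
  rw [Hm_comp_apply (inc h1), hnat h1 k3, e1, hmul s t k1 k2, LinearMap.map_add, S_rm h4 k1 k4 h5,
    S_lm k2 k4 (h6.trans h7), e2]

end Crest.Agent.R231.Derivx671
end
end

-- ▼ part R231/CutI_969

/-!
# Row 231, block P (helper969): 749's cut `TD p m` gives `CutH p m`, hence `LevA m`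

`cutH (W : TD p m) (hx : x never dies) : CutH p m`; `levTD W hx : LevA m := (cutH W hx).lev 1`.
-/

set_option autoImplicit false

noncomputable section

open Set NNReal

namespace Crest.Agent.R231.CutIx969

open Crest.Agent.R204 Crest.Agent.R231.FinDim315 Crest.Agent.R231.CXx780
  Crest.Agent.R231.Moorex725 Crest.Agent.R231.CutMx725 Crest.Agent.R231.OmSpx725
  Crest.Agent.R231.Levx969 Crest.Agent.R231.LevInstx969 Crest.Agent.R231.RelRx749
open Crest.Agent.R204.SpecA hiding inc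

variable {M : Type} [PseudoMetricSpace M] {p : M} {m : ℕ}

theorem ends (W : TD p m) (t : ℝ≥0) : Derivx671.Ends (W.cd t).cyl := ⟨fun _ => rfl, fun _ => rfl⟩

theorem GE_eq (W : TD p m) (t : ℝ≥0) : Derivx671.GE W.Wb W.Wc.V t = (W.cd t).bc :=
  ContinuousMap.ext fun _ => rfl

theorem spec (W : TD p m) (t : ℝ≥0) (y : HS (OmT p t)) :
    Hm (Derivx671.GE W.Wb W.Wc.V t) ((W.cd t).cyl.cut y) = cx (W.D t y) W.sph.σ :=
  (congrArg (fun f => Hm f ((W.cd t).cyl.cut y)) (GE_eq W t)).trans ((W.cd t).D_spec W.sph y)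

theorem inc_id {t : ℝ≥0} (h : t ≤ t) (y : HS (OmT p t)) : Hm (inc h) y = y := Hm_id y

theorem inc2_id {t : ℝ≥0} (h : t ≤ t) (y : HS (Om2T p t)) : Hm (inc2 h) y = y := Hm_id y

set_option maxHeartbeats 2000000 in
/-- the cut is a derivation -/
theorem D_mul0 (W : TD p m) (s t T : ℝ≥0) (h0 : s + t + W.b ≤ T) (h1 : s + W.b + t ≤ T)
    (h2 : s + (t + W.b) ≤ T) (a : HS (OmT p s)) (b : HS (OmT p t)) :
    Hm (inc2 h0) (W.D (s + t) (Hm (mul p s t) (cx a b))) =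
      Hm (inc2 h1) (Hm (rm p (s + W.b) t) (cx (W.D s a) b)) +
      Hm (inc2 h2) (Hm (lm p s (t + W.b)) (cx a (W.D t b))) :=
    Derivx671.D_mul W.Wb (U := W.Wc.V) s t (cA := (W.cd s).cyl) (ends W s) (cB := (W.cd t).cyl)
      (ends W t) (c := (W.cd (s + t)).cyl) (ends W (s + t)) (x := a) (y := b) (σ := W.sph.σ)
      (dA := W.D s a) (dB := W.D t b) (d := W.D (s + t) (Hm (mul p s t) (cx a b)))
      (spec W s a) (spec W t b) (spec W (s + t) (Hm (mul p s t) (cx a b)))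
      (T := T) (fun _ _ h => W.sph.cx_σ_inj h) h0 h1 h2

theorem D_mul (W : TD p m) (s t : ℝ≥0) (h1 : s + W.b + t ≤ s + t + W.b)
    (h2 : s + (t + W.b) ≤ s + t + W.b) (a : HS (OmT p s)) (b : HS (OmT p t)) :
    W.D (s + t) (Hm (mul p s t) (cx a b)) =
      Hm (inc2 h1) (Hm (rm p (s + W.b) t) (cx (W.D s a) b)) +
      Hm (inc2 h2) (Hm (lm p s (t + W.b)) (cx a (W.D t b))) :=
  (inc2_id le_rfl _).symm.trans (D_mul0 W s t _ le_rfl h1 h2 a b)

theorem fsS_id (t : ℝ≥0) (h : t ≤ t) (w : HS (Om2T p t)) :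
    Hm ((inc h).comp (fsS p t)) (Hm (inc2 h) w) = Hm (fsS p t) w := by
  rw [inc2_id, Hm_comp_apply, inc_id]

/-- one-sided Leibniz rule -/
theorem leibT (W : TD p m) (s t T : ℝ≥0) (h0 : s + t + W.b ≤ T)
    (h1 : s + W.b + t ≤ T) (h2 : t + W.b ≤ T) (a : HS (OmT p s)) (b : HS (OmT p t)) :
    Hm (inc h0) (Hm (fsS p _) (W.D (s + t) (Hm (mul p s t) (cx a b)))) =
      Hm (inc h1) (Hm (mul p _ _) (cx (Hm (fsS p _) (W.D s a)) b)) +
        ep a • Hm (inc h2) (Hm (fsS p _) (W.D t b)) := by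
  have k1 : s + W.b + t ≤ s + t + W.b := le_of_eq (by ring)
  have k2 : s + (t + W.b) ≤ s + t + W.b := le_of_eq (by ring)
  have e1 := Derivx671.S_rm (le_refl (s + W.b)) k1 h0 h1 (W.D s a) b
  have e2 := Derivx671.S_lm k2 h0 h2 a (W.D t b)
  rw [fsS_id (s + W.b) (le_refl (s + W.b)) (W.D s a)] at e1
  calc Hm (inc h0) (Hm (fsS p _) (W.D (s + t) (Hm (mul p s t) (cx a b))))
      = Hm ((inc h0).comp (fsS p _)) (W.D (s + t) (Hm (mul p s t) (cx a b))) :=
        (Hm_comp_apply _ _ _).symm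
    _ = Hm ((inc h0).comp (fsS p _)) (Hm (inc2 k1) (Hm (rm p (s + W.b) t) (cx (W.D s a) b)) +
          Hm (inc2 k2) (Hm (lm p s (t + W.b)) (cx a (W.D t b)))) :=
        congrArg _ (D_mul W s t k1 k2 a b)
    _ = _ := map_add _ _ _
    _ = _ := congrArg₂ (· + ·) (e1.trans (Hm_comp_apply _ _ _))
        (e2.trans (congrArg (fun z => ep a • z) (Hm_comp_apply _ _ _)))

/-- relation (R) -/
theorem relT (W : TD p m) (t T : ℝ≥0) (hk : t + (2 * ell W.Wc + (W.b + (W.a + W.a))) ≤ T)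
    (h1 : t ≤ T) (h2 : t + W.b + W.a ≤ T) (y : HS (OmT p t)) :
    Hm (inc2 h1) (Hm (i1 p t) y) + Hm (inc2 h1) (Hm (i2 p t) y) =
      Hm (inc2 h2) (Hm (mid1 p _ _) (cx (W.D t y) W.x)) +
        Hm (inc2 h2) (Hm (mid2 p _ _) (cx (W.D t y) W.x)) := by
  have k1 : t + 2 * ell W.Wc ≤ T := le_trans (add_le_add le_rfl le_self_add) hk
  have k2 : t + W.b + (W.a + W.a) ≤ T :=
    le_trans (by rw [add_assoc]; exact add_le_add le_rfl le_add_self) hk
  exact W.rel t h1 k1 k2 h2 y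

/-- **the cut data** -/
def cutH (W : TD p m) (hx : ∀ (u : ℝ≥0) (h : W.a ≤ u), Hm (inc h) W.x ≠ 0) : CutH p m where
  cD := W.b
  Dc := W.D
  Dc_gr _ _ _ hy := W.D_mem hy
  Dc_lt _ _ _ hy hj := W.D_low hy hj
  Dc_inc _ _ h h' y := W.D_inc h h' y
  cx' := W.a
  x := W.x
  x_gr := W.x_mem
  x_ne := hx
  k := 2 * ell W.Wc + (W.b + (W.a + W.a))
  R t T hk h1 h2 y := relT W t T hk h1 h2 y
  leib s t T _ h0 h1 h2 a b := leibT W s t T h0 h1 h2 a b


end Crest.Agent.R231.CutIx969
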