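import Crest.Agent.R231.Moore_725

/-!
# Cutting Moore loops with a tether (row 231, block P)

A *tether* at `p` is an open set `V` of `M` together with a continuous choice of a path
`T y` from `y ∈ V` to `p`, of length at most `L`.  For a path `g` and a time `s` with
`g s ∈ V`:

* `Fc s g = g|[0,s] . T (g s)` : a loop at `p` of length at most `s + L`;
* `Sc s g = T (g s)⁻¹ . g|[s,t]` : a loop at `p` of length at most `L + (t - s)`;
* `dt r s g` : the detour homotopy from `g` (`r = 0`) to `Fc s g . Sc s g` (`r = L`).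
-/

namespace Crest.Agent.R231.CutMx725

open Set Topology Crest.Agent.R231.Moorex725

set_option linter.unusedSectionVars false

variable {M : Type*} [PseudoMetricSpace M]

/-- A tether at `p`. -/
structure Tether (p : M) where
  V : Set M
  isOpen : IsOpen V
  L : ℝ
  L_nonneg : 0 ≤ L
  T : M → ℝ → M
  mem : ∀ y, y ∈ V → T y ∈ MP y p L
  cont : ContinuousOn T V

variable {p : M} (W : Tether p)

/-- The first piece of the cut. -/
noncomputable def Fc (s : ℝ) (g : ℝ → M) : ℝ → M := cc s (head s g) (W.T (g s))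

/-- The second piece of the cut. -/
noncomputable def Sc (s : ℝ) (g : ℝ → M) : ℝ → M := cc W.L (rev W.L (W.T (g s))) (tail s g)

variable {W}

theorem Fc_mem {q x : M} {t s : ℝ} {g : ℝ → M} (hg : g ∈ MP x q t) (hs : 0 ≤ s)
    (hV : g s ∈ W.V) : Fc W s g ∈ MP x p (s + W.L) :=
  cc_mem (head_mem hg) (W.mem _ hV) hs W.L_nonneg

theorem Sc_mem {q x : M} {t s : ℝ} {g : ℝ → M} (hg : g ∈ MP x q t) (hs : s ≤ t)
    (hV : g s ∈ W.V) : Sc W s g ∈ MP p q (W.L + (t - s)) :=
  cc_mem (rev_mem (W.mem _ hV)) (tail_mem hg hs) W.L_nonneg (by linarith)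


section junction

variable {x y q : M} {c d s : ℝ} {a b : ℝ → M}

theorem Fc_cc_of_le (h : s ≤ c) : Fc W s (cc c a b) = Fc W s a := by
  rw [Fc, Fc, head_cc_of_le _ _ h, cc_of_le _ _ h]

theorem Sc_cc_of_ge (ha : a ∈ MP x y c) (hb : b ∈ MP y q d) (h : c ≤ s) :
    Sc W s (cc c a b) = Sc W (s - c) b := by
  have hab : a c = b 0 := by rw [ha.2.2 _ le_rfl, hb.2.1 _ le_rfl]
  rw [Sc, Sc, tail_cc_of_ge hab h, cc_of_ge hab h]

theorem Fc_cc_of_ge (ha : a ∈ MP x y c) (hb : b ∈ MP y q d) (h : c ≤ s) :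
    Fc W s (cc c a b) = cc c a (Fc W (s - c) b) := by
  have hab : a c = b 0 := by rw [ha.2.2 _ le_rfl, hb.2.1 _ le_rfl]
  rw [Fc, Fc, head_cc_of_ge hab h, cc_of_ge hab h, cc_assoc' _ _ _ h]

theorem Sc_cc_of_le (h : s ≤ c) :
    Sc W s (cc c a b) = cc (W.L + (c - s)) (Sc W s a) b := by
  rw [Sc, Sc, tail_cc_of_le _ _ h, cc_of_le _ _ h, cc_assoc _ _ _ (by linarith)]

end junction

/-! ### The detour homotopy -/

/-- Go along `g` until time `s`, make the detour along `c` until time `r` and back, and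
continue along `g`. -/
noncomputable def dt (r s : ℝ) (c g : ℝ → M) : ℝ → M :=
  cc s (head s g) (cc r (head r c) (cc r (rev r (head r c)) (tail s g)))





/-! ### Continuity -/

section cont

variable {X : Type*} [TopologicalSpace X] {g : X → ℝ → M} {s : X → ℝ}

theorem continuous_T (hg : Continuous g) (hL : ∀ x, g x ∈ LL M) (hs : Continuous s)
    (hV : ∀ x, g x (s x) ∈ W.V) : Continuous fun x => W.T (g x (s x)) :=
  W.cont.comp_continuous (continuous_eval hg hL hs) hV

theorem continuous_Fc (hg : Continuous g) (hL : ∀ x, g x ∈ LL M) (hs : Continuous s)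
    (hV : ∀ x, g x (s x) ∈ W.V) : Continuous fun x => Fc W (s x) (g x) :=
  continuous_cc (continuous_head hg hL hs) (continuous_T hg hL hs hV) hs
    (fun x => (W.mem _ (hV x)).1) fun x => by
      rw [head, min_self]
      exact ((W.mem _ (hV x)).2.1 0 le_rfl).symm

theorem continuous_Sc (hg : Continuous g) (hL : ∀ x, g x ∈ LL M) (hs : Continuous s)
    (hV : ∀ x, g x (s x) ∈ W.V) : Continuous fun x => Sc W (s x) (g x) := by
  refine continuous_cc (c := fun _ => W.L) ?_ (continuous_tail hg hL hs) continuous_const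
    (fun x => tail_LL (hL x) _) fun x => ?_
  · exact continuous_rev (s := fun _ => W.L) (continuous_T hg hL hs hV)
      (fun x => (W.mem _ (hV x)).1) continuous_const
  · rw [rev, sub_self, tail, max_self, zero_add]
    exact (W.mem _ (hV x)).2.1 0 le_rfl


end cont

end Crest.Agent.R231.CutMx725
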