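import Crest.Agent.R231.Lev_969
import Crest.Agent.R231.YLc_475
import Crest.Agent.R231.LvAlg_969
import Crest.Agent.R231.PairH_877
import Crest.Agent.R231.FinDim_315
import Crest.Agent.R231.Moore_725
import Crest.Agent.R231.GLoop_576
import Crest.Agent.R231.OmSp_725
import Crest.Agent.R231.ArcSys_694
import Crest.Agent.R231.Asm_895

-- ▼ part R231/SgAdd_475
section

/-!
# Row 231 (S0357), block P: subadditivity of the levels of `x^k` (helper475)

Over the abstract levelled algebra `LevA` of Lev_969: the product of a class over `x^m` and a class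
over `x^l` is a class over `x^(m+l)` (no associativity used), hence `sg (m + l) ≤ sg m + sg l`.
-/

set_option autoImplicit false

open scoped NNReal

namespace Crest.Agent.R231.SgAddx475

open Levx969

variable {D : ℕ} {K : LevA D}

theorem eps_eqv {s t : ℝ≥0} {a : K.A s} {b : K.A t} (h : K.Eqv a b) : K.eps a = K.eps b := by
  obtain ⟨u, h1, h2, h⟩ := h
  rw [← K.eps_inc h1, h, K.eps_inc h2]

theorem mul_not_fin (hD : 1 ≤ D) (l : ℕ) : ∀ (m : ℕ) (s t u : ℝ≥0) (h : s + t ≤ u) (a : K.A s)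
    (b : K.A t), a ∈ K.gr s (m * D) → K.Eqv a (xp K m) → K.Eqv b (xp K l) →
    ¬ K.Fin (K.m h a b)
  | 0 => by
    rintro s t u h a b ha ha' hb' ⟨w, h1, h2⟩
    rw [zero_mul] at ha
    set W : ℝ≥0 := w + ((s + K.cR) + t) with hW
    have e1 : w ≤ W := le_self_add
    have e2 : (s + K.cR) + t ≤ W := le_add_self
    have e3 : s + t ≤ W := le_trans (by gcongr; exact le_self_add) e2
    have e4 : t ≤ W := le_trans le_add_self e2
    have h3 : K.m e3 a b = 0 := by
      rw [← K.inc_m h (h1.trans e1) e3, ← K.inc_inc h1 e1, h2, map_zero]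
    rw [← K.m_inc_l (show s ≤ s + K.cR from le_self_add) e2 e3,
      deg0 hD (le_refl (s + K.cR)) le_self_add a ha, eps_eqv ha'] at h3
    have h4 : K.eps (xp K 0) = 1 := K.eps_one _
    rw [h4, one_smul, K.one_m e2 e4] at h3
    exact xp_ne hD l (hb'.symm.fin ⟨W, e4, h3⟩)
  | (m + 1) => by
    intro s t u h a b ha ha' hb' hfin
    have h1 := hfin.SD (le_refl (u + K.cD)) (le_refl (u + K.cD))
    set U : ℝ≥0 := (s + t + K.cL) + (u + K.cD) + ((s + K.cD) + t) + (t + K.cD) with hU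
    have e1 : s + t + K.cL ≤ U := le_trans (le_trans le_self_add le_self_add) le_self_add
    have e2 : u + K.cD ≤ U := le_trans (le_trans le_add_self le_self_add) le_self_add
    have e3 : (s + K.cD) + t ≤ U := le_trans le_add_self le_self_add
    have e4 : t + K.cD ≤ U := le_add_self
    have h2 := K.leib e1 h (le_refl (u + K.cD)) e2 (le_refl (s + K.cD)) e3 (le_refl (t + K.cD)) e4 a b
    have he : K.eps a = 0 := by
      obtain ⟨j, hj⟩ : ∃ j, (m + 1) * D = j + 1 := ⟨(m + 1) * D - 1, by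
        have : 1 ≤ (m + 1) * D := Nat.one_le_iff_ne_zero.2 (Nat.mul_ne_zero (by omega) (by omega))
        omega⟩
      rw [hj] at ha
      exact K.eps_gr j a ha
    rw [he, zero_smul, add_zero, ← K.inc_Sm (le_refl (u + K.cD)) e2 e2] at h2
    refine mul_not_fin hD l m _ _ _ e3 _ b ?_ ?_ hb' (h2 ▸ h1.inc e2)
    · exact K.Sm_gr _ _ _ (K.Dc_gr _ _ _ (by rw [show m * D + D = (m + 1) * D by ring]; exact ha))
    · exact (LevA.Eqv.SD ha' (le_refl _) (le_refl _) (le_refl _) (le_refl _)).trans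
        (SD_xp hD m (le_refl _) (le_refl _))

theorem mul_eqv (hD : 1 ≤ D) (hT : K.HasTh) {m l : ℕ} (hml : 1 ≤ m + l) {s t u : ℝ≥0}
    (h : s + t ≤ u) {a : K.A s} {b : K.A t} (ha : a ∈ K.gr s (m * D)) (ha' : K.Eqv a (xp K m))
    (hb : b ∈ K.gr t (l * D)) (hb' : K.Eqv b (xp K l)) :
    K.m h a b ∈ K.gr u ((m + l) * D) ∧ K.Eqv (K.m h a b) (xp K (m + l)) := by
  have hg : K.m h a b ∈ K.gr u ((m + l) * D) := by
    rw [add_mul]
    exact K.m_gr h _ _ a b ha hb
  refine ⟨hg, ?_⟩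
  have h1 : 1 ≤ (m + l) * D := Nat.one_le_iff_ne_zero.2 (Nat.mul_ne_zero (by omega) (by omega))
  rcases basis hD hT _ h1 u _ hg with h2 | ⟨k, hk, h2⟩
  · exact absurd h2 (mul_not_fin hD l m _ _ _ h a b ha ha' hb')
  · rwa [Nat.eq_of_mul_eq_mul_right (by omega) hk]

theorem sg_zero : sg K 0 = 0 := by
  refine le_antisymm (sg_le (z := K.one 0) ?_ ?_) zero_le
  · rw [zero_mul]
    exact K.one_gr 0
  · exact ⟨((0 : ℕ) : ℝ≥0) * K.cx, by simp, le_rfl, by
      rw [K.one_inc]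
      exact (K.inc_self _).symm⟩

/-- **subadditivity of the levels** -/
theorem sg_add (hD : 1 ≤ D) (hT : K.HasTh) (m l : ℕ) : sg K (m + l) ≤ sg K m + sg K l := by
  rcases Nat.eq_zero_or_pos (m + l) with h0 | h0
  · obtain ⟨rfl, rfl⟩ : m = 0 ∧ l = 0 := by omega
    simp [sg_zero]
  · refine le_of_forall_pos_le_add fun ε hε => ?_
    obtain ⟨s, hs, a, ha, ha'⟩ := exists_near (K := K) m (half_pos hε)
    obtain ⟨t, ht, b, hb, hb'⟩ := exists_near (K := K) l (half_pos hε)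
    obtain ⟨h1, h2⟩ := mul_eqv hD hT h0 (le_refl (s + t)) ha ha' hb hb'
    calc sg K (m + l) ≤ s + t := sg_le h1 h2
      _ ≤ (sg K m + ε / 2) + (sg K l + ε / 2) := by gcongr
      _ = sg K m + sg K l + (ε / 2 + ε / 2) := by ring
      _ = sg K m + sg K l + ε := by rw [add_halves]

end Crest.Agent.R231.SgAddx475
end

-- ▼ part R231/YOut_475
section

/-!
# Row 231 (S0357), block P: from the levelled algebra `LevA` to chains of based loops (helper475)

`Cmp K O` : comparison of the levelled algebra `K : LevA D` (Lev_969) with the cycles of a monotone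
family `O : ℝ → Set E`: `θ t c ∈ K.A t` is the class of the cycle `c ∈ CS (O t)`.
* `bd_of : Cmp K O → K.HasTh → (yLC O hO).BD`
* `pw_of : Cmp K O → K.HasTh → PwData (yLC O hO) D (Pw ..) (τ = sg K)`
-/

set_option autoImplicit false
set_option linter.unusedSectionVars false

noncomputable section

open Set Topology
open scoped NNReal
open Crest.Agent.R204

namespace Crest.Agent.R231.YOutx475

open Pairx877 SingAct265 EZ271 BDAx969 Levx969 SgAddx475 YLcx475

variable {E : Type} [TopologicalSpace E]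

/-- comparison of the algebra `K` with the cycles of the family `O` -/
structure Cmp {D : ℕ} (K : LevA D) (O : ℝ → Set E) where
  mono : Monotone O
  neg : ∀ t : ℝ, t < 0 → O t = ∅
  /-- simplices of positive degree of `O 0` are degenerate -/
  zero : ∀ (j : ℕ) (c : CE E), c ∈ CS (O 0) → c ∈ N.gr F2 (SS.Sing E) (j + 1) → c = 0
  θ : ∀ (t : ℝ≥0) (c : CE E), c ∈ CS (O (t : ℝ)) → bdE E c = 0 → K.A t
  θ_add : ∀ (t : ℝ≥0) (c c' : CE E) (hc : c ∈ CS (O (t : ℝ))) (hb : bdE E c = 0)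
    (hc' : c' ∈ CS (O (t : ℝ))) (hb' : bdE E c' = 0) (h1 : c + c' ∈ CS (O (t : ℝ)))
    (h2 : bdE E (c + c') = 0), θ t (c + c') h1 h2 = θ t c hc hb + θ t c' hc' hb'
  θ_zero : ∀ (t : ℝ≥0) (c : CE E) (hc : c ∈ CS (O (t : ℝ))) (hb : bdE E c = 0),
    θ t c hc hb = 0 ↔ ∃ w ∈ CS (O (t : ℝ)), bdE E w = c
  θ_gr : ∀ (t : ℝ≥0) (c : CE E) (hc : c ∈ CS (O (t : ℝ))) (hb : bdE E c = 0) (j : ℕ),
    c ∈ N.gr F2 (SS.Sing E) j → θ t c hc hb ∈ K.gr t j
  θ_surj : ∀ (t : ℝ≥0) (j : ℕ) (y : K.A t), y ∈ K.gr t j → ∃ (c : CE E) (hc : c ∈ CS (O (t : ℝ)))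
    (hb : bdE E c = 0), c ∈ N.gr F2 (SS.Sing E) j ∧ θ t c hc hb = y
  θ_inc : ∀ {s t : ℝ≥0} (h : s ≤ t) (c : CE E) (hc : c ∈ CS (O (s : ℝ))) (hc' : c ∈ CS (O (t : ℝ)))
    (hb : bdE E c = 0), θ t c hc' hb = K.inc h (θ s c hc hb)

variable {D : ℕ} {K : LevA D} {O : ℝ → Set E} (C : Cmp K O)

namespace Cmp

include C in
theorem nonneg {t : ℝ} {c : CE E} (hc : c ∈ CS (O t)) (h0 : c ≠ 0) : 0 ≤ t := by
  by_contra h
  push Not at h
  rw [C.neg t h, CS_empty, Submodule.mem_bot] at hc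
  exact h0 hc

/-- the class of a finite cycle is finite -/
theorem fin_θ {t : ℝ≥0} {c : CE E} (hc : c ∈ CS (O (t : ℝ))) (hb : bdE E c = 0) :
    K.Fin (C.θ t c hc hb) ↔ ∃ u : ℝ, ∃ w ∈ CS (O u), bdE E w = c := by
  constructor
  · rintro ⟨u, h1, h2⟩
    have hcu : c ∈ CS (O (u : ℝ)) := CS_mono (C.mono (NNReal.coe_le_coe.2 h1)) hc
    rw [← C.θ_inc h1 c hc hcu hb, C.θ_zero] at h2
    exact ⟨u, h2⟩
  · rintro ⟨u, w, hw, h⟩
    obtain ⟨v, hv1, hv2⟩ : ∃ v : ℝ≥0, t ≤ v ∧ u ≤ v :=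
      ⟨max t u.toNNReal, le_max_left _ _, (Real.le_coe_toNNReal u).trans
        (NNReal.coe_le_coe.2 (le_max_right _ _))⟩
    have hcv : c ∈ CS (O (v : ℝ)) := CS_mono (C.mono (NNReal.coe_le_coe.2 hv1)) hc
    refine ⟨v, hv1, ?_⟩
    rw [← C.θ_inc hv1 c hc hcv hb, C.θ_zero]
    exact ⟨w, CS_mono (C.mono hv2) hw, h⟩

theorem θ_eqv {s t : ℝ≥0} {c : CE E} (hc : c ∈ CS (O (s : ℝ))) (hc' : c ∈ CS (O (t : ℝ)))
    (hb : bdE E c = 0) : K.Eqv (C.θ s c hc hb) (C.θ t c hc' hb) := by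
  have h1 : c ∈ CS (O ((max s t : ℝ≥0) : ℝ)) :=
    CS_mono (C.mono (NNReal.coe_le_coe.2 (le_max_left s t))) hc
  exact ⟨max s t, le_max_left _ _, le_max_right _ _, by
    rw [← C.θ_inc (le_max_left s t) c hc h1 hb, ← C.θ_inc (le_max_right s t) c hc' h1 hb]⟩

/-- **bounded bars for the chains of the based loops** -/
theorem bd_of (hD : 1 ≤ D) (hT : K.HasTh) : (yLC O C.mono).BD := by
  obtain ⟨c, hc⟩ := bd hD hT
  refine ⟨c, c.2, fun j t x ht hx hfin => ?_⟩
  obtain ⟨u, w, hw, hwx⟩ := fin_iff.1 hfin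
  have hb : bdE E (yv C.mono j x) = 0 := by rw [← hwx, bd_bdE]
  rw [bnd_iff]
  lift t to ℝ≥0 using ht
  have h1 : yv C.mono j x ∈ CS (O (t : ℝ)) := hx
  have h2 : yv C.mono j x ∈ CS (O ((t + c : ℝ≥0) : ℝ)) :=
    CS_mono (C.mono (NNReal.coe_le_coe.2 le_self_add)) h1
  have h3 := hc j t (t + c) le_self_add _ le_rfl (C.θ_gr t _ h1 hb j (yv_gr x))
    ((C.fin_θ h1 hb).2 ⟨u, w, hw, hwx⟩)
  rw [← C.θ_inc le_self_add _ h1 h2 hb, C.θ_zero] at h3
  exact h3

/-- `z` is a cycle of degree `m D` whose class is `x^m` -/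
def Pw (m j : ℕ) (z : (yLC O C.mono).C j) : Prop :=
  j = m * D ∧ ∃ (hb : bdE E (yv C.mono j z) = 0) (t : ℝ≥0) (h : yv C.mono j z ∈ CS (O (t : ℝ))),
    K.Eqv (C.θ t (yv C.mono j z) h hb) (xp K m)

theorem Pw.gr {m j : ℕ} {z : (yLC O C.mono).C j} (h : C.Pw m j z) {t : ℝ≥0}
    (ht : yv C.mono j z ∈ CS (O (t : ℝ))) (hb : bdE E (yv C.mono j z) = 0) :
    C.θ t (yv C.mono j z) ht hb ∈ K.gr t (m * D) ∧
      K.Eqv (C.θ t (yv C.mono j z) ht hb) (xp K m) := by
  obtain ⟨rfl, hb', s, hs, h1⟩ := h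
  exact ⟨C.θ_gr _ _ _ _ _ (yv_gr z), (C.θ_eqv ht hs hb).trans h1⟩

theorem exists_level {j : ℕ} (z : (yLC O C.mono).C j) :
    ∃ t : ℝ≥0, yv C.mono j z ∈ CS (O (t : ℝ)) := by
  obtain ⟨t, ht⟩ := (mem_WU C.mono).1 (yv_WU z)
  exact ⟨t.toNNReal, CS_mono (C.mono (Real.le_coe_toNNReal t)) ht⟩

/-- **the additive structure of `H(Ω)` on chains** -/
theorem pw_of (hD : 1 ≤ D) (hT : K.HasTh) :
    PwData (yLC O C.mono) D C.Pw (fun m => (sg K m : ℝ)) where
  deg m j z h := h.1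
  cyc m j z h := by
    obtain ⟨_, hb, _⟩ := h
    exact cyc_iff.2 hb
  ne m j z h hfin := by
    obtain ⟨_, hb, t, ht, h1⟩ := h
    obtain ⟨u, w, hw, hwx⟩ := fin_iff.1 hfin
    exact xp_ne hD m (h1.symm.fin ((C.fin_θ ht hb).2 ⟨u, w, hw, hwx⟩))
  basis j z hj hcyc := by
    have hb := cyc_iff.1 hcyc
    obtain ⟨t, ht⟩ := C.exists_level z
    rcases basis hD hT j hj t _ (C.θ_gr t _ ht hb j (yv_gr z)) with h | ⟨k, hk, h⟩
    · exact Or.inl (fin_iff.2 ((C.fin_θ ht hb).1 h))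
    · exact Or.inr ⟨k, hk, hb, t, ht, h⟩
  τ_nonneg m := (sg K m).2
  above m t ht := by
    have ht0 : 0 ≤ t := (sg K m).2.trans ht.le
    lift t to ℝ≥0 using ht0
    have ht' : sg K m < t := NNReal.coe_lt_coe.1 ht
    obtain ⟨s, hs, y, hy, hy'⟩ := exists_near (K := K) m (tsub_pos_of_lt ht')
    rw [add_tsub_cancel_of_le ht'.le] at hs
    obtain ⟨c, hc, hb, hg, rfl⟩ := C.θ_surj s (m * D) y hy
    refine ⟨ymk c hg (CS_le_WU O _ hc), CS_mono (C.mono (NNReal.coe_le_coe.2 hs.le)) hc, rfl, hb, s,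
      hc, hy'⟩
  below m t j ht z hz hP := by
    obtain ⟨hj, hb, s, hs, h1⟩ := hP
    by_cases h0 : yv C.mono j z = 0
    · have h2 : K.Fin (C.θ s (yv C.mono j z) hs hb) :=
        (C.fin_θ hs hb).2 ⟨0, 0, Submodule.zero_mem _, by rw [map_zero, h0]⟩
      exact xp_ne hD m (h1.symm.fin h2)
    · have ht0 : 0 ≤ t := C.nonneg (mem_F.1 hz) h0
      lift t to ℝ≥0 using ht0
      have h2 := Pw.gr C ⟨hj, hb, s, hs, h1⟩ (mem_F.1 hz) hb
      exact absurd (sg_le h2.1 h2.2) (not_le.2 (NNReal.coe_lt_coe.1 ht))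
  sub m l := by
    have := sg_add hD hT m l
    exact_mod_cast this
  base j y hy := fin_iff.2 ⟨0, 0, Submodule.zero_mem _, by
    rw [map_zero, C.zero j _ (mem_F.1 hy) (yv_gr y)]⟩

end Cmp

end Crest.Agent.R231.YOutx475
end
end

-- ▼ part R231/ClS_475
section

/-!
# Row 231 (S0357): homology classes of cycles of a subspace (helper475)

`O : Set E`.  `clS c hc hb : HS O` is the class of a cycle `c ∈ CS O` of the ambient space.
* `clS_eq_zero : clS c = 0 ↔ ∃ w ∈ CS O, bdE E w = c`; `clS_surj`, `clS_gr`, `clS_gr_surj`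
* `Hm_inc_clS` : compatibility with inclusions of subsets
-/

set_option autoImplicit false
set_option linter.unusedSectionVars false

noncomputable section

open Set Topology
open Crest.Agent.R204

namespace Crest.Agent.R231.ClSx475

open Pairx877 SingAct265 EZ271 FinDim315 SpecA

variable {E : Type} [TopologicalSpace E] {O O' : Set E}

/-- class of a cycle supported in `O` -/
def clS (c : CE E) (hc : c ∈ CS O) (hb : bdE E c = 0) : HS O :=
  Hd.mk (N.bd F2 (SS.Sing O)) (res O c) (by rw [bd_res c hc, hb, map_zero])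

theorem clS_eq_zero {c : CE E} {hc : c ∈ CS O} {hb : bdE E c = 0} :
    clS c hc hb = 0 ↔ ∃ w ∈ CS O, bdE E w = c := by
  unfold clS
  rw [Hd.mk_eq_zero]
  constructor
  · rintro ⟨w, hw⟩
    refine ⟨N.map F2 (SS.SingMap (SpecA.inc O)) w, ?_, ?_⟩
    · rw [CS_eq_range]; exact ⟨w, rfl⟩
    · have h := LinearMap.congr_fun (N.map_bd (R := F2) (SS.SingMap (SpecA.inc O))) w
      rw [LinearMap.comp_apply, LinearMap.comp_apply] at h
      rw [← h, hw, map_inc_res c hc]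
  · rintro ⟨w, hw, h⟩
    exact ⟨res O w, by rw [bd_res w hw, h]⟩



theorem clS_add {c c' : CE E} (hc : c ∈ CS O) (hb : bdE E c = 0) (hc' : c' ∈ CS O)
    (hb' : bdE E c' = 0) :
    clS (c + c') (Submodule.add_mem _ hc hc') (by rw [map_add, hb, hb', add_zero]) =
      clS c hc hb + clS c' hc' hb' := by
  unfold clS Hd.mk
  rw [← Submodule.Quotient.mk_add]
  congr 1
  exact Subtype.ext (map_add (res O) c c')

theorem clS_gr {j : ℕ} {c : CE E} {hc : c ∈ CS O} {hb : bdE E c = 0}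
    (h : c ∈ N.gr F2 (SS.Sing E) j) : clS c hc hb ∈ H.gr F2 (SS.Sing O) j :=
  ⟨⟨res O c, by rw [LinearMap.mem_ker, bd_res c hc, hb, map_zero]⟩, res_gr h, rfl⟩

theorem clS_gr_surj {j : ℕ} {x : HS O} (hx : x ∈ H.gr F2 (SS.Sing O) j) :
    ∃ (c : CE E) (hc : c ∈ CS O) (hb : bdE E c = 0), c ∈ N.gr F2 (SS.Sing E) j ∧
      clS c hc hb = x := by
  obtain ⟨⟨z, hz⟩, hzj, rfl⟩ := hx
  have hz' : N.bd F2 (SS.Sing O) z = 0 := LinearMap.mem_ker.1 hz
  have h := LinearMap.congr_fun (N.map_bd (R := F2) (SS.SingMap (SpecA.inc O))) z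
  rw [LinearMap.comp_apply, LinearMap.comp_apply, hz', map_zero] at h
  refine ⟨N.map F2 (SS.SingMap (SpecA.inc O)) z, ?_, h.symm, Gr334.map_mem_gr _ hzj, ?_⟩
  · rw [CS_eq_range]; exact ⟨z, rfl⟩
  · unfold clS Hd.mk
    congr 1
    exact Subtype.ext (res_map_inc z)

/-- inclusion of subsets as a continuous map -/
def incO (h : O ⊆ O') : C(O, O') := ⟨Set.inclusion h, continuous_inclusion h⟩

theorem map_incO_res (h : O ⊆ O') {c : CE E} (hc : c ∈ CS O) :
    N.map F2 (SS.SingMap (incO h)) (res O c) = res O' c := by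
  have h1 : N.map F2 (SS.SingMap (SpecA.inc O')) (N.map F2 (SS.SingMap (incO h)) (res O c)) = c := by
    rw [EZ271.map_map]
    exact map_inc_res c hc
  conv_rhs => rw [← h1]
  rw [res_map_inc]

theorem Hm_incO_clS (h : O ⊆ O') {c : CE E} (hc : c ∈ CS O) (hb : bdE E c = 0) :
    Hm (incO h) (clS c hc hb) = clS c (CS_mono h hc) hb := by
  show Hd.map _ _ (Hd.mk _ _ _) = Hd.mk _ _ _
  rw [Hd.map_mk]
  congr 1
  exact map_incO_res h hc

end Crest.Agent.R231.ClSx475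
end
end

-- ▼ part R231/LaDef_733
section

/-!
# Row 231 (S0357), block P, leaf Q8, part 1: free Moore loops and Lipschitz loops (helper733)

* `La M t` : 1-Lipschitz curves `ℝ → M` which are constant outside `[0, t]`, with equal ends;
* `mkL c g` : the loop `u ↦ g (u c)` of `Lp M`; `continuous_mkL`;
* `laX t : La M t ≃ₜ X M t` (`0 ≤ t`);
* `incL : C(La M s, La M t)`, `incX : C(X M s, X M t)`, `incL_laX_homotopic`.
-/

set_option autoImplicit false
set_option linter.unusedSectionVars false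

open Set Filter Topology

noncomputable section

namespace Crest.Agent.R231.LaDefx733

open Moorex725 GLugx576

/-- free 1-Lipschitz Moore loops of length at most `t` -/
def La (M : Type*) [PseudoMetricSpace M] (t : ℝ) : Set (ℝ → M) :=
  {g | g ∈ LL M ∧ (∀ s, s ≤ 0 → g s = g 0) ∧ ∀ s, t ≤ s → g s = g 0}

section la

variable {M : Type*} [PseudoMetricSpace M]


theorem La_mono {s t : ℝ} (h : s ≤ t) : La M s ⊆ La M t :=
  fun _ hg => ⟨hg.1, hg.2.1, fun r hr => hg.2.2 r (h.trans hr)⟩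

theorem MP_subset_La (p : M) (t : ℝ) : MP p p t ⊆ La M t := fun g hg => by
  have h0 : g 0 = p := hg.2.1 0 le_rfl
  exact ⟨hg.1, fun s hs => by rw [h0]; exact hg.2.1 s hs,
    fun s hs => by rw [h0]; exact hg.2.2 s hs⟩

theorem Om_subset_La (p : M) (t : ℝ) : Om p t ⊆ La M t := MP_subset_La p t

theorem mem_Om_iff {p : M} {t : ℝ} {g : ℝ → M} : g ∈ Om p t ↔ g ∈ La M t ∧ g 0 = p := by
  constructor
  · intro h
    exact ⟨Om_subset_La p t h, h.2.1 0 le_rfl⟩
  · rintro ⟨h, h0⟩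
    exact ⟨h.1, fun s hs => by rw [h.2.1 s hs, h0], fun s hs => by rw [h.2.2 s hs, h0]⟩

theorem const_mem_La (p : M) (t : ℝ) : (fun _ => p) ∈ La M t :=
  Om_subset_La p t (const_mem_Om p t)

/-- the inclusion `La s → La t` -/
def incL {s t : ℝ} (h : s ≤ t) : C(La M s, La M t) where
  toFun g := ⟨g.1, La_mono h g.2⟩
  continuous_toFun := continuous_subtype_val.subtype_mk _

@[simp] theorem incL_val {s t : ℝ} (h : s ≤ t) (g : La M s) : (incL h g).1 = g.1 := rfl



/-- evaluation at the base point -/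
def evL (M : Type*) [PseudoMetricSpace M] (t : ℝ) : C(La M t, M) :=
  ⟨fun g => g.1 0, (continuous_apply 0).comp continuous_subtype_val⟩

@[simp] theorem evL_apply {t : ℝ} (g : La M t) : evL M t g = g.1 0 := rfl

/-- constant loops -/
def cstL (M : Type*) [PseudoMetricSpace M] (t : ℝ) : C(M, La M t) :=
  ⟨fun p => ⟨fun _ => p, const_mem_La p t⟩,
    (continuous_pi fun _ => continuous_id).subtype_mk _⟩

@[simp] theorem cstL_apply {t : ℝ} (p : M) : (cstL M t p).1 = fun _ => p := rfl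




end la

/-! ### from curves to loops -/

section loops

variable {M : Type*} [MetricSpace M]

theorem LL_continuous {g : ℝ → M} (h : g ∈ LL M) : Continuous g := by
  have hL : LipschitzWith 1 g := LipschitzWith.of_dist_le_mul fun x y => by
    have := h x y
    rw [Real.dist_eq, NNReal.coe_one, one_mul]
    exact this
  exact hL.continuous

/-- the loop `u ↦ g (u c)`, `0 ≤ u ≤ 1`, for a curve `g` with `g c = g 0` -/
def mkL (c : ℝ) (g : ℝ → M) (hg : g ∈ LL M) (h : g c = g 0) : Lp M :=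
  ⟨AddCircle.liftIco 1 0 fun u => g (u * c), by
    refine AddCircle.liftIco_continuous ?_
      ((LL_continuous hg).comp (continuous_id.mul continuous_const)).continuousOn
    simp [h]⟩

theorem mkL_coe {c : ℝ} {g : ℝ → M} (hg : g ∈ LL M) (h : g c = g 0) {u : ℝ} (h0 : 0 ≤ u)
    (h1 : u ≤ 1) : mkL c g hg h (u : UnitAddCircle) = g (u * c) := by
  have key : ∀ r : ℝ, 0 ≤ r → r < 1 → mkL c g hg h (r : UnitAddCircle) = g (r * c) := fun r a b =>
    AddCircle.liftIco_coe_apply (p := (1 : ℝ)) (a := (0 : ℝ)) (f := fun u => g (u * c))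
      ⟨a, by simpa using b⟩
  rcases h1.eq_or_lt with rfl | h1
  · have h2 := key 0 le_rfl zero_lt_one
    rw [coe_one_circle, one_mul, h]
    rw [zero_mul] at h2
    exact h2
  · exact key u h0 h1

theorem mkL_zero {c : ℝ} {g : ℝ → M} (hg : g ∈ LL M) (h : g c = g 0) :
    mkL c g hg h 0 = g 0 := by
  have := mkL_coe hg h (u := 0) le_rfl zero_le_one
  rw [zero_mul] at this
  exact this

theorem mkL_mem {c t : ℝ} {g : ℝ → M} (hg : g ∈ LL M) (h : g c = g 0) (hc : 0 ≤ c)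
    (hct : c ≤ t) : mkL c g hg h ∈ X M t := by
  refine mem_X_of_Icc fun x y hx hxy hy => ?_
  rw [mkL_coe hg h hx (hxy.trans hy), mkL_coe hg h (hx.trans hxy) hy]
  refine (hg _ _).trans ?_
  have e : x * c - y * c = -((y - x) * c) := by ring
  rw [e, abs_neg, abs_of_nonneg (mul_nonneg (by linarith) hc), mul_comm]
  exact mul_le_mul_of_nonneg_right hct (by linarith)

/-- continuity of a family of loops -/
theorem continuous_mkL {Z : Type*} [TopologicalSpace Z] {g : Z → ℝ → M} {c : Z → ℝ}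
    (hg : Continuous g) (hL : ∀ z, g z ∈ LL M) (hc : Continuous c)
    (h : ∀ z, g z (c z) = g z 0) : Continuous fun z => mkL (c z) (g z) (hL z) (h z) := by
  refine cont_to_loop ?_
  have e : (fun q : Z × Icc (0 : ℝ) 1 =>
      mkL (c q.1) (g q.1) (hL q.1) (h q.1) ((q.2 : ℝ) : UnitAddCircle)) =
      fun q => g q.1 ((q.2 : ℝ) * c q.1) := by
    funext q
    exact mkL_coe _ _ q.2.2.1 q.2.2.2
  rw [e]
  exact continuous_eval (g := fun q : Z × Icc (0 : ℝ) 1 => g q.1)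
    (hg.comp continuous_fst) (fun q => hL q.1)
    ((continuous_subtype_val.comp continuous_snd).mul (hc.comp continuous_fst))

/-! ### from loops to curves -/

/-- projection of `ℝ` to `[0, 1]` -/
def cl (x : ℝ) : ℝ := max (min x 1) 0

theorem cl_nonneg (x : ℝ) : 0 ≤ cl x := le_max_right _ _
theorem cl_le_one (x : ℝ) : cl x ≤ 1 := max_le (min_le_right _ _) zero_le_one
theorem cl_of_mem {x : ℝ} (h0 : 0 ≤ x) (h1 : x ≤ 1) : cl x = x := by
  rw [cl, min_eq_left h1, max_eq_left h0]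
theorem cl_of_le {x : ℝ} (h : x ≤ 0) : cl x = 0 := by
  rw [cl, min_eq_left (h.trans zero_le_one), max_eq_right h]
theorem cl_of_ge {x : ℝ} (h : 1 ≤ x) : cl x = 1 := by
  rw [cl, min_eq_right h, max_eq_left zero_le_one]
theorem cl_lip (x y : ℝ) : |cl x - cl y| ≤ |x - y| :=
  (abs_max_sub_max_le_abs _ _ _).trans
    (by simpa using abs_min_sub_min_le_max x 1 y 1)

/-- the curve `s ↦ γ (cl (s / t))` -/
def ofX (t : ℝ) (γ : Lp M) : ℝ → M := fun s => γ ((cl (s / t) : ℝ) : UnitAddCircle)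

theorem ofX_zero (t : ℝ) (γ : Lp M) : ofX t γ 0 = γ 0 := by
  unfold ofX
  rw [zero_div, cl_of_le le_rfl]
  rfl

theorem ofX_mem {t : ℝ} {γ : Lp M} (h : γ ∈ X M t) : ofX t γ ∈ La M t := by
  have ht := nonneg_of_mem h
  refine ⟨fun x y => ?_, fun s hs => ?_, fun s hs => ?_⟩
  · refine (h _ _).trans ?_
    refine (mul_le_mul_of_nonneg_left (cl_lip _ _) ht).trans ?_
    rw [← sub_div, abs_div, abs_of_nonneg ht]
    rcases ht.eq_or_lt with rfl | ht'
    · simp
    · rw [mul_div_cancel₀ _ ht'.ne']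
  · rw [ofX_zero]
    unfold ofX
    rw [cl_of_le (div_nonpos_of_nonpos_of_nonneg hs ht)]
    rfl
  · rw [ofX_zero]
    unfold ofX
    rcases ht.eq_or_lt with rfl | ht'
    · rw [div_zero, cl_of_le le_rfl]; rfl
    · rw [cl_of_ge ((one_le_div ht').2 hs), coe_one_circle]

theorem continuous_ofX (t : ℝ) : Continuous (ofX (M := M) t) := by
  rw [continuous_pi_iff]
  intro s
  exact continuous_eval_const _

theorem La_clamp {t : ℝ} (ht : 0 ≤ t) {g : ℝ → M} (h : g ∈ La M t) (s : ℝ) :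
    g (cl (s / t) * t) = g s := by
  rcases ht.eq_or_lt with rfl | ht'
  · rw [mul_zero]
    rcases le_total 0 s with hs | hs
    · exact (h.2.2 s hs).symm
    · exact (h.2.1 s hs).symm
  · rcases le_total s 0 with hs | hs
    · rw [cl_of_le (div_nonpos_of_nonpos_of_nonneg hs ht), zero_mul, h.2.1 s hs]
    · rcases le_total t s with hs' | hs'
      · rw [cl_of_ge ((one_le_div ht').2 hs'), one_mul, h.2.2 s hs', h.2.2 t le_rfl]
      · rw [cl_of_mem (div_nonneg hs ht) ((div_le_one ht').2 hs'), div_mul_cancel₀ _ ht'.ne']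

/-- `g ↦ (u ↦ g (u t))` as a map `La M t → Lp M` -/
def toLp (t : ℝ) (g : La M t) : Lp M := mkL t g.1 g.2.1 (g.2.2.2 t le_rfl)

theorem continuous_toLp (t : ℝ) : Continuous (toLp (M := M) t) :=
  continuous_mkL (c := fun _ => t) continuous_subtype_val (fun g => g.2.1) continuous_const _

theorem toLp_mem {t : ℝ} (ht : 0 ≤ t) (g : La M t) : toLp t g ∈ X M t := mkL_mem _ _ ht le_rfl

theorem toLp_coe {t : ℝ} (g : La M t) {u : ℝ} (h0 : 0 ≤ u) (h1 : u ≤ 1) :
    toLp t g (u : UnitAddCircle) = g.1 (u * t) := mkL_coe _ _ h0 h1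

theorem toLp_zero {t : ℝ} (g : La M t) : toLp t g 0 = g.1 0 := mkL_zero _ _

/-- **free Moore loops of length `≤ t` are the `t`-Lipschitz loops** -/
def laX {t : ℝ} (ht : 0 ≤ t) : La M t ≃ₜ X M t where
  toFun g := ⟨toLp t g, toLp_mem ht g⟩
  invFun γ := ⟨ofX t γ.1, ofX_mem γ.2⟩
  left_inv g := by
    refine Subtype.ext (funext fun s => ?_)
    show toLp t g ((cl (s / t) : ℝ) : UnitAddCircle) = g.1 s
    rw [toLp_coe g (cl_nonneg _) (cl_le_one _), La_clamp ht g.2]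
  right_inv γ := by
    refine Subtype.ext (ContinuousMap.ext fun x => ?_)
    obtain ⟨u, hu, rfl⟩ := exists_Icc x
    show toLp t ⟨ofX t γ.1, ofX_mem γ.2⟩ (u : UnitAddCircle) = _
    rw [toLp_coe _ hu.1 hu.2]
    show γ.1 ((cl (u * t / t) : ℝ) : UnitAddCircle) = γ.1 (u : UnitAddCircle)
    rcases ht.eq_or_lt with rfl | ht'
    · rw [mem_X_zero.1 γ.2, mem_X_zero.1 γ.2 (u : UnitAddCircle)]
    · rw [mul_div_cancel_right₀ _ ht'.ne', cl_of_mem hu.1 hu.2]
  continuous_toFun := (continuous_toLp t).subtype_mk _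
  continuous_invFun := ((continuous_ofX t).comp continuous_subtype_val).subtype_mk _


theorem laX_zero {t : ℝ} (ht : 0 ≤ t) (g : La M t) : (laX ht g).1 0 = g.1 0 := toLp_zero g

theorem laX_coe {t : ℝ} (ht : 0 ≤ t) (g : La M t) {u : ℝ} (h0 : 0 ≤ u) (h1 : u ≤ 1) :
    (laX ht g).1 (u : UnitAddCircle) = g.1 (u * t) := toLp_coe g h0 h1


/-- the inclusion `X s → X t` -/
def incX {s t : ℝ} (h : s ≤ t) : C(X M s, X M t) where
  toFun g := ⟨g.1, X_mono h g.2⟩
  continuous_toFun := continuous_subtype_val.subtype_mk _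

@[simp] theorem incX_val {s t : ℝ} (h : s ≤ t) (g : X M s) : (incX h g).1 = g.1 := rfl


/-- evaluation at the base point -/
def evX (M : Type*) [MetricSpace M] (t : ℝ) : C(X M t, M) :=
  ⟨fun g => g.1 0, (continuous_eval_const _).comp continuous_subtype_val⟩

@[simp] theorem evX_apply {t : ℝ} (g : X M t) : evX M t g = g.1 0 := rfl



end loops

end Crest.Agent.R231.LaDefx733
end
end

-- ▼ part R231/OmX_475
section

/-!
# Row 231 (S0357), block P: based Moore loops and based Lipschitz loops (helper475)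

* `omX t : OmT p t ≃ₜ ArcSysx694.Om p t` (`g ↦ (u ↦ g (u t))`);
* `omX_natural` : naturality in the level, up to homotopy inside `Om p t`.
-/

set_option autoImplicit false
set_option linter.unusedSectionVars false

open Set Filter Topology NNReal

noncomputable section

namespace Crest.Agent.R231.OmXx475

open Moorex725 GLugx576 LaDefx733 OmSpx725

variable {M : Type*} [MetricSpace M] {p : M}

/-- **based Moore loops of length `≤ t` are the based `t`-Lipschitz loops** -/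
def omX (p : M) (t : ℝ≥0) : OmT p t ≃ₜ ↥(ArcSysx694.Om p (t : ℝ)) where
  toFun g := ⟨(laX t.2 ⟨g.1, Om_subset_La p _ g.2⟩).1, (laX t.2 ⟨g.1, Om_subset_La p _ g.2⟩).2, by
    rw [laX_zero]; exact g.2.2.1 0 le_rfl⟩
  invFun γ := ⟨ofX (t : ℝ) γ.1, mem_Om_iff.2 ⟨ofX_mem γ.2.1, by rw [ofX_zero]; exact γ.2.2⟩⟩
  left_inv g := by
    have h := congrArg Subtype.val ((laX (M := M) t.2).left_inv ⟨g.1, Om_subset_La p _ g.2⟩)
    exact Subtype.ext h
  right_inv γ := by
    have h := congrArg Subtype.val ((laX (M := M) t.2).right_inv ⟨γ.1, γ.2.1⟩)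
    exact Subtype.ext h
  continuous_toFun := by
    refine Continuous.subtype_mk (continuous_subtype_val.comp ((laX t.2).continuous.comp ?_)) _
    exact continuous_subtype_val.subtype_mk _
  continuous_invFun := ((continuous_ofX _).comp continuous_subtype_val).subtype_mk _

theorem omX_coe (t : ℝ≥0) (g : OmT p t) {u : ℝ} (h0 : 0 ≤ u) (h1 : u ≤ 1) :
    (omX p t g).1 (u : UnitAddCircle) = g.1 (u * t) := laX_coe t.2 _ h0 h1

/-- the inclusion of based Lipschitz loops -/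
def incOm (p : M) {s t : ℝ} (h : s ≤ t) : C(↥(ArcSysx694.Om p s), ↥(ArcSysx694.Om p t)) :=
  ⟨Set.inclusion (ArcSysx694.Om_mono h), continuous_inclusion (ArcSysx694.Om_mono h)⟩

/-- **naturality of `omX` up to homotopy** -/
theorem omX_natural {s t : ℝ≥0} (h : s ≤ t) :
    ((omX p t : C(OmT p t, ↥(ArcSysx694.Om p (t : ℝ)))).comp (inc h)).Homotopic
      ((incOm p (NNReal.coe_le_coe.2 h)).comp (omX p s : C(OmT p s, ↥(ArcSysx694.Om p (s : ℝ))))) := by
  have hs : (0 : ℝ) ≤ s := s.2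
  have h' : (s : ℝ) ≤ t := NNReal.coe_le_coe.2 h
  have hc0 : ∀ r : unitInterval, (s : ℝ) ≤ t - (r : ℝ) * (t - s) := fun r => by
    have h1 : (r : ℝ) * (t - s) ≤ 1 * (t - s) :=
      mul_le_mul_of_nonneg_right r.2.2 (by linarith)
    linarith
  have hc1 : ∀ r : unitInterval, (t : ℝ) - (r : ℝ) * (t - s) ≤ t := fun r => by
    have h1 : 0 ≤ (r : ℝ) * (t - s) := mul_nonneg r.2.1 (by linarith)
    linarith
  have hg : ∀ z : unitInterval × OmT p s, z.2.1 ∈ LL M := fun z => z.2.2.1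
  have hh : ∀ z : unitInterval × OmT p s, z.2.1 ((t : ℝ) - (z.1 : ℝ) * (t - s)) = z.2.1 0 :=
    fun z => by rw [z.2.2.2.2 _ (hc0 z.1), z.2.2.2.1 0 le_rfl]
  have hcont : Continuous fun z : unitInterval × OmT p s =>
      mkL ((t : ℝ) - (z.1 : ℝ) * (t - s)) z.2.1 (hg z) (hh z) :=
    continuous_mkL (g := fun z : unitInterval × OmT p s => z.2.1)
      (c := fun z => (t : ℝ) - (z.1 : ℝ) * (t - s))
      (continuous_subtype_val.comp continuous_snd) hg (by fun_prop) hh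
  refine ⟨⟨⟨fun z => ⟨mkL ((t : ℝ) - (z.1 : ℝ) * (t - s)) z.2.1 (hg z) (hh z),
    mkL_mem _ _ (hs.trans (hc0 z.1)) (hc1 z.1), by
      rw [mkL_zero]; exact z.2.2.2.1 0 le_rfl⟩, hcont.subtype_mk _⟩, fun g => ?_, fun g => ?_⟩⟩
  · refine Subtype.ext (ContinuousMap.ext fun x => ?_)
    obtain ⟨u, hu, rfl⟩ := exists_Icc x
    show mkL _ _ (hg (0, g)) (hh (0, g)) (u : UnitAddCircle) =
      (omX p t (inc h g)).1 (u : UnitAddCircle)
    rw [omX_coe _ _ hu.1 hu.2, mkL_coe _ _ hu.1 hu.2]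
    simp
  · refine Subtype.ext (ContinuousMap.ext fun x => ?_)
    obtain ⟨u, hu, rfl⟩ := exists_Icc x
    show mkL _ _ (hg (1, g)) (hh (1, g)) (u : UnitAddCircle) = (omX p s g).1 (u : UnitAddCircle)
    rw [omX_coe _ _ hu.1 hu.2, mkL_coe _ _ hu.1 hu.2]
    simp

end Crest.Agent.R231.OmXx475
end
end

-- ▼ part R231/OmCmp_475
section

/-!
# Row 231 (S0357), block P: the comparison of `H(OmT p t)` with the chains of `Om p t` (helper475)

`cmpOf K φ : Cmp K (ArcSysx694.Om p)` for a levelled algebra `K : LevA D` with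
`φ t : HS (OmT p t) ≃ₗ K.A t` compatible with degrees and inclusions.
-/

set_option autoImplicit false
set_option linter.unusedSectionVars false

noncomputable section

open Set Topology
open scoped NNReal
open Crest.Agent.R204

namespace Crest.Agent.R231.OmCmpx475

open SpecA (Hm)
open Pairx877 SingAct265 EZ271 BDAx969 Levx969 YLcx475 YOutx475 ClSx475 OmXx475 OmSpx725 FinDim315
  GLugx576 LaDefx733 Gr334

/-! ### simplices in a point -/

section pt

variable {E : Type} [TopologicalSpace E]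

theorem sx_eq_zero_of_subsingleton {S : Set E} (hS : S.Subsingleton) {n : ℕ}
    {σ : (SS.Sing E).S (n + 1)} (h : ∀ t, ev σ t ∈ S) : N.sx F2 σ = 0 := by
  have e : σ = (SS.Sing E).act (Op.dgn 0) ((SS.Sing E).act (Op.face 0) σ) := by
    refine sing_ext fun y => hS (h y) ?_
    exact h _
  rw [e]
  exact N.sx_dgn _ _

theorem eq_zero_of_subsingleton {S : Set E} (hS : S.Subsingleton) {j : ℕ} {c : CE E}
    (hc : c ∈ CS S) (hg : c ∈ N.gr F2 (SS.Sing E) (j + 1)) : c = 0 := by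
  have h := map_mem_of_CS (X := S) (f := prN F2 (SS.Sing E) (j + 1)) (P := ⊥) (fun n σ hσ => by
    rw [prN_sx]
    split_ifs with h
    · subst h
      rw [sx_eq_zero_of_subsingleton hS hσ]
      exact Submodule.zero_mem _
    · exact Submodule.zero_mem _) c hc
  rw [prN_of_mem hg] at h
  exact (Submodule.mem_bot F2).1 h

end pt

variable {M : Type} [MetricSpace M] {p : M} {D : ℕ}

theorem Om_zero_subsingleton : (ArcSysx694.Om p 0).Subsingleton := by
  rintro γ ⟨h1, h2⟩ γ' ⟨h1', h2'⟩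
  refine ContinuousMap.ext fun x => ?_
  rw [mem_X_zero.1 h1 x, mem_X_zero.1 h1' x, h2, h2']

theorem Om_neg {t : ℝ} (h : t < 0) : ArcSysx694.Om p t = ∅ :=
  eq_empty_of_forall_notMem fun _ hγ => absurd (nonneg_of_mem hγ.1) (not_le.2 h)

/-- `H(Om p t) → H(OmT p t)` -/
def toOm (p : M) (t : ℝ≥0) : HS ↥(ArcSysx694.Om p (t : ℝ)) →ₗ[F2] HS (OmT p t) :=
  Hm ((omX p t).symm : C(↥(ArcSysx694.Om p (t : ℝ)), OmT p t))

/-- `H(OmT p t) → H(Om p t)` -/
def frOm (p : M) (t : ℝ≥0) : HS (OmT p t) →ₗ[F2] HS ↥(ArcSysx694.Om p (t : ℝ)) :=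
  Hm (omX p t : C(OmT p t, ↥(ArcSysx694.Om p (t : ℝ))))

theorem toOm_frOm (t : ℝ≥0) (y : HS (OmT p t)) : toOm p t (frOm p t y) = y := by
  unfold toOm frOm
  rw [← Hm_comp_apply]
  have e : ((omX p t).symm : C(↥(ArcSysx694.Om p (t : ℝ)), OmT p t)).comp
      (omX p t : C(OmT p t, ↥(ArcSysx694.Om p (t : ℝ)))) = ContinuousMap.id _ :=
    ContinuousMap.ext fun g => (omX p t).left_inv g
  rw [e, Hm_id]

theorem frOm_toOm (t : ℝ≥0) (y : HS ↥(ArcSysx694.Om p (t : ℝ))) : frOm p t (toOm p t y) = y := by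
  unfold toOm frOm
  rw [← Hm_comp_apply]
  have e : (omX p t : C(OmT p t, ↥(ArcSysx694.Om p (t : ℝ)))).comp
      ((omX p t).symm : C(↥(ArcSysx694.Om p (t : ℝ)), OmT p t)) = ContinuousMap.id _ :=
    ContinuousMap.ext fun g => (omX p t).right_inv g
  rw [e, Hm_id]

theorem frOm_inc {s t : ℝ≥0} (h : s ≤ t) (y : HS (OmT p s)) :
    frOm p t (Hm (inc h) y) =
      Hm (incO (ArcSysx694.Om_mono (p := p) (NNReal.coe_le_coe.2 h))) (frOm p s y) := by
  unfold frOm
  rw [← Hm_comp_apply, ← Hm_comp_apply, Hm_homotopic (omX_natural h)]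
  rfl

theorem toOm_inc {s t : ℝ≥0} (h : s ≤ t) (y : HS ↥(ArcSysx694.Om p (s : ℝ))) :
    toOm p t (Hm (incO (ArcSysx694.Om_mono (p := p) (NNReal.coe_le_coe.2 h))) y) =
      Hm (inc h) (toOm p s y) := by
  conv_lhs => rw [← frOm_toOm s y, ← frOm_inc h, toOm_frOm]

theorem Hm_gr {X Y : Type} [TopologicalSpace X] [TopologicalSpace Y] (f : C(X, Y)) {j : ℕ}
    {x : HS X} (hx : x ∈ H.gr F2 (SS.Sing X) j) : Hm f x ∈ H.gr F2 (SS.Sing Y) j := by
  obtain ⟨⟨z, hz⟩, hzj, rfl⟩ := hx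
  have hz' : N.bd F2 (SS.Sing X) z = 0 := LinearMap.mem_ker.1 hz
  have h := LinearMap.congr_fun (N.map_bd (R := F2) (SS.SingMap f)) z
  rw [LinearMap.comp_apply, LinearMap.comp_apply, hz', map_zero] at h
  exact ⟨⟨N.map F2 (SS.SingMap f) z, LinearMap.mem_ker.2 h.symm⟩, map_mem_gr _ hzj, rfl⟩

/-- **the comparison for the based loops** -/
def cmpOf (K : LevA D) (φ : ∀ t : ℝ≥0, HS (OmT p t) ≃ₗ[F2] K.A t)
    (φ_gr : ∀ (t : ℝ≥0) (j : ℕ) (y : HS (OmT p t)), φ t y ∈ K.gr t j ↔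
      y ∈ H.gr F2 (SS.Sing (OmT p t)) j)
    (φ_inc : ∀ {s t : ℝ≥0} (h : s ≤ t) (y : HS (OmT p s)), φ t (Hm (inc h) y) = K.inc h (φ s y)) :
    Cmp K (ArcSysx694.Om p) where
  mono _ _ h := ArcSysx694.Om_mono h
  neg _ h := Om_neg h
  zero j c hc hg := eq_zero_of_subsingleton Om_zero_subsingleton hc hg
  θ t c hc hb := φ t (toOm p t (clS c hc hb))
  θ_add t c c' hc hb hc' hb' h1 h2 := by rw [← map_add, ← map_add, ← clS_add]
  θ_zero t c hc hb := by
    rw [LinearEquiv.map_eq_zero_iff, ← clS_eq_zero (hc := hc) (hb := hb)]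
    constructor
    · intro h
      rw [← frOm_toOm t (clS c hc hb), h, map_zero]
    · intro h
      rw [h, map_zero]
  θ_gr t c hc hb j hg := (φ_gr _ _ _).2 (Hm_gr _ (clS_gr hg))
  θ_surj t j y hy := by
    obtain ⟨y', rfl⟩ := (φ t).surjective y
    obtain ⟨c, hc, hb, hg, h⟩ := clS_gr_surj (Hm_gr (omX p t : C(OmT p t, ↥(ArcSysx694.Om p (t : ℝ))))
      ((φ_gr _ _ _).1 hy))
    refine ⟨c, hc, hb, hg, ?_⟩
    rw [h]
    exact congrArg (φ t) (toOm_frOm t y')
  θ_inc {s t} h c hc hc' hb := by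
    rw [← φ_inc, ← toOm_inc h, Hm_incO_clS]

end Crest.Agent.R231.OmCmpx475
end
end

-- ▼ part R231/End_475

/-!
# Row 231 (S0357), block P: end wiring (helper475)

`pouts` : `Asmx895.POuts M D` from a levelled algebra `K : LevA D` with `A t = HS (OmT p t)`,
`K.HasTh` and the coarse Wang sequence over `yLC (Om p)`; `incY` : inclusion of the chains of the based
loops into the mixed complex.
-/
namespace Crest.Agent.R231.Endx475
end Crest.Agent.R231.Endx475
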