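import Crest.Agent.R226.NearLem_90
import Crest.Agent.R226.SmallFlow3_90
import Crest.Agent.R226.GeoBasic_616
import Crest.Agent.R231.GMSliceDefs_654
import Crest.Agent.R231.GeoSeg_724
import Crest.Agent.R231.GMGeoB_889
import Crest.Agent.R231.GeoLug_724

-- ▼ part R226/GradSmooth_90
section

set_option autoImplicit false
set_option linter.unusedSectionVars false

open MeasureTheory Bundle Set Filter
open scoped Manifold ContDiff Bundle ENNReal Topology
open Crest.GeometryTopology.MTW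

namespace Crest.Agent.R226.GradSmooth90

open NearLem90

variable {n : ℕ} {M : Type*} [MetricSpace M] [ChartedSpace (EuclideanSpace ℝ (Fin n)) M]
  [IsManifold (𝓡 n) ∞ M]
  [RiemannianBundle (fun p : M => TangentSpace (𝓡 n) p)]
  [IsContMDiffRiemannianBundle (𝓡 n) ∞ (EuclideanSpace ℝ (Fin n))
    (fun p : M => TangentSpace (𝓡 n) p)]

local notation "𝔼" => EuclideanSpace ℝ (Fin n)

/-- smoothness of the gradient in the first variable -/
theorem contMDiffAt_gradX {f : M × M → ℝ} {q₀ : M × M}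
    (hf : ContMDiffAt ((𝓡 n).prod (𝓡 n)) 𝓘(ℝ) ∞ f q₀)
    {w : ∀ q : M × M, TangentSpace (𝓡 n) q.1}
    (hw : ∀ᶠ q in 𝓝 q₀, ∀ ξ : TangentSpace (𝓡 n) q.1,
      inner ℝ (w q) ξ = dL n (fun x' => f (x', q.2)) q.1 ξ) :
    ContMDiffAt ((𝓡 n).prod (𝓡 n)) (𝓡 n).tangent ∞
      (fun q => (⟨q.1, w q⟩ : TangentBundle (𝓡 n) M)) q₀ := by
  obtain ⟨g, g_smooth, hg⟩ := IsContMDiffRiemannianBundle.exists_contMDiff (IB := 𝓡 n) (n := ∞)
    (F := EuclideanSpace ℝ (Fin n)) (E := fun p : M => TangentSpace (𝓡 n) p)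
  rw [contMDiffAt_totalSpace]
  refine ⟨contMDiffAt_fst, ?_⟩
  have hgt := (contMDiffAt_hom_bundle _).1 (g_smooth q₀.1)
  set gt : M → 𝔼 →L[ℝ] 𝔼 →L[ℝ] ℝ := fun x =>
    ContinuousLinearMap.inCoordinates 𝔼 (fun p : M => TangentSpace (𝓡 n) p) (𝔼 →L[ℝ] ℝ)
      (fun p : M => TangentSpace (𝓡 n) p →L[ℝ] ℝ) q₀.1 x q₀.1 x (g x) with hgtdef
  have hgt2 : ContMDiffAt (𝓡 n) 𝓘(ℝ, 𝔼 →L[ℝ] 𝔼 →L[ℝ] ℝ) ∞ gt q₀.1 := hgt.2
  have hα := ContMDiffAt.mfderiv (I := 𝓡 n) (I' := 𝓘(ℝ)) (J := (𝓡 n).prod (𝓡 n)) (m := ∞)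
    (n := ∞) (x₀ := q₀) (fun (q : M × M) (x' : M) => f (x', q.2)) (fun q => q.1)
    (ContMDiffAt.comp (q₀, q₀.1) (g := f) (f := fun r : (M × M) × M => (r.2, r.1.2)) hf
      (contMDiffAt_snd.prodMk (contMDiffAt_snd.comp _ contMDiffAt_fst))) contMDiffAt_fst (by simp)
  set α : M × M → 𝔼 →L[ℝ] ℝ := inTangentCoordinates (𝓡 n) 𝓘(ℝ) (fun q : M × M => q.1)
    (fun q : M × M => f (q.1, q.2))
    (fun q : M × M => mfderiv (𝓡 n) 𝓘(ℝ) (fun x' => f (x', q.2)) q.1) q₀ with hαdef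
  have hα' : ContMDiffAt ((𝓡 n).prod (𝓡 n)) 𝓘(ℝ, 𝔼 →L[ℝ] ℝ) ∞ α q₀ := hα
  set T := trivializationAt 𝔼 (fun p : M => TangentSpace (𝓡 n) p) q₀.1 with hT
  have hbase : q₀.1 ∈ T.baseSet := mem_baseSet_trivializationAt _ _ _
  -- the metric in coordinates
  have hgt_apply : ∀ x ∈ T.baseSet, ∀ u v : 𝔼, gt x u v = inner ℝ (T.symm x u) (T.symm x v) := by
    intro x hx u v
    have h1 := inCoordinates_apply_eq₂ (F₁ := 𝔼) (E₁ := fun p : M => TangentSpace (𝓡 n) p)
      (F₂ := 𝔼) (E₂ := fun p : M => TangentSpace (𝓡 n) p) (F₃ := ℝ) (E₃ := fun _ : M => ℝ)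
      (x₀ := q₀.1) (x := x) (ϕ := g x) (v := u) (w := v) hx hx (by simp)
    rw [hg]
    refine h1.trans ?_
    simp only [Bundle.Trivial.fiberBundle_trivializationAt', Bundle.Trivial.linearMapAt_trivialization,
        LinearMap.id_coe, id_eq]
    rfl
  have hα_apply : ∀ q : M × M, q.1 ∈ T.baseSet → ∀ v : 𝔼,
      α q v = dL n (fun x' => f (x', q.2)) q.1 (T.symm q.1 v) := by
    intro q hq v
    have h1 : α q = ((trivializationAt ℝ (TangentSpace 𝓘(ℝ, ℝ)) (f (q₀.1, q₀.2))).continuousLinearMapAt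
        ℝ (f (q.1, q.2))).comp ((dL n (fun x' => f (x', q.2)) q.1).comp (T.symmL ℝ q.1)) := rfl
    rw [h1, TangentBundle.continuousLinearMapAt_model_space, ← T.symmL_apply (R := ℝ) hq]
    rfl
  -- base set is a neighbourhood
  have hnhds : ∀ᶠ q in 𝓝 q₀, q.1 ∈ T.baseSet :=
    continuousAt_fst.eventually (T.open_baseSet.mem_nhds hbase)
  -- injectivity of the metric
  have hinj : ∀ x ∈ T.baseSet, Function.Injective (gt x) := by
    intro x hx
    refine (injective_iff_map_eq_zero (gt x)).2 ?_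
    intro u hu
    have h1 := hgt_apply x hx u u
    rw [hu] at h1
    have h2 : T.symm x u = 0 := by
      have : inner ℝ (T.symm x u) (T.symm x u) = 0 := h1.symm
      exact inner_self_eq_zero.1 this
    have h3 : T.symmL ℝ x u = 0 := (T.symmL_apply (R := ℝ) hx u).trans h2
    have h4 := T.continuousLinearMapAt_symmL (R := ℝ) hx u
    rw [h3, map_zero] at h4
    exact h4.symm
  have hequiv : ∀ x ∈ T.baseSet, ∃ e : 𝔼 ≃L[ℝ] (𝔼 →L[ℝ] ℝ), (e : 𝔼 →L[ℝ] (𝔼 →L[ℝ] ℝ)) = gt x := by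
    intro x hx
    have hfr : Module.finrank ℝ 𝔼 = Module.finrank ℝ (𝔼 →L[ℝ] ℝ) :=
      LinearEquiv.finrank_eq (InnerProductSpace.toDual ℝ 𝔼).toLinearEquiv
    have hker : LinearMap.ker (gt x : 𝔼 →ₗ[ℝ] (𝔼 →L[ℝ] ℝ)) = ⊥ :=
      LinearMap.ker_eq_bot.2 (hinj x hx)
    let e := (LinearEquiv.ofInjectiveOfFinrankEq (gt x : 𝔼 →ₗ[ℝ] (𝔼 →L[ℝ] ℝ)) (hinj x hx) hfr)
    refine ⟨e.toContinuousLinearEquiv, ?_⟩
    ext u v
    rfl
  -- the formula in coordinates
  have hform : ∀ᶠ q in 𝓝 q₀, (T ⟨q.1, w q⟩).2 = (gt q.1).inverse (α q) := by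
    filter_upwards [hnhds, hw] with q hq hwq
    obtain ⟨e, he⟩ := hequiv q.1 hq
    have h1 : α q = gt q.1 (T ⟨q.1, w q⟩).2 := by
      ext v
      rw [hα_apply q hq v, hgt_apply q.1 hq, ← hwq]
      congr 1
      exact (T.symm_apply_apply_mk hq (w q)).symm
    rw [h1, ← he, ContinuousLinearMap.inverse_equiv]
    exact (e.symm_apply_apply _).symm
  refine ContMDiffAt.congr_of_eventuallyEq ?_ hform
  obtain ⟨e, he⟩ := hequiv q₀.1 hbase
  have hinv : ContMDiffAt ((𝓡 n).prod (𝓡 n)) 𝓘(ℝ, (𝔼 →L[ℝ] ℝ) →L[ℝ] 𝔼) ∞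
      (fun q : M × M => (gt q.1).inverse) q₀ := by
    have h1 : ContMDiffAt ((𝓡 n).prod (𝓡 n)) 𝓘(ℝ, 𝔼 →L[ℝ] 𝔼 →L[ℝ] ℝ) ∞
        (fun q : M × M => gt q.1) q₀ := ContMDiffAt.comp q₀ hgt2 contMDiffAt_fst
    have h2 : ContDiffAt ℝ ∞ (ContinuousLinearMap.inverse :
        (𝔼 →L[ℝ] 𝔼 →L[ℝ] ℝ) → ((𝔼 →L[ℝ] ℝ) →L[ℝ] 𝔼)) (gt q₀.1) := by
      rw [← he]; exact contDiffAt_map_inverse e
    exact ContMDiffAt.comp q₀ (h2.contMDiffAt) h1
  exact hinv.clm_apply hα'

end Crest.Agent.R226.GradSmooth90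
end

-- ▼ part R226/NearLog_90
section

set_option autoImplicit false
set_option linter.unusedSectionVars false

open MeasureTheory Bundle Set Filter
open scoped Manifold ContDiff Bundle ENNReal Topology
open Crest.GeometryTopology.MTW

namespace Crest.Agent.R226.NearLog90

open NearLem90 SmallFlow90 GradSmooth90

variable {n : ℕ} {M : Type*} [MetricSpace M] [ChartedSpace (EuclideanSpace ℝ (Fin n)) M]
  [IsManifold (𝓡 n) ∞ M]
  [RiemannianBundle (fun p : M => TangentSpace (𝓡 n) p)]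

variable (N : NearDiag n M)

open Classical in
/-- the logarithm near the diagonal -/
noncomputable def lg (x y : M) : TangentSpace (𝓡 n) x :=
  if h : dist x y < N.r₀ then Classical.choose (N.surj x y h) else 0

theorem lg_spec {x y : M} (h : dist x y < N.r₀) : ‖lg N x y‖ = dist x y ∧ N.e x (lg N x y) = y := by
  unfold lg
  rw [dif_pos h]
  exact Classical.choose_spec (N.surj x y h)

theorem norm_lg {x y : M} (h : dist x y < N.r₀) : ‖lg N x y‖ = dist x y := (lg_spec N h).1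

theorem e_lg {x y : M} (h : dist x y < N.r₀) : N.e x (lg N x y) = y := (lg_spec N h).2

theorem lg_e {x : M} {v : TangentSpace (𝓡 n) x} (hv : ‖v‖ < N.r₀) : lg N x (N.e x v) = v := by
  have h1 : dist x (N.e x v) < N.r₀ := by rw [dist_e N hv]; exact hv
  apply N.inj x _ _ _ hv (e_lg N h1)
  rw [norm_lg N h1]; exact h1

theorem eq_lg {x y : M} {v : TangentSpace (𝓡 n) x} (hv : ‖v‖ < N.r₀) (h : N.e x v = y) :
    v = lg N x y := by
  rw [← h, lg_e N hv]

/-- the gradient of the cost in the first variable is `-log` -/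
theorem dL_cost {x y : M} (h : dist x y < N.r₀) (ξ : TangentSpace (𝓡 n) x) :
    dL n (fun x' : M => halfDistSq x' y) x ξ = -inner ℝ (lg N x y) ξ := by
  have h1 := mfderiv_cost_left N (x := x) (v := lg N x y) (by rw [norm_lg N h]; exact h) ξ
  rwa [e_lg N h] at h1

/-- reversal -/
theorem reversal {x : M} {v : TangentSpace (𝓡 n) x} (hv : ‖v‖ < N.r₀) :
    N.e (N.e x ((1 : ℝ) • v)) (-(curveVel n (fun t : ℝ => N.e x (t • v)) 1)) = x := by
  have h := small_flow N x v hv 1 (-1) (by simp) (by simp) (by simp)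
  have h2 : (1 : ℝ) + -1 = 0 := by norm_num
  rw [h2, zero_smul, N.e_zero, neg_one_smul] at h
  exact h

/-- the logarithm at the end point is minus the end velocity -/
theorem lg_reversal {x : M} {v : TangentSpace (𝓡 n) x} (hv : ‖v‖ < N.r₀) :
    lg N (N.e x ((1 : ℝ) • v)) x = -(curveVel n (fun t : ℝ => N.e x (t • v)) 1) := by
  symm
  apply eq_lg N _ (reversal N hv)
  rw [norm_neg, N.norm_vel x v hv 1 (by simp)]
  exact hv


section smooth
variable [IsContMDiffRiemannianBundle (𝓡 n) ∞ (EuclideanSpace ℝ (Fin n))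
    (fun p : M => TangentSpace (𝓡 n) p)]

/-- smoothness of minus the gradient in the first variable -/
theorem contMDiffAt_neg_gradX {f : M × M → ℝ} {q₀ : M × M}
    (hf : ContMDiffAt ((𝓡 n).prod (𝓡 n)) 𝓘(ℝ) ∞ f q₀)
    {w : ∀ q : M × M, TangentSpace (𝓡 n) q.1}
    (hw : ∀ᶠ q in 𝓝 q₀, ∀ ξ : TangentSpace (𝓡 n) q.1,
      dL n (fun x' => f (x', q.2)) q.1 ξ = -inner ℝ (w q) ξ) :
    ContMDiffAt ((𝓡 n).prod (𝓡 n)) (𝓡 n).tangent ∞
      (fun q => (⟨q.1, w q⟩ : TangentBundle (𝓡 n) M)) q₀ := by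
  have h1 : ContMDiffAt ((𝓡 n).prod (𝓡 n)) (𝓡 n).tangent ∞
      (fun q => (⟨q.1, -w q⟩ : TangentBundle (𝓡 n) M)) q₀ := by
    apply contMDiffAt_gradX hf
    filter_upwards [hw] with q hq ξ
    rw [hq ξ, inner_neg_left]
  have h2 := (contMDiff_scaleT_right (n := n) (M := M) (-1)).contMDiffAt.comp q₀ h1
  refine h2.congr_of_eventuallyEq (Eventually.of_forall fun q => ?_)
  change (⟨q.1, w q⟩ : TangentBundle (𝓡 n) M) = ⟨q.1, (-1 : ℝ) • (-w q)⟩
  rw [neg_smul, one_smul, neg_neg]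

/-- the logarithm is smooth near the diagonal -/
theorem contMDiffAt_lg {x y : M} (h : dist x y < N.r₀) :
    ContMDiffAt ((𝓡 n).prod (𝓡 n)) (𝓡 n).tangent ∞
      (fun q : M × M => (⟨q.1, lg N q.1 q.2⟩ : TangentBundle (𝓡 n) M)) (x, y) := by
  apply contMDiffAt_neg_gradX (w := fun q => lg N q.1 q.2) (contMDiffAt_cost N h)
  have : ∀ᶠ q : M × M in 𝓝 (x, y), dist q.1 q.2 < N.r₀ :=
    (isOpen_lt (continuous_fst.dist continuous_snd) continuous_const).mem_nhds h
  filter_upwards [this] with q hq ξ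
  exact dL_cost N hq ξ


end smooth


end Crest.Agent.R226.NearLog90
end

-- ▼ part R231/GMDir_320
section

/-!
# Row 231 (S0357), block GM-GEO (helper320): directions, transversality, closed orbits

* `nd G` : the `NearDiag` (radius `G.r₀ / 2`) of a `GeoData`;
* `dirv G x y` : the unit vector at `x` pointing to `y`; `flow_dir` : the geodesic flow moves
  `(x, dirv x y)` to `(y, - dirv y x)` in time `dist x y`;
* `ph G P y = ⟪log_{P.1} y, P.2⟫` : the height function of the slice orthogonal to `P`;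
* `deriv_ph` : along `Q ↦ (t ↦ ph P (ex Q.1 (t • Q.2)))` the derivative is close to `1` near `P`;
* `near_orbit` : closed orbits near a point of the tangent bundle.
-/

set_option autoImplicit false
set_option linter.unusedSectionVars false

noncomputable section

open MeasureTheory Bundle Set Filter
open scoped Manifold ContDiff Bundle ENNReal Topology
open Crest.GeometryTopology.MTW
open Crest.Agent.R226

namespace Crest.Agent.R231.GMDirx320

open Crest.Agent.R226.NearLog90 Crest.Agent.R226.NearLem90 Crest.Agent.R226.GeoBasic616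
open Crest.Agent.R226.TB616

variable {n : ℕ} {M : Type*} [MetricSpace M] [ChartedSpace (EuclideanSpace ℝ (Fin n)) M]
  [IsManifold (𝓡 n) ∞ M]
  [RiemannianBundle (fun p : M => TangentSpace (𝓡 n) p)]
variable (G : GeoData n M)

/-- the `NearDiag` of a `GeoData` (half the radius) -/
def nd : NearDiag n M where
  r₀ := G.r₀ / 2
  r₀_pos := half_pos G.r₀_pos
  e := G.ex
  smooth := G.smooth.contMDiffOn
  smooth_cost := G.smooth_cost.mono fun q hq => lt_trans hq (half_lt_self G.r₀_pos)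
  e_zero := G.ex_zero
  vel_zero := fun x v _ => G.vel_zero x v
  norm_vel := fun x v _ t _ => G.norm_vel x v t
  dist_eq := by
    intro x v hv s t hs ht
    apply G.dist_eq
    have h1 : |s - t| ≤ 2 := by
      have := abs_sub s t
      linarith
    nlinarith [norm_nonneg v, abs_nonneg (s - t)]
  surj := by
    intro x y _
    obtain ⟨v, hv, hn⟩ := G.surj x y
    exact ⟨v, hn, hv⟩
  inj := fun x v w hv hw h => G.inj x v w (lt_trans hv (half_lt_self G.r₀_pos))
    (lt_trans hw (half_lt_self G.r₀_pos)) h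
  hasDerivAt_cost := fun x v ξ hv _ => G.hasDerivAt_cost x v ξ (lt_trans hv (half_lt_self G.r₀_pos))



/-- the unit vector at `x` pointing to `y` -/
def dirv (x y : M) : TangentSpace (𝓡 n) x := (dist x y)⁻¹ • lg (nd G) x y

/-- the unit vector at `x` pointing to `y`, in the tangent bundle -/
def dirT (x y : M) : TangentBundle (𝓡 n) M := ⟨x, dirv G x y⟩

variable {G}

theorem norm_dirv {x y : M} (h0 : 0 < dist x y) (h : dist x y < G.r₀ / 2) : ‖dirv G x y‖ = 1 := by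
  unfold dirv
  rw [norm_smul, norm_lg (nd G) h, norm_inv, Real.norm_of_nonneg h0.le]
  exact inv_mul_cancel₀ h0.ne'



theorem flow_one_lg {x y : M} (h : dist x y < G.r₀ / 2) :
    G.Flow 1 ⟨x, lg (nd G) x y⟩ = ⟨y, -lg (nd G) y x⟩ := by
  have hv : ‖lg (nd G) x y‖ < (nd G).r₀ := by rw [norm_lg (nd G) h]; exact h
  have h1 := lg_reversal (nd G) hv
  have h2 : (nd G).e x ((1 : ℝ) • lg (nd G) x y) = y := by
    rw [one_smul]; exact e_lg (nd G) h
  have h3 : G.Flow 1 ⟨x, lg (nd G) x y⟩ =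
      ⟨(nd G).e x ((1 : ℝ) • lg (nd G) x y),
        -lg (nd G) ((nd G).e x ((1 : ℝ) • lg (nd G) x y)) x⟩ := by
    refine tb_ext rfl ?_
    rw [h1, neg_neg]
    rfl
  rw [h3]
  exact congrArg (fun z : M => (⟨z, -lg (nd G) z x⟩ : TangentBundle (𝓡 n) M)) h2

/-- the geodesic flow moves `(x, dirv x y)` to `(y, - dirv y x)` in time `dist x y` -/
theorem flow_dir {x y : M} (h0 : 0 < dist x y) (h : dist x y < G.r₀ / 2) :
    G.Flow (dist x y) (dirT G x y) = ⟨y, -dirv G y x⟩ := by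
  have h1 := Flow_smul G (dist x y) (dist x y)⁻¹ ⟨x, lg (nd G) x y⟩
  rw [inv_mul_cancel₀ h0.ne', flow_one_lg h] at h1
  refine h1.trans ?_
  change (⟨y, (dist x y)⁻¹ • -lg (nd G) y x⟩ : TangentBundle (𝓡 n) M) = _
  unfold dirv
  rw [smul_neg, dist_comm y x]

/-! ### closed orbits -/

variable (G) in
/-- a closed orbit -/
def IsPer (Q : TangentBundle (𝓡 n) M) : Prop := ∃ T : ℝ, 0 < T ∧ G.Flow T Q = Q

theorem IsPer.flow {Q : TangentBundle (𝓡 n) M} (h : IsPer G Q) (s : ℝ) : IsPer G (G.Flow s Q) := by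
  obtain ⟨T, hT, h⟩ := h
  refine ⟨T, hT, ?_⟩
  rw [Flow_add, add_comm, ← Flow_add, h]

theorem isPer_of_flow {Q : TangentBundle (𝓡 n) M} {s : ℝ} (h : IsPer G (G.Flow s Q)) :
    IsPer G Q := by
  have := h.flow (-s)
  rwa [Flow_neg_Flow] at this

theorem flow_nat_mul {Q : TangentBundle (𝓡 n) M} {T : ℝ} (h : G.Flow T Q = Q) (k : ℕ) :
    G.Flow (k * T) Q = Q := by
  induction k with
  | zero => rw [Nat.cast_zero, zero_mul, Flow_zero]
  | succ k ih =>
    have : ((k + 1 : ℕ) : ℝ) * T = T + k * T := by push_cast; ring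
    rw [this, ← Flow_add, h, ih]

theorem flow_int_mul {Q : TangentBundle (𝓡 n) M} {T : ℝ} (h : G.Flow T Q = Q) (k : ℤ) :
    G.Flow (k * T) Q = Q := by
  rcases Int.eq_nat_or_neg k with ⟨m, rfl | rfl⟩
  · exact_mod_cast flow_nat_mul h m
  · have h2 := flow_nat_mul h m
    have h3 := Flow_neg_Flow G (m * T) Q
    rw [h2] at h3
    have : (((-(m : ℤ)) : ℤ) : ℝ) * T = -(m * T) := by push_cast; ring
    rw [this, h3]

/-- a periodic orbit is covered by one period -/
theorem exists_mem_Icc {Q : TangentBundle (𝓡 n) M} {T : ℝ} (hT : 0 < T) (h : G.Flow T Q = Q)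
    (s : ℝ) : ∃ s' ∈ Icc (0 : ℝ) T, G.Flow s Q = G.Flow s' Q := by
  refine ⟨s - ⌊s / T⌋ * T, ⟨?_, ?_⟩, ?_⟩
  · have := Int.floor_le (s / T)
    have := (le_div_iff₀ hT).1 this
    linarith
  · have := (Int.lt_floor_add_one (s / T)).le
    have := (div_le_iff₀ hT).1 this
    linarith
  · conv_rhs => rw [← flow_int_mul h ⌊s / T⌋, Flow_add]
    congr 1
    ring

section
variable [IsContMDiffRiemannianBundle (𝓡 n) ∞ (EuclideanSpace ℝ (Fin n))
    (fun p : M => TangentSpace (𝓡 n) p)]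

/-- Near `P` every point of finitely many closed orbits is a small time shift of `P`. -/
theorem near_orbit (F : Set (TangentBundle (𝓡 n) M)) (hF : F.Finite)
    (P : TangentBundle (𝓡 n) M) {δ : ℝ} (hδ : 0 < δ) :
    ∀ᶠ Q in 𝓝 P, (∃ P' ∈ F, IsPer G P' ∧ ∃ s, Q = G.Flow s P') →
      ∃ s, |s| < δ ∧ Q = G.Flow s P := by
  classical
  have key : ∀ P' ∈ F, ∀ᶠ Q in 𝓝 P, (IsPer G P' ∧ ∃ s, Q = G.Flow s P') →
      ∃ s, |s| < δ ∧ Q = G.Flow s P := by
    intro P' _
    by_cases hP : IsPer G P'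
    · obtain ⟨T, hT, hTP⟩ := hP
      set A : Set ℝ := {s | ∃ r, |r| < δ ∧ G.Flow s P' = G.Flow r P} with hA
      have hAo : IsOpen A := by
        rw [Metric.isOpen_iff]
        rintro s ⟨r, hr, hs⟩
        refine ⟨δ - |r|, by linarith, ?_⟩
        intro s' hs'
        refine ⟨r + (s' - s), ?_, ?_⟩
        · rw [Metric.mem_ball, Real.dist_eq] at hs'
          have := abs_add_le r (s' - s)
          linarith
        · rw [← Flow_add G (s' - s) r P, ← hs, Flow_add]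
          congr 1; ring
      have hK : IsCompact ((fun s => G.Flow s P') '' (Icc 0 T \ A)) := by
        apply IsCompact.image
        · exact isCompact_Icc.diff hAo
        · exact (continuous_Flow G).comp (continuous_id.prodMk continuous_const)
      have hP0 : P ∉ (fun s => G.Flow s P') '' (Icc 0 T \ A) := by
        rintro ⟨s, ⟨_, hs⟩, hs2⟩
        exact hs ⟨0, by simpa using hδ, by rw [Flow_zero]; exact hs2⟩
      filter_upwards [hK.isClosed.isOpen_compl.mem_nhds hP0] with Q hQ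
      rintro ⟨-, s, hs⟩
      obtain ⟨s', hs', h2⟩ := exists_mem_Icc hT hTP s
      by_contra hcon
      apply hQ
      refine ⟨s', ⟨hs', ?_⟩, ?_⟩
      · rintro ⟨r, hr, hr2⟩
        exact hcon ⟨r, hr, by rw [hs, h2, hr2]⟩
      · rw [hs, h2]
    · exact Eventually.of_forall fun Q h => absurd h.1 hP
  have h2 := (eventually_all_finite hF).2 key
  filter_upwards [h2] with Q hQ
  rintro ⟨P', hP', h3⟩
  exact hQ P' hP' h3

end

section
variable [IsContMDiffRiemannianBundle (𝓡 n) ∞ (EuclideanSpace ℝ (Fin n))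
    (fun p : M => TangentSpace (𝓡 n) p)]

/-! ### the height function of a slice -/

variable (G) in
/-- the height function of the slice orthogonal to `P` -/
def ph (P : TangentBundle (𝓡 n) M) (y : M) : ℝ := inner ℝ (lg (nd G) P.1 y) P.2

theorem contMDiffAt_lg_right {x y : M} (h : dist x y < G.r₀ / 2) :
    ContMDiffAt (𝓡 n) (𝓡 n).tangent ∞
      (fun y' : M => (⟨x, lg (nd G) x y'⟩ : TangentBundle (𝓡 n) M)) y := by
  have h1 := contMDiffAt_lg (nd G) (x := x) (y := y) h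
  have h2 : ContMDiffAt (𝓡 n) ((𝓡 n).prod (𝓡 n)) ∞ (fun y' : M => (x, y')) y :=
    contMDiffAt_const.prodMk contMDiffAt_id
  exact h1.comp y h2

theorem contMDiffAt_ph {P : TangentBundle (𝓡 n) M} {y : M} (h : dist P.1 y < G.r₀ / 2) :
    ContMDiffAt (𝓡 n) 𝓘(ℝ) ∞ (ph G P) y := by
  have h1 := contMDiffAt_lg_right (G := G) h
  have h2 : ContMDiffAt (𝓡 n) (𝓡 n).tangent ∞
      (fun _ : M => (⟨P.1, P.2⟩ : TangentBundle (𝓡 n) M)) y := contMDiffAt_const
  exact ContMDiffAt.inner_bundle (n := ∞) (IB := 𝓡 n) (F := EuclideanSpace ℝ (Fin n))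
    (E := fun p : M => TangentSpace (𝓡 n) p) h1 h2

theorem ph_ex {P : TangentBundle (𝓡 n) M} {v : TangentSpace (𝓡 n) P.1} (hv : ‖v‖ < G.r₀ / 2) :
    ph G P (G.ex P.1 v) = inner ℝ v P.2 := by
  unfold ph
  rw [show lg (nd G) P.1 (G.ex P.1 v) = v from lg_e (nd G) hv]

variable (G) in
/-- the height along the geodesic with initial vector `Q` -/
def phf (P : TangentBundle (𝓡 n) M) (q : TangentBundle (𝓡 n) M × ℝ) : ℝ :=
  ph G P (G.ex q.1.1 (q.2 • q.1.2))

theorem contMDiffAt_phf (P : TangentBundle (𝓡 n) M) {q : TangentBundle (𝓡 n) M × ℝ}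
    (h : dist P.1 (G.ex q.1.1 (q.2 • q.1.2)) < G.r₀ / 2) :
    ContMDiffAt ((𝓡 n).tangent.prod 𝓘(ℝ)) 𝓘(ℝ) ∞ (phf G P) q := by
  have h1 : ContMDiff ((𝓡 n).tangent.prod 𝓘(ℝ)) (𝓡 n) ∞
      (fun q : TangentBundle (𝓡 n) M × ℝ => G.ex q.1.1 (q.2 • q.1.2)) :=
    contMDiff_ex_smul G (f := fun q : TangentBundle (𝓡 n) M × ℝ => q.2)
      (s := fun q : TangentBundle (𝓡 n) M × ℝ => q.1) contMDiff_snd contMDiff_fst
  exact (contMDiffAt_ph h).comp q h1.contMDiffAt

variable (G) in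
/-- derivative of the height along a geodesic -/
def dph (P : TangentBundle (𝓡 n) M) (q : TangentBundle (𝓡 n) M × ℝ) : ℝ :=
  deriv (fun t : ℝ => phf G P (q.1, t)) q.2

theorem hasDerivAt_phf (P : TangentBundle (𝓡 n) M) {q : TangentBundle (𝓡 n) M × ℝ}
    (h : dist P.1 (G.ex q.1.1 (q.2 • q.1.2)) < G.r₀ / 2) :
    HasDerivAt (fun t : ℝ => phf G P (q.1, t)) (dph G P q) q.2 := by
  have h1 : ContMDiffAt 𝓘(ℝ) ((𝓡 n).tangent.prod 𝓘(ℝ)) ∞
      (fun t : ℝ => ((q.1, t) : TangentBundle (𝓡 n) M × ℝ)) q.2 :=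
    contMDiffAt_const.prodMk contMDiffAt_id
  have h2 := (contMDiffAt_phf (G := G) P h).comp q.2 h1
  have h3 := (contMDiffAt_iff_contDiffAt.1 h2).differentiableAt (by simp)
  exact h3.hasDerivAt

theorem continuousAt_dph (P : TangentBundle (𝓡 n) M) {q : TangentBundle (𝓡 n) M × ℝ}
    (h : dist P.1 (G.ex q.1.1 (q.2 • q.1.2)) < G.r₀ / 2) :
    ContinuousAt (dph G P) q := by
  have h1 : ContMDiffAt (((𝓡 n).tangent.prod 𝓘(ℝ)).prod 𝓘(ℝ)) 𝓘(ℝ) 1
      (Function.uncurry (fun (z : TangentBundle (𝓡 n) M × ℝ) (t : ℝ) => phf G P (z.1, t)))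
      (q, q.2) := by
    have h2 : ContMDiffAt (((𝓡 n).tangent.prod 𝓘(ℝ)).prod 𝓘(ℝ)) ((𝓡 n).tangent.prod 𝓘(ℝ)) ∞
        (fun w : (TangentBundle (𝓡 n) M × ℝ) × ℝ =>
          ((w.1.1, w.2) : TangentBundle (𝓡 n) M × ℝ)) (q, q.2) :=
      (contMDiffAt_fst.comp _ contMDiffAt_fst).prodMk contMDiffAt_snd
    have h3 : ContMDiffAt ((𝓡 n).tangent.prod 𝓘(ℝ)) 𝓘(ℝ) ∞ (phf G P) (q.1, q.2) :=
      contMDiffAt_phf P h
    exact (h3.comp (q, q.2) h2).of_le (by simp)
  have h4 := ContMDiffAt.mfderiv (m := 0) (fun (z : TangentBundle (𝓡 n) M × ℝ) (t : ℝ) =>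
    phf G P (z.1, t)) (fun z : TangentBundle (𝓡 n) M × ℝ => z.2) h1
    (contMDiffAt_snd (I := (𝓡 n).tangent)) (by simp)
  have h7 := inTangentCoordinates_model_space (I := 𝓘(ℝ, ℝ)) (I' := 𝓘(ℝ, ℝ))
    (fun z : TangentBundle (𝓡 n) M × ℝ => z.2)
    (fun z : TangentBundle (𝓡 n) M × ℝ => phf G P (z.1, z.2))
    (fun z : TangentBundle (𝓡 n) M × ℝ =>
      (show ℝ →L[ℝ] ℝ from mfderiv 𝓘(ℝ, ℝ) 𝓘(ℝ, ℝ) (fun t : ℝ => phf G P (z.1, t)) z.2)) q
  have h5 : ContinuousAt (fun z : TangentBundle (𝓡 n) M × ℝ =>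
      (show ℝ →L[ℝ] ℝ from mfderiv 𝓘(ℝ, ℝ) 𝓘(ℝ, ℝ) (fun t : ℝ => phf G P (z.1, t)) z.2)) q := by
    rw [← h7]
    exact h4.continuousAt
  have h6 := h5.clm_apply (continuousAt_const (y := (1 : ℝ)))
  refine h6.congr (Eventually.of_forall fun z => ?_)
  change (mfderiv 𝓘(ℝ, ℝ) 𝓘(ℝ, ℝ) (fun t : ℝ => phf G P (z.1, t)) z.2) (1 : ℝ) = _
  rw [mfderiv_eq_fderiv]
  rfl

/-- the derivative of the height along geodesics close to `P` is close to `1` -/
theorem dph_self {P : TangentBundle (𝓡 n) M} (hP : ‖P.2‖ = 1) : dph G P (P, 0) = 1 := by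
  have h1 : (fun t : ℝ => phf G P (P, t)) =ᶠ[𝓝 0] fun t => t := by
    have : ∀ᶠ t : ℝ in 𝓝 0, |t| < G.r₀ / 2 := by
      have h := (continuous_abs.tendsto (0 : ℝ))
      rw [abs_zero] at h
      exact h.eventually_lt_const (half_pos G.r₀_pos)
    filter_upwards [this] with t ht
    change ph G P (G.ex P.1 (t • P.2)) = t
    rw [ph_ex (by rw [norm_smul, hP, mul_one]; exact ht), inner_smul_left,
      real_inner_self_eq_norm_sq, hP]
    simp
  change deriv (fun t : ℝ => phf G P (P, t)) 0 = 1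
  rw [h1.deriv_eq]
  simp


end

end Crest.Agent.R231.GMDirx320
end
end

-- ▼ part R231/GMCross_320
section

/-!
# Row 231 (S0357), block GM-GEO (helper320): crossing a slice

`exists_root` : continuous dependence of the root of a strictly increasing function;
`crossing` : short geodesics close to a given one cross the slice at its midpoint at a continuous
time and in a continuous point;
`crossing_slice` : the same for the slices `sg c N i`.
-/

set_option autoImplicit false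
set_option linter.unusedSectionVars false

noncomputable section

open MeasureTheory Bundle Set Filter
open scoped Manifold ContDiff Bundle ENNReal Topology
open Crest.GeometryTopology.MTW
open Crest.Agent.R226

namespace Crest.Agent.R231.GMCrossx320

open Crest.Agent.R226.NearLog90 Crest.Agent.R226.NearLem90 Crest.Agent.R226.GeoBasic616
open Crest.Agent.R226.TB616
open Crest.Agent.R231.GMDirx320 Crest.Agent.R231.GMSlx654

/-- the root of a strictly increasing function depends continuously on parameters -/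
theorem exists_root {X : Type*} [TopologicalSpace X] {V : Set X} (hV : IsOpen V)
    {F : X → ℝ → ℝ} {a b : ℝ} (hab : a < b)
    (hF : ∀ t ∈ Icc a b, ContinuousOn (fun x => F x t) V)
    (hc : ∀ x ∈ V, ContinuousOn (F x) (Icc a b))
    (hm : ∀ x ∈ V, StrictMonoOn (F x) (Icc a b))
    (h1 : ∀ x ∈ V, F x a < 0) (h2 : ∀ x ∈ V, 0 < F x b) :
    ∃ τ : X → ℝ, ContinuousOn τ V ∧ ∀ x ∈ V, τ x ∈ Ioo a b ∧ F x (τ x) = 0 ∧
      ∀ t ∈ Icc a b, F x t = 0 → t = τ x := by
  classical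
  have hex : ∀ x, ∃ t, x ∈ V → t ∈ Ioo a b ∧ F x t = 0 := by
    intro x
    by_cases hx : x ∈ V
    · have h0 : (0 : ℝ) ∈ Ioo (F x a) (F x b) := ⟨h1 x hx, h2 x hx⟩
      obtain ⟨t, ht, h3⟩ := intermediate_value_Ioo hab.le (hc x hx) h0
      exact ⟨t, fun _ => ⟨ht, h3⟩⟩
    · exact ⟨0, fun h => absurd h hx⟩
  choose τ hτ using hex
  refine ⟨τ, ?_, fun x hx => ⟨(hτ x hx).1, (hτ x hx).2, fun t ht h0 => ?_⟩⟩
  · intro x hx
    apply ContinuousAt.continuousWithinAt
    rw [Metric.continuousAt_iff']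
    intro ε hε
    obtain ⟨hx1, hx2⟩ := hτ x hx
    set a' := max a (τ x - ε / 2) with ha'
    set b' := min b (τ x + ε / 2) with hb'
    have haI : a' ∈ Icc a b := ⟨le_max_left _ _, max_le hab.le (by linarith [hx1.2])⟩
    have hbI : b' ∈ Icc a b := ⟨le_min hab.le (by linarith [hx1.1]), min_le_left _ _⟩
    have hτI : τ x ∈ Icc a b := ⟨hx1.1.le, hx1.2.le⟩
    have h3 : F x a' < 0 := by
      rw [← hx2]
      exact hm x hx haI hτI (max_lt hx1.1 (by linarith))
    have h4 : 0 < F x b' := by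
      rw [← hx2]
      exact hm x hx hτI hbI (lt_min hx1.2 (by linarith))
    have c1 : ContinuousAt (fun x => F x a') x := (hF a' haI).continuousAt (hV.mem_nhds hx)
    have c2 : ContinuousAt (fun x => F x b') x := (hF b' hbI).continuousAt (hV.mem_nhds hx)
    filter_upwards [c1.eventually_lt_const h3, c2.eventually_const_lt h4, hV.mem_nhds hx]
      with y hy1 hy2 hyV
    obtain ⟨hy3, hy4⟩ := hτ y hyV
    have hyI : τ y ∈ Icc a b := ⟨hy3.1.le, hy3.2.le⟩
    have h5 : a' < τ y := by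
      by_contra hcon
      have := (hm y hyV).monotoneOn hyI haI (not_lt.1 hcon)
      rw [hy4] at this
      linarith
    have h6 : τ y < b' := by
      by_contra hcon
      have := (hm y hyV).monotoneOn hbI hyI (not_lt.1 hcon)
      rw [hy4] at this
      linarith
    have h7 : τ x - ε / 2 ≤ a' := le_max_right _ _
    have h8 : b' ≤ τ x + ε / 2 := min_le_right _ _
    rw [Real.dist_eq, abs_lt]
    constructor <;> linarith
  · obtain ⟨hx1, hx2⟩ := hτ x hx
    exact (hm x hx).injOn ht ⟨hx1.1.le, hx1.2.le⟩ (by rw [h0, hx2])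

variable {n : ℕ} {M : Type*} [MetricSpace M] [ChartedSpace (EuclideanSpace ℝ (Fin n)) M]
  [IsManifold (𝓡 n) ∞ M]
  [RiemannianBundle (fun p : M => TangentSpace (𝓡 n) p)]
variable {G : GeoData n M}

/-- the two logarithms agree -/
theorem lg_eq {x y : M} (h : dist x y < G.r₀ / 2) :
    NearLog90.lg (nd G) x y = GeoSegx724.lg G x y := by
  symm
  apply GeoSegx724.lg_eq G
  · have h1 : ‖NearLog90.lg (nd G) x y‖ = dist x y := norm_lg (nd G) h
    rw [h1]
    exact lt_trans h (half_lt_self G.r₀_pos)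
  · exact e_lg (nd G) h

section
variable [IsContMDiffRiemannianBundle (𝓡 n) ∞ (EuclideanSpace ℝ (Fin n))
    (fun p : M => TangentSpace (𝓡 n) p)]

theorem continuousAt_fibre {X : Type*} [TopologicalSpace X] {x : M}
    {f : X → TangentSpace (𝓡 n) x} {z : X}
    (h : ContinuousAt (fun z => (⟨x, f z⟩ : TangentBundle (𝓡 n) M)) z) : ContinuousAt f z :=
  (FiberBundle.totalSpaceMk_isInducing (EuclideanSpace ℝ (Fin n)) (TangentSpace (𝓡 n))
    x).continuousAt_iff.2 h

theorem continuousAt_lg_fibre {x y : M} (h : dist x y < G.r₀ / 2) :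
    ContinuousAt (fun y' : M => NearLog90.lg (nd G) x y') y :=
  continuousAt_fibre (contMDiffAt_lg_right (G := G) h).continuousAt

theorem continuousAt_lgT {z : M × M} (h : dist z.1 z.2 < G.r₀ / 2) :
    ContinuousAt (fun z : M × M =>
      (⟨z.1, NearLog90.lg (nd G) z.1 z.2⟩ : TangentBundle (𝓡 n) M)) z :=
  (contMDiffAt_lg (nd G) (x := z.1) (y := z.2) h).continuousAt

theorem continuous_exr : Continuous (fun q : TangentBundle (𝓡 n) M × ℝ =>
    G.ex q.1.1 (q.2 • q.1.2)) := by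
  have h1 : ContMDiff ((𝓡 n).tangent.prod 𝓘(ℝ)) (𝓡 n) ∞
      (fun q : TangentBundle (𝓡 n) M × ℝ => G.ex q.1.1 (q.2 • q.1.2)) :=
    contMDiff_ex_smul G (f := fun q : TangentBundle (𝓡 n) M × ℝ => q.2)
      (s := fun q : TangentBundle (𝓡 n) M × ℝ => q.1) contMDiff_snd contMDiff_fst
  exact h1.continuous

/-- **crossing lemma** -/
theorem crossing {P : TangentBundle (𝓡 n) M} (hP : ‖P.2‖ = 1) {h : ℝ} (h0 : 0 < h)
    (h1 : 2 * h < G.r₀ / 2) :
    ∃ (O : Set (M × M)) (τ : M × M → ℝ) (w : M × M → Sl n), IsOpen O ∧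
      (G.ex P.1 ((-h) • P.2), G.ex P.1 (h • P.2)) ∈ O ∧
      ContinuousOn τ O ∧ ContinuousOn w O ∧
      τ (G.ex P.1 ((-h) • P.2), G.ex P.1 (h • P.2)) = 1 / 2 ∧
      w (G.ex P.1 ((-h) • P.2), G.ex P.1 (h • P.2)) = 0 ∧
      ∀ z ∈ O, dist z.1 z.2 < G.r₀ / 2 ∧ τ z ∈ Ioo (0 : ℝ) 1 ∧
        GeoSegx724.seg G z.1 z.2 (τ z) = G.ex P.1 (E P (w z)) := by
  classical
  set p0 := G.ex P.1 ((-h) • P.2) with hp0
  set q0 := G.ex P.1 (h • P.2) with hq0
  have hr := G.r₀_pos
  -- the segment of the centre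
  have hd : dist p0 q0 = 2 * h := by
    have := G.dist_eq P.1 P.2 (-h) h (by
      rw [hP, mul_one, show -h - h = -(2 * h) by ring, abs_neg, abs_of_pos (by linarith)]
      linarith)
    rw [hP, mul_one, show -h - h = -(2 * h) by ring, abs_neg, abs_of_pos (by linarith)] at this
    exact this
  have hdl : dist p0 q0 < G.r₀ / 2 := by rw [hd]; exact h1
  have hseg : ∀ t : ℝ, G.ex p0 (t • NearLog90.lg (nd G) p0 q0) =
      G.ex P.1 ((-h + 2 * h * t) • P.2) := by
    intro t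
    rw [lg_eq hdl]
    have := GeoSegx724.seg_ray G P.1 P.2 (s := -h) (t := h) (by
      rw [hP, mul_one, show h - -h = 2 * h by ring, abs_of_pos (by linarith)]
      linarith) t
    rw [show h - -h = 2 * h by ring, show -h + t * (2 * h) = -h + 2 * h * t by ring] at this
    exact this
  set Q0 : TangentBundle (𝓡 n) M := ⟨p0, NearLog90.lg (nd G) p0 q0⟩ with hQ0
  -- the height along the central segment
  have hphf : ∀ t : ℝ, |(-h + 2 * h * t)| < G.r₀ / 2 → phf G P (Q0, t) = -h + 2 * h * t := by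
    intro t ht
    change ph G P (G.ex p0 (t • NearLog90.lg (nd G) p0 q0)) = _
    rw [hseg t, ph_ex (by rw [norm_smul, hP, mul_one]; exact ht), inner_smul_left,
      real_inner_self_eq_norm_sq, hP]
    simp
  have hdist : ∀ t : ℝ, |(-h + 2 * h * t)| < G.r₀ / 2 →
      dist P.1 (G.ex Q0.1 (t • Q0.2)) < G.r₀ / 2 := by
    intro t ht
    change dist P.1 (G.ex p0 (t • NearLog90.lg (nd G) p0 q0)) < _
    rw [hseg t]
    have h3 := dist_ex_le G P.1 ((-h + 2 * h * t) • P.2)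
    rw [norm_smul, hP, mul_one] at h3
    exact lt_of_le_of_lt h3 ht
  have habs : ∀ t : ℝ, t ∈ Icc (0 : ℝ) 1 → |(-h + 2 * h * t)| < G.r₀ / 2 := by
    intro t ht
    rw [abs_lt]
    constructor <;> nlinarith [ht.1, ht.2]
  have hdph : dph G P (Q0, 1 / 2) = 2 * h := by
    have e1 : (fun t : ℝ => phf G P (Q0, t)) =ᶠ[𝓝 (1 / 2)] fun t => -h + 2 * h * t := by
      have : ∀ᶠ t : ℝ in 𝓝 (1 / 2), t ∈ Icc (0 : ℝ) 1 :=
        Icc_mem_nhds (by norm_num) (by norm_num)
      filter_upwards [this] with t ht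
      exact hphf t (habs t ht)
    change deriv (fun t : ℝ => phf G P (Q0, t)) (1 / 2) = 2 * h
    rw [e1.deriv_eq]
    have := ((hasDerivAt_id (1 / 2 : ℝ)).const_mul (2 * h)).const_add (-h)
    rw [mul_one] at this
    exact this.deriv
  -- the good neighbourhood
  have hW : ∀ᶠ q in 𝓝 ((Q0, 1 / 2) : TangentBundle (𝓡 n) M × ℝ),
      dist P.1 (G.ex q.1.1 (q.2 • q.1.2)) < G.r₀ / 2 ∧ 0 < dph G P q := by
    have e1 : ∀ᶠ q in 𝓝 ((Q0, 1 / 2) : TangentBundle (𝓡 n) M × ℝ),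
        dist P.1 (G.ex q.1.1 (q.2 • q.1.2)) < G.r₀ / 2 := by
      have hc : Continuous (fun q : TangentBundle (𝓡 n) M × ℝ =>
          dist P.1 (G.ex q.1.1 (q.2 • q.1.2))) := continuous_const.dist continuous_exr
      exact hc.continuousAt.eventually_lt_const
        (hdist (1 / 2) (habs _ ⟨by norm_num, by norm_num⟩))
    have e2 : ∀ᶠ q in 𝓝 ((Q0, 1 / 2) : TangentBundle (𝓡 n) M × ℝ), 0 < dph G P q := by
      have hc := continuousAt_dph (G := G) P (q := (Q0, 1 / 2))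
        (hdist (1 / 2) (habs _ ⟨by norm_num, by norm_num⟩))
      exact hc.eventually_const_lt (by rw [hdph]; linarith)
    exact e1.and e2
  rw [nhds_prod_eq, eventually_prod_iff] at hW
  obtain ⟨pU, hpU, pI, hpI, hUI⟩ := hW
  obtain ⟨δ0, hδ0, hδI⟩ := Metric.eventually_nhds_iff.1 hpI
  set δ : ℝ := min (δ0 / 2) (1 / 4) with hδ
  have hδp : 0 < δ := lt_min (by linarith) (by norm_num)
  have hδ1 : δ ≤ 1 / 4 := min_le_right _ _
  have hδ2 : δ ≤ δ0 / 2 := min_le_left _ _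
  have hI : ∀ t ∈ Icc (1 / 2 - δ) (1 / 2 + δ), pI t := by
    intro t ht
    apply hδI
    rw [Real.dist_eq, abs_lt]
    constructor <;> linarith [ht.1, ht.2]
  have hcontF : ∀ t ∈ Icc (1 / 2 - δ) (1 / 2 + δ), ContinuousAt (fun Q => phf G P (Q, t)) Q0 := by
    intro t ht
    have h3 := (contMDiffAt_phf (G := G) P (q := (Q0, t)) (hdist t (habs t
      ⟨by linarith [ht.1], by linarith [ht.2]⟩))).continuousAt
    exact ContinuousAt.comp (f := fun Q : TangentBundle (𝓡 n) M => (Q, t)) h3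
      (continuousAt_id.prodMk continuousAt_const)
  have hneg : ∀ᶠ Q in 𝓝 Q0, phf G P (Q, 1 / 2 - δ) < 0 := by
    refine (hcontF _ ⟨le_rfl, by linarith⟩).eventually_lt_const ?_
    change phf G P (Q0, 1 / 2 - δ) < 0
    rw [hphf _ (habs _ ⟨by linarith, by linarith⟩)]
    nlinarith
  have hpos : ∀ᶠ Q in 𝓝 Q0, 0 < phf G P (Q, 1 / 2 + δ) := by
    refine (hcontF _ ⟨by linarith, le_rfl⟩).eventually_const_lt ?_
    change 0 < phf G P (Q0, 1 / 2 + δ)
    rw [hphf _ (habs _ ⟨by linarith, by linarith⟩)]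
    nlinarith
  obtain ⟨U, hU, hUo, hQU⟩ := mem_nhds_iff.1 ((hpU.and (hneg.and hpos)))
  -- pull back to `M × M`
  set Qv : M × M → TangentBundle (𝓡 n) M := fun z => ⟨z.1, NearLog90.lg (nd G) z.1 z.2⟩ with hQv
  set V0 : Set (M × M) := {z | dist z.1 z.2 < G.r₀ / 2} with hV0
  have hV0o : IsOpen V0 := isOpen_lt (continuous_fst.dist continuous_snd) continuous_const
  have hQc : ContinuousOn Qv V0 := fun z hz => (continuousAt_lgT hz).continuousWithinAt
  set V : Set (M × M) := V0 ∩ Qv ⁻¹' U with hVdef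
  have hVo : IsOpen V := hQc.isOpen_inter_preimage hV0o hUo
  have hcen : (p0, q0) ∈ V := ⟨hdl, hQU⟩
  have hVU : ∀ z ∈ V, pU (Qv z) ∧ phf G P (Qv z, 1 / 2 - δ) < 0 ∧ 0 < phf G P (Qv z, 1 / 2 + δ) :=
    fun z hz => hU hz.2
  have hab : 1 / 2 - δ < 1 / 2 + δ := by linarith
  have hgood : ∀ z ∈ V, ∀ t ∈ Icc (1 / 2 - δ) (1 / 2 + δ),
      dist P.1 (G.ex (Qv z).1 (t • (Qv z).2)) < G.r₀ / 2 ∧ 0 < dph G P (Qv z, t) :=
    fun z hz t ht => hUI (hVU z hz).1 (hI t ht)
  have hF : ∀ t ∈ Icc (1 / 2 - δ) (1 / 2 + δ),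
      ContinuousOn (fun z => phf G P (Qv z, t)) V := by
    intro t ht z hz
    have h3 := (contMDiffAt_phf (G := G) P (q := (Qv z, t)) (hgood z hz t ht).1).continuousAt
    have h4 : ContinuousAt (fun z => (Qv z, t)) z :=
      (continuousAt_lgT hz.1).prodMk continuousAt_const
    exact (ContinuousAt.comp (f := fun z => (Qv z, t)) h3 h4).continuousWithinAt
  have hder : ∀ z ∈ V, ∀ t ∈ Icc (1 / 2 - δ) (1 / 2 + δ),
      HasDerivAt (fun t : ℝ => phf G P (Qv z, t)) (dph G P (Qv z, t)) t :=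
    fun z hz t ht => hasDerivAt_phf (G := G) P (q := (Qv z, t)) (hgood z hz t ht).1
  have hc : ∀ z ∈ V, ContinuousOn (fun t : ℝ => phf G P (Qv z, t))
      (Icc (1 / 2 - δ) (1 / 2 + δ)) :=
    fun z hz t ht => (hder z hz t ht).continuousAt.continuousWithinAt
  have hm : ∀ z ∈ V, StrictMonoOn (fun t : ℝ => phf G P (Qv z, t))
      (Icc (1 / 2 - δ) (1 / 2 + δ)) := by
    intro z hz
    refine strictMonoOn_of_deriv_pos (convex_Icc _ _) (hc z hz) ?_
    intro t ht
    have ht' := interior_subset ht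
    rw [(hder z hz t ht').deriv]
    exact (hgood z hz t ht').2
  obtain ⟨τ, hτc, hτ⟩ := exists_root hVo (F := fun z t => phf G P (Qv z, t)) hab hF hc hm
    (fun z hz => (hVU z hz).2.1) (fun z hz => (hVU z hz).2.2)
  -- the left inverse of `E P`
  have hEinj : Function.Injective (E P : Sl n →L[ℝ] TangentSpace (𝓡 n) P.1) := by
    intro v v' hvv
    have h3 := norm_E hP (v - v')
    rw [map_sub, hvv, sub_self, norm_zero] at h3
    exact sub_eq_zero.1 (norm_eq_zero.1 h3.symm)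
  have : FiniteDimensional ℝ (TangentSpace (𝓡 n) P.1) := finDim P.1
  obtain ⟨Li, hLi⟩ := LinearMap.exists_leftInverse_of_injective
    (E P : Sl n →L[ℝ] TangentSpace (𝓡 n) P.1).toLinearMap (LinearMap.ker_eq_bot.2 hEinj)
  have hLi' : ∀ v, Li (E P v) = v := fun v => LinearMap.congr_fun hLi v
  have hLc : Continuous Li := Li.continuous_of_finiteDimensional
  set yv : M × M → M := fun z => G.ex (Qv z).1 (τ z • (Qv z).2) with hyv
  have hyd : ∀ z ∈ V, dist P.1 (yv z) < G.r₀ / 2 := fun z hz =>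
    (hgood z hz (τ z) ⟨(hτ z hz).1.1.le, (hτ z hz).1.2.le⟩).1
  have hyc : ∀ z ∈ V, ContinuousAt yv z := by
    intro z hz
    have h3 : ContinuousAt (fun z => (Qv z, τ z)) z :=
      (continuousAt_lgT hz.1).prodMk (hτc.continuousAt (hVo.mem_nhds hz))
    exact ContinuousAt.comp (f := fun z => (Qv z, τ z)) (continuous_exr (G := G)).continuousAt h3
  refine ⟨V, τ, fun z => Li (NearLog90.lg (nd G) P.1 (yv z)), hVo, hcen, hτc, ?_, ?_, ?_, ?_⟩
  · intro z hz
    have h3 : ContinuousAt (fun z => NearLog90.lg (nd G) P.1 (yv z)) z :=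
      ContinuousAt.comp (f := yv) (continuousAt_lg_fibre (hyd z hz)) (hyc z hz)
    exact (ContinuousAt.comp (f := fun z => NearLog90.lg (nd G) P.1 (yv z))
      hLc.continuousAt h3).continuousWithinAt
  · -- the crossing time of the centre
    symm
    refine (hτ _ hcen).2.2 (1 / 2) ⟨by linarith, by linarith⟩ ?_
    change phf G P (Q0, 1 / 2) = 0
    rw [hphf _ (habs _ ⟨by norm_num, by norm_num⟩)]
    ring
  · have h3 : τ (p0, q0) = 1 / 2 := by
      symm
      refine (hτ _ hcen).2.2 (1 / 2) ⟨by linarith, by linarith⟩ ?_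
      change phf G P (Q0, 1 / 2) = 0
      rw [hphf _ (habs _ ⟨by norm_num, by norm_num⟩)]
      ring
    have h4 : yv (p0, q0) = P.1 := by
      change G.ex p0 (τ (p0, q0) • NearLog90.lg (nd G) p0 q0) = P.1
      rw [h3, hseg, show -h + 2 * h * (1 / 2) = 0 by ring, zero_smul, G.ex_zero]
    change Li (NearLog90.lg (nd G) P.1 (yv (p0, q0))) = 0
    rw [h4]
    have h5 : NearLog90.lg (nd G) P.1 P.1 = 0 := by
      have h6 : ‖NearLog90.lg (nd G) P.1 P.1‖ = dist P.1 P.1 :=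
        norm_lg (nd G) (by rw [dist_self]; exact half_pos hr)
      rw [dist_self] at h6
      exact norm_eq_zero.1 h6
    rw [h5, map_zero]
  · intro z hz
    obtain ⟨hz1, hz2, -⟩ := hτ z hz
    refine ⟨hz.1, ⟨by linarith [hz1.1], by linarith [hz1.2]⟩, ?_⟩
    have h3 : GeoSegx724.seg G z.1 z.2 (τ z) = yv z := by
      unfold GeoSegx724.seg
      rw [← lg_eq hz.1]
    rw [h3]
    have h4 : inner ℝ (NearLog90.lg (nd G) P.1 (yv z)) P.2 = 0 := hz2
    have h5 : inner ℝ P.2 (NearLog90.lg (nd G) P.1 (yv z)) = 0 := by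
      rw [real_inner_comm]; exact h4
    obtain ⟨v, hv⟩ := (range_E hP _).2 h5
    have h6 : E P (Li (NearLog90.lg (nd G) P.1 (yv z))) = NearLog90.lg (nd G) P.1 (yv z) := by
      rw [← hv, hLi']
    change yv z = G.ex P.1 (E P (Li (NearLog90.lg (nd G) P.1 (yv z))))
    rw [h6]
    exact (e_lg (nd G) (hyd z hz)).symm

end

end Crest.Agent.R231.GMCrossx320
end
end

-- ▼ part R231/GMSys_320

/-!
# Row 231 (S0357), block GM-GEO (helper320): the slice system of a closed geodesic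

`sliceSys c N hN : SliceSys (lug G) (Sl n)` with `c`, `l`, `N`, `σ = sg c N`; `D_sliceSys`.
-/

set_option autoImplicit false
set_option linter.unusedSectionVars false

noncomputable section

open MeasureTheory Bundle Set Filter
open scoped Manifold ContDiff Bundle ENNReal Topology
open Crest.GeometryTopology.MTW
open Crest.Agent.R226

namespace Crest.Agent.R231.GMSysx320

open Crest.Agent.R226.GeoBasic616 Crest.Agent.R226.TB616
open Crest.Agent.R231.GMDirx320 Crest.Agent.R231.GMSlx654 Crest.Agent.R231.GMCrossx320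
open Crest.Agent.R231.GMGeox889 Crest.Agent.R231.GeoLugx724

variable {n : ℕ} {M : Type*} [MetricSpace M] [ChartedSpace (EuclideanSpace ℝ (Fin n)) M]
  [IsManifold (𝓡 n) ∞ M]
  [RiemannianBundle (fun p : M => TangentSpace (𝓡 n) p)]
variable {G : GeoData n M}

/-- the closed geodesic as a curve -/
def crv (c : Cg G) (t : ℝ) : M := G.ex c.x0 (t • c.u0)

theorem crv_eq (c : Cg G) (t : ℝ) : crv c t = (G.Flow t c.p0).1 := rfl

theorem crv_per (c : Cg G) (y : ℝ) : crv c (y + c.l) = crv c y := by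
  rw [crv_eq, crv_eq, add_comm, ← Flow_add]
  exact congrArg (fun p => (G.Flow y p).1) c.per

theorem crv_geo (c : Cg G) (x y : ℝ) (h : |x - y| < G.r₀) :
    dist (crv c x) (crv c y) = |x - y| := by
  have := G.dist_eq c.x0 c.u0 x y (by rw [c.norm_u0, mul_one]; exact h)
  rw [c.norm_u0, mul_one] at this
  exact this

theorem pt_ex (c : Cg G) (N : ℕ) (i : ZMod N) (s : ℝ) :
    G.ex (c.pt N i).1 (s • (c.pt N i).2) = crv c ((i.val : ℝ) * (c.l / N) + s) := by
  have := Flow_add G s ((i.val : ℝ) * (c.l / N)) c.p0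
  exact congrArg (fun p : TangentBundle (𝓡 n) M => p.1) this

section
variable [IsContMDiffRiemannianBundle (𝓡 n) ∞ (EuclideanSpace ℝ (Fin n))
    (fun p : M => TangentSpace (𝓡 n) p)]

theorem sys_cross (c : Cg G) {N : ℕ} [NeZero N] (hN : 4 * c.l / N < G.r₀) (i : ZMod N) :
    ∃ (τ : M × M → ℝ) (w : M × M → Sl n),
      (∃ O : Set (M × M), IsOpen O ∧
        (crv c ((i.val - 1 / 2) * c.l / N), crv c ((i.val + 1 / 2) * c.l / N)) ∈ O ∧
        ContinuousOn τ O ∧ ContinuousOn w O ∧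
        ∀ p ∈ O, τ p ∈ Ioo (0 : ℝ) 1 ∧ GeoSegx724.seg G p.1 p.2 (τ p) = sg c N i (w p)) ∧
      τ (crv c ((i.val - 1 / 2) * c.l / N), crv c ((i.val + 1 / 2) * c.l / N)) = 1 / 2 ∧
      w (crv c ((i.val - 1 / 2) * c.l / N), crv c ((i.val + 1 / 2) * c.l / N)) = 0 := by
  have hNp : (0 : ℝ) < N := Nat.cast_pos.2 (NeZero.pos N)
  have hl := c.l_pos
  have hh : 0 < c.l / (2 * N) := by positivity
  have h2 : 2 * (c.l / (2 * N)) < G.r₀ / 2 := by
    have e : 4 * c.l / N = 8 * (c.l / (2 * N)) := by field_simp; ring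
    rw [e] at hN
    linarith
  obtain ⟨O, τ, w, hO, hcO, hτ, hw, hτ0, hw0, hall⟩ := crossing (G := G) (P := c.pt N i)
    (c.norm_pt N i) hh h2
  have e1 : G.ex (c.pt N i).1 ((-(c.l / (2 * N))) • (c.pt N i).2) =
      crv c ((i.val - 1 / 2) * c.l / N) := by
    rw [pt_ex]; congr 1; field_simp; ring
  have e2 : G.ex (c.pt N i).1 ((c.l / (2 * N)) • (c.pt N i).2) =
      crv c ((i.val + 1 / 2) * c.l / N) := by
    rw [pt_ex]; congr 1; field_simp
  rw [e1, e2] at hcO hτ0 hw0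
  exact ⟨τ, w, ⟨O, hO, hcO, hτ, hw, fun p hp => ⟨(hall p hp).2.1, (hall p hp).2.2⟩⟩, hτ0, hw0⟩

/-- **the slice system** of a closed geodesic -/
def sliceSys (c : Cg G) (N : ℕ) [hNe : NeZero N] (hN : 4 * c.l / N < G.r₀) :
    SliceSys (lug G) (Sl n) where
  c := crv c
  l := c.l
  N := N
  l_pos := c.l_pos
  per := crv_per c
  geo := crv_geo c
  small := hN
  σ := sg c N
  σ_zero := by
    intro i
    rw [sg_zero]
    change crv c _ = _
    congr 1
    ring
  σ_cont := by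
    intro i
    exact (contMDiff_ex_fibre G (c.pt N i).1).continuous.comp (E (c.pt N i)).continuous
  τ := fun i => Classical.choose (sys_cross c hN i)
  w := fun i => Classical.choose (Classical.choose_spec (sys_cross c hN i))
  cross := fun i => (Classical.choose_spec (Classical.choose_spec (sys_cross c hN i))).1
  τ_mid := fun i => (Classical.choose_spec (Classical.choose_spec (sys_cross c hN i))).2.1
  w_mid := fun i => (Classical.choose_spec (Classical.choose_spec (sys_cross c hN i))).2.2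

@[simp] theorem sliceSys_N (c : Cg G) (N : ℕ) [NeZero N] (hN : 4 * c.l / N < G.r₀) :
    (sliceSys c N hN).N = N := rfl

@[simp] theorem sliceSys_l (c : Cg G) (N : ℕ) [NeZero N] (hN : 4 * c.l / N < G.r₀) :
    (sliceSys c N hN).l = c.l := rfl

@[simp] theorem sliceSys_c (c : Cg G) (N : ℕ) [NeZero N] (hN : 4 * c.l / N < G.r₀) :
    (sliceSys c N hN).c = crv c := rfl


end

end Crest.Agent.R231.GMSysx320
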