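import Crest.Agent.R231.GMSliceDefs_654
import Crest.Agent.R231.Front_893
import Crest.Agent.R231.GMGeoB_889
import Crest.Agent.R231.GMDefs_898
import Crest.Agent.R231.GMForm_102
import Mathlib
import Crest.Agent.R226.ChartCost_77
import Crest.Agent.R231.GMSys_320
import Crest.Agent.R231.GMAbs_102

-- ▼ part R231/GMAdapt_529
section

/-!
# Row 231 (S0357), block GM: adapter (helper529)

* `cv c` : the curve of a closed geodesic `c : Cg G` of helper654
* `exists_cg` : every metric closed geodesic `γ : Lp M` of length `s` is the curve of a `c : Cg G` with `c.l = s`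
* `Crossing c N` : what `SliceSys` of helper889 needs from the crossing lemma (helper320)
* `sliceSys c N hN h : SliceSys (lug G) (Sl n)`, with `(sliceSys ..).D = D c N` (rfl)
-/

set_option autoImplicit false
set_option linter.unusedSectionVars false

noncomputable section

open Bundle Set Filter
open scoped Manifold ContDiff Bundle ENNReal Topology
open Crest.GeometryTopology.MTW
open Crest.Agent.R226 Crest.Agent.R226.GeoBasic616
open Crest.Agent.R231.GLugx576 Crest.Agent.R231.GeoLugx724 Crest.Agent.R231.GeoSegx724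
open Crest.Agent.R231.GMSlx654 Crest.Agent.R231.GMGeox889 Crest.Agent.R231.GMRedx102

namespace Crest.Agent.R231.GMAdaptx529

variable {n : ℕ} {M : Type*} [MetricSpace M] [ChartedSpace (EuclideanSpace ℝ (Fin n)) M]
  [IsManifold (𝓡 n) ∞ M]
  [RiemannianBundle (fun p : M => TangentSpace (𝓡 n) p)]

variable {G : GeoData n M}

/-- the curve of a closed geodesic -/
def cv (c : Cg G) (t : ℝ) : M := (G.Flow t c.p0).1

theorem cv_eq (c : Cg G) (t : ℝ) : cv c t = G.ex c.x0 (t • c.u0) := rfl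

theorem cv_per (c : Cg G) (t : ℝ) : cv c (t + c.l) = cv c t := by
  unfold cv
  rw [add_comm, ← Flow_add]
  congr 2
  have := c.per_nat 1
  rwa [Nat.cast_one, one_mul] at this

theorem cv_geo (c : Cg G) (x y : ℝ) (h : |x - y| < G.r₀) : dist (cv c x) (cv c y) = |x - y| := by
  have h1 := G.dist_eq c.x0 c.u0 x y (by rw [c.norm_u0, mul_one]; exact h)
  rw [c.norm_u0, mul_one] at h1
  exact h1

/-- **every metric closed geodesic comes from a `Cg`** -/
theorem exists_cg {γ : Lp M} {s : ℝ} (h : IsGeo s γ) :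
    ∃ c : Cg G, c.l = s ∧ ∀ t : ℝ, γ t = cv c (s * t) := by
  have hs := h.1
  obtain ⟨p, -, hp2, hp3, hp4⟩ := exists_line G h
  have hflow : G.Flow s ⟨p.1, s⁻¹ • p.2⟩ = ⟨p.1, s⁻¹ • p.2⟩ := by
    have h1 := Flow_smul G s s⁻¹ p
    rw [inv_mul_cancel₀ hs.ne', hp3] at h1
    exact h1
  refine ⟨⟨p.1, s⁻¹ • p.2, ?_, s, hs, hflow⟩, rfl, fun t => ?_⟩
  · rw [norm_smul, norm_inv, Real.norm_of_nonneg hs.le, hp2, inv_mul_cancel₀ hs.ne']
  · rw [hp4, cv_eq]
    show _ = G.ex p.1 ((s * t) • (s⁻¹ • p.2))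
    rw [smul_smul]
    congr 2
    field_simp

/-- the crossing property (helper320) -/
def Crossing (c : Cg G) (N : ℕ) [NeZero N] : Prop :=
  ∀ i : ZMod N, ∃ (τ : M × M → ℝ) (w : M × M → Sl n) (O : Set (M × M)), IsOpen O ∧
    (cv c (((i.val : ℝ) - 1 / 2) * c.l / N), cv c (((i.val : ℝ) + 1 / 2) * c.l / N)) ∈ O ∧
    ContinuousOn τ O ∧ ContinuousOn w O ∧
    (∀ p ∈ O, τ p ∈ Ioo (0 : ℝ) 1 ∧ seg G p.1 p.2 (τ p) = sg c N i (w p)) ∧
    τ (cv c (((i.val : ℝ) - 1 / 2) * c.l / N), cv c (((i.val : ℝ) + 1 / 2) * c.l / N)) = 1 / 2 ∧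
    w (cv c (((i.val : ℝ) - 1 / 2) * c.l / N), cv c (((i.val : ℝ) + 1 / 2) * c.l / N)) = 0

theorem continuous_sg (c : Cg G) (N : ℕ) (i : ZMod N) : Continuous (sg c N i) := by
  have h1 : Continuous (fun v : TangentSpace (𝓡 n) (c.pt N i).1 => G.ex (c.pt N i).1 v) :=
    (contMDiff_ex_fibre G (c.pt N i).1).continuous
  exact h1.comp (E (c.pt N i)).continuous

/-- the slice system of helper889 -/
def sliceSys (c : Cg G) (N : ℕ) [NeZero N] (hN : 4 * c.l / N < G.r₀) (h : Crossing c N) :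
    SliceSys (lug G) (Sl n) where
  c := cv c
  l := c.l
  N := N
  l_pos := c.l_pos
  per := cv_per c
  geo := cv_geo c
  small := hN
  σ := sg c N
  σ_zero := fun i => by
    rw [sg_zero, Cg.pt]
    show (G.Flow ((i.val : ℝ) * (c.l / N)) c.p0).1 = (G.Flow ((i.val : ℝ) * c.l / N) c.p0).1
    rw [mul_div_assoc]
  σ_cont := continuous_sg c N
  τ := fun i => Classical.choose (h i)
  w := fun i => Classical.choose (Classical.choose_spec (h i))
  cross := fun i => by
    obtain ⟨O, h1, h2, h3, h4, h5, -⟩ := Classical.choose_spec (Classical.choose_spec (h i))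
    exact ⟨O, h1, h2, h3, h4, h5⟩
  τ_mid := fun i => by
    obtain ⟨O, h1, h2, h3, h4, h5, h6, -⟩ := Classical.choose_spec (Classical.choose_spec (h i))
    exact h6
  w_mid := fun i => by
    obtain ⟨O, h1, h2, h3, h4, h5, h6, h7⟩ := Classical.choose_spec (Classical.choose_spec (h i))
    exact h7



end Crest.Agent.R231.GMAdaptx529
end
end

-- ▼ part R231/GMCalc_654
section

/-!
# Row 231 (S0357), block GM (helper654): calculus for the slices

* `mixed_comp` : the mixed second derivative of `F (χ a, ψ b)`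
* `mixed_outer` : the mixed second derivative of `g ∘ H` where `dH = 0`
-/

set_option autoImplicit false

open Filter Topology Set

namespace Crest.Agent.R231.GMCalc654

variable {A B X Y : Type*} [NormedAddCommGroup A] [NormedSpace ℝ A] [NormedAddCommGroup B]
  [NormedSpace ℝ B] [NormedAddCommGroup X] [NormedSpace ℝ X] [NormedAddCommGroup Y]
  [NormedSpace ℝ Y]

theorem differentiableAt_ev {F : X → ℝ} {x : X} (hF : ContDiffAt ℝ 2 F x) :
    ∀ᶠ y in 𝓝 x, DifferentiableAt ℝ F y := by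
  have := hF.eventually (by simp)
  filter_upwards [this] with y hy using hy.differentiableAt (by simp)

theorem hasFDerivAt_fderiv {F : X → ℝ} {x : X} (hF : ContDiffAt ℝ 2 F x) :
    HasFDerivAt (fderiv ℝ F) (fderiv ℝ (fderiv ℝ F) x) x :=
  ((hF.fderiv_right (m := 1) (by norm_num)).differentiableAt (by simp)).hasFDerivAt

/-- the mixed second derivative of a function of two variables composed with maps of the
variables -/
theorem mixed_comp {F : X × Y → ℝ} {H : A × B → ℝ} {χ : A → X} {ψ : B → Y} {a : A} {b : B}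
    {χ' : A →L[ℝ] X} {ψ' : B →L[ℝ] Y} (hF : ContDiffAt ℝ 2 F (χ a, ψ b))
    (hχ : HasFDerivAt χ χ' a) (hψ : HasFDerivAt ψ ψ' b) (hH : ContDiffAt ℝ 2 H (a, b))
    (hHF : ∀ᶠ q : A × B in 𝓝 (a, b), H q = F (χ q.1, ψ q.2)) (η : A) (ζ : B) :
    fderiv ℝ (fderiv ℝ H) (a, b) (0, ζ) (η, 0)
      = fderiv ℝ (fderiv ℝ F) (χ a, ψ b) (0, ψ' ζ) (χ' η, 0) := by
  -- the line in the second variable
  have lin : HasDerivAt (fun s : ℝ => (a, b + s • ζ)) ((0 : A), ζ) 0 := by
    have h1 : HasDerivAt (fun s : ℝ => b + s • ζ) ζ 0 := by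
      simpa using ((hasDerivAt_id (0 : ℝ)).smul_const ζ).const_add b
    exact (hasDerivAt_const (0 : ℝ) a).prodMk h1
  have lin0 : (fun s : ℝ => (a, b + s • ζ)) 0 = (a, b) := by simp
  have cline : Tendsto (fun s : ℝ => (a, b + s • ζ)) (𝓝 0) (𝓝 (a, b)) := by
    have := lin.continuousAt.tendsto
    simpa using this
  have hψb : HasFDerivAt ψ ψ' (b + (0 : ℝ) • ζ) := by simpa using hψ
  have lψ : HasDerivAt (fun s : ℝ => ψ (b + s • ζ)) (ψ' ζ) 0 := by
    have h1 : HasDerivAt (fun s : ℝ => b + s • ζ) ζ 0 := by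
      simpa using ((hasDerivAt_id (0 : ℝ)).smul_const ζ).const_add b
    exact hψb.comp_hasDerivAt (0 : ℝ) h1
  have lF : HasDerivAt (fun s : ℝ => (χ a, ψ (b + s • ζ))) ((0 : X), ψ' ζ) 0 :=
    (hasDerivAt_const (0 : ℝ) (χ a)).prodMk lψ
  have lF0 : (fun s : ℝ => (χ a, ψ (b + s • ζ))) 0 = (χ a, ψ b) := by simp
  have cF : Tendsto (fun s : ℝ => (χ a, ψ (b + s • ζ))) (𝓝 0) (𝓝 (χ a, ψ b)) := by
    have := lF.continuousAt.tendsto
    simpa using this
  -- derivative of `fderiv H` along the line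
  have d1 : HasDerivAt (fun s : ℝ => fderiv ℝ H (a, b + s • ζ) (η, 0))
      (fderiv ℝ (fderiv ℝ H) (a, b) (0, ζ) (η, 0)) 0 := by
    have h1 : HasFDerivAt (fderiv ℝ H) (fderiv ℝ (fderiv ℝ H) (a, b))
        ((fun s : ℝ => (a, b + s • ζ)) 0) := by rw [lin0]; exact hasFDerivAt_fderiv hH
    have h2 := h1.comp_hasDerivAt (0 : ℝ) lin
    have h3 := h2.clm_apply (hasDerivAt_const (0 : ℝ) ((η, 0) : A × B))
    rw [map_zero, add_zero] at h3
    exact h3
  have d2 : HasDerivAt (fun s : ℝ => fderiv ℝ F (χ a, ψ (b + s • ζ)) (χ' η, 0))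
      (fderiv ℝ (fderiv ℝ F) (χ a, ψ b) (0, ψ' ζ) (χ' η, 0)) 0 := by
    have h1 : HasFDerivAt (fderiv ℝ F) (fderiv ℝ (fderiv ℝ F) (χ a, ψ b))
        ((fun s : ℝ => (χ a, ψ (b + s • ζ))) 0) := by rw [lF0]; exact hasFDerivAt_fderiv hF
    have h2 := h1.comp_hasDerivAt (0 : ℝ) lF
    have h3 := h2.clm_apply (hasDerivAt_const (0 : ℝ) ((χ' η, 0) : X × Y))
    rw [map_zero, add_zero] at h3
    exact h3
  -- they agree
  have key : (fun s : ℝ => fderiv ℝ H (a, b + s • ζ) (η, 0))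
      =ᶠ[𝓝 0] fun s : ℝ => fderiv ℝ F (χ a, ψ (b + s • ζ)) (χ' η, 0) := by
    filter_upwards [cline.eventually hHF.eventually_nhds,
      cline.eventually (differentiableAt_ev hH), cF.eventually (differentiableAt_ev hF)]
      with s h1 h2 h3
    have l1 : HasDerivAt (fun t : ℝ => (a + t • η, b + s • ζ)) (η, (0 : B)) 0 := by
      have h4 : HasDerivAt (fun t : ℝ => a + t • η) η 0 := by
        simpa using ((hasDerivAt_id (0 : ℝ)).smul_const η).const_add a
      exact h4.prodMk (hasDerivAt_const _ _)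
    have l2 : HasDerivAt (fun t : ℝ => (χ (a + t • η), ψ (b + s • ζ))) (χ' η, (0 : Y)) 0 := by
      have h4 : HasDerivAt (fun t : ℝ => a + t • η) η 0 := by
        simpa using ((hasDerivAt_id (0 : ℝ)).smul_const η).const_add a
      have h5 : HasFDerivAt χ χ' (a + (0 : ℝ) • η) := by simpa using hχ
      exact (h5.comp_hasDerivAt (0 : ℝ) h4).prodMk (hasDerivAt_const _ _)
    have e1 : HasDerivAt (fun t : ℝ => H (a + t • η, b + s • ζ))
        (fderiv ℝ H (a, b + s • ζ) (η, 0)) 0 := by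
      have h6 : HasFDerivAt H (fderiv ℝ H (a, b + s • ζ))
          ((fun t : ℝ => (a + t • η, b + s • ζ)) 0) := by
        simp only [zero_smul, add_zero]; exact h2.hasFDerivAt
      exact h6.comp_hasDerivAt (0 : ℝ) l1
    have e2 : HasDerivAt (fun t : ℝ => F (χ (a + t • η), ψ (b + s • ζ)))
        (fderiv ℝ F (χ a, ψ (b + s • ζ)) (χ' η, 0)) 0 := by
      have h6 : HasFDerivAt F (fderiv ℝ F (χ a, ψ (b + s • ζ)))
          ((fun t : ℝ => (χ (a + t • η), ψ (b + s • ζ))) 0) := by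
        simp only [zero_smul, add_zero]; exact h3.hasFDerivAt
      exact h6.comp_hasDerivAt (0 : ℝ) l2
    refine e1.unique (e2.congr_of_eventuallyEq ?_)
    have c1 : Tendsto (fun t : ℝ => (a + t • η, b + s • ζ)) (𝓝 0) (𝓝 (a, b + s • ζ)) := by
      have := l1.continuousAt.tendsto
      simpa using this
    exact c1.eventually h1
  exact d1.unique (d2.congr_of_eventuallyEq key)

/-- second derivative of `g ∘ H` at a critical point of `H` -/
theorem second_outer {g : ℝ → ℝ} {H : X → ℝ} {x : X} (hg : ContDiffAt ℝ 2 g (H x))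
    (hH : ContDiffAt ℝ 2 H x) (h0 : fderiv ℝ H x = 0) (v w : X) :
    fderiv ℝ (fderiv ℝ (fun y => g (H y))) x v w
      = deriv g (H x) * fderiv ℝ (fderiv ℝ H) x v w := by
  have hgd : ∀ᶠ y in 𝓝 x, fderiv ℝ (fun y => g (H y)) y = deriv g (H y) • fderiv ℝ H y := by
    have h1 : ∀ᶠ s in 𝓝 (H x), DifferentiableAt ℝ g s := by
      have := hg.eventually (by simp)
      filter_upwards [this] with y hy using hy.differentiableAt (by simp)
    filter_upwards [hH.continuousAt.eventually h1, differentiableAt_ev hH] with y h2 h3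
    exact (h2.hasDerivAt.comp_hasFDerivAt y h3.hasFDerivAt).fderiv
  have hg' : DifferentiableAt ℝ (deriv g) (H x) := by
    have h1 : ContDiffAt ℝ 1 (fderiv ℝ g) (H x) := hg.fderiv_right (m := 1) (by norm_num)
    have h2 : deriv g = fun s => fderiv ℝ g s 1 := by
      funext s; exact (fderiv_apply_one_eq_deriv).symm
    rw [h2]
    exact (h1.differentiableAt (by simp)).clm_apply (differentiableAt_const _)
  have hd : HasFDerivAt (fun y => deriv g (H y)) ((deriv (deriv g) (H x)) • fderiv ℝ H x) x :=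
    hg'.hasDerivAt.comp_hasFDerivAt x (hH.differentiableAt (by norm_num)).hasFDerivAt
  have h4 : HasFDerivAt (fun y => deriv g (H y) • fderiv ℝ H y)
      (deriv g (H x) • fderiv ℝ (fderiv ℝ H) x +
        ((deriv (deriv g) (H x)) • fderiv ℝ H x).smulRight (fderiv ℝ H x)) x :=
    hd.smul (hasFDerivAt_fderiv hH)
  have h5 : HasFDerivAt (fderiv ℝ (fun y => g (H y)))
      (deriv g (H x) • fderiv ℝ (fderiv ℝ H) x +
        ((deriv (deriv g) (H x)) • fderiv ℝ H x).smulRight (fderiv ℝ H x)) x :=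
    h4.congr_of_eventuallyEq hgd
  rw [h5.fderiv, h0]
  simp


end Crest.Agent.R231.GMCalc654
end

-- ▼ part R231/GMSlice_654
section

/-!
# Row 231 (S0357), block GM (helper654): the distance of consecutive slices

* `contDiffAt_D`  : smoothness
* `fderiv_D`      : `0` is a critical point
* `twist_left`, `twist_right` : the mixed second derivative is nondegenerate
-/

set_option autoImplicit false
set_option linter.unusedSectionVars false

noncomputable section

open MeasureTheory Bundle Set Filter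
open scoped Manifold ContDiff Bundle ENNReal Topology
open Crest.GeometryTopology.MTW
open Crest.Agent.R226 Crest.Agent.R226.ChartCost77

namespace Crest.Agent.R231.GMSlx654

variable {n : ℕ} {M : Type*} [MetricSpace M] [ChartedSpace (EuclideanSpace ℝ (Fin n)) M]
  [IsManifold (𝓡 n) ∞ M]
  [RiemannianBundle (fun p : M => TangentSpace (𝓡 n) p)]

variable (G : GeoData n M)

omit [MetricSpace M] [ChartedSpace (EuclideanSpace ℝ (Fin n)) M]
  [IsManifold (𝓡 n) ∞ M] [RiemannianBundle (fun p : M => TangentSpace (𝓡 n) p)] in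
theorem two_le : (2 : ℕ∞ω) ≤ (∞ : ℕ∞ω) := WithTop.coe_le_coe.2 le_top

/-- the slice at the vector `p` -/
def sp (p : TangentBundle (𝓡 n) M) (v : Sl n) : M := G.ex p.1 (E p v)

/-- half squared distance of points of two slices -/
def Hp (p p' : TangentBundle (𝓡 n) M) (q : Sl n × Sl n) : ℝ :=
  halfDistSq (sp G p q.1) (sp G p' q.2)

theorem sp_zero (p : TangentBundle (𝓡 n) M) : sp G p 0 = p.1 := by
  rw [sp, map_zero, G.ex_zero]

theorem sg_eq {G : GeoData n M} (c : Cg G) (N : ℕ) (i : ZMod N) : sg c N i = sp G (c.pt N i) := rfl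

/-- `E p`, with values in the model space -/
def Ee (p : TangentBundle (𝓡 n) M) : Sl n →L[ℝ] EE n := E p

theorem contMDiff_sp (p : TangentBundle (𝓡 n) M) :
    ContMDiff 𝓘(ℝ, Sl n) (𝓡 n) ∞ (sp G p) := by
  have h1 : ContDiff ℝ ∞ (Ee p) := ContinuousLinearMap.contDiff _
  exact (GeoBasic616.contMDiff_ex_fibre G p.1).comp h1.contMDiff

theorem continuous_sp (p : TangentBundle (𝓡 n) M) : Continuous (sp G p) :=
  (contMDiff_sp G p).continuous

theorem contDiffAt_Hp {p p' : TangentBundle (𝓡 n) M} {q : Sl n × Sl n}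
    (h : dist (sp G p q.1) (sp G p' q.2) < G.r₀) : ContDiffAt ℝ ∞ (Hp G p p') q := by
  rw [← contMDiffAt_iff_contDiffAt]
  have h1 : ContMDiffAt 𝓘(ℝ, Sl n × Sl n) (𝓡 n) ∞ (fun q : Sl n × Sl n => sp G p q.1) q :=
    (contMDiff_sp G p).contMDiffAt.comp (g := sp G p) (f := Prod.fst) q
      contDiff_fst.contMDiff.contMDiffAt
  have h2 : ContMDiffAt 𝓘(ℝ, Sl n × Sl n) (𝓡 n) ∞ (fun q : Sl n × Sl n => sp G p' q.2) q :=
    (contMDiff_sp G p').contMDiffAt.comp (g := sp G p') (f := Prod.snd) q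
      contDiff_snd.contMDiff.contMDiffAt
  have h3 : ContMDiffAt ((𝓡 n).prod (𝓡 n)) 𝓘(ℝ) ∞ (fun r : M × M => halfDistSq r.1 r.2)
      (sp G p q.1, sp G p' q.2) :=
    G.smooth_cost.contMDiffAt
      ((isOpen_lt (continuous_fst.dist continuous_snd) continuous_const).mem_nhds h)
  exact ContMDiffAt.comp q h3 (h1.prodMk h2)

theorem ex_neg (p : TangentBundle (𝓡 n) M) (τ : ℝ) :
    G.ex (G.Flow τ p).1 ((-τ) • (G.Flow τ p).2) = p.1 := by
  have h := congrArg (fun r : TangentBundle (𝓡 n) M => r.1) (GeoBasic616.Flow_neg_Flow G τ p)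
  exact h

section flow

variable {p : TangentBundle (𝓡 n) M} (hp : ‖p.2‖ = 1) {τ : ℝ} (h0 : 0 < τ) (hτ : τ < G.r₀)

include hp h0 hτ

theorem dist_flow : dist p.1 (G.Flow τ p).1 = τ := by
  have h1 := G.dist_eq p.1 p.2 0 τ (by
    rw [hp, mul_one, zero_sub, abs_neg, abs_of_pos h0]; exact hτ)
  rw [zero_smul, G.ex_zero, hp, mul_one, zero_sub, abs_neg, abs_of_pos h0] at h1
  exact h1

theorem contDiffAt_Hp0 : ContDiffAt ℝ ∞ (Hp G p (G.Flow τ p)) (0, 0) := by
  refine contDiffAt_Hp G ?_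
  simp only [sp_zero]
  rw [dist_flow G hp h0 hτ]
  exact hτ

theorem Hp_zero : Hp G p (G.Flow τ p) (0, 0) = τ ^ 2 / 2 := by
  rw [Hp, sp_zero, sp_zero, halfDistSq, dist_flow G hp h0 hτ]

/-- `0` is critical -/
theorem fderiv_Hp : fderiv ℝ (Hp G p (G.Flow τ p)) (0, 0) = 0 := by
  have hd : HasFDerivAt (Hp G p (G.Flow τ p)) (fderiv ℝ (Hp G p (G.Flow τ p)) (0, 0)) (0, 0) :=
    ((contDiffAt_Hp0 G hp h0 hτ).differentiableAt (by simp)).hasFDerivAt
  have hp' : ‖(G.Flow τ p).2‖ = 1 := by rw [GeoBasic616.norm_Flow]; exact hp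
  have k1 : ∀ η : Sl n, fderiv ℝ (Hp G p (G.Flow τ p)) (0, 0) (η, 0) = 0 := by
    intro η
    have l1 : HasDerivAt (fun t : ℝ => (t • η, (0 : Sl n))) (η, (0 : Sl n)) 0 := by
      have h4 : HasDerivAt (fun t : ℝ => t • η) η 0 := by
        simpa using (hasDerivAt_id (0 : ℝ)).smul_const η
      exact h4.prodMk (hasDerivAt_const _ _)
    have hd' : HasFDerivAt (Hp G p (G.Flow τ p)) (fderiv ℝ (Hp G p (G.Flow τ p)) (0, 0))
        ((fun t : ℝ => (t • η, (0 : Sl n))) 0) := by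
      simp only [zero_smul]; exact hd
    have e1 := hd'.comp_hasDerivAt (0 : ℝ) l1
    have e2 := G.hasDerivAt_cost p.1 (τ • p.2) (E p η) (by
      rw [norm_smul, hp, mul_one, Real.norm_of_nonneg h0.le]; exact hτ)
    have e3 : (Hp G p (G.Flow τ p) ∘ fun t : ℝ => (t • η, (0 : Sl n)))
        = fun t : ℝ => halfDistSq (G.ex p.1 (t • E p η)) (G.ex p.1 (τ • p.2)) := by
      funext t
      simp only [Function.comp_apply, Hp, sp_zero]
      rw [sp, map_smul]
      rfl
    rw [e3] at e1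
    rw [e1.unique e2, real_inner_smul_left, inner_E hp, mul_zero, neg_zero]
  have k2 : ∀ ζ : Sl n, fderiv ℝ (Hp G p (G.Flow τ p)) (0, 0) (0, ζ) = 0 := by
    intro ζ
    have l1 : HasDerivAt (fun t : ℝ => ((0 : Sl n), t • ζ)) ((0 : Sl n), ζ) 0 := by
      have h4 : HasDerivAt (fun t : ℝ => t • ζ) ζ 0 := by
        simpa using (hasDerivAt_id (0 : ℝ)).smul_const ζ
      exact (hasDerivAt_const (0 : ℝ) (0 : Sl n)).prodMk h4
    have hd' : HasFDerivAt (Hp G p (G.Flow τ p)) (fderiv ℝ (Hp G p (G.Flow τ p)) (0, 0))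
        ((fun t : ℝ => ((0 : Sl n), t • ζ)) 0) := by
      simp only [zero_smul]; exact hd
    have e1 := hd'.comp_hasDerivAt (0 : ℝ) l1
    have e2 := G.hasDerivAt_cost (G.Flow τ p).1 ((-τ) • (G.Flow τ p).2) (E (G.Flow τ p) ζ) (by
      rw [norm_smul, hp', mul_one, norm_neg, Real.norm_of_nonneg h0.le]; exact hτ)
    have e3 : (Hp G p (G.Flow τ p) ∘ fun t : ℝ => ((0 : Sl n), t • ζ))
        = fun t : ℝ => halfDistSq (G.ex (G.Flow τ p).1 (t • E (G.Flow τ p) ζ))
            (G.ex (G.Flow τ p).1 ((-τ) • (G.Flow τ p).2)) := by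
      funext t
      rw [ex_neg]
      simp only [Function.comp_apply, Hp, sp_zero]
      rw [sp, map_smul]
      unfold halfDistSq
      rw [dist_comm]
    rw [e3] at e1
    rw [e1.unique e2, real_inner_smul_left, inner_E hp', mul_zero, neg_zero]
  refine ContinuousLinearMap.ext fun q => ?_
  obtain ⟨η, ζ⟩ := q
  have : (η, ζ) = (η, (0 : Sl n)) + ((0 : Sl n), ζ) := by simp
  rw [this, map_add, k1, k2]
  simp

end flow

/-- the slice in the chart -/
theorem hasFDerivAt_chart (p : TangentBundle (𝓡 n) M) :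
    HasFDerivAt (fun v : Sl n => extChartAt (𝓡 n) p.1 (sp G p v))
      (Ee p) 0 := by
  -- the exponential map in the chart
  have h1 : ContDiffAt ℝ ∞ (fun w : EE n => extChartAt (𝓡 n) p.1 (G.ex p.1 w)) 0 := by
    rw [← contMDiffAt_iff_contDiffAt]
    have h2 : ContMDiffAt (𝓡 n) 𝓘(ℝ, EE n) ∞ (extChartAt (𝓡 n) p.1)
        ((fun w : EE n => G.ex p.1 w) 0) := by
      have e : (fun w : EE n => G.ex p.1 w) 0 = p.1 := G.ex_zero p.1
      rw [e]
      exact contMDiffAt_extChartAt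
    exact ContMDiffAt.comp (0 : EE n) (g := extChartAt (𝓡 n) p.1)
      (f := fun w : EE n => G.ex p.1 w) h2
      (GeoBasic616.contMDiff_ex_fibre G p.1).contMDiffAt
  have h2 : HasFDerivAt (fun w : EE n => extChartAt (𝓡 n) p.1 (G.ex p.1 w))
      (fderiv ℝ (fun w : EE n => extChartAt (𝓡 n) p.1 (G.ex p.1 w)) 0) 0 :=
    (h1.differentiableAt (by simp)).hasFDerivAt
  have h3 : fderiv ℝ (fun w : EE n => extChartAt (𝓡 n) p.1 (G.ex p.1 w)) 0
      = ContinuousLinearMap.id ℝ (EE n) := by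
    ext1 ξ
    have l1 : HasDerivAt (fun t : ℝ => t • ξ) ξ 0 := by
      simpa using (hasDerivAt_id (0 : ℝ)).smul_const ξ
    have h4 : HasFDerivAt (fun w : EE n => extChartAt (𝓡 n) p.1 (G.ex p.1 w))
      (fderiv ℝ (fun w : EE n => extChartAt (𝓡 n) p.1 (G.ex p.1 w)) 0)
      ((fun t : ℝ => t • ξ) 0) := by simp only [zero_smul]; exact h2
    have h5 := h4.comp_hasDerivAt (0 : ℝ) l1
    have h6 := hasDerivAt_chart_radial G p.1 (ξ : TangentSpace (𝓡 n) p.1)
    exact h5.unique h6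
  rw [h3] at h2
  have h4 : HasFDerivAt (fun w : EE n => extChartAt (𝓡 n) p.1 (G.ex p.1 w))
      (ContinuousLinearMap.id ℝ (EE n)) ((Ee p) 0) := by
    rw [map_zero]; exact h2
  exact h4.comp 0 (ContinuousLinearMap.hasFDerivAt _)

section flow2

variable {p : TangentBundle (𝓡 n) M} (hp : ‖p.2‖ = 1) {τ : ℝ} (h0 : 0 < τ) (hτ : τ < G.r₀)

include hp h0 hτ

/-- **twist** -/
theorem twist_Hp {ζ : Sl n} (h : ∀ η : Sl n,
    fderiv ℝ (fderiv ℝ (Hp G p (G.Flow τ p))) (0, 0) (0, ζ) (η, 0) = 0) : ζ = 0 := by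
  have hp' : ‖(G.Flow τ p).2‖ = 1 := by rw [GeoBasic616.norm_Flow]; exact hp
  set p' := G.Flow τ p with hpp
  have hK : (τ • p.2 : TangentSpace (𝓡 n) p.1) ∈ G.K p.1 := by
    refine GeoBasic616.mem_K_of_norm_lt G ?_
    rw [norm_smul, hp, mul_one, Real.norm_of_nonneg h0.le]; exact hτ
  have hs : ContDiffAt ℝ ∞ (cc (n := n) p.1 (G.ex p.1 (τ • p.2)))
      (o p.1, o (G.ex p.1 (τ • p.2))) := by
    refine cc_contDiffAt (G.smooth_cost.contMDiffAt
      ((isOpen_lt (continuous_fst.dist continuous_snd) continuous_const).mem_nhds ?_))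
    have := dist_flow G hp h0 hτ
    show dist p.1 (G.Flow τ p).1 < G.r₀
    rw [this]; exact hτ
  obtain ⟨S, hS1, hS2⟩ := exists_right_inverse G hK hs
  -- the mixed derivative through the charts
  have hχ := hasFDerivAt_chart G p
  have hψ := hasFDerivAt_chart G p'
  have e1 : extChartAt (𝓡 n) p.1 (sp G p 0) = o p.1 := by rw [sp_zero]; rfl
  have e2 : extChartAt (𝓡 n) p'.1 (sp G p' 0) = o p'.1 := by rw [sp_zero]; rfl
  have hF : ContDiffAt ℝ 2 (cc (n := n) p.1 p'.1)
      (extChartAt (𝓡 n) p.1 (sp G p 0), extChartAt (𝓡 n) p'.1 (sp G p' 0)) := by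
    rw [e1, e2]
    exact hs.of_le two_le
  have hH : ContDiffAt ℝ 2 (Hp G p p') (0, 0) :=
    (contDiffAt_Hp0 G hp h0 hτ).of_le two_le
  have hHF : ∀ᶠ q : Sl n × Sl n in 𝓝 (0, 0), Hp G p p' q
      = cc (n := n) p.1 p'.1 (extChartAt (𝓡 n) p.1 (sp G p q.1),
        extChartAt (𝓡 n) p'.1 (sp G p' q.2)) := by
    have c1 : ∀ᶠ q : Sl n × Sl n in 𝓝 (0, 0), sp G p q.1 ∈ (extChartAt (𝓡 n) p.1).source := by
      have : Tendsto (fun q : Sl n × Sl n => sp G p q.1) (𝓝 (0, 0)) (𝓝 (sp G p 0)) :=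
        ((continuous_sp G p).comp continuous_fst).tendsto _
      rw [sp_zero] at this
      exact this.eventually (extChartAt_source_mem_nhds (I := 𝓡 n) p.1)
    have c2 : ∀ᶠ q : Sl n × Sl n in 𝓝 (0, 0), sp G p' q.2 ∈ (extChartAt (𝓡 n) p'.1).source := by
      have : Tendsto (fun q : Sl n × Sl n => sp G p' q.2) (𝓝 (0, 0)) (𝓝 (sp G p' 0)) :=
        ((continuous_sp G p').comp continuous_snd).tendsto _
      rw [sp_zero] at this
      exact this.eventually (extChartAt_source_mem_nhds (I := 𝓡 n) p'.1)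
    filter_upwards [c1, c2] with q h1 h2
    simp only [Hp, cc, (extChartAt (𝓡 n) p.1).left_inv h1, (extChartAt (𝓡 n) p'.1).left_inv h2]
  have key : ∀ η : Sl n, inner ℝ (S (Ee p' ζ)) (E p η) = 0 := by
    intro η
    have h1 := GMCalc654.mixed_comp (χ := fun v : Sl n => extChartAt (𝓡 n) p.1 (sp G p v))
      (ψ := fun v : Sl n => extChartAt (𝓡 n) p'.1 (sp G p' v)) hF hχ hψ hH hHF η ζ
    rw [h η, e1, e2] at h1
    have h2 := hS2 (Ee p' ζ) (E p η)
    rw [h2]
    show -(fderiv ℝ (fderiv ℝ (cc (n := n) p.1 p'.1)) (o p.1, o p'.1)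
      (0, Ee p' ζ) (Ee p η, 0)) = 0
    rw [← h1, neg_zero]
  -- the vector is a multiple of the velocity
  set v : TangentSpace (𝓡 n) p.1 := S (Ee p' ζ) with hv
  set lam : ℝ := inner ℝ p.2 v with hlam
  have hpp2 : inner ℝ p.2 p.2 = (1 : ℝ) := by
    rw [real_inner_self_eq_norm_sq, hp, one_pow]
  have hv1 : v = lam • p.2 := by
    have h1 : inner ℝ p.2 (v - lam • p.2) = (0 : ℝ) := by
      rw [inner_sub_right, real_inner_smul_right, hpp2, mul_one, ← hlam, sub_self]
    obtain ⟨η, hη⟩ := (range_E hp (v - lam • p.2)).2 h1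
    have h2 := key η
    rw [hη] at h2
    have h3 : inner ℝ (v - lam • p.2) (v - lam • p.2) = (0 : ℝ) := by
      rw [inner_sub_left, h2, real_inner_smul_left, h1, mul_zero, sub_zero]
    exact sub_eq_zero.1 (inner_self_eq_zero.1 h3)
  -- the image of the velocity
  have hvel : fderiv ℝ (ec G p.1 (G.ex p.1 (τ • p.2))) (τ • p.2) p.2 = (p'.2 : EE n) := by
    have l1 : HasDerivAt (fun t : ℝ => t • p.2) p.2 τ := by
      simpa using (hasDerivAt_id τ).smul_const p.2
    have h1 : HasFDerivAt (ec G p.1 (G.ex p.1 (τ • p.2)))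
        (fderiv ℝ (ec G p.1 (G.ex p.1 (τ • p.2))) (τ • p.2)) ((fun t : ℝ => t • p.2) τ) :=
      ((ec_contDiffAt G p.1 (τ • p.2)).differentiableAt (by simp)).hasFDerivAt
    have h2 := h1.comp_hasDerivAt τ l1
    have h3 := hasDerivAt_chart_curve (γ := fun t : ℝ => G.ex p.1 (t • p.2)) (t₀ := τ)
      (GeoBasic616.mdifferentiableAt_ray G p.1 p.2 τ)
    exact h2.unique h3
  have h4 : Ee p' ζ = lam • (p'.2 : EE n) := by
    have h5 := hS1 (Ee p' ζ)
    rw [← hv, hv1, map_smul, hvel] at h5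
    exact h5.symm
  have h6 : E p' ζ = lam • p'.2 := h4
  have h7 : lam = 0 := by
    have h8 := inner_E hp' ζ
    rw [h6, real_inner_smul_right, real_inner_self_eq_norm_sq, hp', one_pow, mul_one] at h8
    exact h8
  rw [h7, zero_smul] at h6
  have h9 := norm_E hp' ζ
  rw [h6, norm_zero] at h9
  exact norm_eq_zero.1 h9.symm

end flow2

/-! ### the distance -/

section D

variable {G} (c : Cg G) {N : ℕ} [NeZero N] (h : c.l / N < G.r₀) (i : ZMod N)

theorem D_eq : D c N i = fun q => Real.sqrt (2 * Hp G (c.pt N i) (G.Flow (c.l / N) (c.pt N i)) q)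
    - c.l / N := by
  funext q
  rw [D, sg_eq, sg_eq, c.pt_succ, Hp, halfDistSq]
  congr 1
  rw [mul_div_cancel₀ _ (two_ne_zero' ℝ), Real.sqrt_sq dist_nonneg]

theorem step_pos : 0 < c.l / N := div_pos c.l_pos (Nat.cast_pos.2 (NeZero.pos N))

theorem contDiffAt_sqrt {a : ℝ} (b : ℝ) (ha : 0 < a) :
    ContDiffAt ℝ ∞ (fun s : ℝ => Real.sqrt (2 * s) - b) a := by
  have h1 : ContDiffAt ℝ ∞ (fun s : ℝ => 2 * s) a := contDiffAt_const.mul contDiffAt_id
  have h2 : (fun s : ℝ => 2 * s) a ≠ 0 := by simp only; positivity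
  exact (ContDiffAt.sqrt h1 h2).sub contDiffAt_const

include h

theorem contDiffAt_D : ContDiffAt ℝ ∞ (D c N i) (0, 0) := by
  rw [D_eq]
  have h1 := contDiffAt_Hp0 G (c.norm_pt N i) (step_pos c) h
  have h2 := Hp_zero G (c.norm_pt N i) (step_pos c) h
  refine ContDiffAt.comp (g := fun s : ℝ => Real.sqrt (2 * s) - c.l / N) (0, 0) ?_ h1
  rw [h2]
  have := step_pos c (N := N)
  exact contDiffAt_sqrt _ (by positivity)

theorem contDiffAt_D_two : ContDiffAt ℝ 2 (D c N i) (0, 0) := (contDiffAt_D c h i).of_le two_le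


theorem second_D (v w : Sl n × Sl n) : ∃ k : ℝ, k ≠ 0 ∧
    fderiv ℝ (fderiv ℝ (D c N i)) (0, 0) v w
      = k * fderiv ℝ (fderiv ℝ (Hp G (c.pt N i) (G.Flow (c.l / N) (c.pt N i)))) (0, 0) v w := by
  rw [D_eq]
  have h1 := contDiffAt_Hp0 G (c.norm_pt N i) (step_pos c) h
  have h2 := Hp_zero G (c.norm_pt N i) (step_pos c) h
  have hs := step_pos c (N := N)
  have hpos : 0 < (c.l / N) ^ 2 / 2 := by positivity
  refine ⟨deriv (fun s : ℝ => Real.sqrt (2 * s) - c.l / N)
    (Hp G (c.pt N i) (G.Flow (c.l / N) (c.pt N i)) (0, 0)), ?_, ?_⟩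
  · rw [h2]
    have h3 : HasDerivAt (fun s : ℝ => Real.sqrt (2 * s) - c.l / N)
        ((2 * 1) / (2 * Real.sqrt (2 * ((c.l / N) ^ 2 / 2)))) ((c.l / N) ^ 2 / 2) := by
      refine (HasDerivAt.sqrt ((hasDerivAt_id _).const_mul 2) ?_).sub_const _
      show 2 * ((c.l / N) ^ 2 / 2) ≠ 0
      positivity
    rw [h3.deriv]
    have : 0 < Real.sqrt (2 * ((c.l / N) ^ 2 / 2)) := Real.sqrt_pos.2 (by positivity)
    positivity
  · refine GMCalc654.second_outer (g := fun s : ℝ => Real.sqrt (2 * s) - c.l / N) ?_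
      (h1.of_le two_le) (fderiv_Hp G (c.norm_pt N i) (step_pos c) h) v w
    rw [h2]
    exact (contDiffAt_sqrt _ hpos).of_le two_le

/-- **twist** -/
theorem twist_right {ζ : Sl n} (hz : ∀ η : Sl n,
    fderiv ℝ (fderiv ℝ (D c N i)) (0, 0) (0, ζ) (η, 0) = 0) : ζ = 0 := by
  refine twist_Hp G (c.norm_pt N i) (step_pos c) h fun η => ?_
  obtain ⟨k, hk, he⟩ := second_D c h i (0, ζ) (η, 0)
  rw [hz η] at he
  exact (mul_eq_zero.1 he.symm).resolve_left hk



end D

end Crest.Agent.R231.GMSlx654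
end
end

-- ▼ part R231/GMPoint_529

/-!
# Row 231 (S0357), block GM (helper529): ONE constant for all critical points

`point_bound` : there is ONE `C` such that for every closed geodesic `γ : Lp M` of length `s` (all iterates,
both orientations) and every `b` with `s < b ≤ 2 s`:  `SR (X M b) (XL M s) {γ} C`.

Inputs: `B1`, `B2` (888, 898 via 102), `SliceDom` (889), `DomStmt` (537), isolatedness (320).
-/

set_option autoImplicit false
set_option linter.unusedSectionVars false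

noncomputable section

open Bundle Set Filter
open scoped Manifold ContDiff Bundle ENNReal Topology
open Crest.GeometryTopology.MTW
open Crest.Agent.R226 Crest.Agent.R226.GeoBasic616
open Crest.Agent.R231.Pairx877 Crest.Agent.R231.GM898
open Crest.Agent.R231.GLugx576 Crest.Agent.R231.GeoLugx724 Crest.Agent.R231.GeoSegx724
open Crest.Agent.R231.GMSlx654 Crest.Agent.R231.GMGeox889 Crest.Agent.R231.GMRedx102
open Crest.Agent.R231.GMAbsx102 Crest.Agent.R231.GMSysx320
open Crest.Agent.R231.PrimeGeox893 Crest.Agent.R231.CritPMx893 Crest.Agent.R231.Frontx893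
open Crest.Agent.R231.GMAdaptx529 (cv cv_eq cv_per cv_geo exists_cg)

namespace Crest.Agent.R231.GMPointx529

/-- transport of `SR` along maps with `ψ ∘ φ = id` -/
theorem SR.of_inv {E E' : Type} [TopologicalSpace E] [TopologicalSpace E']
    {X A K : Set E} {X' A' K' : Set E'} {C : ℕ} (h : SR X' A' K' C) {φ : E → E'} {ψ : E' → E}
    (hφ : Continuous φ) (hψ : Continuous ψ) (hid : ∀ x, ψ (φ x) = x)
    (hX : MapsTo φ X X') (hA : ∀ x ∈ X, x ∈ A → φ x ∈ A') (hK : MapsTo φ K K')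
    (hX' : MapsTo ψ X' X) (hA' : ∀ y ∈ X', y ∈ A' → ψ y ∈ A) (hK' : MapsTo ψ K' K) :
    SR X A K C := by
  intro U' hU' hKU'
  obtain ⟨V, hV, hKV, hVV', hr⟩ := h (ψ ⁻¹' U') (hU'.preimage hψ) (fun y hy => hKU' (hK' hy))
  refine ⟨φ ⁻¹' V ∩ U', (hV.preimage hφ).inter hU', fun x hx => ⟨hKV (hK hx), hKU' hx⟩,
    inter_subset_right, ?_⟩
  have cφ : ContinuousOn φ (φ ⁻¹' V ∩ U' ∩ X) := hφ.continuousOn
  have cψ : ContinuousOn ψ (ψ ⁻¹' U' ∩ X') := hψ.continuousOn
  refine RkLE.of_map (push (φ ⁻¹' V ∩ U' ∩ X) φ cφ) ?_ ?_ hr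
  · rintro z ⟨hz1, hz2⟩
    refine ⟨push_mem (Y' := V ∩ X') (fun x hx => ⟨hx.1.1, hX hx.2⟩) z hz1, ?_⟩
    show bdE E' (push _ φ cφ z) ∈ CS (V ∩ X' ∩ A')
    rw [bd_push z hz1]
    have hm : MapsTo φ (φ ⁻¹' V ∩ U' ∩ X ∩ A) (V ∩ X' ∩ A') :=
      fun x hx => ⟨⟨hx.1.1.1, hX hx.1.2⟩, hA x hx.1.2 hx.2⟩
    exact push_mem hm _ hz2
  · rintro z ⟨hz1, hz2⟩ hB
    rw [mem_Bp] at hB ⊢
    obtain ⟨w, hw, h1⟩ := hB
    refine ⟨push (ψ ⁻¹' U' ∩ X') ψ cψ w, push_mem (Y' := U' ∩ X) (fun y hy => ⟨hy.1, hX' hy.2⟩) w hw, ?_⟩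
    have hz3 : push (φ ⁻¹' V ∩ U' ∩ X) φ cφ z ∈ CS (ψ ⁻¹' U' ∩ X') :=
      CS_mono (inter_subset_inter_left _ hVV')
        (push_mem (Y' := V ∩ X') (fun x hx => ⟨hx.1.1, hX hx.2⟩) z hz1)
    have e1 : push (ψ ⁻¹' U' ∩ X') ψ cψ (push (φ ⁻¹' V ∩ U' ∩ X) φ cφ z) = z := by
      have h2 := push_push (E := E) (E' := E') (E'' := E) (X := φ ⁻¹' V ∩ U' ∩ X) (hf := cφ)
        (hk := cψ) (l := fun x => x) (hl := continuousOn_id)
        (fun x hx => ⟨hVV' hx.1.1, hX hx.2⟩) (fun x _ => hid x) z hz1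
      rw [h2]
      exact push_id z hz1
    have e2 : z - bdE E (push (ψ ⁻¹' U' ∩ X') ψ cψ w) =
        push (ψ ⁻¹' U' ∩ X') ψ cψ (push (φ ⁻¹' V ∩ U' ∩ X) φ cφ z - bdE E' w) := by
      rw [map_sub, e1, bd_push w hw]
    rw [e2]
    have hm : MapsTo ψ (ψ ⁻¹' U' ∩ X' ∩ A') (U' ∩ X ∩ A) :=
      fun y hy => ⟨⟨hy.1.1, hX' hy.1.2⟩, hA' y hy.1.2 hy.2⟩
    exact push_mem hm _ h1

theorem rot_mem_XL {M : Type*} [MetricSpace M] {s : ℝ} {g : Lp M} (h : g ∈ XL M s)
    (a : UnitAddCircle) : rot a g ∈ XL M s := by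
  obtain ⟨t, ht, hg⟩ := h
  exact ⟨t, ht, rot_mem hg a⟩

/-- rotation invariance of the semilocal rank bound -/
theorem SR_rot {M : Type} [MetricSpace M] {b s : ℝ} {g : Lp M} {C : ℕ}
    (h : SR (X M b) (XL M s) {g} C) (a : UnitAddCircle) :
    SR (X M b) (XL M s) {rot a g} C := by
  refine SR.of_inv h (φ := rot (-a)) (ψ := rot a) (rot (-a)).continuous (rot a).continuous ?_
    (fun x hx => rot_mem hx _) (fun x _ hx => rot_mem_XL hx _) ?_ (fun x hx => rot_mem hx _)
    (fun x _ hx => rot_mem_XL hx _) ?_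
  · intro x
    rw [rot_rot, add_neg_cancel, rot_zero]
  · rintro x rfl
    show rot (-a) (rot a g) = g
    rw [rot_rot, neg_add_cancel, rot_zero]
  · rintro x rfl
    rfl

/-- the statement (Dom) of helper537 for the maps of helper889 -/
def DomStmt (M : Type) [MetricSpace M] : Prop :=
  ∀ (Z : Type) [TopologicalSpace Z] [Zero Z] (F : Z → ℝ) (g0 : Lp M) (b s : ℝ) (C : ℕ),
    Maps F g0 b s → LB (0 : Z) {p | F p < 0} C → SR (X M b) (XL M s) {g0} C

variable {n : ℕ} {M : Type} [MetricSpace M] [ChartedSpace (EuclideanSpace ℝ (Fin n)) M]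
  [IsManifold (𝓡 n) ∞ M]
  [RiemannianBundle (fun p : M => TangentSpace (𝓡 n) p)]
  [IsContMDiffRiemannianBundle (𝓡 n) ∞ (EuclideanSpace ℝ (Fin n))
    (fun p : M => TangentSpace (𝓡 n) p)]

/-- the statement of helper320 (S4): `0` is an isolated critical point of all iterates -/
def Isol {G : GeoData n M} (c : Cg G) (N : ℕ) : Prop :=
  ∀ (m : ℕ) [NeZero (N * m)], ∀ᶠ p in 𝓝[≠] (0 : ZMod (N * m) → Sl n),
    fderiv ℝ (Fm (D c N) m) p ≠ 0

theorem exists_N (l r : ℝ) (hr : 0 < r) : ∃ N : ℕ, 0 < N ∧ 4 * l / N < r := by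
  obtain ⟨N, hN⟩ := exists_nat_gt (max 1 (4 * l / r))
  have h1 : (1 : ℝ) < N := lt_of_le_of_lt (le_max_left _ _) hN
  have h2 : 4 * l / r < N := lt_of_le_of_lt (le_max_right _ _) hN
  have h0 : (0 : ℝ) < N := by linarith
  refine ⟨N, by exact_mod_cast h0, ?_⟩
  rw [div_lt_iff₀ hr] at h2
  rw [div_lt_iff₀ h0]
  linarith

variable {G : GeoData n M}

/-- **one closed geodesic, all iterates** -/
theorem cg_bound (b1 : B1) (b2 : B2) (hdom : DomStmt M)
    (hSD : ∀ A : SliceSys (lug G) (Sl n), SliceDom A) (c : Cg G)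
    (hiso : ∀ N : ℕ, 0 < N → 4 * c.l / N < G.r₀ → Isol c N) :
    ∃ C : ℕ, ∀ m : ℕ, 0 < m → ∀ g0 : Lp M, (∀ x : ℝ, g0 x = cv c (m * c.l * x)) →
      ∀ b : ℝ, m * c.l < b → b ≤ 2 * (m * c.l) → SR (X M b) (XL M (m * c.l)) {g0} C := by
  obtain ⟨N, hN0, hN⟩ := exists_N c.l G.r₀ G.r₀_pos
  have hNe : NeZero N := ⟨hN0.ne'⟩
  have hNpos : (0 : ℝ) < N := by exact_mod_cast hN0
  have hlN : c.l / N < G.r₀ := by
    refine lt_of_le_of_lt ?_ hN
    have h1 := c.l_pos
    rw [div_le_div_iff_of_pos_right hNpos]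
    linarith
  obtain ⟨C, hC⟩ := gm_abs b1 b2 (D c N) (contDiffAt_D_two c hlN)
    (fun i x hx => twist_right c hlN i hx)
    (Finset.sum_eq_zero fun i _ => D_zero c hlN i) (hiso N hN0 hN)
  refine ⟨C, fun m hm g0 hg0 b hb1 hb2 => ?_⟩
  have hNm : NeZero (N * m) := ⟨Nat.mul_ne_zero hN0.ne' hm.ne'⟩
  have hNm' : NeZero ((sliceSys c N hN).N * m) := hNm
  obtain ⟨Mp⟩ := hSD (sliceSys c N hN) m g0 hm hg0 b hb1 hb2
  exact hdom _ _ g0 b _ C Mp (hC m)

/-- **ONE constant for all critical points** -/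
theorem point_bound [CompactSpace M] (b1 : B1) (b2 : B2) (hdom : DomStmt M)
    (hSD : ∀ A : SliceSys (lug G) (Sl n), SliceDom A)
    (hiso : ∀ (c : Cg G) (N : ℕ), 0 < N → 4 * c.l / N < G.r₀ → Isol c N)
    {ι : Type} [Finite ι] (S : PrimeSys M G.r₀ ι) :
    ∃ C : ℕ, ∀ (s : ℝ) (g : Lp M), IsGeo s g → ∀ b : ℝ, s < b → b ≤ 2 * s →
      SR (X M b) (XL M s) {g} C := by
  classical
  have := Fintype.ofFinite ι
  have hr := G.r₀_pos
  -- the prime loops with orientation
  have hprime : ∀ (i : ι) (e : Bool), ∃ c : Cg G, c.l = S.l i ∧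
      ∀ u : ℝ, S.c i (sgn e * u) = cv c u := by
    intro i e
    have hl := S.l_pos i
    obtain ⟨γ, hγ1, hγ2⟩ := exists_circle (S := S) hr hl i e ⟨1, one_pos, by simp⟩
    have hγ3 : γ ∈ {γ : Lp M | up γ ∈ S.orbit i (sgn e) (S.l i)} := by
      rw [hγ2]
      exact ⟨0, rot_zero γ⟩
    obtain ⟨a, ha⟩ := hγ3
    -- rotate so that the phase is `0`
    set b : ℝ := -(sgn e * a / S.l i) with hb
    have hg : up (rot (b : UnitAddCircle) γ) = fun t => S.c i (sgn e * S.l i * t) := by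
      rw [up_rot, ha]
      funext t
      show S.c i (sgn e * S.l i * (t + b) + a) = S.c i (sgn e * S.l i * t)
      congr 1
      have h1 : sgn e * S.l i * b = -a := by
        rw [hb]
        have h2 := sgn_mul_self e
        field_simp
        linear_combination (-a) * h2
      rw [mul_add, h1]
      ring
    have hgeo : IsGeo (S.l i) (rot (b : UnitAddCircle) γ) :=
      isGeo_rot (isGeo_of_mem_critP hr hγ1) _
    obtain ⟨c, hc1, hc2⟩ := exists_cg (G := G) hgeo
    refine ⟨c, hc1, fun u => ?_⟩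
    have h3 := hc2 (u / S.l i)
    have h4 := congrFun hg (u / S.l i)
    rw [up_apply, h3] at h4
    rw [mul_div_cancel₀ _ hl.ne'] at h4
    rw [h4]
    congr 1
    field_simp
  choose c hcl hcv using hprime
  have hCb := fun i e => cg_bound b1 b2 hdom hSD (c i e) (hiso (c i e))
  choose C hC using hCb
  refine ⟨∑ i, (C i true + C i false), fun s g hg b hb1 hb2 => ?_⟩
  have hle : ∀ i e, C i e ≤ ∑ i, (C i true + C i false) := by
    intro i e
    have h1 : C i e ≤ C i true + C i false := by cases e <;> omega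
    exact h1.trans (Finset.single_le_sum (f := fun i => C i true + C i false)
      (fun _ _ => Nat.zero_le _) (Finset.mem_univ i))
  -- classify `g`
  have hmem : g ∈ critP S true s ∪ critP S false s := by
    exact (Set.ext_iff.1 (setOf_isGeo (lug G) (locMin G) (nonBr G) (S := S) s) g).1 hg
  have key : ∀ e : Bool, g ∈ critP S e s →
      SR (X M b) (XL M s) {g} (∑ i, (C i true + C i false)) := by
    rintro e ⟨i, m, hm, hs, a, ha⟩
    have hl := S.l_pos i
    have hm0 : (0 : ℝ) < m := by exact_mod_cast hm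
    have hspos : 0 < s := by rw [hs]; positivity
    -- rotate to phase `0`
    set β : ℝ := -(sgn e * a / s) with hβ
    have hg0 : ∀ x : ℝ, rot (β : UnitAddCircle) g x = cv (c i e) (m * (c i e).l * x) := by
      intro x
      have h1 : up (rot (β : UnitAddCircle) g) x = S.c i (sgn e * s * x) := by
        rw [up_rot, ha]
        show S.c i (sgn e * s * (x + β) + a) = _
        congr 1
        have h1 : sgn e * s * β = -a := by
          rw [hβ]
          have h2 := sgn_mul_self e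
          field_simp
          linear_combination (-a) * h2
        rw [mul_add, h1]
        ring
      rw [up_apply] at h1
      rw [h1, hcl, ← hs, ← hcv]
      congr 1
      ring
    have h5 := hC i e m hm (rot (β : UnitAddCircle) g) hg0 b (by rw [hcl, ← hs]; exact hb1)
      (by rw [hcl, ← hs]; exact hb2)
    rw [hcl, ← hs] at h5
    have h6 := SR_rot h5 (-(β : UnitAddCircle))
    rw [rot_rot, neg_add_cancel, rot_zero] at h6
    intro U' hU' hK
    obtain ⟨U, hU1, hU2, hU3, hU4⟩ := h6 U' hU' hK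
    exact ⟨U, hU1, hU2, hU3, hU4.mono subset_rfl subset_rfl subset_rfl subset_rfl (hle i e)⟩
  rcases hmem with h | h
  · exact key true h
  · exact key false h

end Crest.Agent.R231.GMPointx529
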