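import Crest.Agent.R231.Smith_566
import Crest.Agent.R231.Pair_877

/-!
# Row 231, block H/R (helper566): small chains for a family of subsets of a subset of an ambient space

* `cs_In_eq_CS : cs (In X) = CS X` (helper877's `CS`), `cs_InC_eq : cs (InC 𝒰) = ⨆ U ∈ 𝒰, CS U`
* `cs_inf`, `CS_inf : CS S ⊓ CS T = CS (S ∩ T)`
* `small_acyc_sub` : small chains theorem, degreewise relative acyclicity, arbitrary family
* `small_acyc_pair` : the family `{S, T}`, `X = S ∪ T`
-/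

set_option autoImplicit false

noncomputable section

namespace Crest.Agent.R231.Smx566

open Crest.Agent.R204 Crest.Agent.R204.Exc406 Function Topology Finsupp
open Crest.Agent.R231.Pairx877

theorem cs_inf {K : SS} (P Q : ∀ n, K.S n → Prop) : cs P ⊓ cs Q = cs (fun n x => P n x ∧ Q n x) := by
  apply le_antisymm
  · rintro c ⟨h1, h2⟩
    rw [← Smx566.res_of_mem h1]
    have : cs Q ≤ (cs (fun n x => P n x ∧ Q n x)).comap (Smx566.res P) := by
      refine cs_le fun n x hx => ?_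
      rw [Submodule.mem_comap, Smx566.res_sx]
      split_ifs with h
      · exact sx_mem_cs ⟨h, hx⟩
      · exact Submodule.zero_mem _
    exact this h2
  · exact le_inf (cs_mono fun n x h => h.1) (cs_mono fun n x h => h.2)

section top

variable {E : Type} [TopologicalSpace E]

theorem cs_In_eq_CS (X : Set E) : cs (In X) = CS X :=
  le_antisymm (cs_le fun _ _ h => sx_mem_CS h) (CS_le fun _ _ h => sx_mem_cs h)

theorem CS_inf (S T : Set E) : CS S ⊓ CS T = CS (S ∩ T) := by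
  rw [← cs_In_eq_CS, ← cs_In_eq_CS, ← cs_In_eq_CS, cs_inf]
  exact cs_congr fun n x => ⟨fun h t => ⟨h.1 t, h.2 t⟩, fun h => ⟨fun t => (h t).1, fun t => (h t).2⟩⟩

theorem cs_InC_eq (𝒰 : Set (Set E)) : cs (InC 𝒰) = ⨆ U ∈ 𝒰, CS U := by
  apply le_antisymm
  · refine cs_le fun n σ h => ?_
    obtain ⟨U, hU, h⟩ := h
    exact (le_iSup₂ (f := fun U (_ : U ∈ 𝒰) => CS U) U hU) (sx_mem_CS h)
  · refine iSup₂_le fun U hU => ?_
    rw [← cs_In_eq_CS]
    exact cs_mono fun n x h => ⟨U, hU, h⟩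

theorem cs_InC_pair (S T : Set E) : cs (InC {S, T}) = CS S ⊔ CS T := by
  rw [cs_InC_eq, iSup_pair]

/-- the family of preimages -/
def famPre (X : Set E) (𝒰 : Set (Set E)) : Set (Set X) :=
  (fun U => (Subtype.val ⁻¹' U : Set X)) '' 𝒰

theorem cs_InC_eq_map {X : Set E} {𝒰 : Set (Set E)} (h𝒰 : ∀ U ∈ 𝒰, U ⊆ X) :
    cs (InC 𝒰) = (cs (InC (famPre X 𝒰))).map (N.map F2 (SS.SingMap (inc X))) := by
  apply le_antisymm
  · refine cs_le fun n σ h => ?_
    obtain ⟨U, hU, h⟩ := h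
    obtain ⟨τ, rfl⟩ := exists_lift σ (fun t => h𝒰 U hU (h t))
    exact ⟨N.sx F2 τ, sx_mem_cs ⟨_, ⟨U, hU, rfl⟩, h⟩, N.map_sx _ _⟩
  · rintro _ ⟨c, hc, rfl⟩
    refine map_mem_cs _ (fun n x h => ?_) hc
    obtain ⟨_, ⟨U, hU, rfl⟩, h⟩ := h
    exact ⟨U, hU, h⟩




end top

end Crest.Agent.R231.Smx566
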