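import Crest.Agent.R231.GMDefs_898
import Crest.Agent.R231.PairH_877
import Crest.Agent.R231.Small_566
import Crest.Agent.R231.SmallCS_226

/-!
# Row 231, block GM (helper537): calculus of the semilocal rank bound `SR X A K C` (helper898)

* `SR.mono`, `SR.exists_sub`, `SR.empty`
* `SR.dom` : domination (one composite homotopic to the identity)
* `SR.union` : Mayer-Vietoris, `SR (K₁ ∪ K₂) ≤ SR K₁ + SR K₂ + SR (K₁ ∩ K₂)`
* `SR.union_disj` : disjoint closed sets add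
-/

set_option autoImplicit false

noncomputable section

open Topology Set

namespace Crest.Agent.R231.GM898

open Crest.Agent.R204 Crest.Agent.R231.Pairx877 Crest.Agent.R231.Smx566
  Crest.Agent.R231.SmallCSx226

variable {E E' : Type} [TopologicalSpace E] [TopologicalSpace E']

theorem RkLE.sup_right {M : Type*} [AddCommGroup M] [Module (ZMod 2) M]
    {Z B : Submodule (ZMod 2) M} {C : ℕ} (h : RkLE Z B C) : RkLE (Z ⊔ B) B C := by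
  obtain ⟨w, hw⟩ := h
  exact ⟨w, sup_le hw le_sup_right⟩

/-- transport: `ψ ∘ φ` is the identity modulo `B` -/
theorem RkLE.transport {M M' : Type*} [AddCommGroup M] [Module (ZMod 2) M] [AddCommGroup M']
    [Module (ZMod 2) M'] {Z B : Submodule (ZMod 2) M} {Z' B' : Submodule (ZMod 2) M'} {C : ℕ}
    (h : RkLE Z' B' C) (φ : M →ₗ[ZMod 2] M') (ψ : M' →ₗ[ZMod 2] M) (hφ : ∀ z ∈ Z, φ z ∈ Z')
    (hψ : ∀ b ∈ B', ψ b ∈ B) (hid : ∀ z ∈ Z, z - ψ (φ z) ∈ B) : RkLE Z B C := by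
  obtain ⟨w, hw⟩ := h
  refine ⟨fun i => ψ (w i), fun z hz => ?_⟩
  obtain ⟨a, ha, b, hb, hab⟩ := Submodule.mem_sup.1 (hw (hφ z hz))
  have h1 : ψ a ∈ Submodule.span (ZMod 2) (Set.range fun i => ψ (w i)) := by
    have : (Set.range fun i => ψ (w i)) = ψ '' Set.range w := by
      rw [← Set.range_comp]; rfl
    rw [this, ← Submodule.map_span]
    exact ⟨a, ha, rfl⟩
  refine Submodule.mem_sup.2 ⟨ψ a, h1, ψ b + (z - ψ (φ z)), B.add_mem (hψ b hb) (hid z hz), ?_⟩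
  rw [← hab, map_add]; abel


theorem SR.mono {X A K : Set E} {C C' : ℕ} (h : SR X A K C) (hC : C ≤ C') : SR X A K C' := by
  intro U' hU' hK
  obtain ⟨U, hU, hKU, hUU, hr⟩ := h U' hU' hK
  exact ⟨U, hU, hKU, hUU, hr.mono le_rfl le_rfl le_rfl le_rfl hC⟩

theorem SR.empty (X A : Set E) : SR X A ∅ 0 := by
  intro U' _ _
  refine ⟨∅, isOpen_empty, le_rfl, empty_subset _, rkLE_zero ?_ 0⟩
  rw [empty_inter, empty_inter]
  intro c hc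
  have : c ∈ CS (∅ : Set E) := hc.1
  rw [CS_empty, Submodule.mem_bot] at this
  rw [this]; exact Submodule.zero_mem _

/-- a map continuous on `N ∩ X`, `K ⊆ X`, with values in an open set on `K` -/
theorem exists_open_of_contOn {N X K : Set E} {f : E → E'} (hf : ContinuousOn f (N ∩ X))
    (hN : IsOpen N) (hKN : K ⊆ N) (hKX : K ⊆ X) {W : Set E'} (hW : IsOpen W) (hKW : MapsTo f K W) :
    ∃ O, IsOpen O ∧ K ⊆ O ∧ O ⊆ N ∧ MapsTo f (O ∩ X) W := by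
  obtain ⟨G, hG, hGe⟩ := continuousOn_iff'.1 hf W hW
  refine ⟨G ∩ N, hG.inter hN, fun x hx => ⟨?_, hKN hx⟩, inter_subset_right, ?_⟩
  · have : x ∈ f ⁻¹' W ∩ (N ∩ X) := ⟨hKW hx, hKN hx, hKX hx⟩
    rw [hGe] at this
    exact this.1
  · rintro x ⟨⟨hx1, hx2⟩, hx3⟩
    have : x ∈ G ∩ (N ∩ X) := ⟨hx1, hx2, hx3⟩
    rw [← hGe] at this
    exact this.1

/-- tube lemma for a homotopy -/
theorem exists_open_of_tube {N X K : Set E} {h : E → ℝ → E'}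
    (hh : ContinuousOn (fun p : E × ℝ => h p.1 p.2) ((N ∩ X) ×ˢ Icc (0 : ℝ) 1))
    (hN : IsOpen N) (hKN : K ⊆ N) (hKX : K ⊆ X) {W : Set E'} (hW : IsOpen W)
    (hKW : ∀ x ∈ K, ∀ t ∈ Icc (0 : ℝ) 1, h x t ∈ W) :
    ∃ O, IsOpen O ∧ K ⊆ O ∧ O ⊆ N ∧ ∀ x ∈ O ∩ X, ∀ t ∈ Icc (0 : ℝ) 1, h x t ∈ W := by
  obtain ⟨G, hG, hGe⟩ := continuousOn_iff'.1 hh W hW
  have key : ∀ x ∈ K, ∃ O : Set E, IsOpen O ∧ x ∈ O ∧ O ×ˢ Icc (0 : ℝ) 1 ⊆ G := by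
    intro x hx
    obtain ⟨u, v, hu, _, hxu, hv, huv⟩ := generalized_tube_lemma (s := {x}) isCompact_singleton
      (t := Icc (0 : ℝ) 1) isCompact_Icc hG (by
        rintro ⟨y, t⟩ ⟨hy, ht⟩
        rw [mem_singleton_iff] at hy
        simp only at hy ht
        subst hy
        have : (y, t) ∈ (fun p : E × ℝ => h p.1 p.2) ⁻¹' W ∩ ((N ∩ X) ×ˢ Icc (0 : ℝ) 1) :=
          ⟨hKW y hx t ht, ⟨hKN hx, hKX hx⟩, ht⟩
        rw [hGe] at this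
        exact this.1)
    exact ⟨u, hu, hxu rfl, (prod_mono le_rfl hv).trans huv⟩
  choose! O hO1 hO2 hO3 using key
  refine ⟨(⋃ x ∈ K, O x) ∩ N, (isOpen_biUnion hO1).inter hN, fun x hx =>
    ⟨mem_biUnion hx (hO2 x hx), hKN hx⟩, inter_subset_right, ?_⟩
  rintro x ⟨⟨hx1, hx2⟩, hx3⟩ t ht
  obtain ⟨y, hy, hxy⟩ := mem_iUnion₂.1 hx1
  have h1 : (x, t) ∈ G ∩ ((N ∩ X) ×ˢ Icc (0 : ℝ) 1) := ⟨hO3 y hy ⟨hxy, ht⟩, ⟨hx2, hx3⟩, ht⟩
  rw [← hGe] at h1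
  exact h1.1

/-- **domination** -/
theorem SR.dom {X A K : Set E} {X' A' K' : Set E'} {C : ℕ} (hSR : SR X' A' K' C)
    (hKX : K ⊆ X) (hKX' : K' ⊆ X')
    {N : Set E} (hN : IsOpen N) (hKN : K ⊆ N) {N' : Set E'} (hN' : IsOpen N') (hKN' : K' ⊆ N')
    (φ : E → E') (hφ : ContinuousOn φ (N ∩ X)) (hφK : MapsTo φ K K')
    (hφX : MapsTo φ (N ∩ X) X') (hφA : ∀ x ∈ N ∩ X, x ∈ A → φ x ∈ A')
    (ψ : E' → E) (hψ : ContinuousOn ψ (N' ∩ X')) (hψK : MapsTo ψ K' K)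
    (hψX : MapsTo ψ (N' ∩ X') X) (hψA : ∀ x ∈ N' ∩ X', x ∈ A' → ψ x ∈ A)
    (h : E → ℝ → E) (hh : ContinuousOn (fun p : E × ℝ => h p.1 p.2) ((N ∩ X) ×ˢ Icc (0 : ℝ) 1))
    (hhK : ∀ x ∈ K, ∀ t ∈ Icc (0 : ℝ) 1, h x t ∈ K)
    (h0 : ∀ x ∈ N ∩ X, h x 0 = x) (h1 : ∀ x ∈ N ∩ X, φ x ∈ N' → h x 1 = ψ (φ x))
    (hX : ∀ x ∈ N ∩ X, ∀ t ∈ Icc (0 : ℝ) 1, h x t ∈ X)
    (hA : ∀ x ∈ N ∩ X, x ∈ A → ∀ t ∈ Icc (0 : ℝ) 1, h x t ∈ A) :
    SR X A K C := by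
  intro U' hU' hKU'
  -- choose `W'` with `ψ (W' ∩ X') ⊆ U'`
  obtain ⟨W', hW', hKW', hWN', hψW'⟩ := exists_open_of_contOn hψ hN' hKN' hKX' hU'
    (fun x hx => hKU' (hψK hx))
  obtain ⟨W, hW, hKW, hWW, hrk⟩ := hSR W' hW' hKW'
  obtain ⟨O₁, hO₁, hKO₁, hON₁, hO₁φ⟩ := exists_open_of_contOn hφ hN hKN hKX hW
    (fun x hx => hKW (hφK hx))
  obtain ⟨O₂, hO₂, hKO₂, hON₂, hO₂h⟩ := exists_open_of_tube hh hN hKN hKX hU'
    (fun x hx t ht => hKU' (hhK x hx t ht))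
  set O := U' ∩ O₁ ∩ O₂ with hOdef
  have hO : IsOpen O := (hU'.inter hO₁).inter hO₂
  have hKO : K ⊆ O := fun x hx => ⟨⟨hKU' hx, hKO₁ hx⟩, hKO₂ hx⟩
  have hOU' : O ⊆ U' := fun x hx => hx.1.1
  have hOO₁ : O ⊆ O₁ := fun x hx => hx.1.2
  have hOO₂ : O ⊆ O₂ := fun x hx => hx.2
  have hON : O ⊆ N := fun x hx => hON₁ (hOO₁ hx)
  refine ⟨O, hO, hKO, hOU', ?_⟩
  have hφO : ContinuousOn φ (O ∩ X) := hφ.mono (inter_subset_inter_left _ hON)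
  have hψW : ContinuousOn ψ (W' ∩ X') := hψ.mono (inter_subset_inter_left _ hWN')
  have hφW : MapsTo φ (O ∩ X) (W ∩ X') := fun x hx =>
    ⟨hO₁φ ⟨hOO₁ hx.1, hx.2⟩, hφX ⟨hON hx.1, hx.2⟩⟩
  have hφWB : MapsTo φ (O ∩ X ∩ A) (W ∩ X' ∩ A') := fun x hx =>
    ⟨hφW hx.1, hφA x ⟨hON hx.1.1, hx.1.2⟩ hx.2⟩
  -- the homotopy restricted to `O ∩ X`
  have hhO : ContinuousOn (fun p : E × ℝ => h p.1 p.2) ((O ∩ X) ×ˢ Icc (0 : ℝ) 1) :=
    hh.mono (prod_mono (inter_subset_inter_left _ hON) le_rfl)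
  have c1 : ContinuousOn (fun y => ψ (φ y)) (O ∩ X) :=
    hψW.comp hφO fun x hx => ⟨hWW (hφW hx).1, (hφW hx).2⟩
  have hone : ∀ x ∈ O ∩ X, h x 1 = ψ (φ x) := fun x hx =>
    h1 x ⟨hON hx.1, hx.2⟩ (hWN' (hWW (hφW hx).1))
  refine hrk.transport (push (O ∩ X) φ hφO) (push (W' ∩ X') ψ hψW) ?_ ?_ ?_
  · rintro z ⟨hz1, hz2⟩
    refine ⟨push_mem hφW z hz1, ?_⟩
    show bdE E' _ ∈ CS _
    rw [bd_push z hz1]
    exact push_mem hφWB _ hz2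
  · intro b hb
    obtain ⟨w, hw, hb⟩ := mem_Bp.1 hb
    refine mem_Bp.2 ⟨push (W' ∩ X') ψ hψW w, push_mem ?_ w hw, ?_⟩
    · intro x hx
      exact ⟨hψW' hx, hψX ⟨hWN' hx.1, hx.2⟩⟩
    · rw [bd_push w hw, ← map_sub]
      refine push_mem ?_ _ hb
      intro x hx
      exact ⟨⟨hψW' hx.1, hψX ⟨hWN' hx.1.1, hx.1.2⟩⟩, hψA x ⟨hWN' hx.1.1, hx.1.2⟩ hx.2⟩
  · rintro z ⟨hz1, hz2⟩
    have e1 : push (O ∩ X) (fun y => ψ (φ y)) c1 z =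
        push (W' ∩ X') ψ hψW (push (O ∩ X) φ hφO z) := by
      refine (push_push (l := fun y => ψ (φ y)) (hl := c1) ?_ (fun _ _ => rfl) z hz1).symm
      intro x hx
      exact ⟨hWW (hφW hx).1, (hφW hx).2⟩
    have e2 := bd_prismP (hF := hhO) (f0 := fun y => y)
      (h0 := (continuousOn_id : ContinuousOn (fun y => y) (O ∩ X)))
      (h1 := c1) (fun x hx => h0 x ⟨hON hx.1, hx.2⟩) hone z hz1
    rw [push_id z hz1, e1] at e2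
    have e4 : prismP (O ∩ X) h hhO z ∈ CS (U' ∩ X) := by
      refine prismP_mem ?_ z hz1
      intro y hy t ht
      exact ⟨hO₂h y ⟨hOO₂ hy.1, hy.2⟩ t ht, hX y ⟨hON hy.1, hy.2⟩ t ht⟩
    refine mem_Bp.2 ⟨prismP (O ∩ X) h hhO z, e4, ?_⟩
    have e3 : z - push (W' ∩ X') ψ hψW (push (O ∩ X) φ hφO z) - bdE E (prismP (O ∩ X) h hhO z) =
        prismP (O ∩ X) h hhO (bdE E z) := by
      rw [e2]
      simp only [ZModModule.sub_eq_add]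
      have e : ∀ a b p : CE E, a + b + (a + b + p) = (a + a) + (b + b) + p := fun a b p => by abel
      rw [e, add_self_CE, add_self_CE, zero_add, zero_add]
    rw [e3]
    refine prismP_mem ?_ _ hz2
    intro y hy t ht
    exact ⟨⟨hO₂h y ⟨hOO₂ hy.1.1, hy.1.2⟩ t ht, hX y ⟨hON hy.1.1, hy.1.2⟩ t ht⟩,
      hA y ⟨hON hy.1.1, hy.1.2⟩ hy.2 t ht⟩

/-- a rank bound from a relative cycle on a union of two open sets -/
theorem RkP.union {V₁ V₂ O₁ O₂ O₁₂ U' X A : Set E} {C₁ C₂ C₁₂ : ℕ} (hV₁ : IsOpen V₁)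
    (hV₂ : IsOpen V₂) (h1 : V₁ ⊆ O₁) (h2 : V₂ ⊆ O₂) (h12 : V₁ ∩ V₂ ⊆ O₁₂) (hO₁ : O₁ ⊆ U')
    (hO₂ : O₂ ⊆ U')
    (r1 : RkP (O₁ ∩ X) (O₁ ∩ X ∩ A) (U' ∩ X) (U' ∩ X ∩ A) C₁)
    (r2 : RkP (O₂ ∩ X) (O₂ ∩ X ∩ A) (U' ∩ X) (U' ∩ X ∩ A) C₂)
    (r12 : RkP (O₁₂ ∩ X) (O₁₂ ∩ X ∩ A) (O₁ ∩ O₂ ∩ X) (O₁ ∩ O₂ ∩ X ∩ A) C₁₂) :
    RkP ((V₁ ∪ V₂) ∩ X) ((V₁ ∪ V₂) ∩ X ∩ A) (U' ∩ X) (U' ∩ X ∩ A) (C₁ + C₂ + C₁₂) := by
  -- the linear relation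
  let P : Submodule (ZMod 2) (CE E × CE E × CE E × CE E × CE E) :=
    { carrier := {p | p.2.1 ∈ CS (V₁ ∩ X) ∧ p.2.2.1 ∈ CS (V₂ ∩ X) ∧
        p.2.2.2.1 ∈ CS (V₁ ∩ X ∩ A) ∧ p.2.2.2.2 ∈ CS (V₂ ∩ X ∩ A) ∧
        p.1 + (p.2.1 + p.2.2.1) ∈ Bp (U' ∩ X) (U' ∩ X ∩ A) ∧
        bdE E p.2.1 + p.2.2.2.1 = bdE E p.2.2.1 + p.2.2.2.2}
      zero_mem' := by
        refine ⟨zero_mem _, zero_mem _, zero_mem _, zero_mem _, ?_, ?_⟩
        · simp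
        · simp
      add_mem' := by
        rintro ⟨z, a, b, c, d⟩ ⟨z', a', b', c', d'⟩ ⟨e1, e2, e3, e4, e5, e6⟩
          ⟨f1, f2, f3, f4, f5, f6⟩
        simp only at e1 e2 e3 e4 e5 e6 f1 f2 f3 f4 f5 f6
        refine ⟨add_mem e1 f1, add_mem e2 f2, add_mem e3 f3, add_mem e4 f4, ?_, ?_⟩
        · have := add_mem e5 f5
          show z + z' + (a + a' + (b + b')) ∈ _
          have e : z + z' + (a + a' + (b + b')) = z + (a + b) + (z' + (a' + b')) := by abel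
          rw [e]; exact this
        · show bdE E (a + a') + (c + c') = bdE E (b + b') + (d + d')
          rw [map_add, map_add]
          have e : bdE E a + bdE E a' + (c + c') = (bdE E a + c) + (bdE E a' + c') := by abel
          rw [e, e6, f6]; abel
      smul_mem' := by
        rintro r ⟨z, a, b, c, d⟩ ⟨e1, e2, e3, e4, e5, e6⟩
        simp only at e1 e2 e3 e4 e5 e6
        refine ⟨Submodule.smul_mem _ _ e1, Submodule.smul_mem _ _ e2, Submodule.smul_mem _ _ e3,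
          Submodule.smul_mem _ _ e4, ?_, ?_⟩
        · have := Submodule.smul_mem _ r e5
          show r • z + (r • a + r • b) ∈ _
          rw [← smul_add, ← smul_add]; exact this
        · show bdE E (r • a) + r • c = bdE E (r • b) + r • d
          rw [map_smul, map_smul, ← smul_add, ← smul_add, e6] }
  let S : Submodule (ZMod 2) (CE E × CE E) :=
    P.map (LinearMap.prod (LinearMap.fst _ _ _)
      ((bdE E) ∘ₗ (LinearMap.fst (ZMod 2) (CE E) (CE E × CE E × CE E)) ∘ₗ LinearMap.snd _ _ _ +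
        (LinearMap.fst (ZMod 2) (CE E) (CE E)) ∘ₗ (LinearMap.snd (ZMod 2) (CE E) (CE E × CE E)) ∘ₗ
        (LinearMap.snd (ZMod 2) (CE E) (CE E × CE E × CE E)) ∘ₗ LinearMap.snd _ _ _))
  have memS : ∀ z e, (z, e) ∈ S ↔ ∃ a₁ ∈ CS (V₁ ∩ X), ∃ b₁ ∈ CS (V₂ ∩ X),
      ∃ a ∈ CS (V₁ ∩ X ∩ A), ∃ b ∈ CS (V₂ ∩ X ∩ A),
        z + (a₁ + b₁) ∈ Bp (U' ∩ X) (U' ∩ X ∩ A) ∧ bdE E a₁ + a = e ∧ bdE E b₁ + b = e := by
    intro z e
    constructor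
    · rintro ⟨⟨z', a₁, b₁, a, b⟩, ⟨e1, e2, e3, e4, e5, e6⟩, he⟩
      have he1 : z' = z := congrArg Prod.fst he
      have he2 : bdE E a₁ + a = e := congrArg Prod.snd he
      subst he1
      exact ⟨a₁, e1, b₁, e2, a, e3, b, e4, e5, he2, by rw [← he2]; exact e6.symm⟩
    · rintro ⟨a₁, h1, b₁, h2, a, h3, b, h4, h5, h6, h7⟩
      exact ⟨(z, a₁, b₁, a, b), ⟨h1, h2, h3, h4, h5, h6.trans h7.symm⟩, Prod.ext rfl h6⟩
  have hZ1 : RkLE ((Zp (O₁ ∩ X) (O₁ ∩ X ∩ A) ⊔ Zp (O₂ ∩ X) (O₂ ∩ X ∩ A)) ⊔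
      Bp (U' ∩ X) (U' ∩ X ∩ A)) (Bp (U' ∩ X) (U' ∩ X ∩ A)) (C₁ + C₂) :=
    (RkLE.sup r1 r2).sup_right
  have key : RkP ((V₁ ∪ V₂) ∩ X) ((V₁ ∪ V₂) ∩ X ∩ A) (U' ∩ X) (U' ∩ X ∩ A) (C₁₂ + (C₁ + C₂)) := by
    refine RkLE.add S ?_ ?_ _ ?_ r12 hZ1
    · -- existence of a decomposition
      rintro z ⟨hz1, hz2⟩
      have hz2' : bdE E z ∈ CS ((V₁ ∪ V₂) ∩ X ∩ A) := hz2
      have hcov : ∀ (Q : Set E), ∀ x ∈ (V₁ ∪ V₂) ∩ Q, V₁ ∈ 𝓝[(V₁ ∪ V₂) ∩ Q] x ∨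
          V₂ ∈ 𝓝[(V₁ ∪ V₂) ∩ Q] x := by
        rintro Q x ⟨hx | hx, _⟩
        · exact Or.inl (mem_nhdsWithin_of_mem_nhds (hV₁.mem_nhds hx))
        · exact Or.inr (mem_nhdsWithin_of_mem_nhds (hV₂.mem_nhds hx))
      obtain ⟨Op, hOp⟩ := exists_op (E := E) (κ := Bool) Finset.univ
        (fun i => bif i then (V₁ ∪ V₂) ∩ X else (V₁ ∪ V₂) ∩ X ∩ A) (ι := fun _ => Bool)
        (fun _ j => bif j then V₁ else V₂)
        (by
          intro i _ x hx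
          cases i
          · have hx' : x ∈ (V₁ ∪ V₂) ∩ (X ∩ A) := ⟨hx.1.1, hx.1.2, hx.2⟩
            rcases hcov (X ∩ A) x hx' with h | h
            · refine ⟨true, ?_⟩
              show V₁ ∈ 𝓝[(V₁ ∪ V₂) ∩ X ∩ A] x
              rw [inter_assoc]; exact h
            · refine ⟨false, ?_⟩
              show V₂ ∈ 𝓝[(V₁ ∪ V₂) ∩ X ∩ A] x
              rw [inter_assoc]; exact h
          · rcases hcov X x hx with h | h
            · exact ⟨true, h⟩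
            · exact ⟨false, h⟩)
        (fun i => bif i then z else bdE E z)
        (by
          intro i _
          cases i
          · exact hz2'
          · exact hz1)
      have d1 := hOp true (Finset.mem_univ _)
      have d2 := hOp false (Finset.mem_univ _)
      rw [iSup_bool_eq, Submodule.mem_sup] at d1 d2
      obtain ⟨a₁, ha₁, b₁, hb₁, hab₁⟩ := d1
      obtain ⟨a, ha, b, hb, hab⟩ := d2
      simp only [cond_true, cond_false] at ha₁ hb₁ hab₁ ha hb hab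
      have hS1 : (V₁ ∪ V₂) ∩ X ∩ V₁ ⊆ V₁ ∩ X := fun x hx => ⟨hx.2, hx.1.2⟩
      have hS2 : (V₁ ∪ V₂) ∩ X ∩ V₂ ⊆ V₂ ∩ X := fun x hx => ⟨hx.2, hx.1.2⟩
      have hS3 : (V₁ ∪ V₂) ∩ X ∩ A ∩ V₁ ⊆ V₁ ∩ X ∩ A := fun x hx => ⟨⟨hx.2, hx.1.1.2⟩, hx.1.2⟩
      have hS4 : (V₁ ∪ V₂) ∩ X ∩ A ∩ V₂ ⊆ V₂ ∩ X ∩ A := fun x hx => ⟨⟨hx.2, hx.1.1.2⟩, hx.1.2⟩
      refine ⟨bdE E a₁ + a, (memS _ _).2 ⟨a₁, CS_mono hS1 ha₁, b₁, CS_mono hS2 hb₁, a,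
        CS_mono hS3 ha, b, CS_mono hS4 hb, ?_, rfl, ?_⟩⟩
      · rw [hab₁, Op.htp z]
        have hUX : (V₁ ∪ V₂) ∩ X ⊆ U' ∩ X := inter_subset_inter_left _
          (union_subset (h1.trans hO₁) (h2.trans hO₂))
        refine mem_Bp.2 ⟨Op.T z, CS_mono hUX (Op.T_mem _ z hz1), ?_⟩
        rw [add_sub_cancel_left]
        exact CS_mono (inter_subset_inter_left _ hUX) (Op.T_mem _ _ hz2')
      · -- `∂ a₁ + a = ∂ b₁ + b`
        have e1 : bdE E a₁ + bdE E b₁ = a + b := by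
          rw [← map_add, hab₁, Op.bd_S, hab]
        have e2 : bdE E b₁ = bdE E a₁ + (a + b) := by
          rw [← e1, ← add_assoc, add_self_CE, zero_add]
        rw [e2]
        have e : bdE E a₁ + (a + b) + b = bdE E a₁ + a + (b + b) := by abel
        rw [e, add_self_CE, add_zero]
    · -- the difference is a relative cycle on `V₁ ∩ V₂`
      intro z e hze
      obtain ⟨a₁, ha₁, b₁, hb₁, a, ha, b, hb, _, hea, heb⟩ := (memS _ _).1 hze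
      refine ⟨?_, ?_⟩
      · have i1 : e ∈ CS (V₁ ∩ X) := by
          rw [← hea]
          exact add_mem (bd_mem_CS _ ha₁) (CS_mono inter_subset_left ha)
        have i2 : e ∈ CS (V₂ ∩ X) := by
          rw [← heb]
          exact add_mem (bd_mem_CS _ hb₁) (CS_mono inter_subset_left hb)
        have i3 : e ∈ CS ((V₁ ∩ X) ∩ (V₂ ∩ X)) := by
          rw [← CS_inf]; exact Submodule.mem_inf.2 ⟨i1, i2⟩
        have i4 : (V₁ ∩ X) ∩ (V₂ ∩ X) ⊆ O₁₂ ∩ X := fun x hx => ⟨h12 ⟨hx.1.1, hx.2.1⟩, hx.1.2⟩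
        exact CS_mono i4 i3
      · show bdE E e ∈ CS (O₁₂ ∩ X ∩ A)
        have i1 : bdE E e ∈ CS (V₁ ∩ X ∩ A) := by
          rw [← hea, map_add, bd_bdE, zero_add]
          exact bd_mem_CS _ ha
        have i2 : bdE E e ∈ CS (V₂ ∩ X ∩ A) := by
          rw [← heb, map_add, bd_bdE, zero_add]
          exact bd_mem_CS _ hb
        have i3 : bdE E e ∈ CS ((V₁ ∩ X ∩ A) ∩ (V₂ ∩ X ∩ A)) := by
          rw [← CS_inf]; exact Submodule.mem_inf.2 ⟨i1, i2⟩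
        have i4 : (V₁ ∩ X ∩ A) ∩ (V₂ ∩ X ∩ A) ⊆ O₁₂ ∩ X ∩ A := fun x hx =>
          ⟨⟨h12 ⟨hx.1.1.1, hx.2.1.1⟩, hx.1.1.2⟩, hx.1.2⟩
        exact CS_mono i4 i3
    · -- if the difference bounds then `z` is a sum
      intro z e hze he
      obtain ⟨a₁, ha₁, b₁, hb₁, a, ha, b, hb, hz, hea, heb⟩ := (memS _ _).1 hze
      obtain ⟨f, hf, hg⟩ := mem_Bp.1 he
      -- `e = ∂ f + g`
      have hO1X : (O₁ ∩ O₂) ∩ X ⊆ O₁ ∩ X := inter_subset_inter_left _ inter_subset_left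
      have hO2X : (O₁ ∩ O₂) ∩ X ⊆ O₂ ∩ X := inter_subset_inter_left _ inter_subset_right
      have z1 : a₁ + f ∈ Zp (O₁ ∩ X) (O₁ ∩ X ∩ A) := by
        refine ⟨add_mem (CS_mono (inter_subset_inter_left _ h1) ha₁) (CS_mono hO1X hf), ?_⟩
        show bdE E (a₁ + f) ∈ CS (O₁ ∩ X ∩ A)
        have : bdE E (a₁ + f) = a + (e - bdE E f) := by
          rw [map_add, ← hea, ZModModule.sub_eq_add]
          have e' : a + (bdE E a₁ + a + bdE E f) = bdE E a₁ + bdE E f + (a + a) := by abel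
          rw [e', add_self_CE, add_zero]
        rw [this]
        exact add_mem (CS_mono (inter_subset_inter_left _ (inter_subset_inter_left _ h1)) ha)
          (CS_mono (inter_subset_inter_left _ hO1X) hg)
      have z2 : b₁ + f ∈ Zp (O₂ ∩ X) (O₂ ∩ X ∩ A) := by
        refine ⟨add_mem (CS_mono (inter_subset_inter_left _ h2) hb₁) (CS_mono hO2X hf), ?_⟩
        show bdE E (b₁ + f) ∈ CS (O₂ ∩ X ∩ A)
        have : bdE E (b₁ + f) = b + (e - bdE E f) := by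
          rw [map_add, ← heb, ZModModule.sub_eq_add]
          have e' : b + (bdE E b₁ + b + bdE E f) = bdE E b₁ + bdE E f + (b + b) := by abel
          rw [e', add_self_CE, add_zero]
        rw [this]
        exact add_mem (CS_mono (inter_subset_inter_left _ (inter_subset_inter_left _ h2)) hb)
          (CS_mono (inter_subset_inter_left _ hO2X) hg)
      have hzz : z = ((a₁ + f) + (b₁ + f)) + (z + (a₁ + b₁)) := by
        have e' : ((a₁ + f) + (b₁ + f)) + (z + (a₁ + b₁)) =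
          z + (a₁ + a₁) + (b₁ + b₁) + (f + f) := by abel
        rw [e', add_self_CE, add_self_CE, add_self_CE]; simp
      rw [hzz]
      exact Submodule.add_mem_sup (Submodule.add_mem_sup z1 z2) hz
  exact key.mono le_rfl le_rfl le_rfl le_rfl (by omega)

/-- separation of two closed sets relative to a neighbourhood of their intersection -/
theorem exists_sep [NormalSpace E] {K₁ K₂ O : Set E} (h1 : IsClosed K₁) (h2 : IsClosed K₂)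
    (hO : IsOpen O) (h : K₁ ∩ K₂ ⊆ O) :
    ∃ V₁ V₂ : Set E, IsOpen V₁ ∧ IsOpen V₂ ∧ K₁ ⊆ V₁ ∧ K₂ ⊆ V₂ ∧ V₁ ∩ V₂ ⊆ O := by
  have d1 : Disjoint (K₁ \ O) K₂ := by
    rw [Set.disjoint_left]
    exact fun x hx hx2 => hx.2 (h ⟨hx.1, hx2⟩)
  have d2 : Disjoint (K₂ \ O) K₁ := by
    rw [Set.disjoint_left]
    exact fun x hx hx2 => hx.2 (h ⟨hx2, hx.1⟩)
  obtain ⟨G₁, H₂, hG₁, hH₂, hKG₁, hKH₂, hd1⟩ := normal_separation (h1.sdiff hO) h2 d1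
  obtain ⟨G₂, H₁, hG₂, hH₁, hKG₂, hKH₁, hd2⟩ := normal_separation (h2.sdiff hO) h1 d2
  refine ⟨(G₁ ∪ O) ∩ H₁, (G₂ ∪ O) ∩ H₂, (hG₁.union hO).inter hH₁, (hG₂.union hO).inter hH₂,
    ?_, ?_, ?_⟩
  · intro x hx
    refine ⟨?_, hKH₁ hx⟩
    by_cases hxO : x ∈ O
    · exact Or.inr hxO
    · exact Or.inl (hKG₁ ⟨hx, hxO⟩)
  · intro x hx
    refine ⟨?_, hKH₂ hx⟩
    by_cases hxO : x ∈ O
    · exact Or.inr hxO
    · exact Or.inl (hKG₂ ⟨hx, hxO⟩)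
  · rintro x ⟨⟨hx1 | hx1, hx2⟩, hx3, hx4⟩
    · exact absurd hx4 (Set.disjoint_left.1 hd1 hx1)
    · exact hx1

/-- **Mayer-Vietoris** -/
theorem SR.union [NormalSpace E] {X A K₁ K₂ : Set E} {C₁ C₂ C₁₂ : ℕ} (h1 : IsClosed K₁)
    (h2 : IsClosed K₂) (r1 : SR X A K₁ C₁) (r2 : SR X A K₂ C₂) (r12 : SR X A (K₁ ∩ K₂) C₁₂) :
    SR X A (K₁ ∪ K₂) (C₁ + C₂ + C₁₂) := by
  intro U' hU' hK
  obtain ⟨O₁, hO₁, hKO₁, hOU₁, hr1⟩ := r1 U' hU' (subset_union_left.trans hK)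
  obtain ⟨O₂, hO₂, hKO₂, hOU₂, hr2⟩ := r2 U' hU' (subset_union_right.trans hK)
  obtain ⟨O₁₂, hO₁₂, hKO₁₂, hOU₁₂, hr12⟩ := r12 (O₁ ∩ O₂) (hO₁.inter hO₂)
    (inter_subset_inter hKO₁ hKO₂)
  obtain ⟨V₁, V₂, hV₁, hV₂, hKV₁, hKV₂, hV⟩ := exists_sep h1 h2 hO₁₂ hKO₁₂
  refine ⟨(V₁ ∩ O₁) ∪ (V₂ ∩ O₂), (hV₁.inter hO₁).union (hV₂.inter hO₂),
    union_subset_union (subset_inter hKV₁ hKO₁) (subset_inter hKV₂ hKO₂),
    union_subset (inter_subset_right.trans hOU₁) (inter_subset_right.trans hOU₂), ?_⟩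
  exact RkP.union (hV₁.inter hO₁) (hV₂.inter hO₂) inter_subset_right inter_subset_right
    (fun x hx => hV ⟨hx.1.1, hx.2.1⟩) hOU₁ hOU₂ hr1 hr2 hr12

/-- disjoint closed sets -/
theorem SR.union_disj [NormalSpace E] {X A K₁ K₂ : Set E} {C₁ C₂ : ℕ} (h1 : IsClosed K₁)
    (h2 : IsClosed K₂) (hd : Disjoint K₁ K₂) (r1 : SR X A K₁ C₁) (r2 : SR X A K₂ C₂) :
    SR X A (K₁ ∪ K₂) (C₁ + C₂) := by
  have h := SR.union h1 h2 r1 r2 (C₁₂ := 0) (by rw [hd.inter_eq]; exact SR.empty X A)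
  simpa using h

end Crest.Agent.R231.GM898
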