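import Crest.Agent.R231.GMDefs_898
import Crest.Agent.R231.PairH_877
import Crest.Agent.R231.SplitR2_737
import Crest.Agent.R231.GMRepN_889
import Crest.Agent.R231.GMGeoB_889
import Crest.Agent.R231.GCross_449
import Crest.Agent.R231.Asm_895
import Crest.Agent.R231.GMPoint_529
import Crest.Agent.R231.GMSR_537
import Crest.Agent.R231.GNon_651

-- ▼ part R231/GMPush_136
section

/-!
# Row 231, block GM-GEO (d) (helper136): the push theorem

`push_rank` : from the semilocal rank bound `SR (X b0) P K C` (`P` open, `X t ⊆ P` for `t < s`; `K` = critical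
set of level `s`) one gets `RkLE (Zp (X b) (X a)) (Bp (X b) (X a)) C` for the pair `(X b, X a)`, `a < s < b ≤ b0`,
i.e. `dim H(X b, X a) ≤ C`.  Inputs (all about one increasing family `X : ℝ → Set E`):
* `hpush` : for every open `U ⊇ K` some `X b'`, `s < b' ≤ b`, is pushed into `X a' ∪ U`, `a ≤ a' < s`
* `G`, `lam` : polygonisation, `G · 1` maps `P ∩ X b0` into the union of the `X t`, `t < s`
* `hnc1`, `hnc2` : nothing changes between non-critical levels
-/

set_option autoImplicit false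

noncomputable section

open Topology Set

namespace Crest.Agent.R231.GMPush136

open Crest.Agent.R204 Crest.Agent.R231.Pairx877 Crest.Agent.R231.GM898
open Crest.Agent.R204.SingAct265

variable {E : Type} [TopologicalSpace E]

/-- a chain all of whose simplices satisfy `lam < s` is supported in `{lam ≤ t}` for some `t < s` -/
theorem exists_level {Y : Set E} {lam : E → ℝ} {s a : ℝ} (has : a < s) (hlam : ContinuousOn lam Y)
    (hY : ∀ y ∈ Y, lam y < s) {c : CE E} (hc : c ∈ CS Y) :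
    ∃ t, a ≤ t ∧ t < s ∧ c ∈ CS (Y ∩ {y | lam y ≤ t}) := by
  have key : CS Y ≤ ⨆ t : {t : ℝ // a ≤ t ∧ t < s}, CS (Y ∩ {y | lam y ≤ t}) := by
    refine CS_le fun n σ hσ => ?_
    -- the maximum of `lam` on the simplex
    have hcont : Continuous fun t => lam (ev σ t) :=
      hlam.comp_continuous (continuous_ev σ) hσ
    obtain ⟨t0, ht0⟩ : ∃ t0, ∀ t, lam (ev σ t) ≤ lam (ev σ t0) := by
      obtain ⟨t0, -, h⟩ := isCompact_univ.exists_isMaxOn (s := (univ : Set (stdSimplex ℝ (Fin (n + 1)))))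
        ⟨stdSimplex.vertex 0, trivial⟩ hcont.continuousOn
      exact ⟨t0, fun t => h trivial⟩
    refine (le_iSup (fun t : {t : ℝ // a ≤ t ∧ t < s} => CS (Y ∩ {y | lam y ≤ t}))
      ⟨max a (lam (ev σ t0)), le_max_left _ _, max_lt has (hY _ (hσ t0))⟩) ?_
    exact sx_mem_CS fun t => ⟨hσ t, (ht0 t).trans (le_max_right _ _)⟩
  have hdir : Directed (· ≤ ·) fun t : {t : ℝ // a ≤ t ∧ t < s} => CS (Y ∩ {y | lam y ≤ t}) := by
    intro t t'
    refine ⟨⟨max t t', t.2.1.trans (le_max_left _ _), max_lt t.2.2 t'.2.2⟩, ?_, ?_⟩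
    · refine CS_mono fun y hy => ⟨hy.1, ?_⟩
      exact le_trans hy.2 (le_max_left (t : ℝ) t')
    · refine CS_mono fun y hy => ⟨hy.1, ?_⟩
      exact le_trans hy.2 (le_max_right (t : ℝ) t')
  have hne : Nonempty {t : ℝ // a ≤ t ∧ t < s} := ⟨⟨a, le_rfl, has⟩⟩
  obtain ⟨t, ht⟩ := (Submodule.mem_iSup_of_directed _ hdir).1 (key hc)
  exact ⟨t, t.2.1, t.2.2, ht⟩

theorem add_cancel' (x : CE E) : x + x = 0 := ZModModule.add_self x

/-- **the push theorem** -/
theorem push_rank (X : ℝ → Set E) (hX : Monotone X) {a s b b0 : ℝ} (has : a < s) (hsb : s < b)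
    (hbb : b ≤ b0) {P K : Set E} (hP : IsOpen P) (hXP : ∀ t < s, X t ⊆ P) {C : ℕ}
    (hSR : SR (X b0) P K C)
    (hpush : ∀ U : Set E, IsOpen U → K ⊆ U → ∃ a' b' : ℝ, a ≤ a' ∧ a' < s ∧ s < b' ∧ b' ≤ b ∧
      ∃ F : E → ℝ → E, ContinuousOn (fun p : E × ℝ => F p.1 p.2) (X b' ×ˢ Icc 0 1) ∧
        (∀ y ∈ X b', F y 0 = y) ∧ (∀ y ∈ X b', ∀ t ∈ Icc (0 : ℝ) 1, F y t ∈ X b') ∧
        (∀ y ∈ X a', ∀ t ∈ Icc (0 : ℝ) 1, F y t ∈ X a') ∧ (∀ y ∈ X b', F y 1 ∈ X a' ∪ U))
    (G : E → ℝ → E) (hG : ContinuousOn (fun p : E × ℝ => G p.1 p.2) (X b0 ×ˢ Icc 0 1))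
    (hG0 : ∀ y ∈ X b0, G y 0 = y)
    (hGX : ∀ t ≤ b0, ∀ y ∈ X t, ∀ r ∈ Icc (0 : ℝ) 1, G y r ∈ X t)
    (lam : E → ℝ) (hlam : ContinuousOn lam (X b0)) (hlamP : ∀ y ∈ X b0 ∩ P, lam y < s)
    (hG1 : ∀ y ∈ X b0, ∀ t, a ≤ t → t < s → lam y ≤ t → G y 1 ∈ X t)
    (hnc1 : ∀ t, a ≤ t → t < s → Zp (X t) (X a) ≤ Bp (X t) (X a))
    (hnc2 : ∀ t u, s < t → t ≤ u → u ≤ b0 → Zp (X u) (X t) ≤ Bp (X u) (X t)) :
    RkLE (Zp (X b) (X a)) (Bp (X b) (X a)) C := by
  obtain ⟨U, hU, hKU, -, hr⟩ := hSR univ isOpen_univ (subset_univ _)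
  rw [univ_inter] at hr
  obtain ⟨a', b', haa', ha's, hsb', hb'b, F, hF, hF0, hFX, hFA, hF1⟩ := hpush U hU hKU
  -- polygonisation as chain operators
  obtain ⟨φG, PG, hG_1, hG_2, hG_3, hG_4, -, -⟩ := deform (A := X b0) G hG hG0
  -- injectivity of `H(X b, X a) → H(X b0, X b0 ∩ P)`
  have hinj : ∀ z ∈ Zp (X b) (X a), z ∈ Bp (X b0) (X b0 ∩ P) → z ∈ Bp (X b) (X a) := by
    rintro z ⟨hz1, hz2⟩ hzB
    have hz2' : bdE E z ∈ CS (X a) := hz2
    rw [mem_Bp] at hzB
    obtain ⟨w, hw, hv⟩ := hzB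
    set v := z - bdE E w with hvdef
    have hzv : z = v + bdE E w := by rw [hvdef]; abel
    have hz0 : z ∈ CS (X b0) := CS_mono (hX hbb) hz1
    -- push `v`
    obtain ⟨t, hat, hts, hvt⟩ := exists_level has (hlam.mono inter_subset_left) hlamP hv
    have htb0 : t ≤ b0 := by linarith
    have hv1 : φG v ∈ CS (X t) :=
      hG_4 _ _ (fun y hy => hy.1.1) (fun y hy => hG1 y hy.1.1 t hat hts hy.2) v hvt
    have hw1 : φG w ∈ CS (X b0) :=
      hG_4 _ _ subset_rfl (fun y hy => hGX b0 le_rfl y hy 1 ⟨zero_le_one, le_rfl⟩) w hw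
    have hPz : PG z ∈ CS (X b) := hG_3 _ _ (hX hbb) (fun y hy r hr => hGX b hbb y hy r hr) z hz1
    have hPbz : PG (bdE E z) ∈ CS (X a) := hG_3 _ _ (hX (by linarith))
      (fun y hy r hr => hGX a (by linarith) y hy r hr) _ hz2'
    -- `z = φG z + bd (PG z) + PG (bd z)`
    have e1 : z = φG z + bdE E (PG z) + PG (bdE E z) := by
      rw [hG_1 z hz0]
      have : φG z + (z + φG z + PG (bdE E z)) + PG (bdE E z) =
        z + (φG z + φG z) + (PG (bdE E z) + PG (bdE E z)) := by abel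
      rw [this, add_cancel', add_cancel', add_zero, add_zero]
    have e2 : φG z = φG v + bdE E (φG w) := by
      rw [hzv, map_add, hG_2 w hw]
    -- `z = v' + bd w'` with `v' ∈ CS (X t)`, `w' ∈ CS (X b0)`
    set v' := φG v + PG (bdE E z) with hv'
    set w' := φG w + PG z with hw'
    have e3 : z = v' + bdE E w' := by
      rw [hv', hw', map_add]
      conv_lhs => rw [e1, e2]
      abel
    have hv'm : v' ∈ CS (X t) := add_mem hv1 (CS_mono (hX hat) hPbz)
    have hw'm : w' ∈ CS (X b0) := add_mem hw1 (CS_mono (hX hbb) hPz)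
    -- reduce `w'` to level `b`
    have hbw' : bdE E w' ∈ CS (X b) := by
      have : bdE E w' = z - v' := by rw [eq_sub_iff_add_eq']; exact e3.symm
      rw [this]
      exact sub_mem hz1 (CS_mono (hX (by linarith)) hv'm)
    have h5 := hnc2 b b0 hsb hbb le_rfl ⟨hw'm, hbw'⟩
    rw [mem_Bp] at h5
    obtain ⟨q, -, hq⟩ := h5
    set u := w' - bdE E q with hu
    have e4 : bdE E w' = bdE E u := by
      rw [hu, map_sub, bd_bdE, sub_zero]
    -- reduce `v'` to level `a`
    have hbv' : bdE E v' ∈ CS (X a) := by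
      have h := congrArg (bdE E) e3
      rw [map_add, bd_bdE, add_zero] at h
      rw [← h]; exact hz2'
    have h6 := hnc1 t hat hts ⟨hv'm, hbv'⟩
    rw [mem_Bp] at h6
    obtain ⟨q', hq', hv3⟩ := h6
    rw [mem_Bp]
    refine ⟨q' + u, add_mem (CS_mono (hX (by linarith)) hq') hq, ?_⟩
    have e5 : z - bdE E (q' + u) = v' - bdE E q' := by
      rw [map_add, ← e4, sub_eq_iff_eq_add]
      refine e3.trans ?_
      abel
    rw [e5]
    exact hv3
  -- the linear relation
  obtain ⟨φF, PF, hF_1, hF_2, hF_3, hF_4, -, -⟩ := deform (A := X b') F hF hF0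
  have hb'b0 : b' ≤ b0 := hb'b.trans hbb
  let S : Submodule (ZMod 2) (CE E × CE E) :=
    { carrier := {p | p.1 ∈ Zp (X b) (X a) ∧ p.2 ∈ Zp (U ∩ X b0) (U ∩ X b0 ∩ P) ∧
        p.1 - p.2 ∈ Bp (X b0) (X b0 ∩ P)}
      zero_mem' := ⟨zero_mem _, zero_mem _, by simp⟩
      add_mem' := by
        rintro p q ⟨h1, h2, h3⟩ ⟨h1', h2', h3'⟩
        refine ⟨add_mem h1 h1', add_mem h2 h2', ?_⟩
        have : (p + q).1 - (p + q).2 = p.1 - p.2 + (q.1 - q.2) := by
          simp only [Prod.fst_add, Prod.snd_add]; abel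
        rw [this]; exact add_mem h3 h3'
      smul_mem' := by
        rintro c p ⟨h1, h2, h3⟩
        refine ⟨Submodule.smul_mem _ c h1, Submodule.smul_mem _ c h2, ?_⟩
        have : (c • p).1 - (c • p).2 = c • (p.1 - p.2) := by
          simp only [Prod.smul_fst, Prod.smul_snd, smul_sub]
        rw [this]; exact Submodule.smul_mem _ c h3 }
  refine RkLE.of_rel S ?_ (fun z x h => h.2.1) ?_ hr
  · rintro z ⟨hz1, hz2⟩
    have hz2' : bdE E z ∈ CS (X a) := hz2
    -- step 0 : move to level `b'`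
    have hz3 : z ∈ Zp (X b) (X b') := ⟨hz1, CS_mono (hX (by linarith)) hz2'⟩
    have h1 := hnc2 b' b hsb' hb'b hbb hz3
    rw [mem_Bp] at h1
    obtain ⟨u, hu, hz'⟩ := h1
    set z' := z - bdE E u with hz'def
    have hbz' : bdE E z' = bdE E z := by rw [hz'def, map_sub, bd_bdE, sub_zero]
    have hbz'a : bdE E z' ∈ CS (X a') := by rw [hbz']; exact CS_mono (hX haa') hz2'
    -- step 1 : push
    have hc1 : φF z' ∈ CS ((X b' ∩ P) ∪ (U ∩ X b')) := by
      refine hF_4 _ _ subset_rfl (fun y hy => ?_) z' hz'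
      have h2 := hFX y hy 1 ⟨zero_le_one, le_rfl⟩
      rcases hF1 y hy with h | h
      · exact Or.inl ⟨h2, hXP a' ha's h⟩
      · exact Or.inr ⟨h, h2⟩
    have ha'b' : a' ≤ b' := by linarith
    have hc2 : bdE E (φF z') ∈ CS (X b' ∩ P) := by
      rw [hF_2 z' hz']
      have h3 : φF (bdE E z') ∈ CS (X a') := hF_4 _ _ (hX ha'b')
        (fun y hy => hFA y hy 1 ⟨zero_le_one, le_rfl⟩) _ hbz'a
      have h4 : X a' ⊆ X b' ∩ P := fun y hy => ⟨hX ha'b' hy, hXP a' ha's hy⟩
      exact CS_mono h4 h3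
    -- step 2 : small chains
    have hcov : ∀ y ∈ (X b' ∩ P) ∪ (U ∩ X b'),
        (X b' ∩ P) ∈ 𝓝[(X b' ∩ P) ∪ (U ∩ X b')] y ∨ (U ∩ X b') ∈ 𝓝[(X b' ∩ P) ∪ (U ∩ X b')] y := by
      rintro y (hy | hy)
      · left
        refine mem_nhdsWithin.2 ⟨P, hP, hy.2, ?_⟩
        rintro x ⟨hx, hx' | hx'⟩
        · exact hx'
        · exact ⟨hx'.2, hx⟩
      · right
        refine mem_nhdsWithin.2 ⟨U, hU, hy.1, ?_⟩
        rintro x ⟨hx, hx' | hx'⟩
        · exact ⟨hx, hx'.1⟩
        · exact hx'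
    obtain ⟨w, hw, hcw⟩ := SplitR2x737.small hcov hc1 (Submodule.mem_sup_left hc2)
    obtain ⟨α, hα, β, hβ, hαβ⟩ := Submodule.mem_sup.1 hcw
    have hb'0 : X b' ⊆ X b0 := hX hb'b0
    refine ⟨β, ⟨hz1, hz2⟩, ⟨CS_mono (inter_subset_inter_right _ hb'0) hβ, ?_⟩, ?_⟩
    · -- the boundary of `β`
      have h3 : bdE E β = bdE E (φF z') - bdE E α := by
        have : β = φF z' + bdE E w - α := by rw [← hαβ]; abel
        rw [this, map_sub, map_add, bd_bdE, add_zero]
      have h4 : bdE E β ∈ CS (X b' ∩ P) := by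
        rw [h3]; exact sub_mem hc2 (bd_mem_CS _ hα)
      have h5 : bdE E β ∈ CS (X b' ∩ P) ⊓ CS (U ∩ X b') := ⟨h4, bd_mem_CS _ hβ⟩
      rw [SplitR2x737.CS_inf] at h5
      have h6 : (X b' ∩ P) ∩ (U ∩ X b') ⊆ U ∩ X b0 ∩ P :=
        fun y hy => ⟨⟨hy.2.1, hb'0 hy.1.1⟩, hy.1.2⟩
      exact CS_mono h6 h5
    · -- `z - β` is a relative boundary
      have e1 : z' = φF z' + bdE E (PF z') + PF (bdE E z') := by
        rw [hF_1 z' hz']
        have : φF z' + (z' + φF z' + PF (bdE E z')) + PF (bdE E z') =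
          z' + (φF z' + φF z') + (PF (bdE E z') + PF (bdE E z')) := by abel
        rw [this, add_cancel', add_cancel', add_zero, add_zero]
      have hPz : PF z' ∈ CS (X b') := hF_3 _ _ subset_rfl (fun y hy r hr => hFX y hy r hr) z' hz'
      have hPbz : PF (bdE E z') ∈ CS (X a') :=
        hF_3 _ _ (hX ha'b') (fun y hy r hr => hFA y hy r hr) _ hbz'a
      rw [mem_Bp]
      refine ⟨u + PF z' - w, sub_mem (add_mem (CS_mono (hX hbb) hu) (CS_mono hb'0 hPz))
        (CS_mono ?_ hw), ?_⟩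
      · rintro y (hy | hy)
        · exact hb'0 hy.1
        · exact hb'0 hy.2
      · have e2 : z - β - bdE E (u + PF z' - w) = α + PF (bdE E z') := by
          have h6 : z = z' + bdE E u := by rw [hz'def]; abel
          have h7 : φF z' = α + β - bdE E w := by rw [hαβ]; abel
          have h8 : z = α + β - bdE E w + bdE E (PF z') + PF (bdE E z') + bdE E u := by
            rw [← h7, ← e1]; exact h6
          rw [map_sub, map_add, sub_sub, sub_eq_iff_eq_add]
          refine h8.trans ?_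
          abel
        rw [e2]
        have h8 : X b' ∩ P ⊆ X b0 ∩ P := fun y hy => ⟨hb'0 hy.1, hy.2⟩
        have h9 : X a' ⊆ X b0 ∩ P := fun y hy => ⟨hb'0 (hX ha'b' hy), hXP a' ha's hy⟩
        exact add_mem (CS_mono h8 hα) (CS_mono h9 hPbz)
  · rintro z x ⟨h1, h2, h3⟩ hx
    refine hinj z h1 ?_
    have : z = z - x + x := by abel
    rw [this]
    refine add_mem h3 ?_
    exact Bp_mono subset_rfl subset_rfl hx

/-- **from the level set `XL` (not open) to the open set `P`**: `G` is a homotopy of `Y` into itself which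
preserves `P`, fixes `K` in the weak sense `hst`, and maps `P` into `XL` at time `1`; `XL ⊆ P`. -/
theorem SR_open {Y P XL K : Set E} {C : ℕ} (hSR : SR Y XL K C) (G : E → ℝ → E)
    (hG : ContinuousOn (fun p : E × ℝ => G p.1 p.2) (Y ×ˢ Icc 0 1)) (hG0 : ∀ y ∈ Y, G y 0 = y)
    (hGY : ∀ y ∈ Y, ∀ r ∈ Icc (0 : ℝ) 1, G y r ∈ Y)
    (hGP : ∀ y ∈ Y ∩ P, ∀ r ∈ Icc (0 : ℝ) 1, G y r ∈ P) (hXP : Y ∩ XL ⊆ P)
    (hG1 : ∀ y ∈ Y ∩ P, G y 1 ∈ XL)
    (hst : ∀ U : Set E, IsOpen U → K ⊆ U → ∃ V : Set E, IsOpen V ∧ K ⊆ V ∧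
      ∀ y ∈ V ∩ Y, ∀ r ∈ Icc (0 : ℝ) 1, G y r ∈ U) : SR Y P K C := by
  intro U' hU' hKU'
  obtain ⟨U, hU, hKU, hUU', hr⟩ := hSR U' hU' hKU'
  obtain ⟨V, hV, hKV, hVU⟩ := hst U hU hKU
  have hVU1 : V ∩ Y ⊆ U := fun y hy => by
    have := hVU y hy 0 ⟨le_rfl, zero_le_one⟩
    rwa [hG0 y hy.2] at this
  obtain ⟨φ, Q, h1, h2, h3, h4, -, -⟩ := deform (A := Y) G hG hG0
  refine ⟨V ∩ U', hV.inter hU', subset_inter hKV hKU', inter_subset_right, ?_⟩
  have m1 : V ∩ U' ∩ Y ⊆ Y := inter_subset_right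
  refine RkLE.of_map φ ?_ ?_ hr
  · rintro z ⟨hz1, hz2⟩
    have hz2' : bdE E z ∈ CS (V ∩ U' ∩ Y ∩ P) := hz2
    have k1 : ∀ y ∈ V ∩ U' ∩ Y, G y 1 ∈ U ∩ Y := fun y hy =>
      ⟨hVU y ⟨hy.1.1, hy.2⟩ 1 ⟨zero_le_one, le_rfl⟩, hGY y hy.2 1 ⟨zero_le_one, le_rfl⟩⟩
    have k2 : ∀ y ∈ V ∩ U' ∩ Y ∩ P, G y 1 ∈ U ∩ Y ∩ XL := fun y hy =>
      ⟨k1 y hy.1, hG1 y ⟨hy.1.2, hy.2⟩⟩
    have k3 : bdE E (φ z) ∈ CS (U ∩ Y ∩ XL) := by
      rw [h2 z (CS_mono m1 hz1)]
      exact h4 _ _ (inter_subset_left.trans m1) k2 _ hz2'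
    exact ⟨h4 _ _ m1 k1 z hz1, k3⟩
  · rintro z ⟨hz1, hz2⟩ hB
    have hz2' : bdE E z ∈ CS (V ∩ U' ∩ Y ∩ P) := hz2
    have hzY : z ∈ CS Y := CS_mono m1 hz1
    have e1 : z = φ z + bdE E (Q z) + Q (bdE E z) := by
      rw [h1 z hzY]
      have : φ z + (z + φ z + Q (bdE E z)) + Q (bdE E z) =
        z + (φ z + φ z) + (Q (bdE E z) + Q (bdE E z)) := by abel
      rw [this, add_cancel', add_cancel', add_zero, add_zero]
    have k1 : ∀ y ∈ V ∩ U' ∩ Y, ∀ r ∈ Icc (0 : ℝ) 1, G y r ∈ U' ∩ Y := fun y hy r hr =>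
      ⟨hUU' (hVU y ⟨hy.1.1, hy.2⟩ r hr), hGY y hy.2 r hr⟩
    have k2 : ∀ y ∈ V ∩ U' ∩ Y ∩ P, ∀ r ∈ Icc (0 : ℝ) 1, G y r ∈ U' ∩ Y ∩ P := fun y hy r hr =>
      ⟨k1 y hy.1 r hr, hGP y ⟨hy.1.2, hy.2⟩ r hr⟩
    have hQ : Q z ∈ CS (U' ∩ Y) := h3 _ _ m1 k1 z hz1
    have hQb : Q (bdE E z) ∈ CS (U' ∩ Y ∩ P) := h3 _ _ (inter_subset_left.trans m1) k2 _ hz2'
    have h5 : U' ∩ Y ∩ XL ⊆ U' ∩ Y ∩ P := fun y hy => ⟨hy.1, hXP ⟨hy.1.2, hy.2⟩⟩
    have h6 : φ z ∈ Bp (U' ∩ Y) (U' ∩ Y ∩ P) := Bp_mono subset_rfl h5 hB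
    rw [e1]
    refine add_mem (add_mem h6 ?_) ?_
    · exact Submodule.mem_sup_right ⟨_, hQ, rfl⟩
    · exact Submodule.mem_sup_left hQb


end Crest.Agent.R231.GMPush136
end
end

-- ▼ part R231/GMPushX_136
section

/-!
# Row 231, block GM-GEO (d) (helper136): the push theorem for the Lipschitz loops

* `vert`, `lamN`, `polyH` : equally spaced vertices, `lamN N g = N max_k d(g(k/N), g((k+1)/N))`, polygonisation
  homotopy `polyH L N g r = repN L N (k/N) r g`
* `rank_of_SR` : `SR (X M b0) (XL M s) {g | IsGeo s g} C → RkLE (Zp (X M b) (X M a)) (Bp (X M b) (X M a)) C`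
-/

set_option autoImplicit false
set_option linter.unusedSectionVars false

noncomputable section

open Topology Set Filter

namespace Crest.Agent.R231.GMPush136

open Crest.Agent.R204 Crest.Agent.R231.Pairx877 Crest.Agent.R231.GM898
open Crest.Agent.R231.GLugx576 Crest.Agent.R231.GMGeox889 Crest.Agent.R231.GCrossx449

section poly

variable {M : Type} [MetricSpace M] [CompactSpace M] (L : LUG M)

/-- the times `k / N` -/
def ths (N : ℕ) (k : ℕ) : ℝ := k / N

variable {L} in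
theorem tim_ths {N : ℕ} (hN : 0 < N) {t : ℝ} (ht : t / N < L.r0) : Tim L N (ths N) t where
  lt k _ := by
    unfold ths
    have : (0 : ℝ) < N := by exact_mod_cast hN
    push_cast
    gcongr
    linarith
  last := by
    unfold ths
    have : (N : ℝ) ≠ 0 := by positivity
    field_simp; simp
  short k _ := by
    unfold ths
    have : (N : ℝ) ≠ 0 := by positivity
    have e : t * (((k + 1 : ℕ) : ℝ) / N - k / N) = t / N := by push_cast; field_simp; ring
    rw [e]; exact ht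

/-- the edge lengths times `N` -/
def edg (N : ℕ) (k : ℕ) (g : Lp M) : ℝ :=
  N * dist (g (ths N k : UnitAddCircle)) (g (ths N (k + 1) : UnitAddCircle))

/-- the level of the inscribed polygon -/
def lamN (N : ℕ) (g : Lp M) : ℝ :=
  if h : (Finset.range N).Nonempty then (Finset.range N).sup' h (fun k => edg N k g) else 0

theorem edg_le_lamN {N k : ℕ} (hk : k < N) (g : Lp M) : edg N k g ≤ lamN N g := by
  unfold lamN
  rw [dif_pos ⟨k, Finset.mem_range.2 hk⟩]
  exact Finset.le_sup' (fun k => edg N k g) (Finset.mem_range.2 hk)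

theorem lamN_le {N : ℕ} (hN : 0 < N) {g : Lp M} {t : ℝ} (h : ∀ k < N, edg N k g ≤ t) :
    lamN N g ≤ t := by
  unfold lamN
  rw [dif_pos ⟨0, Finset.mem_range.2 hN⟩]
  exact Finset.sup'_le _ _ fun k hk => h k (Finset.mem_range.1 hk)

theorem continuous_edg (N k : ℕ) : Continuous (edg (M := M) N k) := by
  unfold edg
  exact continuous_const.mul ((continuous_eval_const _).dist (continuous_eval_const _))

theorem continuous_lamN (N : ℕ) : Continuous (lamN (M := M) N) := by
  unfold lamN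
  split_ifs with h
  · exact Continuous.finset_sup'_apply h fun k _ => continuous_edg N k
  · exact continuous_const

theorem lamN_le_of_mem {N : ℕ} (hN : 0 < N) {g : Lp M} {t : ℝ} (hg : g ∈ X M t) : lamN N g ≤ t := by
  refine lamN_le hN fun k hk => ?_
  unfold edg ths
  have h1 := hg ((k : ℝ) / N) (((k + 1 : ℕ) : ℝ) / N)
  have hN' : (0 : ℝ) < N := by exact_mod_cast hN
  have e : |(k : ℝ) / N - ((k + 1 : ℕ) : ℝ) / N| = 1 / N := by
    have : (k : ℝ) / N - ((k + 1 : ℕ) : ℝ) / N = -(1 / N) := by push_cast; field_simp; ring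
    rw [this, abs_neg, abs_of_nonneg (by positivity)]
  rw [e] at h1
  calc (N : ℝ) * dist _ _ ≤ N * (t * (1 / N)) := mul_le_mul_of_nonneg_left h1 hN'.le
    _ = t := by field_simp

/-- the polygonisation homotopy -/
def polyH (N : ℕ) (g : Lp M) (r : ℝ) : Lp M := repN L N (ths N) r g

variable {L} {N : ℕ} {t b : ℝ} {r : ℝ}

/-- the vertices are not moved -/
theorem repN_vertex {n : ℕ} {θ : ℕ → ℝ} (h : Tim L n θ t) (hr : r ∈ Icc (0 : ℝ) 1) {g : Lp M}
    (hg : g ∈ X M t) : ∀ j ≤ n, ∀ k ≤ n,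
      repN L j θ r g ((θ k : ℝ) : UnitAddCircle) = g ((θ k : ℝ) : UnitAddCircle) := by
  intro j
  induction j with
  | zero => intro _ k _; rfl
  | succ j ih =>
    intro hj k hk
    have hd := mem_dom h hr hg hj
    have hl0 := h.len_nonneg hr hj
    have hl1 := h.len_le hr hj
    rw [repN]
    rcases lt_trichotomy k j with h1 | h1 | h1
    · -- one period later
      have e : ((θ k : ℝ) : UnitAddCircle) = ((θ k + 1 : ℝ) : UnitAddCircle) := by
        have := coe_add_int (θ k) 1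
        rw [Int.cast_one] at this
        exact this.symm
      have h2 := h.mono (Nat.zero_le k) hk
      have h3 := h.mono (j := j + 1) (k := n) hj le_rfl
      have h4 := h.mono h1.le (by omega : j ≤ n)
      rw [h.last] at h3
      rw [← ih (by omega) k hk, e]
      exact repA_out L hd ⟨by linarith, by linarith⟩
    · subst h1
      rw [repA_left L hd]
      exact ih (by omega) k hk
    · have h2 := h.mono (j := j + 1) (k := k) h1 hk
      have h3 := h.mono hk le_rfl
      have h4 := h.mono (Nat.zero_le j) (by omega : j ≤ n)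
      rw [h.last] at h3
      rw [repA_out L hd ⟨by linarith, by linarith⟩]
      exact ih (by omega) k hk

theorem polyH_zero (g : Lp M) : polyH L N g 0 = g := repN_zero g N

theorem polyH_mem (hN : 0 < N) (ht : b / N < L.r0) (hr : r ∈ Icc (0 : ℝ) 1) {t' : ℝ} (ht' : t' ≤ b)
    {g : Lp M} (hg : g ∈ X M t') : polyH L N g r ∈ X M t' :=
  repN_mem (tim_ths hN ht) hr ht' hg N le_rfl

theorem lamN_polyH (hN : 0 < N) (ht : b / N < L.r0) (hr : r ∈ Icc (0 : ℝ) 1) {g : Lp M}
    (hg : g ∈ X M b) : lamN N (polyH L N g r) = lamN N g := by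
  have h := repN_vertex (tim_ths hN ht) hr hg N le_rfl
  have e : ∀ k < N, edg N k (polyH L N g r) = edg N k g := by
    intro k hk
    unfold edg polyH
    rw [h k hk.le, h (k + 1) hk]
  refine le_antisymm (lamN_le hN fun k hk => ?_) (lamN_le hN fun k hk => ?_)
  · rw [e k hk]; exact edg_le_lamN hk g
  · rw [← e k hk]; exact edg_le_lamN hk _

theorem polyH_one (hN : 0 < N) (ht : b / N < L.r0) {g : Lp M} (hg : g ∈ X M b) {s : ℝ}
    (hs : lamN N g ≤ s) : polyH L N g 1 ∈ X M s := by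
  have hN' : (0 : ℝ) < N := by exact_mod_cast hN
  have hT := tim_ths (L := L) hN ht
  have h1 := (repN_one hT hg N le_rfl).1
  have h0 : ths N 0 = 0 := by simp [ths]
  have hlast : ths N N = 1 := by unfold ths; field_simp
  have key := lip_glue (f := fun x : ℝ => polyH L N g 1 (x : UnitAddCircle)) (t := s)
    (E := ths N) (n := N) (fun k hk => (hT.lt k hk).le) ?_
  · rw [h0, hlast] at key
    exact mem_X_of_Icc key
  · intro k hk x y hx hxy hy
    have hlt := hT.lt k hk
    have hgap : ths N (k + 1) - ths N k = 1 / N := by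
      unfold ths; push_cast; field_simp; ring
    -- parameters on the arc
    set u := (x - ths N k) * N with hu
    set v := (y - ths N k) * N with hv
    have ex : x = ths N k + u * (ths N (k + 1) - ths N k) := by
      rw [hgap, hu]; field_simp; ring
    have ey : y = ths N k + v * (ths N (k + 1) - ths N k) := by
      rw [hgap, hv]; field_simp; ring
    have hu1 : u ∈ Icc (0 : ℝ) 1 := by
      constructor
      · exact mul_nonneg (by linarith) hN'.le
      · rw [hu]
        have : x - ths N k ≤ 1 / N := by linarith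
        calc (x - ths N k) * N ≤ 1 / N * N := mul_le_mul_of_nonneg_right this hN'.le
          _ = 1 := by field_simp
    have hv1 : v ∈ Icc (0 : ℝ) 1 := by
      constructor
      · exact mul_nonneg (by linarith) hN'.le
      · rw [hv]
        have : y - ths N k ≤ 1 / N := by linarith
        calc (y - ths N k) * N ≤ 1 / N * N := mul_le_mul_of_nonneg_right this hN'.le
          _ = 1 := by field_simp
    have hd : dist (g (ths N k : UnitAddCircle)) (g (ths N (k + 1) : UnitAddCircle)) < L.r0 := by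
      refine (hg _ _).trans_lt ?_
      have h3 := hT.short k hk
      rwa [abs_sub_comm, abs_of_nonneg (by linarith)]
    have e1 : polyH L N g 1 (x : UnitAddCircle) =
        L.seg (g (ths N k : UnitAddCircle)) (g (ths N (k + 1) : UnitAddCircle)) u := by
      conv_lhs => rw [ex]
      exact h1 k hk u hu1
    have e2 : polyH L N g 1 (y : UnitAddCircle) =
        L.seg (g (ths N k : UnitAddCircle)) (g (ths N (k + 1) : UnitAddCircle)) v := by
      conv_lhs => rw [ey]
      exact h1 k hk v hv1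
    show dist (polyH L N g 1 (x : UnitAddCircle)) (polyH L N g 1 (y : UnitAddCircle)) ≤ s * (y - x)
    rw [e1, e2, L.dist_seg hd hu1 hv1]
    have huv : u ≤ v := mul_le_mul_of_nonneg_right (by linarith) hN'.le
    rw [abs_sub_comm, abs_of_nonneg (by linarith)]
    have e3 : v - u = (y - x) * N := by rw [hu, hv]; ring
    rw [e3]
    have h4 : edg N k g ≤ s := (edg_le_lamN hk g).trans hs
    unfold edg at h4
    calc (y - x) * N * dist (g (ths N k : UnitAddCircle)) (g (ths N (k + 1) : UnitAddCircle))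
        = (y - x) * (N * dist (g (ths N k : UnitAddCircle)) (g (ths N (k + 1) : UnitAddCircle))) := by
          ring
      _ ≤ (y - x) * s := mul_le_mul_of_nonneg_left h4 (by linarith)
      _ = s * (y - x) := by ring

theorem contOn_polyH (hN : 0 < N) (ht : b / N < L.r0) :
    ContinuousOn (fun p : Lp M × ℝ => polyH L N p.1 p.2) (X M b ×ˢ Icc (0 : ℝ) 1) := by
  refine contOn_repN (n := N) (θ := fun _ => ths N) (r := fun p : Lp M × ℝ => p.2)
    (g := fun p : Lp M × ℝ => p.1) (t := b) (fun k _ => continuousOn_const)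
    continuousOn_snd continuousOn_fst (fun _ _ => tim_ths hN ht) (fun a ha => ha.2)
    (fun a ha => ha.1) N le_rfl

theorem polyH_fix (hL : L.LocMin) (hN : 0 < N) (ht : b / N < L.r0) (hr : r ∈ Icc (0 : ℝ) 1) {s : ℝ}
    (hs : s ≤ b) {g : Lp M} (hg : IsGeo s g) : polyH L N g r = g := by
  refine repN_fix (tim_ths hN ht) hr hs (geo_mem hg) (fun x y hxy h => ?_) N le_rfl
  obtain ⟨hs0, δ, hδ, hgeo⟩ := hg
  exact hL (fun x => g (x : UnitAddCircle)) x y s δ hxy hδ hs0.le h
    fun x _ y _ h => hgeo x y h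

end poly

/-- tube lemma: a homotopy of a compact set fixing `K` -/
theorem stable_nhds {E : Type} [TopologicalSpace E] [T2Space E] {Y K : Set E} (hY : IsCompact Y)
    (G : E → ℝ → E) (hG : ContinuousOn (fun p : E × ℝ => G p.1 p.2) (Y ×ˢ Icc 0 1))
    (hfix : ∀ y ∈ K, ∀ r ∈ Icc (0 : ℝ) 1, G y r = y) {U : Set E} (hU : IsOpen U) (hKU : K ⊆ U) :
    ∃ V : Set E, IsOpen V ∧ K ⊆ V ∧ ∀ y ∈ V ∩ Y, ∀ r ∈ Icc (0 : ℝ) 1, G y r ∈ U := by
  set F : Set E := Prod.fst '' ((Y ×ˢ Icc (0 : ℝ) 1) ∩ (fun p : E × ℝ => G p.1 p.2) ⁻¹' Uᶜ) with hF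
  have hcomp : IsCompact (Y ×ˢ Icc (0 : ℝ) 1) := hY.prod isCompact_Icc
  have hFc : IsClosed F := by
    refine IsCompact.isClosed (IsCompact.image ?_ continuous_fst)
    refine hcomp.of_isClosed_subset ?_ inter_subset_left
    exact hG.preimage_isClosed_of_isClosed hcomp.isClosed hU.isClosed_compl
  refine ⟨Fᶜ, hFc.isOpen_compl, fun y hy => ?_, ?_⟩
  · rintro ⟨⟨y', r⟩, ⟨hm, hn⟩, rfl⟩
    apply hn
    show G y' r ∈ U
    rw [hfix y' hy r hm.2]
    exact hKU hy
  · intro y hy r hr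
    by_contra hn
    exact hy.1 ⟨(y, r), ⟨⟨hy.2, hr⟩, hn⟩, rfl⟩

/-- **the push theorem for Lipschitz loops** -/
theorem rank_of_SR {M : Type} [MetricSpace M] [CompactSpace M] {L : LUG M} (hL : L.LocMin)
    {T : ℝ} (P : Push M T) {a s b b0 : ℝ} (ha0 : 0 ≤ a) (has : a < s) (hsb : s < b) (hbb : b ≤ b0)
    (hsT : s < T) {C : ℕ} (hSR : SR (X M b0) (XL M s) {g | IsGeo s g} C)
    (hnc1 : ∀ t, a ≤ t → t < s → Zp (X M t) (X M a) ≤ Bp (X M t) (X M a))
    (hnc2 : ∀ t u, s < t → t ≤ u → u ≤ b0 → Zp (X M u) (X M t) ≤ Bp (X M u) (X M t)) :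
    RkLE (Zp (X M b) (X M a)) (Bp (X M b) (X M a)) C := by
  -- number of vertices
  obtain ⟨N, hN⟩ := exists_nat_gt (b0 / L.r0)
  have hr0 := L.r0_pos
  have hb0 : 0 < b0 := by linarith
  have hNpos : 0 < N := by
    have : (0 : ℝ) < N := lt_of_le_of_lt (by positivity) hN
    exact_mod_cast this
  have hN' : (0 : ℝ) < N := by exact_mod_cast hNpos
  have ht : b0 / N < L.r0 := by
    rw [div_lt_iff₀ hN']
    rw [div_lt_iff₀ hr0] at hN
    linarith [mul_comm (N : ℝ) L.r0]
  set Pset : Set (Lp M) := {g | lamN N g < s} with hP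
  have hPo : IsOpen Pset := isOpen_lt (continuous_lamN N) continuous_const
  have hcont := contOn_polyH (L := L) (b := b0) hNpos ht
  have h1 : (1 : ℝ) ∈ Icc (0 : ℝ) 1 := ⟨zero_le_one, le_rfl⟩
  have hSR' : SR (X M b0) Pset {g | IsGeo s g} C := by
    refine SR_open hSR (fun g r => polyH L N g r) hcont (fun g _ => polyH_zero g)
      (fun g hg r hr => polyH_mem hNpos ht hr le_rfl hg)
      (fun g hg r hr => ?_) ?_ (fun g hg => ?_) (fun U hU hKU => ?_)
    · show lamN N (polyH L N g r) < s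
      rw [lamN_polyH hNpos ht hr hg.1]
      exact hg.2
    · rintro g ⟨-, t, hts, hg⟩
      exact (lamN_le_of_mem hNpos hg).trans_lt hts
    · exact ⟨lamN N g, hg.2, polyH_one hNpos ht hg.1 le_rfl⟩
    · exact stable_nhds (isCompact_X b0) _ hcont
        (fun g hg r hr => polyH_fix hL hNpos ht hr (by linarith) hg) hU hKU
  refine push_rank (X M) (fun _ _ h => X_mono h) has hsb hbb hPo
    (fun t hts g hg => (lamN_le_of_mem hNpos hg).trans_lt hts) hSR' ?_ (fun g r => polyH L N g r)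
    hcont (fun g _ => polyH_zero g) (fun t ht' g hg r hr => polyH_mem hNpos ht hr ht' hg)
    (lamN N) (continuous_lamN N).continuousOn (fun g hg => hg.2)
    (fun g hg t _ _ hl => polyH_one hNpos ht hg hl) hnc1 hnc2
  intro U hU hKU
  obtain ⟨e0, he0, hnear⟩ := P.near (by linarith) hsT hU (fun g hg => hKU hg)
  set e := min (min e0 (s - a)) (min (b - s) (T - s)) with he
  have hepos : 0 < e := lt_min (lt_min he0 (by linarith)) (lt_min (by linarith) (by linarith))
  have he1 : e ≤ e0 := (min_le_left _ _).trans (min_le_left _ _)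
  have he2 : e ≤ s - a := (min_le_left _ _).trans (min_le_right _ _)
  have he3 : e ≤ b - s := (min_le_right _ _).trans (min_le_left _ _)
  have he4 : e ≤ T - s := (min_le_right _ _).trans (min_le_right _ _)
  refine ⟨s - e, s + e, by linarith, by linarith, by linarith, by linarith,
    fun g r => P.H r g, ?_, fun g hg => P.H0 g (X_mono (by linarith) hg),
    fun g hg r hr => P.lev _ (by linarith) g hg r hr,
    fun g hg r hr => P.lev _ (by linarith) g hg r hr, fun g hg => hnear e hepos he1 g hg⟩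
  have hswap : ContinuousOn (fun p : Lp M × ℝ => ((p.2, p.1) : ℝ × Lp M))
      (X M (s + e) ×ˢ Icc (0 : ℝ) 1) := by fun_prop
  exact P.cont.comp hswap fun p hp => ⟨hp.2, X_mono (by linarith) hp.1⟩

end Crest.Agent.R231.GMPush136
end
end

-- ▼ part R231/GMEnd_160

/-!
# Row 231 (S0357), block GM: the end (helper160)

From ONE constant for all critical points (`point_bound`, helper529), the bound for one critical circle
(`OrbStmt`, helper537), the finite list of critical circles (helper893) and the push theorem (helper136)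
to the field `gm : GMW M` of `Asmx895.Outs`.
-/

set_option autoImplicit false
set_option linter.unusedSectionVars false

noncomputable section

open Set Filter Topology

namespace Crest.Agent.R231.GMEndx160

open Crest.Agent.R204
open Crest.Agent.R231.Pairx877 Crest.Agent.R231.GM898
open Crest.Agent.R231.GLugx576 Crest.Agent.R231.GMGeox889
open Crest.Agent.R231.PrimeGeox893 Crest.Agent.R231.CritPMx893
open Crest.Agent.R231.Instx895 Crest.Agent.R231.Asmx895

/-! ### algebra: from `RkLE` to the length of the homology -/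

theorem length_quot_le {V : Type*} [AddCommGroup V] [Module F2 V] {Z B : Submodule F2 V} {C : ℕ}
    (h : RkLE Z B C) : Module.length F2 (Z ⧸ B.comap Z.subtype) ≤ C := by
  obtain ⟨hf, hr⟩ := RkLE.iff_finrank.1 h
  set f : Z →ₗ[F2] V ⧸ B := B.mkQ ∘ₗ Z.subtype with hfdef
  have hk : LinearMap.ker f = B.comap Z.subtype := by
    rw [hfdef, LinearMap.ker_comp, Submodule.ker_mkQ]
  have hrange : LinearMap.range f = Z.map B.mkQ := by
    rw [hfdef, LinearMap.range_comp, Submodule.range_subtype]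
  have e1 : (Z ⧸ B.comap Z.subtype) ≃ₗ[F2] (Z ⧸ LinearMap.ker f) :=
    Submodule.quotEquivOfEq _ _ hk.symm
  have e2 : (Z ⧸ LinearMap.ker f) ≃ₗ[F2] LinearMap.range f := f.quotKerEquivRange
  have e3 : LinearMap.range f ≃ₗ[F2] (Z.map B.mkQ : Submodule F2 (V ⧸ B)) :=
    LinearEquiv.ofEq _ _ hrange
  rw [((e1.trans e2).trans e3).length_eq, Module.length_eq_finrank]
  exact_mod_cast hr

theorem length_HP_le {E : Type} [TopologicalSpace E] {X A : Set E} {C : ℕ}
    (h : RkLE (Zp X A) (Bp X A) C) : Module.length F2 (HP X A) ≤ C := length_quot_le h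

/-! ### unions of circles -/

/-- the circle of rotations of a loop -/
def circ {M : Type} [MetricSpace M] (g : Lp M) : Set (Lp M) := range fun a : UnitAddCircle => rot a g

theorem isCompact_circ {M : Type} [MetricSpace M] (g : Lp M) : IsCompact (circ g) :=
  isCompact_range (continuous_rot.comp (continuous_id.prodMk continuous_const))

theorem circ_eq_of_mem {M : Type} [MetricSpace M] {g g' : Lp M} (h : g' ∈ circ g) :
    circ g' = circ g := by
  obtain ⟨a, rfl⟩ := h
  ext x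
  constructor
  · rintro ⟨b, rfl⟩
    exact ⟨b + a, (rot_rot b a g).symm⟩
  · rintro ⟨b, rfl⟩
    refine ⟨b - a, ?_⟩
    show rot (b - a) (rot a g) = rot b g
    rw [rot_rot, sub_add_cancel]

theorem circ_eq_or_disjoint {M : Type} [MetricSpace M] (g g' : Lp M) :
    circ g = circ g' ∨ Disjoint (circ g) (circ g') := by
  by_cases h : Disjoint (circ g) (circ g')
  · exact Or.inr h
  · rw [Set.not_disjoint_iff] at h
    obtain ⟨x, h1, h2⟩ := h
    exact Or.inl ((circ_eq_of_mem h1).symm.trans (circ_eq_of_mem h2))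

/-- finite unions of circles -/
theorem SR_circles {M : Type} [MetricSpace M] {Y A : Set (Lp M)} {C : ℕ} {ι : Type}
    (t : Finset ι) (g : ι → Lp M) (h : ∀ i ∈ t, SR Y A (circ (g i)) C) :
    SR Y A (⋃ i ∈ t, circ (g i)) (t.card * C) := by
  classical
  induction t using Finset.induction_on with
  | empty => simpa using SR.empty Y A
  | insert i t hi ih =>
    have h1 := ih fun j hj => h j (Finset.mem_insert_of_mem hj)
    have h2 := h i (Finset.mem_insert_self i t)
    have hcl : IsClosed (⋃ j ∈ t, circ (g j)) :=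
      (t.finite_toSet).isClosed_biUnion fun j _ => (isCompact_circ (g j)).isClosed
    rw [Finset.card_insert_of_notMem hi]
    have e : (⋃ j ∈ insert i t, circ (g j)) = circ (g i) ∪ ⋃ j ∈ t, circ (g j) := by
      simp
    rw [e]
    by_cases hd : Disjoint (circ (g i)) (⋃ j ∈ t, circ (g j))
    · have := SR.union_disj (isCompact_circ (g i)).isClosed hcl hd h2 h1
      exact this.mono (by rw [add_mul, one_mul, add_comm])
    · rw [Set.disjoint_iUnion₂_right] at hd
      push Not at hd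
      obtain ⟨j, hj, hdj⟩ := hd
      have e2 : circ (g i) = circ (g j) := (circ_eq_or_disjoint _ _).resolve_right hdj
      have e3 : circ (g i) ∪ (⋃ j ∈ t, circ (g j)) = ⋃ j ∈ t, circ (g j) := by
        refine union_eq_right.2 ?_
        rw [e2]
        exact subset_biUnion_of_mem (u := fun j => circ (g j)) hj
      rw [e3]
      exact h1.mono (Nat.mul_le_mul_right C (Nat.le_succ _))

variable {M : Type} [MetricSpace M]

variable (M) in
/-- the bound for one critical circle (helper537) -/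
def OrbStmt : Prop := ∀ (b s : ℝ) (g : Lp M) (C : ℕ), IsGeo s g → s < b →
  SR (X M b) (XL M s) {g} C → SR (X M b) (XL M s) (circ g) (4 * C)

/-- all critical points of one level -/
theorem SR_level {ι : Type} [Fintype ι] (L : LUG M) (hL : L.LocMin) (nb : NonBr M L.r0)
    (S : PrimeSys M L.r0 ι) (horb : OrbStmt M) {s b : ℝ} (hsb : s < b) {C : ℕ}
    (h : ∀ g, IsGeo s g → SR (X M b) (XL M s) {g} C) :
    SR (X M b) (XL M s) {g | IsGeo s g} (2 * Fintype.card ι * (4 * C)) := by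
  classical
  -- the critical circles
  set t : Finset (ι × Bool) :=
    Finset.univ.filter fun p => 0 < s ∧ ∃ m : ℕ, 0 < m ∧ s = m * S.l p.1 with ht
  have hex : ∀ p : ι × Bool, ∃ g : Lp M, p ∈ t → (IsGeo s g ∧
      {γ : Lp M | up γ ∈ S.orbit p.1 (sgn p.2) s} = circ g) := by
    intro p
    by_cases hp : p ∈ t
    · have hp' := (Finset.mem_filter.1 hp).2
      obtain ⟨γ, h1, h2⟩ := exists_circle (S := S) L.r0_pos hp'.1 p.1 p.2 hp'.2
      exact ⟨γ, fun _ => ⟨isGeo_of_mem_critP L.r0_pos h1, h2⟩⟩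
    · by_cases hne : Nonempty (Lp M)
      · exact ⟨hne.some, fun h => absurd h hp⟩
      · exfalso
        exact hne ⟨(exists_up (g := fun _ => (S.c p.1 0)) continuous_const fun _ => rfl).choose⟩
  choose γ hγ using hex
  have key := SR_circles (Y := X M b) (A := XL M s) (C := 4 * C) t γ fun p hp =>
    horb b s (γ p) C (hγ p hp).1 hsb (h _ (hγ p hp).1)
  have e : {g : Lp M | IsGeo s g} = ⋃ p ∈ t, circ (γ p) := by
    rw [setOf_isGeo L hL nb (S := S) s]
    ext g
    have h1 : ∀ e : Bool, g ∈ critP S e s ↔ ∃ i, (i, e) ∈ t ∧ g ∈ circ (γ (i, e)) := by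
      intro e
      constructor
      · intro hg
        have hs := pos_of_mem_critP hg
        obtain ⟨i, m, hm, he, ho⟩ := hg
        have hi : (i, e) ∈ t := Finset.mem_filter.2 ⟨Finset.mem_univ _, hs, m, hm, he⟩
        refine ⟨i, hi, ?_⟩
        rw [← (hγ _ hi).2]
        exact ho
      · rintro ⟨i, hi, hg⟩
        rw [← (hγ _ hi).2] at hg
        obtain ⟨-, m, hm, he⟩ := (Finset.mem_filter.1 hi).2
        exact ⟨i, m, hm, he, hg⟩
    constructor
    · rintro (hg | hg)
      · obtain ⟨i, hi, hg⟩ := (h1 true).1 hg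
        exact mem_biUnion (x := (i, true)) (t := fun p => circ (γ p)) hi hg
      · obtain ⟨i, hi, hg⟩ := (h1 false).1 hg
        exact mem_biUnion (x := (i, false)) (t := fun p => circ (γ p)) hi hg
    · intro hg
      obtain ⟨⟨i, e⟩, hi, hg⟩ := mem_iUnion₂.1 hg
      cases e with
      | true => exact Or.inl ((h1 true).2 ⟨i, hi, hg⟩)
      | false => exact Or.inr ((h1 false).2 ⟨i, hi, hg⟩)
  rw [e]
  refine key.mono (Nat.mul_le_mul_right _ ?_)
  refine (Finset.card_le_univ t).trans ?_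
  rw [Fintype.card_prod, Fintype.card_bool, Nat.mul_comm]

/-- **(GM)** from one constant for all critical points -/
theorem gmw_of_point [CompactSpace M] {ι : Type} [Finite ι] (L : LUG M) (hL : L.LocMin)
    (nb : NonBr M L.r0) (S : PrimeSys M L.r0 ι)
    (hpush : ∀ T : ℝ, Nonempty (GCrossx449.Push M T)) (horb : OrbStmt M)
    (h : ∃ C : ℕ, ∀ (s : ℝ) (g : Lp M), IsGeo s g → ∀ b : ℝ, s < b → b ≤ 2 * s →
      SR (X M b) (XL M s) {g} C) : GMW M := by
  classical
  have := Fintype.ofFinite ι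
  obtain ⟨C, h⟩ := h
  refine ⟨2 * Fintype.card ι * (4 * C), fun s hs => ?_⟩
  have hspos : 0 < s := by
    obtain ⟨γ, hγ⟩ := hs
    exact hγ.1
  refine ⟨s, hspos, fun a b ha _ has hsb hbs honly => ?_⟩
  obtain ⟨P⟩ := hpush (s + 1)
  have hnon : ∀ a b : ℝ, 0 ≤ a → a ≤ b → (∀ s ∈ CritS M, ¬ (a ≤ s ∧ s ≤ b)) →
      Zp (X M b) (X M a) ≤ Bp (X M b) (X M a) := fun a b h1 h2 h3 => GNonx651.acyclic L h1 h2 h3
  have hSR := SR_level L hL nb S horb hsb fun g hg => h s g hg b hsb (by linarith)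
  refine length_HP_le (GMPush136.rank_of_SR hL P ha has hsb le_rfl (by linarith) hSR ?_ ?_)
  · intro t h1 h2
    refine hnon a t ha h1 fun s' hs' h3 => ?_
    have := honly s' hs' h3.1 (by linarith [h3.2])
    linarith [h3.2]
  · intro t u h1 h2 h3
    refine hnon t u (by linarith) h2 fun s' hs' h4 => ?_
    have := honly s' hs' (by linarith [h4.1]) (by linarith [h4.2])
    linarith [h4.1]

end Crest.Agent.R231.GMEndx160
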