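import Crest.Agent.R231.GMSadB_888
import Crest.Agent.R231.GMAbs_102
import Crest.Agent.R231.GMSR_537
import Crest.Agent.R231.GMGeoB_889
import Crest.Agent.R231.GMBrk_889
import Crest.Agent.R231.GMRepN_889
import Crest.Agent.R231.GCross_449
import Crest.Agent.R231.GMSys_320
import Crest.Agent.R231.GMRed_102

-- ▼ part R231/GMSadC_888
section

/-!
# Row 231, block GM, leaf B1 (helper888), part C: the saddle lemma in coordinates

* `RkP_prod` : rank bound for the product with `(ℝ^k, ℝ^k - 0)`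
* `LB_of_SadBox` : if `F : X × (ι → ℝ) → ℝ` satisfies `SadBox` near `x0` then
  `LB x0 {x | F (x, 0) < 0} C → LB (x0, 0) {p | F p < 0} C`
-/

set_option autoImplicit false
set_option linter.unusedSectionVars false

noncomputable section

open Set Filter Topology
open Crest.Agent.R204 Crest.Agent.R204.SingAct265 Crest.Agent.R204.EZ271
open Crest.Agent.R231.Pairx877 Crest.Agent.R231.GM898 Crest.Agent.R231.GMSadAx888
open Crest.Agent.R231.GMSadBx888

namespace Crest.Agent.R231.GMSadCx888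

variable {X ι : Type} [TopologicalSpace X] [Fintype ι]

/-- translation in the `i`-th coordinate -/
def trn [DecidableEq ι] (i : ι) : C(ℝ × (X × (ι → ℝ)), X × (ι → ℝ)) :=
  ⟨fun p => (p.2.1, p.2.2 + p.1 • (Pi.single i (1 : ℝ) : ι → ℝ)), by fun_prop⟩

/-- the `i`-th coordinate -/
def crd (i : ι) : C(X × (ι → ℝ), ℝ) := ⟨fun p => p.2 i, by fun_prop⟩

theorem trl_trn [DecidableEq ι] (i : ι) : Trl (trn (X := X) i) (crd i) where
  zero p := by
    show (p.1, p.2 + (0 : ℝ) • (Pi.single i (1 : ℝ) : ι → ℝ)) = p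
    rw [zero_smul, add_zero]
  add s p := by
    show (p.2 + s • (Pi.single i (1 : ℝ) : ι → ℝ)) i = p.2 i + s
    simp

/-- lower set of the product -/
def NJ (g : X → ℝ) (J : Finset ι) : Set (X × (ι → ℝ)) :=
  {p | g p.1 < 0} ∪ {p | ∃ i ∈ J, p.2 i ≠ 0}

theorem NJ_insert [DecidableEq ι] (g : X → ℝ) (J : Finset ι) (i : ι) :
    NJ g (insert i J) = NJ g J ∪ {p | crd i p ≠ 0} := by
  ext p
  constructor
  · rintro (h | ⟨j, hj, h⟩)
    · exact Or.inl (Or.inl h)
    · rcases Finset.mem_insert.1 hj with rfl | hj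
      · exact Or.inr h
      · exact Or.inl (Or.inr ⟨j, hj, h⟩)
  · rintro ((h | ⟨j, hj, h⟩) | h)
    · exact Or.inl h
    · exact Or.inr ⟨j, Finset.mem_insert_of_mem hj, h⟩
    · exact Or.inr ⟨i, Finset.mem_insert_self _ _, h⟩

/-- projection -/
def prX : C(X × (ι → ℝ), X) := ⟨Prod.fst, continuous_fst⟩
/-- zero section -/
def inX : C(X, X × (ι → ℝ)) := ⟨fun x => (x, 0), by fun_prop⟩
/-- contraction -/
def ctr : C(ℝ × (X × (ι → ℝ)), X × (ι → ℝ)) :=
  ⟨fun p => (p.2.1, (1 - p.1) • p.2.2), by fun_prop⟩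

theorem RkP_base {g : X → ℝ} {A0 U0 : Set X} {C : ℕ}
    (h : RkP A0 (A0 ∩ {x | g x < 0}) U0 (U0 ∩ {x | g x < 0}) C) (hAU : A0 ⊆ U0) :
    RkP (A0 ×ˢ (univ : Set (ι → ℝ))) (NJ g ∅ ∩ A0 ×ˢ univ) (U0 ×ˢ (univ : Set (ι → ℝ)))
      (NJ g ∅ ∩ U0 ×ˢ univ) C := by
  have e0 : NJ (ι := ι) g ∅ = {p | g p.1 < 0} := by
    ext p
    simp [NJ]
  rw [e0]
  refine RkLE.of_map (mp prX) ?_ ?_ h
  · intro z hz
    have m1 : MapsTo (prX (X := X) (ι := ι)) (A0 ×ˢ univ) A0 := fun p hp => hp.1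
    have m2 : MapsTo (prX (X := X) (ι := ι)) ({p | g p.1 < 0} ∩ A0 ×ˢ univ)
      (A0 ∩ {x | g x < 0}) := fun p hp => ⟨hp.2.1, hp.1⟩
    exact mp_Zp m1 m2 hz
  · intro z hz hB
    have hsub : Zp (A0 ×ˢ (univ : Set (ι → ℝ))) ({p | g p.1 < 0} ∩ A0 ×ˢ univ) ≤
        Zp (U0 ×ˢ (univ : Set (ι → ℝ))) ({p | g p.1 < 0} ∩ U0 ×ˢ univ) :=
      Zp_mono (prod_mono hAU subset_rfl) (inter_subset_inter_right _ (prod_mono hAU subset_rfl))
    refine push_step ctr (T := 1) zero_le_one (X := U0 ×ˢ (univ : Set (ι → ℝ)))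
      (A := {p | g p.1 < 0} ∩ U0 ×ˢ univ) (fun p _ => ?_) ?_ ?_ (hsub hz) ?_
    rotate_left
    · rintro s _ _ p hp
      exact ⟨hp.1, trivial⟩
    · rintro s _ _ p hp
      exact ⟨hp.1, hp.2.1, trivial⟩
    rotate_left
    · show (p.1, (1 - (0 : ℝ)) • p.2) = p
      rw [sub_zero, one_smul]
    · have e : mp (ctr.comp ((ContinuousMap.const (X × (ι → ℝ)) 1).prodMk
          (ContinuousMap.id (X × (ι → ℝ))))) z = mp inX (mp prX z) := by
        rw [mp_mp]
        congr 2
        ext p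
        · rfl
        · show ((1 - (1 : ℝ)) • p.2) _ = (0 : ι → ℝ) _
          rw [sub_self, zero_smul]
      rw [e]
      have m1 : MapsTo (inX (X := X) (ι := ι)) U0 (U0 ×ˢ univ) := fun x hx => ⟨hx, trivial⟩
      have m2 : MapsTo (inX (X := X) (ι := ι)) (U0 ∩ {x | g x < 0})
        ({p | g p.1 < 0} ∩ U0 ×ˢ univ) := fun x hx => ⟨hx.2, hx.1, trivial⟩
      exact mp_Bp m1 m2 hB

theorem NJ_nhds {g : X → ℝ} {A0 : Set X} (hg : ContinuousOn g A0) (J : Finset ι)
    {p : X × (ι → ℝ)} (hp : p ∈ NJ g J ∩ A0 ×ˢ univ) : NJ g J ∈ 𝓝[A0 ×ˢ univ] p := by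
  obtain ⟨h | ⟨i, hi, h⟩, hpA⟩ := hp
  · have h1 : ContinuousWithinAt (fun q : X × (ι → ℝ) => g q.1) (A0 ×ˢ univ) p :=
      (hg.comp continuous_fst.continuousOn (fun q hq => hq.1)) p hpA
    exact mem_of_superset (h1.preimage_mem_nhdsWithin (Iio_mem_nhds (show g p.1 < 0 from h)))
      (fun q hq => Or.inl hq)
  · have h1 : IsOpen {q : X × (ι → ℝ) | q.2 i ≠ 0} := isOpen_ne_fun (by fun_prop) (by fun_prop)
    exact mem_of_superset (mem_nhdsWithin_of_mem_nhds (h1.mem_nhds h))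
      (fun q hq => Or.inr ⟨i, hi, hq⟩)

theorem RkP_prod {g : X → ℝ} {A0 U0 : Set X} {C : ℕ} (hg : ContinuousOn g A0)
    (h : RkP A0 (A0 ∩ {x | g x < 0}) U0 (U0 ∩ {x | g x < 0}) C) (hAU : A0 ⊆ U0) (J : Finset ι) :
    RkP (A0 ×ˢ (univ : Set (ι → ℝ))) (NJ g J ∩ A0 ×ˢ univ) (U0 ×ˢ (univ : Set (ι → ℝ)))
      (NJ g J ∩ U0 ×ˢ univ) C := by
  classical
  induction J using Finset.induction_on with
  | empty => exact RkP_base h hAU
  | insert i J hi ih =>
    rw [NJ_insert]
    refine RkP_susp (trl_trn i) (prod_mono hAU subset_rfl) ?_ ?_ (fun p hp => NJ_nhds hg J hp) ih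
    · intro s p hp
      exact ⟨hp.1, trivial⟩
    · rintro s p (h | ⟨j, hj, h⟩)
      · exact Or.inl h
      · refine Or.inr ⟨j, hj, ?_⟩
        show (p.2 + s • (Pi.single i (1 : ℝ) : ι → ℝ)) j ≠ 0
        have hji : j ≠ i := fun e => hi (e ▸ hj)
        rw [Pi.add_apply, Pi.smul_apply, Pi.single_eq_of_ne hji, smul_zero, add_zero]
        exact h

/-- the clamped flow on the product -/
def Sc (R : ℝ) (w : ι → ℝ) : C(ℝ × (X × (ι → ℝ)), X × (ι → ℝ)) :=
  ⟨fun p => (p.2.1, St R w p.1 p.2.2),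
    (continuous_fst.comp continuous_snd).prodMk
      ((St_continuous R w).comp (continuous_fst.prodMk (continuous_snd.comp continuous_snd)))⟩

theorem SadBox.mono {F : X × (ι → ℝ) → ℝ} {w : ι → ℝ} {U U' : Set X} {ρ ρ' : ℝ}
    (h : SadBox F w U ρ) (hU : U' ⊆ U) (hρ : ρ' ≤ ρ) : SadBox F w U' ρ' :=
  ⟨h.w_or, fun x hx y hy => h.der x (hU hx) y (hy.trans hρ)⟩

theorem Bx_mem_nhds {w : ι → ℝ} {r R : ℝ} (hr : 0 < r) (hR : 0 < R) : Bx w r R ∈ 𝓝 (0 : ι → ℝ) := by
  have h : Metric.closedBall (0 : ι → ℝ) (min r R) ⊆ Bx w r R := by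
    intro y hy i
    rw [mem_closedBall_zero_iff] at hy
    have h1 : |y i| ≤ min r R := (norm_le_pi_norm y i).trans hy
    split_ifs
    · exact h1.trans (min_le_right _ _)
    · exact h1.trans (min_le_left _ _)
  exact mem_of_superset (Metric.closedBall_mem_nhds _ (lt_min hr hR)) h

/-- **the saddle lemma in coordinates** -/
theorem LB_of_SadBox {F : X × (ι → ℝ) → ℝ} {w : ι → ℝ} {U : Set X} {ρ : ℝ} {x0 : X} {C : ℕ}
    (h : SadBox F w U ρ) (hρ : 0 < ρ) (hU : U ∈ 𝓝 x0) (hc : ContinuousOn (fun x => F (x, 0)) U)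
    (hF0 : F (x0, 0) = 0) (hL : LB x0 {x | F (x, 0) < 0} C) :
    LB ((x0, 0) : X × (ι → ℝ)) {p | F p < 0} C := by
  intro U' hU'
  -- constants
  obtain ⟨V, hV, ρ1, hρ1, hρ1ρ, hVU'⟩ : ∃ V ∈ 𝓝 x0, ∃ ρ1 : ℝ, 0 < ρ1 ∧ ρ1 ≤ ρ ∧
      V ×ˢ Metric.closedBall (0 : ι → ℝ) ρ1 ⊆ U' := by
    obtain ⟨V, hV, W, hW, hVW⟩ := mem_nhds_prod_iff.1 hU'
    obtain ⟨ε, hε, hεW⟩ := Metric.nhds_basis_closedBall.mem_iff.1 hW
    refine ⟨V, hV, min ε ρ, lt_min hε hρ, min_le_right _ _, ?_⟩
    exact (prod_mono subset_rfl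
      ((Metric.closedBall_subset_closedBall (min_le_left _ _)).trans hεW)).trans hVW
  have hcx : ContinuousAt (fun x => F (x, 0)) x0 := hc.continuousAt hU
  have hsm : {x | F (x, 0) < ρ1 * ρ1 / 8} ∈ 𝓝 x0 :=
    hcx.preimage_mem_nhds (Iio_mem_nhds (by
      show F (x0, 0) < ρ1 * ρ1 / 8
      rw [hF0]; positivity))
  set U1 : Set X := U ∩ V ∩ {x | F (x, 0) < ρ1 * ρ1 / 8} with hU1
  have hU1n : U1 ∈ 𝓝 x0 := inter_mem (inter_mem hU hV) hsm
  obtain ⟨A0, hA0, hA0U, hr⟩ := hL U1 hU1n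
  obtain ⟨r, hC⟩ := exists_consts ι hρ1
  have hbox : SadBox F w U1 ρ1 := SadBox.mono h (fun x hx => hx.1.1) hρ1ρ
  have hcU1 : ContinuousOn (fun x => F (x, 0)) U1 := hc.mono fun x hx => hx.1.1
  have hU1U' : U1 ×ˢ Bx w r ρ1 ⊆ U' := by
    rintro ⟨x, y⟩ ⟨hx, hy⟩
    refine hVU' ⟨hx.1.2, ?_⟩
    rw [mem_closedBall_zero_iff]
    exact Bx_norm hρ1.le hC.r_le le_rfl hy
  have hA0U' : A0 ×ˢ Bx w r ρ1 ⊆ U' := (prod_mono hA0U subset_rfl).trans hU1U'
  refine ⟨A0 ×ˢ Bx w r ρ1, prod_mem_nhds hA0 (Bx_mem_nhds hC.r_pos hρ1), hA0U', ?_⟩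
  set J : Finset ι := Finset.univ.filter fun i => w i < 0 with hJ
  have hprod := RkP_prod (ι := ι) (g := fun x => F (x, 0)) (hcU1.mono hA0U) hr hA0U J
  have hMJ : ∀ p : X × (ι → ℝ), p ∈ NJ (fun x => F (x, 0)) J ↔
      (F (p.1, 0) < 0 ∨ ∃ i, w i < 0 ∧ p.2 i ≠ 0) := by
    intro p
    simp [NJ, hJ]
  refine RkLE.of_map LinearMap.id ?_ ?_ hprod
  · rintro z hz
    refine Zp_mono (prod_mono subset_rfl (subset_univ _)) ?_ hz
    rintro p ⟨hp, hpF⟩
    refine ⟨(hMJ p).2 ?_, hp.1, trivial⟩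
    exact neg_sub hbox (hA0U hp.1) (Bx_norm hρ1.le hC.r_le le_rfl hp.2) hpF
  · intro z hz hB
    rw [LinearMap.id_apply, mem_Bp] at hB
    obtain ⟨c, hc1, hc2⟩ := hB
    obtain ⟨Kc, hKc, hKcU, hcK⟩ := exists_compact_supp hc1
    obtain ⟨Ka, hKa, hKaU, haK⟩ := exists_compact_supp hc2
    obtain ⟨T1, hT1⟩ := push hbox hC hcU1 hKa (fun p hp => (hKaU hp).2.1)
      (fun p hp => (hKaU hp).2.1.2) (fun p hp => (hMJ p).1 (hKaU hp).1)
    obtain ⟨T2, hT2⟩ := push_box (w := w) hC.r_pos hρ1.le (hKa.union hKc)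
    set T : ℝ := max 0 (max T1 T2) with hT
    have hT0 : 0 ≤ T := le_max_left _ _
    have hTT1 : T1 ≤ T := (le_max_left _ _).trans (le_max_right _ _)
    have hTT2 : T2 ≤ T := (le_max_right _ _).trans (le_max_right _ _)
    refine push_step (Sc ρ1 w) hT0 (X := A0 ×ˢ Bx w r ρ1)
      (A := A0 ×ˢ Bx w r ρ1 ∩ {p | F p < 0}) ?_ ?_ ?_ hz ?_
    · rintro ⟨x, y⟩ ⟨hx, hy⟩
      show (x, St ρ1 w 0 y) = (x, y)
      rw [St_zero]
      intro i hi
      have := hy i
      rwa [if_pos hi] at this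
    · rintro s hs _ ⟨x, y⟩ ⟨hx, hy⟩
      exact hA0U' ⟨hx, St_mem_Bx hρ1.le hy hs⟩
    · rintro s hs _ ⟨x, y⟩ ⟨⟨hx, hy⟩, hxy⟩
      exact ⟨hA0U' ⟨hx, St_mem_Bx hρ1.le hy hs⟩,
        St_neg hbox hC (hA0U hx) (hA0U hx).2 hy hs hxy⟩
    · set f := (Sc (X := X) ρ1 w).comp ((ContinuousMap.const (X × (ι → ℝ)) T).prodMk
        (ContinuousMap.id (X × (ι → ℝ)))) with hf
      rw [mem_Bp]
      refine ⟨mp f c, mp_mem (A := Kc) (fun p hp => ?_) c hcK, ?_⟩
      · exact hU1U' ⟨(hKcU hp).1, hT2 T hTT2 p (Or.inr hp)⟩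
      · rw [bd_mp, ← map_sub]
        refine mp_mem (A := Ka) (fun p hp => ?_) _ haK
        exact ⟨hU1U' ⟨(hKaU hp).2.1, hT2 T hTT2 p (Or.inl hp)⟩, hT1 T hTT1 p hp⟩

end Crest.Agent.R231.GMSadCx888
end
end

-- ▼ part R231/GMB1_898
section

/-!
# Row 231, block GM: (B1) from 888's saddle lemma in coordinates (helper898)

* `exists_diag` : a nondegenerate symmetric bilinear form is `∑ w_i u_i v_i`, `w_i = ±1`, in a suitable
  linear coordinate system
* `sadBox_of` : a `C²` function whose partial derivative in `y` vanishes along `y = 0` and whose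
  Hessian in `y` at the point is this form satisfies 888's `SadBox`
* `b1 : GMAbsx102.B1`
-/

set_option autoImplicit false
set_option linter.unusedSectionVars false

noncomputable section

open Set Filter Topology
open Crest.Agent.R231.GM898 Crest.Agent.R231.GMSadAx888 Crest.Agent.R231.GMSadCx888

namespace Crest.Agent.R231.GM898

section diag

variable {Y : Type} [NormedAddCommGroup Y] [NormedSpace ℝ Y] [FiniteDimensional ℝ Y]

theorem exists_diag (B : Y →L[ℝ] Y →L[ℝ] ℝ) (hs : ∀ v w, B v w = B w v)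
    (hn : ∀ v, v ≠ 0 → ∃ w, B v w ≠ 0) :
    ∃ (w : Fin (Module.finrank ℝ Y) → ℝ) (e : (Fin (Module.finrank ℝ Y) → ℝ) ≃L[ℝ] Y),
      (∀ i, w i = -1 ∨ w i = 1) ∧ ∀ u v, B (e u) (e v) = ∑ i, w i * u i * v i := by
  let Bl : LinearMap.BilinForm ℝ Y := LinearMap.mk₂ ℝ (fun v w => B v w)
    (fun a b c => by simp) (fun a b c => by simp) (fun a b c => by simp) (fun a b c => by simp)
  have hBl : ∀ v w, Bl v w = B v w := fun v w => rfl
  have hass : (QuadraticMap.associated (R := ℝ) Bl.toQuadraticMap) = Bl :=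
    QuadraticMap.associated_left_inverse (S := ℝ) (B₁ := Bl) (fun x y => hs x y)
  have hsep : (QuadraticMap.associated (R := ℝ) Bl.toQuadraticMap).SeparatingLeft := by
    rw [hass]
    intro v hv
    by_contra hne
    obtain ⟨w, hw⟩ := hn v hne
    exact hw (hv w)
  obtain ⟨w, hw, ⟨iso⟩⟩ :=
    QuadraticForm.equivalent_one_neg_one_weighted_sum_squared Bl.toQuadraticMap hsep
  let e : (Fin (Module.finrank ℝ Y) → ℝ) ≃L[ℝ] Y :=
    iso.symm.toLinearEquiv.toContinuousLinearEquiv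
  refine ⟨w, e, hw, ?_⟩
  have hq : ∀ u, B (e u) (e u) = ∑ i, w i * u i * u i := by
    intro u
    have h1 : Bl.toQuadraticMap (iso.symm u) = QuadraticMap.weightedSumSquares ℝ w u :=
      iso.symm.map_app u
    rw [QuadraticMap.weightedSumSquares_apply] at h1
    calc B (e u) (e u) = Bl.toQuadraticMap (iso.symm u) := rfl
      _ = _ := h1
      _ = _ := Finset.sum_congr rfl fun i _ => by rw [smul_eq_mul, mul_assoc]
  intro u v
  have h1 := hq (u + v)
  have h2 := hq u
  have h3 := hq v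
  rw [map_add] at h1
  have h1' : B (e u + e v) (e u + e v) = B (e u) (e u) + B (e v) (e u) +
      (B (e u) (e v) + B (e v) (e v)) := by
    rw [map_add, map_add]; rfl
  rw [h1'] at h1
  rw [hs (e v) (e u)] at h1
  have h4 : ∑ i, w i * (u + v) i * (u + v) i =
      ∑ i, w i * u i * u i + 2 * ∑ i, w i * u i * v i + ∑ i, w i * v i * v i := by
    rw [Finset.mul_sum, ← Finset.sum_add_distrib, ← Finset.sum_add_distrib]
    refine Finset.sum_congr rfl fun i _ => ?_
    rw [Pi.add_apply]; ring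
  linarith

end diag

section main

variable {X Y : Type} [NormedAddCommGroup X] [NormedSpace ℝ X] [FiniteDimensional ℝ X]
  [NormedAddCommGroup Y] [NormedSpace ℝ Y] [FiniteDimensional ℝ Y]

/-- the inclusion of the second factor -/
abbrev jr : Y →L[ℝ] X × Y := ContinuousLinearMap.inr ℝ X Y

theorem fderiv_slice {f : X × Y → ℝ} {x : X} {y : Y} (h : DifferentiableAt ℝ f (x, y)) :
    HasFDerivAt (fun y => f (x, y)) ((fderiv ℝ f (x, y)).comp (jr (X := X))) y := by
  have h1 : HasFDerivAt (fun y : Y => (x, y)) (jr (X := X) (Y := Y)) y :=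
    (hasFDerivAt_const x y).prodMk (hasFDerivAt_id (𝕜 := ℝ) y)
  exact h.hasFDerivAt.comp y h1

theorem near_of_cont {E G : Type} [TopologicalSpace E] [NormedAddCommGroup G] {φ : E → G} {p : E}
    (h : ContinuousAt φ p) {ε : ℝ} (hε : 0 < ε) : ∀ᶠ q in 𝓝 p, ‖φ q - φ p‖ < ε := by
  have h1 : ContinuousAt (fun q => ‖φ q - φ p‖) p := (h.sub continuousAt_const).norm
  refine h1.eventually (gt_mem_nhds ?_)
  show ‖φ p - φ p‖ < ε
  rw [sub_self, norm_zero]; exact hε

theorem fderiv_slice2 {f : X × Y → ℝ} (hf : ContDiffAt ℝ 2 f (0, 0)) (v w : Y) :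
    (fderiv ℝ (fderiv ℝ (fun y => f (0, y))) 0) v w =
      fderiv ℝ (fderiv ℝ f) (0, 0) (0, v) (0, w) := by
  have hd : ∀ᶠ p in 𝓝 ((0, 0) : X × Y), DifferentiableAt ℝ f p := by
    have := hf.eventually (by simp)
    filter_upwards [this] with p hp
    exact hp.differentiableAt (by norm_num)
  have hc : Tendsto (fun y : Y => ((0 : X), y)) (𝓝 0) (𝓝 (0, 0)) := by
    have : Continuous (fun y : Y => ((0 : X), y)) := by fun_prop
    exact this.tendsto 0
  have he : fderiv ℝ (fun y => f (0, y)) =ᶠ[𝓝 0]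
      fun y => (fderiv ℝ f (0, y)).comp (jr (X := X)) := by
    filter_upwards [hc.eventually hd] with y hy
    exact (fderiv_slice hy).fderiv
  rw [he.fderiv_eq]
  have h2 : DifferentiableAt ℝ (fderiv ℝ f) (0, 0) := by
    have h := hf.fderiv_right (m := 1) (by norm_num)
    exact h.differentiableAt (by norm_num)
  have h1 : HasFDerivAt (fun y : Y => ((0 : X), y)) (jr (X := X) (Y := Y)) 0 :=
    (hasFDerivAt_const (0 : X) (0 : Y)).prodMk (hasFDerivAt_id (𝕜 := ℝ) (0 : Y))
  have h3 : HasFDerivAt (fun y : Y => fderiv ℝ f (0, y))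
      ((fderiv ℝ (fderiv ℝ f) (0, 0)).comp (jr (X := X))) 0 := h2.hasFDerivAt.comp 0 h1
  have h4 := (ContinuousLinearMap.compL ℝ Y (X × Y) ℝ).flip (jr (X := X)) |>.hasFDerivAt
    (x := fderiv ℝ f ((0 : X), (0 : Y))) |>.comp (0 : Y) h3
  have h5 : HasFDerivAt (fun y : Y => (fderiv ℝ f (0, y)).comp (jr (X := X)))
      (((ContinuousLinearMap.compL ℝ Y (X × Y) ℝ).flip (jr (X := X))).comp
        ((fderiv ℝ (fderiv ℝ f) (0, 0)).comp (jr (X := X)))) 0 := h4
  rw [h5.fderiv]
  simp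

theorem sadBox_of {f : X × Y → ℝ} (hf : ContDiffAt ℝ 2 f (0, 0))
    (h0 : ∀ᶠ x in 𝓝 (0 : X), fderiv ℝ (fun y => f (x, y)) 0 = 0)
    {ι : Type} [Fintype ι] (w : ι → ℝ) (hw : ∀ i, w i = -1 ∨ w i = 1) (e : (ι → ℝ) ≃L[ℝ] Y)
    (he : ∀ u v, fderiv ℝ (fderiv ℝ f) (0, 0) ((0 : X), e u) ((0 : X), e v) =
      ∑ i, w i * u i * v i) :
    ∃ ρ > 0, ∃ U ∈ 𝓝 (0 : X), SadBox (fun p : X × (ι → ℝ) => f (p.1, e p.2)) w U ρ ∧
      ContinuousOn (fun x => f (x, e 0)) U := by
  set M : ℝ := ‖(e : (ι → ℝ) →L[ℝ] Y)‖ with hM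
  have hM0 : 0 ≤ M := norm_nonneg _
  set ε : ℝ := 1 / (2 * (M * M + 1)) with hε
  have hε0 : 0 < ε := by positivity
  have hεM : ε * (M * M) ≤ 1 / 2 := by
    rw [hε, div_mul_eq_mul_div, one_mul, div_le_div_iff₀ (by positivity) (by norm_num)]
    nlinarith
  -- the second derivative is continuous at the point
  have hfd : ContDiffAt ℝ 1 (fderiv ℝ f) (0, 0) := hf.fderiv_right (by norm_num)
  have hfd2 : ContDiffAt ℝ 0 (fderiv ℝ (fderiv ℝ f)) (0, 0) := hfd.fderiv_right (by norm_num)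
  have hc2 : ContinuousAt (fderiv ℝ (fderiv ℝ f)) ((0 : X), (0 : Y)) := hfd2.continuousAt
  have e1 : ∀ᶠ p in 𝓝 ((0, 0) : X × Y), ‖fderiv ℝ (fderiv ℝ f) p -
      fderiv ℝ (fderiv ℝ f) (0, 0)‖ < ε := by
    exact near_of_cont (G := (X × Y) →L[ℝ] (X × Y) →L[ℝ] ℝ) hc2 hε0
  have e2 : ∀ᶠ p in 𝓝 ((0, 0) : X × Y), ContDiffAt ℝ 2 f p := hf.eventually (by simp)
  have e3 : ∀ᶠ p in 𝓝 ((0, 0) : X × Y), DifferentiableAt ℝ (fderiv ℝ f) p := by
    filter_upwards [e2] with p hp
    exact (hp.fderiv_right (m := 1) (by norm_num)).differentiableAt (by norm_num)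
  have hev := (e1.and (e2.and e3))
  rw [Filter.eventually_iff, mem_nhds_prod_iff] at hev
  obtain ⟨U, hU, V, hV, hUV⟩ := hev
  -- radius
  obtain ⟨δ, hδ, hδV⟩ := Metric.nhds_basis_closedBall.mem_iff.1 hV
  set ρ : ℝ := δ / (M + 1) with hρ
  have hρ0 : 0 < ρ := by positivity
  have hρM : M * ρ ≤ δ := by
    rw [hρ, mul_div_assoc', div_le_iff₀ (by positivity)]
    nlinarith
  have hmem : ∀ y : ι → ℝ, ‖y‖ ≤ ρ → e y ∈ V := by
    intro y hy
    apply hδV
    rw [mem_closedBall_zero_iff]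
    calc ‖e y‖ ≤ M * ‖y‖ := (e : (ι → ℝ) →L[ℝ] Y).le_opNorm y
      _ ≤ M * ρ := mul_le_mul_of_nonneg_left hy hM0
      _ ≤ δ := hρM
  set U' : Set X := U ∩ {x | fderiv ℝ (fun y => f (x, y)) 0 = 0} with hU'
  have hU'n : U' ∈ 𝓝 (0 : X) := inter_mem hU h0
  have hV0 : (0 : Y) ∈ V := mem_of_mem_nhds hV
  refine ⟨ρ, hρ0, U', hU'n, ⟨hw, ?_⟩, ?_⟩
  · intro x hx y hy
    have hxy : (x, e y) ∈ U ×ˢ V := ⟨hx.1, hmem y hy⟩
    obtain ⟨-, hC2, -⟩ := hUV hxy
    have hdf : DifferentiableAt ℝ f (x, e y) := hC2.differentiableAt (by norm_num)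
    refine ⟨((fderiv ℝ f (x, e y)).comp (jr (X := X))).comp (e : (ι → ℝ) →L[ℝ] Y),
      (fderiv_slice hdf).comp y e.hasFDerivAt, ?_⟩
    intro v
    -- along the segment
    set g : ℝ → ℝ := fun s => fderiv ℝ f (x, s • e y) ((0 : X), e v) - s * ∑ i, w i * y i * v i
      with hg
    have hseg : ∀ s ∈ Icc (0 : ℝ) 1, s • e y ∈ V := by
      intro s hs
      rw [← map_smul]
      apply hmem
      rw [norm_smul, Real.norm_of_nonneg hs.1]
      exact (mul_le_of_le_one_left (norm_nonneg _) hs.2).trans hy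
    have hder : ∀ s ∈ Icc (0 : ℝ) 1, HasDerivAt g
        (fderiv ℝ (fderiv ℝ f) (x, s • e y) ((0 : X), e y) ((0 : X), e v) -
          ∑ i, w i * y i * v i) s := by
      intro s hs
      obtain ⟨-, -, hd2⟩ := hUV (show (x, s • e y) ∈ U ×ˢ V from ⟨hx.1, hseg s hs⟩)
      have h1 : HasDerivAt (fun s : ℝ => ((x : X), s • e y)) ((0 : X), e y) s := by
        have h11 : HasDerivAt (fun s : ℝ => s • e y) ((1 : ℝ) • e y) s :=
          (hasDerivAt_id s).smul_const (e y)
        rw [one_smul] at h11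
        exact (hasDerivAt_const s x).prodMk h11
      have h2 : HasDerivAt (fun s : ℝ => fderiv ℝ f (x, s • e y))
          (fderiv ℝ (fderiv ℝ f) (x, s • e y) ((0 : X), e y)) s :=
        hd2.hasFDerivAt.comp_hasDerivAt s h1
      have h3 := h2.clm_apply (hasDerivAt_const s ((0 : X), e v))
      have h4 : HasDerivAt (fun s : ℝ => s * ∑ i, w i * y i * v i) (∑ i, w i * y i * v i) s := by
        have := (hasDerivAt_id s).mul_const (∑ i, w i * y i * v i)
        rwa [one_mul] at this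
      have h5 := h3.sub h4
      simp only [map_zero, add_zero] at h5
      exact h5
    have hbd : ∀ s ∈ Icc (0 : ℝ) 1, ‖fderiv ℝ (fderiv ℝ f) (x, s • e y) ((0 : X), e y)
        ((0 : X), e v) - ∑ i, w i * y i * v i‖ ≤ (1 / 2) * ‖y‖ * ‖v‖ := by
      intro s hs
      obtain ⟨hn, -, -⟩ := hUV (show (x, s • e y) ∈ U ×ˢ V from ⟨hx.1, hseg s hs⟩)
      rw [← he y v]
      have hsub : fderiv ℝ (fderiv ℝ f) (x, s • e y) ((0 : X), e y) ((0 : X), e v) -
          fderiv ℝ (fderiv ℝ f) (0, 0) ((0 : X), e y) ((0 : X), e v) =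
          (fderiv ℝ (fderiv ℝ f) (x, s • e y) - fderiv ℝ (fderiv ℝ f) (0, 0)) ((0 : X), e y)
            ((0 : X), e v) := rfl
      rw [hsub]
      have hey : ‖((0 : X), e y)‖ ≤ M * ‖y‖ := by
        rw [Prod.norm_def, norm_zero, max_eq_right (norm_nonneg _)]
        exact (e : (ι → ℝ) →L[ℝ] Y).le_opNorm y
      have hev : ‖((0 : X), e v)‖ ≤ M * ‖v‖ := by
        rw [Prod.norm_def, norm_zero, max_eq_right (norm_nonneg _)]
        exact (e : (ι → ℝ) →L[ℝ] Y).le_opNorm v
      calc ‖(fderiv ℝ (fderiv ℝ f) (x, s • e y) - fderiv ℝ (fderiv ℝ f) (0, 0)) ((0 : X), e y)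
            ((0 : X), e v)‖
          ≤ ‖fderiv ℝ (fderiv ℝ f) (x, s • e y) - fderiv ℝ (fderiv ℝ f) (0, 0)‖ *
              ‖((0 : X), e y)‖ * ‖((0 : X), e v)‖ := ContinuousLinearMap.le_opNorm₂ _ _ _
        _ ≤ ε * (M * ‖y‖) * (M * ‖v‖) := by
            gcongr
        _ = ε * (M * M) * (‖y‖ * ‖v‖) := by ring
        _ ≤ 1 / 2 * (‖y‖ * ‖v‖) := mul_le_mul_of_nonneg_right hεM (by positivity)
        _ = (1 / 2) * ‖y‖ * ‖v‖ := by ring
    have hmv := (convex_Icc (0 : ℝ) 1).norm_image_sub_le_of_norm_hasDerivWithin_le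
      (f := g) (fun s hs => (hder s hs).hasDerivWithinAt) hbd
      (left_mem_Icc.2 zero_le_one) (right_mem_Icc.2 zero_le_one)
    have hg0 : g 0 = 0 := by
      have h1 : fderiv ℝ f (x, (0 : ℝ) • e y) ((0 : X), e v) = 0 := by
        obtain ⟨-, hC, -⟩ := hUV (show (x, (0 : Y)) ∈ U ×ˢ V from ⟨hx.1, hV0⟩)
        have h2 := (fderiv_slice (hC.differentiableAt (by norm_num))).fderiv
        have h3 : fderiv ℝ (fun y => f (x, y)) 0 = 0 := hx.2
        rw [h3] at h2
        have h4 := congrArg (fun L : Y →L[ℝ] ℝ => L (e v)) h2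
        rw [zero_smul]
        simpa using h4.symm
      rw [hg]
      simp only [h1, zero_mul, sub_zero]
    have hg1 : g 1 = fderiv ℝ f (x, e y) ((0 : X), e v) - ∑ i, w i * y i * v i := by
      rw [hg]
      simp only [one_smul, one_mul]
    rw [hg0, hg1, sub_zero, sub_zero, norm_one, mul_one] at hmv
    rw [Real.norm_eq_abs] at hmv
    simpa using hmv
  · intro x hx
    obtain ⟨-, hC, -⟩ := hUV (show (x, (0 : Y)) ∈ U ×ˢ V from ⟨hx.1, hV0⟩)
    have h1 : ContinuousAt f (x, e 0) := by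
      rw [map_zero]
      exact hC.continuousAt
    have h2 : ContinuousAt (fun x : X => (x, e 0)) x := by fun_prop
    exact (ContinuousAt.comp (f := fun x : X => (x, e 0)) h1 h2).continuousWithinAt

end main

/-- **(B1), the saddle lemma** -/
theorem b1 : GMAbsx102.B1 := by
  intro X Y _ _ _ _ _ _ f hf h0 hn hf0 C hL
  set B : Y →L[ℝ] Y →L[ℝ] ℝ := fderiv ℝ (fderiv ℝ (fun y => f (0, y))) 0 with hB
  have hfy : ContDiffAt ℝ 2 (fun y : Y => f (0, y)) 0 := by
    have h1 : ContDiffAt ℝ 2 (fun y : Y => ((0 : X), y)) 0 := by fun_prop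
    exact ContDiffAt.comp (0 : Y) (f := fun y : Y => ((0 : X), y)) hf h1
  have hsym : ∀ v w, B v w = B w v := by
    intro v w
    exact (hfy.isSymmSndFDerivAt (by simp)).eq v w
  obtain ⟨w, e, hw, he⟩ := exists_diag B hsym hn
  obtain ⟨ρ, hρ, U, hU, hbox, hcont⟩ := sadBox_of hf h0 w hw e (fun u v => by
    rw [← fderiv_slice2 hf]
    exact he u v)
  have hL' : LB (0 : X) {x | (fun p : X × (Fin (Module.finrank ℝ Y) → ℝ) => f (p.1, e p.2)) (x, 0)
      < 0} C := by
    simpa using hL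
  have h1 := LB_of_SadBox (x0 := (0 : X)) hbox hρ hU hcont
    (by show f (0, e 0) = 0; rw [map_zero]; exact hf0) hL'
  refine LB.of_inv h1 (W := univ) (W' := univ) univ_mem univ_mem
    (φ := fun p : X × Y => (p.1, e.symm p.2))
    (ψ := fun p : X × (Fin (Module.finrank ℝ Y) → ℝ) => (p.1, e p.2))
    (by fun_prop) (by fun_prop) (by simp) (by simp) (fun p _ => by simp) ?_ ?_
  · intro p _ hp
    show f (p.1, e (e.symm p.2)) < 0
    rw [e.apply_symm_apply]
    exact hp
  · intro p _ hp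
    exact hp

end Crest.Agent.R231.GM898
end
end

-- ▼ part R231/GMOrb_537
section

/-!
# Row 231, block GM (helper537): from a point to its orbit

`Flow E` : a continuous real flow `R`.  For `X`, `A` invariant and `R 1 c = c`:
* `SR.arc` : arcs of the orbit on which the flow is injective (Tietze)
* `SR.translate`
* `SR.orbit` : `SR X A {c} C → SR X A (orbit c) (4 * C)`
* `SR.orbits` : finitely many orbits
-/

set_option autoImplicit false

noncomputable section

open Topology Set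

namespace Crest.Agent.R231.GM898

open Crest.Agent.R204 Crest.Agent.R231.Pairx877

/-- a continuous real flow -/
structure RFlow (E : Type) [TopologicalSpace E] where
  R : ℝ → E → E
  cont : Continuous (fun p : ℝ × E => R p.1 p.2)
  zero : ∀ x, R 0 x = x
  add : ∀ a b x, R (a + b) x = R a (R b x)

variable {E : Type} [TopologicalSpace E]

namespace RFlow

variable (Φ : RFlow E)

/-- invariant subset -/
def Inv (X : Set E) : Prop := ∀ a, ∀ x ∈ X, Φ.R a x ∈ X

theorem neg_self (a : ℝ) (x : E) : Φ.R (-a) (Φ.R a x) = x := by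
  rw [← Φ.add, neg_add_cancel, Φ.zero]

theorem self_neg (a : ℝ) (x : E) : Φ.R a (Φ.R (-a) x) = x := by
  rw [← Φ.add, add_neg_cancel, Φ.zero]

theorem cont_time (x : E) : Continuous fun a => Φ.R a x :=
  Φ.cont.comp (continuous_id.prodMk continuous_const)

theorem cont_space (a : ℝ) : Continuous (Φ.R a) :=
  Φ.cont.comp (continuous_const.prodMk continuous_id)

/-- the orbit -/
def orb (c : E) : Set E := range fun a => Φ.R a c

/-- an arc of an orbit -/
def arc (c : E) (L : ℝ) : Set E := (fun a => Φ.R a c) '' Icc 0 L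

/-- the group of periods -/
def per (c : E) : AddSubgroup ℝ where
  carrier := {a | Φ.R a c = c}
  zero_mem' := Φ.zero c
  add_mem' := by
    intro a b ha hb
    show Φ.R (a + b) c = c
    rw [Φ.add, show Φ.R b c = c from hb, show Φ.R a c = c from ha]
  neg_mem' := by
    intro a ha
    show Φ.R (-a) c = c
    have h := Φ.neg_self a c
    rwa [show Φ.R a c = c from ha] at h

theorem mem_per {c : E} {a : ℝ} : a ∈ Φ.per c ↔ Φ.R a c = c := Iff.rfl

theorem eq_iff {c : E} {a b : ℝ} : Φ.R a c = Φ.R b c ↔ a - b ∈ Φ.per c := by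
  rw [mem_per]
  constructor
  · intro h
    rw [sub_eq_neg_add, Φ.add, h, Φ.neg_self]
  · intro h
    have h1 : Φ.R b (Φ.R (a - b) c) = Φ.R b c := by rw [h]
    rwa [← Φ.add, add_sub_cancel] at h1

theorem isClosed_per [T2Space E] (c : E) : IsClosed ((Φ.per c : AddSubgroup ℝ) : Set ℝ) :=
  isClosed_eq (Φ.cont_time c) continuous_const

/-- the orbit of a periodic point is constant or has a least period -/
theorem per_cases [T2Space E] {c : E} (h1 : Φ.R 1 c = c) :
    (∀ a, Φ.R a c = c) ∨ ∃ T > 0, ∀ a b, Φ.R a c = Φ.R b c ↔ ∃ k : ℤ, a - b = k * T := by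
  rcases (Φ.per c).dense_or_cyclic with h | ⟨T, hT⟩
  · left
    intro a
    have : a ∈ ((Φ.per c : AddSubgroup ℝ) : Set ℝ) := by
      rw [← (Φ.isClosed_per c).closure_eq, h.closure_eq]; trivial
    exact this
  · right
    have hT0 : T ≠ 0 := by
      rintro rfl
      have : (1 : ℝ) ∈ Φ.per c := h1
      rw [hT, AddSubgroup.mem_closure_singleton] at this
      obtain ⟨n, hn⟩ := this
      simp at hn
    have key : ∀ a b, Φ.R a c = Φ.R b c ↔ ∃ k : ℤ, a - b = k * T := by
      intro a b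
      rw [Φ.eq_iff, hT, AddSubgroup.mem_closure_singleton]
      constructor
      · rintro ⟨n, hn⟩
        exact ⟨n, by rw [← hn, zsmul_eq_mul]⟩
      · rintro ⟨n, hn⟩
        exact ⟨n, by rw [hn, zsmul_eq_mul]⟩
    rcases lt_or_gt_of_ne hT0 with h | h
    · refine ⟨-T, by linarith, fun a b => (key a b).trans ?_⟩
      constructor
      · rintro ⟨k, hk⟩; exact ⟨-k, by rw [hk]; push_cast; ring⟩
      · rintro ⟨k, hk⟩; exact ⟨-k, by rw [hk]; push_cast; ring⟩
    · exact ⟨T, h, key⟩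

theorem isCompact_arc (c : E) (L : ℝ) : IsCompact (Φ.arc c L) :=
  isCompact_Icc.image (Φ.cont_time c)

theorem isClosed_arc [T2Space E] (c : E) (L : ℝ) : IsClosed (Φ.arc c L) :=
  (Φ.isCompact_arc c L).isClosed



theorem mem_orb_self (c : E) : c ∈ Φ.orb c := ⟨0, Φ.zero c⟩




end RFlow

variable (Φ : RFlow E)

/-- **arcs** -/
theorem SR.arc [NormalSpace E] [T2Space E] {X A : Set E} {c : E} {C : ℕ} (hX : Φ.Inv X)
    (hA : Φ.Inv A) (hc : c ∈ X) {L : ℝ} (hL : 0 ≤ L)
    (hinj : ∀ a ∈ Icc 0 L, ∀ b ∈ Icc 0 L, Φ.R a c = Φ.R b c → a = b) (h : SR X A {c} C) :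
    SR X A (Φ.arc c L) C := by
  -- the parameter on the arc, extended by Tietze
  have he : IsClosedEmbedding (fun a : Icc (0 : ℝ) L => Φ.R a c) := by
    refine Continuous.isClosedEmbedding ((Φ.cont_time c).comp continuous_subtype_val) ?_
    intro a b hab
    exact Subtype.ext (hinj a a.2 b b.2 hab)
  obtain ⟨g, hg⟩ := ContinuousMap.exists_extension he
    (⟨fun a => (a : ℝ), continuous_subtype_val⟩ : C(Icc (0 : ℝ) L, ℝ))
  have hg' : ∀ a ∈ Icc (0 : ℝ) L, g (Φ.R a c) = a := fun a ha => by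
    have := congrArg (fun f : C(Icc (0 : ℝ) L, ℝ) => f ⟨a, ha⟩) hg
    exact this
  have hKX : Φ.arc c L ⊆ X := by
    rintro _ ⟨a, _, rfl⟩
    exact hX a c hc
  have hcK : c ∈ Φ.arc c L := ⟨0, ⟨le_rfl, hL⟩, Φ.zero c⟩
  refine SR.dom h hKX (singleton_subset_iff.2 hc) isOpen_univ (subset_univ _) isOpen_univ
    (subset_univ _) (fun x => Φ.R (-(g x)) x) ?_ ?_ ?_ ?_ (fun x => x) continuousOn_id ?_ ?_ ?_
    (fun x t => Φ.R (-(t * g x)) x) ?_ ?_ ?_ ?_ ?_ ?_
  · exact (Φ.cont.comp (g.continuous.neg.prodMk continuous_id)).continuousOn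
  · rintro _ ⟨a, ha, rfl⟩
    show Φ.R (-(g (Φ.R a c))) (Φ.R a c) = c
    rw [hg' a ha, Φ.neg_self]
  · exact fun x hx => hX _ x hx.2
  · exact fun x _ hx => hA _ x hx
  · rintro x hx
    rw [mem_singleton_iff] at hx
    rw [hx]
    exact hcK
  · exact fun x hx => hx.2
  · exact fun x _ hx => hx
  · have : Continuous fun p : E × ℝ => Φ.R (-(p.2 * g p.1)) p.1 :=
      Φ.cont.comp (((continuous_snd.mul (g.continuous.comp continuous_fst)).neg).prodMk
        continuous_fst)
    exact this.continuousOn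
  · rintro _ ⟨a, ha, rfl⟩ t ht
    show Φ.R (-(t * g (Φ.R a c))) (Φ.R a c) ∈ Φ.arc c L
    rw [hg' a ha, ← Φ.add]
    refine ⟨-(t * a) + a, ⟨?_, ?_⟩, rfl⟩
    · nlinarith [ha.1, ht.1, ht.2]
    · nlinarith [ha.1, ha.2, ht.1, ht.2]
  · intro x _
    show Φ.R (-(0 * g x)) x = x
    rw [zero_mul, neg_zero, Φ.zero]
  · intro x _ _
    show Φ.R (-(1 * g x)) x = Φ.R (-(g x)) x
    rw [one_mul]
  · exact fun x hx t _ => hX _ x hx.2
  · exact fun x _ hx t _ => hA _ x hx

/-- **translation** -/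
theorem SR.translate {X A : Set E} {c : E} {C : ℕ} (hX : Φ.Inv X) (hA : Φ.Inv A) (hc : c ∈ X)
    (h : SR X A {c} C) (a : ℝ) : SR X A {Φ.R a c} C := by
  refine SR.dom h (singleton_subset_iff.2 (hX a c hc)) (singleton_subset_iff.2 hc) isOpen_univ
    (subset_univ _) isOpen_univ (subset_univ _) (Φ.R (-a)) (Φ.cont_space _).continuousOn ?_ ?_ ?_
    (Φ.R a) (Φ.cont_space _).continuousOn ?_ ?_ ?_
    (fun x _ => x) continuousOn_fst ?_ ?_ ?_ ?_ ?_
  · rintro x hx
    rw [mem_singleton_iff] at hx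
    rw [hx, mem_singleton_iff, Φ.neg_self]
  · exact fun x hx => hX _ x hx.2
  · exact fun x _ hx => hA _ x hx
  · rintro x hx
    rw [mem_singleton_iff] at hx
    rw [hx, mem_singleton_iff]
  · exact fun x hx => hX _ x hx.2
  · exact fun x _ hx => hA _ x hx
  · exact fun x hx _ _ => hx
  · exact fun _ _ => rfl
  · exact fun x _ _ => (Φ.self_neg a x).symm
  · exact fun x hx _ _ => hx.2
  · exact fun x _ hx _ _ => hx

/-- **from a point to its orbit** -/
theorem SR.orbit [NormalSpace E] [T2Space E] {X A : Set E} {c : E} {C : ℕ} (hX : Φ.Inv X)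
    (hA : Φ.Inv A) (hc : c ∈ X) (h1 : Φ.R 1 c = c) (h : SR X A {c} C) :
    SR X A (Φ.orb c) (4 * C) := by
  rcases Φ.per_cases h1 with h0 | ⟨T, hT, hper⟩
  · have : Φ.orb c = {c} := by
      ext x
      constructor
      · rintro ⟨a, rfl⟩; exact h0 a
      · rintro hx
        rw [mem_singleton_iff] at hx
        rw [hx]; exact Φ.mem_orb_self c
    rw [this]
    exact h.mono (by omega)
  · -- two arcs
    set c' := Φ.R (T / 2) c with hc'
    have hc'X : c' ∈ X := hX _ c hc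
    have h' : SR X A {c'} C := SR.translate Φ hX hA hc h (T / 2)
    have small : ∀ k : ℤ, |(k : ℝ) * T| < T → k = 0 := by
      intro k hk
      rw [abs_mul, abs_of_pos hT] at hk
      have h2 : |(k : ℝ)| < 1 := by
        by_contra h3
        rw [not_lt] at h3
        nlinarith
      have h3 : |k| < 1 := by exact_mod_cast h2
      exact Int.abs_lt_one_iff.1 h3
    have inj1 : ∀ a ∈ Icc 0 (T / 2), ∀ b ∈ Icc 0 (T / 2), Φ.R a c = Φ.R b c → a = b := by
      intro a ha b hb hab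
      obtain ⟨k, hk⟩ := (hper a b).1 hab
      have hk0 : k = 0 := small k (by
        rw [← hk, abs_lt]
        constructor <;> linarith [ha.1, ha.2, hb.1, hb.2])
      rw [hk0] at hk
      push_cast at hk
      linarith
    have inj2 : ∀ a ∈ Icc 0 (T / 2), ∀ b ∈ Icc 0 (T / 2), Φ.R a c' = Φ.R b c' → a = b := by
      intro a ha b hb hab
      rw [hc', ← Φ.add, ← Φ.add] at hab
      obtain ⟨k, hk⟩ := (hper _ _).1 hab
      have hk0 : k = 0 := small k (by
        rw [← hk, abs_lt]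
        constructor <;> linarith [ha.1, ha.2, hb.1, hb.2])
      rw [hk0] at hk
      push_cast at hk
      linarith
    have s1 := SR.arc Φ hX hA hc (by linarith : (0 : ℝ) ≤ T / 2) inj1 h
    have s2 := SR.arc Φ hX hA hc'X (by linarith : (0 : ℝ) ≤ T / 2) inj2 h'
    have eU : Φ.orb c = Φ.arc c (T / 2) ∪ Φ.arc c' (T / 2) := by
      apply Subset.antisymm
      · rintro _ ⟨a, rfl⟩
        -- reduce modulo `T`
        set k : ℤ := ⌊a / T⌋ with hk
        have f1 : (k : ℝ) * T ≤ a := by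
          have := Int.floor_le (a / T)
          rw [← hk] at this
          calc (k : ℝ) * T ≤ (a / T) * T := by nlinarith
            _ = a := by field_simp
        have f2 : a < ((k : ℝ) + 1) * T := by
          have := Int.lt_floor_add_one (a / T)
          rw [← hk] at this
          calc a = (a / T) * T := by field_simp
            _ < _ := by nlinarith
        have e : Φ.R a c = Φ.R (a - k * T) c := (hper _ _).2 ⟨k, by ring⟩
        show Φ.R a c ∈ _
        rw [e]
        rcases le_total (a - k * T) (T / 2) with h3 | h3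
        · exact Or.inl ⟨a - k * T, ⟨by linarith, h3⟩, rfl⟩
        · refine Or.inr ⟨a - k * T - T / 2, ⟨by linarith, by linarith⟩, ?_⟩
          show Φ.R (a - k * T - T / 2) c' = _
          rw [hc', ← Φ.add]
          congr 1; ring
      · rintro x (⟨a, _, rfl⟩ | ⟨a, _, rfl⟩)
        · exact ⟨a, rfl⟩
        · exact ⟨a + T / 2, by show Φ.R (a + T / 2) c = Φ.R a c'; rw [Φ.add]⟩
    have eI : Φ.arc c (T / 2) ∩ Φ.arc c' (T / 2) = {c} ∪ {c'} := by
      apply Subset.antisymm
      · rintro x ⟨⟨a, ha, rfl⟩, ⟨b, hb, hab⟩⟩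
        have hab' : Φ.R (b + T / 2) c = Φ.R a c := by
          rw [Φ.add]; exact hab
        obtain ⟨k, hk⟩ := (hper _ _).1 hab'
        show Φ.R a c ∈ _
        have hk1 : (k : ℝ) * T ≤ 1 * T := by rw [← hk]; linarith [ha.1, hb.2]
        have hk2 : 0 * T ≤ (k : ℝ) * T := by rw [← hk]; linarith [ha.2, hb.1]
        have hk3 : (k : ℝ) ≤ 1 := le_of_mul_le_mul_right hk1 hT
        have hk4 : (0 : ℝ) ≤ k := le_of_mul_le_mul_right hk2 hT
        have hk5 : k ≤ 1 := by exact_mod_cast hk3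
        have hk6 : 0 ≤ k := by exact_mod_cast hk4
        have hk7 : k = 0 ∨ k = 1 := by omega
        rcases hk7 with rfl | rfl
        · right
          have : a = T / 2 := by
            push_cast at hk
            linarith [ha.2, hb.1]
          rw [this]; rfl
        · left
          have : a = 0 := by
            push_cast at hk
            linarith [ha.1, hb.2]
          rw [this, Φ.zero]; rfl
      · rintro x (hx | hx)
        · rw [mem_singleton_iff] at hx
          rw [hx]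
          refine ⟨⟨0, ⟨le_rfl, by linarith⟩, Φ.zero c⟩, ⟨T / 2, ⟨by linarith, le_rfl⟩, ?_⟩⟩
          show Φ.R (T / 2) c' = c
          rw [hc', ← Φ.add]
          have : Φ.R (T / 2 + T / 2) c = Φ.R 0 c := (hper _ _).2 ⟨1, by push_cast; ring⟩
          rw [this, Φ.zero]
        · rw [mem_singleton_iff] at hx
          rw [hx]
          exact ⟨⟨T / 2, ⟨by linarith, le_rfl⟩, rfl⟩, ⟨0, ⟨le_rfl, by linarith⟩, Φ.zero c'⟩⟩
    have hne : Disjoint ({c} : Set E) {c'} := by
      rw [disjoint_singleton]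
      intro hcc
      have : Φ.R 0 c = Φ.R (T / 2) c := by rw [Φ.zero]; exact hcc
      obtain ⟨k, hk⟩ := (hper _ _).1 this
      have hk0 : k = 0 := small k (by
        rw [← hk, abs_lt]
        constructor <;> linarith)
      rw [hk0] at hk
      push_cast at hk
      linarith
    have s12 : SR X A ({c} ∪ {c'}) (C + C) :=
      SR.union_disj isClosed_singleton isClosed_singleton hne h h'
    rw [eU]
    refine (SR.union (Φ.isClosed_arc c _) (Φ.isClosed_arc c' _) s1 s2 (by rw [eI]; exact s12)).mono ?_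
    omega


end Crest.Agent.R231.GM898
end
end

-- ▼ part R231/GMOrbC_537
section

/-!
# Row 231, block GM (helper537): the rank bound near the orbits of the iterates of a closed geodesic

* `rotFlow M` : the rotation flow on `Lp M`; `inv_X`, `inv_XL`
* `SR.of_maps` : helper889's `Maps` and a polygon bound `LB 0 {F < 0} C` give `SR (X M b) (XL M s) {g0} C`
* `SR_orbit_rot` : `SR (X M b) (XL M s) {c} C → SR (X M b) (XL M s) (orbit c) (4 * C)`
* `SR_of_sliceDom`, `SR_orbits_rot`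
-/

set_option autoImplicit false

noncomputable section

open Topology Set

namespace Crest.Agent.R231.GMOrbx537

open Crest.Agent.R204 Crest.Agent.R231.Pairx877 Crest.Agent.R231.GM898
  Crest.Agent.R231.GLugx576 Crest.Agent.R231.GMRedx102 Crest.Agent.R231.GMGeox889

variable {M : Type} [MetricSpace M]

/-- the rotation flow -/
def rotFlow (M : Type) [MetricSpace M] : RFlow (Lp M) where
  R a g := rot (a : UnitAddCircle) g
  cont := by
    have h : Continuous (fun p : ℝ × Lp M => ((p.1 : UnitAddCircle), p.2)) :=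
      ((AddCircle.continuous_mk' 1).comp continuous_fst).prodMk continuous_snd
    exact continuous_rot.comp h
  zero g := by
    show rot ((0 : ℝ) : UnitAddCircle) g = g
    rw [AddCircle.coe_zero]; exact rot_zero g
  add a b g := by
    show rot ((a + b : ℝ) : UnitAddCircle) g = rot (a : UnitAddCircle) (rot (b : UnitAddCircle) g)
    rw [rot_rot, AddCircle.coe_add]


theorem inv_X (b : ℝ) : (rotFlow M).Inv (X M b) := fun a _ hg => rot_mem hg (a : UnitAddCircle)

theorem inv_XL (s : ℝ) : (rotFlow M).Inv (XL M s) := by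
  rintro a g ⟨t, ht, hg⟩
  exact ⟨t, ht, rot_mem hg (a : UnitAddCircle)⟩

theorem rot_one (g : Lp M) : (rotFlow M).R 1 g = g := by
  show rot ((1 : ℝ) : UnitAddCircle) g = g
  rw [coe_one_circle]; exact rot_zero g

theorem orb_eq_range (g : Lp M) : (rotFlow M).orb g = range fun a : UnitAddCircle => rot a g := by
  apply Subset.antisymm
  · rintro _ ⟨a, rfl⟩
    exact ⟨(a : UnitAddCircle), rfl⟩
  · rintro _ ⟨a, rfl⟩
    induction a using QuotientAddGroup.induction_on with | _ a => ?_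
    exact ⟨a, rfl⟩

/-- **slice polygons dominate loops** near the iterate `g0` -/
theorem SR.of_maps {Z : Type} [TopologicalSpace Z] [Zero Z] {F : Z → ℝ} {g0 : Lp M} {b s : ℝ}
    (m : Maps F g0 b s) {C : ℕ} (h : LB (0 : Z) {p | F p < 0} C) :
    SR (X M b) (XL M s) {g0} C := by
  rw [lb_iff_SR] at h
  have hg0 : g0 ∈ X M b := by
    rw [← m.ψ_zero]; exact m.ψ_maps 0 m.mem_W
  refine SR.dom h (singleton_subset_iff.2 hg0) (subset_univ _) m.isOpen_U
    (singleton_subset_iff.2 m.mem_U) m.isOpen_W (singleton_subset_iff.2 m.mem_W)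
    m.φ m.φ_cont ?_ (fun _ _ => trivial) ?_ m.ψ (m.ψ_cont.mono inter_subset_left) ?_ ?_ ?_
    m.h m.h_cont ?_ m.h_zero (fun x hx _ => m.h_one x hx) m.h_maps m.h_lev
  · intro x hx
    rw [mem_singleton_iff] at hx
    rw [hx, mem_singleton_iff, m.φ_zero]
  · exact fun x hx hxA => m.φ_lev x hx hxA
  · intro x hx
    rw [mem_singleton_iff] at hx
    rw [hx, mem_singleton_iff, m.ψ_zero]
  · exact fun x hx => m.ψ_maps x hx.1
  · exact fun x hx hxA => m.ψ_lev x hx.1 hxA
  · intro x hx t ht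
    rw [mem_singleton_iff] at hx
    rw [hx, mem_singleton_iff, m.h_fix t ht]

/-- **from a loop to its orbit under rotations** -/
theorem SR_orbit_rot {b s : ℝ} {c : Lp M} {C : ℕ} (hc : c ∈ X M b)
    (h : SR (X M b) (XL M s) {c} C) :
    SR (X M b) (XL M s) (range fun a : UnitAddCircle => rot a c) (4 * C) := by
  rw [← orb_eq_range]
  exact SR.orbit (rotFlow M) (inv_X b) (inv_XL s) hc (rot_one c) h




end Crest.Agent.R231.GMOrbx537
end
end

-- ▼ part R231/GMBG_889
section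

/-!
# Row 231 (S0357), block GM-GEO (b): broken geodesic loops, part 2 (helper889)

* `BG_on`, `BG_eq`   : values on the pieces; a loop with these values is `BG`
* `contOn_BG`        : joint continuity in break times and vertices
* `BG_mem`           : Lipschitz constant
-/

set_option autoImplicit false
set_option linter.unusedSectionVars false

open Set Filter Topology

noncomputable section

namespace Crest.Agent.R231.GMGeox889

open Crest.Agent.R231.GLugx576

variable {M : Type*} [MetricSpace M] [Nonempty M] {L : LUG M} {n : ℕ} {e : ℕ → ℝ} {q : ℕ → M}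

theorem EE_nonneg (he : ∀ k < n, 0 < e k) {k : ℕ} (hk : k ≤ n) : 0 ≤ EE e k := by
  have := EE_mono he (Nat.zero_le k) hk
  rwa [EE_zero] at this

/-- every `x ∈ [0, E_n]` is in a piece -/
theorem exists_piece (he : ∀ k < n, 0 < e k) (hn : 0 < n) {x : ℝ} (hx : x ∈ Icc 0 (EE e n)) :
    ∃ k < n, x ∈ Icc (EE e k) (EE e (k + 1)) := by
  induction n with
  | zero => omega
  | succ n ih =>
    rcases le_total (EE e n) x with h | h
    · exact ⟨n, Nat.lt_succ_self n, h, hx.2⟩
    · rcases Nat.eq_zero_or_pos n with rfl | h0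
      · refine ⟨0, Nat.lt_succ_self 0, ?_, ?_⟩
        · rw [EE_zero]; exact hx.1
        · rw [EE_zero] at h
          have h1 := EE_succ e 0
          rw [EE_zero] at h1
          rw [h1]
          linarith [he 0 (Nat.lt_succ_self 0)]
      · obtain ⟨k, hk, h1⟩ := ih (fun k hk => he k (by omega)) h0 ⟨hx.1, h⟩
        exact ⟨k, by omega, h1⟩

section

variable [CompactSpace M]

theorem contOn_bg {α : Type*} [TopologicalSpace α] {S : Set α} {e : α → ℕ → ℝ} {q : α → ℕ → M}
    {x : α → ℝ} (hA : ∀ a ∈ S, Adm L n (e a) (q a)) (hx : ContinuousOn x S)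
    (he : ∀ k < n, ContinuousOn (fun a => e a k) S) (hq : ∀ k ≤ n, ContinuousOn (fun a => q a k) S) :
    ContinuousOn (fun a => bg L n (e a) (q a) (x a)) S := by
  rcases S.eq_empty_or_nonempty with rfl | ⟨a, ha⟩
  · exact continuousOn_empty _
  · exact contOn_PL (contOn_TT hx he fun a ha => (hA a ha).e_pos) (hA a ha).n_pos
      (fun a _ => TT_mem _ _ _) hq fun a ha => (hA a ha).short

theorem BG_apply (h : Adm L n e q) {x : ℝ} (hx : x ∈ Icc (0 : ℝ) 1) :
    BG L n e q (x : UnitAddCircle) = bg L n e q x := by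
  refine mkL_apply ?_ ?_ hx
  · exact contOn_bg (S := Icc (0 : ℝ) 1) (e := fun _ => e) (q := fun _ => q) (fun _ _ => h)
      continuousOn_id (fun _ _ => continuousOn_const) fun _ _ => continuousOn_const
  · rw [bg_zero h, bg_one h]

/-- values on the pieces -/
theorem BG_on (h : Adm L n e q) {k : ℕ} (hk : k < n) {x : ℝ}
    (hx : x ∈ Icc (EE e k) (EE e (k + 1))) :
    BG L n e q (x : UnitAddCircle) = L.seg (q k) (q (k + 1)) ((x - EE e k) / e k) := by
  have h1 : x ∈ Icc (0 : ℝ) 1 := by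
    refine ⟨(EE_nonneg h.e_pos hk.le).trans hx.1, hx.2.trans ?_⟩
    rw [← h.sum]
    exact EE_mono h.e_pos (k := n) hk le_rfl
  rw [BG_apply h h1, bg_on h hk hx]


/-- a loop with the values of `BG` is `BG` -/
theorem BG_eq (h : Adm L n e q) {g : Lp M}
    (hg : ∀ k < n, ∀ u ∈ Icc (0 : ℝ) 1,
      g ((EE e k + u * e k : ℝ) : UnitAddCircle) = L.seg (q k) (q (k + 1)) u) :
    BG L n e q = g := by
  refine loop_ext fun x hx => ?_
  obtain ⟨k, hk, h1⟩ := exists_piece h.e_pos h.n_pos (x := x) (by rwa [h.sum])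
  have hek := h.e_pos k hk
  have h2 : (x - EE e k) / e k ∈ Icc (0 : ℝ) 1 := by
    have h3 := h1.2
    rw [EE_succ] at h3
    exact ⟨div_nonneg (by linarith [h1.1]) hek.le, (div_le_one hek).2 (by linarith)⟩
  have h4 := hg k hk _ h2
  rw [div_mul_cancel₀ _ hek.ne', add_sub_cancel] at h4
  rw [BG_on h hk h1, h4]

/-- **joint continuity** of the broken geodesic loops -/
theorem contOn_BG {α : Type*} [TopologicalSpace α] {S : Set α} {e : α → ℕ → ℝ} {q : α → ℕ → M}
    (hA : ∀ a ∈ S, Adm L n (e a) (q a)) (he : ∀ k < n, ContinuousOn (fun a => e a k) S)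
    (hq : ∀ k ≤ n, ContinuousOn (fun a => q a k) S) :
    ContinuousOn (fun a => BG L n (e a) (q a)) S := by
  refine contOn_mkL ?_ fun a ha => by rw [bg_zero (hA a ha), bg_one (hA a ha)]
  have h1 : ContinuousOn (fun p : α × ℝ => p.1) (S ×ˢ Icc (0 : ℝ) 1) := continuousOn_fst
  exact contOn_bg (S := S ×ˢ Icc (0 : ℝ) 1) (e := fun p => e p.1) (q := fun p => q p.1)
    (fun p hp => hA p.1 hp.1) continuousOn_snd
    (fun k hk => (he k hk).comp h1 fun p hp => hp.1)
    fun k hk => (hq k hk).comp h1 fun p hp => hp.1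

/-- **Lipschitz constant** -/
theorem BG_mem (h : Adm L n e q) {t : ℝ} (ht : ∀ k < n, dist (q k) (q (k + 1)) ≤ t * e k) :
    BG L n e q ∈ X M t := by
  refine mem_X_of_Icc fun x y hx hxy hy => ?_
  have key := lip_glue (f := fun x : ℝ => BG L n e q (x : UnitAddCircle)) (t := t) (E := EE e)
    (n := n) (fun k hk => by rw [EE_succ]; linarith [h.e_pos k hk]) fun k hk x y h1 h2 h3 => ?_
  · refine key x y (by rwa [EE_zero]) hxy ?_
    rwa [h.sum]
  · have hek := h.e_pos k hk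
    have h3' := h3
    rw [EE_succ] at h3'
    have hx1 : (x - EE e k) / e k ∈ Icc (0 : ℝ) 1 :=
      ⟨div_nonneg (by linarith) hek.le, (div_le_one hek).2 (by linarith)⟩
    have hy1 : (y - EE e k) / e k ∈ Icc (0 : ℝ) 1 :=
      ⟨div_nonneg (by linarith) hek.le, (div_le_one hek).2 (by linarith)⟩
    show dist (BG L n e q (x : UnitAddCircle)) (BG L n e q (y : UnitAddCircle)) ≤ t * (y - x)
    rw [BG_on h hk ⟨h1, h2.trans h3⟩, BG_on h hk ⟨h1.trans h2, h3⟩, L.dist_seg (h.short k) hx1 hy1]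
    have e1 : |(x - EE e k) / e k - (y - EE e k) / e k| = (y - x) / e k := by
      rw [← sub_div, abs_div, abs_of_pos hek, abs_sub_comm, abs_of_nonneg (by linarith)]
      congr 1; ring
    rw [e1]
    have h5 := ht k hk
    calc (y - x) / e k * dist (q k) (q (k + 1)) ≤ (y - x) / e k * (t * e k) :=
          mul_le_mul_of_nonneg_left h5 (div_nonneg (by linarith) hek.le)
      _ = t * (y - x) := by field_simp

end

end Crest.Agent.R231.GMGeox889
end
end

-- ▼ part R231/GMMaps_889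
section

/-!
# Row 231 (S0357), block GM-GEO (b): proof of `SliceDom`, part 1 (helper889)

* `vq` vertices of slice polygons, `len` their length, `ew` constant speed weights
* `hT` half times, `pr` values at half times, `cT` crossing times, `ph` the slice polygon of a loop
-/

set_option autoImplicit false
set_option linter.unusedSectionVars false

open Set Filter Topology

noncomputable section

namespace Crest.Agent.R231.GMGeox889

open Crest.Agent.R231.GLugx576 Crest.Agent.R231.GMRedx102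

namespace SliceSys

section defs

variable {M : Type*} [MetricSpace M] {L : LUG M}
  {S : Type*} [NormedAddCommGroup S] (A : SliceSys L S) (n : ℕ)

/-- index of the slice `k` -/
def ix (k : ℕ) : ZMod A.N := (k : ZMod A.N)

/-- the vertices of a slice polygon -/
def vq (p : ZMod n → S) (k : ℕ) : M := A.σ (A.ix k) (p (k : ZMod n))

/-- total length -/
def len (p : ZMod n → S) : ℝ := ∑ k ∈ Finset.range n, dist (A.vq n p k) (A.vq n p (k + 1))

/-- constant speed weights -/
def ew (p : ZMod n → S) (k : ℕ) : ℝ := dist (A.vq n p k) (A.vq n p (k + 1)) / A.len n p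

/-- the half times -/
def hT (n k : ℕ) : ℝ := (k - 1 / 2) / n

/-- pair of half time values of `g` around the slice `k` -/
def pr (g : Lp M) (k : ℕ) : M × M :=
  (g ((hT n k : ℝ) : UnitAddCircle), g ((hT n (k + 1) : ℝ) : UnitAddCircle))

/-- the crossing times -/
def cT (g : Lp M) (k : ℕ) : ℝ := hT n k + A.τ (A.ix k) (pr n g k) / n

/-- the slice polygon of `g` -/
def ph (g : Lp M) (i : ZMod n) : S := A.w (A.ix i.val) (pr n g i.val)

end defs

section

variable {M : Type*} [MetricSpace M] {L : LUG M}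
  {S : Type*} [NormedAddCommGroup S] {A : SliceSys L S} {n : ℕ} [NeZero n]

theorem n_pos : 0 < n := Nat.pos_of_ne_zero (NeZero.ne _)

theorem n_posR : (0 : ℝ) < n := by exact_mod_cast (n_pos : 0 < n)

/-- `N` divides `n` -/
abbrev Dv (A : SliceSys L S) (n : ℕ) : Prop := (n : ZMod A.N) = 0

theorem ix_add_n (h : Dv A n) (k : ℕ) : A.ix (k + n) = A.ix k := by
  unfold ix
  push_cast
  rw [h, add_zero]

theorem vq_per (h : Dv A n) (p : ZMod n → S) (k : ℕ) : A.vq n p (k + n) = A.vq n p k := by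
  unfold vq
  rw [ix_add_n h]
  push_cast
  rw [ZMod.natCast_self, add_zero]

omit [NeZero n] in
theorem hT_succ (k : ℕ) : hT n (k + 1) = hT n k + 1 / n := by
  unfold hT
  push_cast
  ring

theorem hT_add_n (k : ℕ) : hT n (k + n) = hT n k + 1 := by
  have h : (0 : ℝ) < n := n_posR
  unfold hT
  push_cast
  field_simp
  ring

theorem coe_add_one (x : ℝ) : ((x + 1 : ℝ) : UnitAddCircle) = (x : UnitAddCircle) := by
  have := coe_add_int x 1
  rwa [Int.cast_one] at this

theorem pr_add_n (g : Lp M) (k : ℕ) : pr n g (k + n) = pr n g k := by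
  unfold pr
  rw [hT_add_n, coe_add_one, show k + n + 1 = (k + 1) + n by ring, hT_add_n, coe_add_one]

theorem cT_add_n (h : Dv A n) (g : Lp M) (k : ℕ) : A.cT n g (k + n) = A.cT n g k + 1 := by
  unfold cT
  rw [hT_add_n, pr_add_n, ix_add_n h]
  ring

theorem pr_mod (g : Lp M) (k : ℕ) : pr n g (k % n) = pr n g k := by
  have key : ∀ j a : ℕ, pr n g (a + j * n) = pr n g a := by
    intro j
    induction j with
    | zero => intro a; rw [zero_mul, add_zero]
    | succ j ih => intro a; rw [show a + (j + 1) * n = a + j * n + n by ring, pr_add_n, ih]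
  have h := key (k / n) (k % n)
  rw [mul_comm, Nat.mod_add_div] at h
  exact h.symm

theorem ix_mod (h : Dv A n) (k : ℕ) : A.ix (k % n) = A.ix k := by
  have h1 : ((k % n + n * (k / n) : ℕ) : ZMod A.N) = (k : ZMod A.N) := by rw [Nat.mod_add_div]
  unfold ix
  rw [← h1]
  push_cast
  rw [h, zero_mul, add_zero]

/-- the vertices of `ph g` -/
theorem vq_ph (h : Dv A n) (g : Lp M) (k : ℕ) :
    A.vq n (A.ph n g) k = A.σ (A.ix k) (A.w (A.ix k) (pr n g k)) := by
  unfold vq ph
  rw [ZMod.val_natCast, ix_mod h, pr_mod]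

/-- the action in terms of the length -/
theorem Fm_eq (m : ℕ) [NeZero (A.N * m)] (p : ZMod (A.N * m) → S) :
    Fm A.D m p = A.len (A.N * m) p - m * A.l := by
  have hN : (0 : ℝ) < A.N := by exact_mod_cast Nat.pos_of_ne_zero (NeZero.ne A.N)
  have hcast : ∀ k ∈ Finset.range (A.N * m),
      A.D (red A.N (A.N * m) (dvd_mul_right A.N m) (k : ZMod (A.N * m)))
        (p (k : ZMod (A.N * m)), p ((k : ZMod (A.N * m)) + 1)) =
      dist (A.vq (A.N * m) p k) (A.vq (A.N * m) p (k + 1)) - A.l / A.N := by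
    intro k _
    unfold D vq ix
    rw [map_natCast]
    push_cast
    rfl
  unfold Fm len
  have h1 : ∑ i : ZMod (A.N * m), A.D (red A.N (A.N * m) (dvd_mul_right A.N m) i) (p i, p (i + 1)) =
      ∑ k ∈ Finset.range (A.N * m),
        A.D (red A.N (A.N * m) (dvd_mul_right A.N m) (k : ZMod (A.N * m)))
        (p (k : ZMod (A.N * m)), p ((k : ZMod (A.N * m)) + 1)) := by
    symm
    refine Finset.sum_bij (fun k _ => (k : ZMod (A.N * m))) (fun _ _ => Finset.mem_univ _) ?_ ?_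
      fun _ _ => rfl
    · intro a ha b hb hab
      rw [Finset.mem_range] at ha hb
      have h2 := congrArg ZMod.val hab
      rwa [ZMod.val_natCast, ZMod.val_natCast, Nat.mod_eq_of_lt ha, Nat.mod_eq_of_lt hb] at h2
    · intro b _
      exact ⟨b.val, Finset.mem_range.2 (ZMod.val_lt b), ZMod.natCast_zmod_val b⟩
  rw [h1, Finset.sum_congr rfl hcast, Finset.sum_sub_distrib, Finset.sum_const, Finset.card_range,
    nsmul_eq_mul]
  push_cast
  field_simp

end

/-! ### the slice polygon side: `ψ` -/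

section psi

variable {M : Type*} [MetricSpace M] {L : LUG M}
  {S : Type*} [NormedAddCommGroup S] (A : SliceSys L S) (n : ℕ) [NeZero n]

/-- good slice polygons: short nondegenerate edges -/
def Gd (p : ZMod n → S) : Prop :=
  ∀ k ∈ Finset.range n, 0 < dist (A.vq n p k) (A.vq n p (k + 1)) ∧
    dist (A.vq n p k) (A.vq n p (k + 1)) < L.r0

variable {A n} {p : ZMod n → S}

theorem vq_mod (h : Dv A n) (p : ZMod n → S) (k : ℕ) : A.vq n p (k % n) = A.vq n p k := by
  unfold vq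
  rw [ix_mod h]
  congr 2
  rw [ZMod.natCast_mod]

theorem vq_mod_succ (h : Dv A n) (p : ZMod n → S) (k : ℕ) :
    A.vq n p (k % n + 1) = A.vq n p (k + 1) := by
  unfold vq
  have e1 : A.ix (k % n + 1) = A.ix (k + 1) := by
    have := ix_mod h k
    unfold ix at this ⊢
    push_cast
    rw [this]
  have e2 : ((k % n + 1 : ℕ) : ZMod n) = ((k + 1 : ℕ) : ZMod n) := by
    push_cast
    rw [ZMod.natCast_mod]
  rw [e1, e2]

theorem Gd.all (hg : Gd A n p) (h : Dv A n) (k : ℕ) :
    0 < dist (A.vq n p k) (A.vq n p (k + 1)) ∧ dist (A.vq n p k) (A.vq n p (k + 1)) < L.r0 := by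
  have h1 := hg (k % n) (Finset.mem_range.2 (Nat.mod_lt _ n_pos))
  rwa [vq_mod h, vq_mod_succ h] at h1

theorem Gd.len_pos (hg : Gd A n p) : 0 < A.len n p :=
  Finset.sum_pos (fun k hk => (hg k hk).1) ⟨0, Finset.mem_range.2 n_pos⟩

/-- constant speed polygons are admissible -/
theorem Gd.adm (hg : Gd A n p) (h : Dv A n) : Adm L n (A.ew n p) (A.vq n p) where
  n_pos := n_pos
  e_pos k hk := div_pos (hg k (Finset.mem_range.2 hk)).1 hg.len_pos
  sum := by
    unfold EE ew
    rw [← Finset.sum_div]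
    exact div_self hg.len_pos.ne'
  per := vq_per h p
  short k := (hg.all h k).2

variable (A n) in
/-- **the constant speed loop through a slice polygon** -/
def ps [Nonempty M] (p : ZMod n → S) : Lp M := BG L n (A.ew n p) (A.vq n p)

theorem Gd.ps_mem [Nonempty M] [CompactSpace M] (hg : Gd A n p) (h : Dv A n) {t : ℝ}
    (ht : A.len n p ≤ t) : A.ps n p ∈ X M t := by
  refine BG_mem (hg.adm h) fun k _ => ?_
  have h1 := hg.len_pos
  unfold ew
  rw [← mul_div_assoc, le_div_iff₀ h1, mul_comm]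
  exact mul_le_mul_of_nonneg_right ht dist_nonneg

theorem cont_vq (k : ℕ) : Continuous fun p : ZMod n → S => A.vq n p k :=
  (A.σ_cont _).comp (continuous_apply _)

theorem cont_len : Continuous (A.len n) :=
  continuous_finsetSum _ fun k _ => (cont_vq k).dist (cont_vq (k + 1))

theorem isOpen_Gd : IsOpen {p : ZMod n → S | Gd A n p} := by
  have e : {p : ZMod n → S | Gd A n p} = ⋂ k ∈ Finset.range n,
      {p | 0 < dist (A.vq n p k) (A.vq n p (k + 1)) ∧
        dist (A.vq n p k) (A.vq n p (k + 1)) < L.r0} := by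
    ext p
    simp only [Gd, mem_ofPred_eq, mem_iInter]
  rw [e]
  refine isOpen_biInter_finset fun k _ => ?_
  have hc := (cont_vq (A := A) (n := n) k).dist (cont_vq (A := A) (n := n) (k + 1))
  exact (isOpen_lt continuous_const hc).inter (isOpen_lt hc continuous_const)

theorem contOn_ps [Nonempty M] [CompactSpace M] (h : Dv A n) :
    ContinuousOn (A.ps n) {p : ZMod n → S | Gd A n p} := by
  refine contOn_BG (fun p hp => Gd.adm hp h) (fun k _ => ?_) fun k _ => (cont_vq k).continuousOn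
  exact ((cont_vq k).dist (cont_vq (k + 1))).continuousOn.div cont_len.continuousOn
    fun p hp => (Gd.len_pos hp).ne'

end psi

end SliceSys

end Crest.Agent.R231.GMGeox889
end
end

-- ▼ part R231/GMMaps2_889
section

/-!
# Row 231 (S0357), block GM-GEO (b): proof of `SliceDom`, part 2: the centre (helper889)

* `isGeo`, `tight` : the iterate `g0` is a closed geodesic of length `m l`, tight on short arcs
* `pr_centre`, `τ_centre`, `ph_centre`, `cT_centre`, `vq_centre`, `dist_centre`, `len_centre`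
* `BG_centre` : `g0` is the polygon with vertices `vq 0` and weights `1/n`
-/

set_option autoImplicit false
set_option linter.unusedSectionVars false

open Set Filter Topology

noncomputable section

namespace Crest.Agent.R231.GMGeox889

open Crest.Agent.R231.GLugx576 Crest.Agent.R231.GMRedx102 Crest.Agent.R231.GCrossx449

namespace SliceSys

section centre

variable {M : Type*} [MetricSpace M] {L : LUG M}
  {S : Type*} [NormedAddCommGroup S] {A : SliceSys L S} {m : ℕ} {g0 : Lp M}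

theorem dvN : Dv A (A.N * m) := by
  unfold Dv
  push_cast
  rw [ZMod.natCast_self, zero_mul]

theorem N_posR : (0 : ℝ) < A.N := by exact_mod_cast Nat.pos_of_ne_zero (NeZero.ne A.N)

theorem s_pos (A : SliceSys L S) (hm : 0 < m) : 0 < (m : ℝ) * A.l :=
  mul_pos (by exact_mod_cast hm) A.l_pos

theorem dist_IsIt (hm : 0 < m) (h0 : A.IsIt m g0) {x y : ℝ} (h : m * A.l * |x - y| < L.r0) :
    dist (g0 x) (g0 y) = m * A.l * |x - y| := by
  have hs := s_pos A hm
  have e : |m * A.l * x - m * A.l * y| = m * A.l * |x - y| := by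
    rw [← mul_sub, abs_mul, abs_of_pos hs]
  rw [h0, h0, A.geo _ _ (by rwa [e]), e]

theorem isGeo (hm : 0 < m) (h0 : A.IsIt m g0) : IsGeo (m * A.l) g0 := by
  have hs := s_pos A hm
  refine ⟨hs, L.r0 / (2 * (m * A.l)), div_pos L.r0_pos (by linarith), fun x y hxy => ?_⟩
  refine dist_IsIt hm h0 ?_
  rw [le_div_iff₀ (by linarith)] at hxy
  nlinarith [L.r0_pos]

theorem g0_mem (hm : 0 < m) (h0 : A.IsIt m g0) : g0 ∈ X M (m * A.l) := geo_mem (isGeo hm h0)

theorem tight (hm : 0 < m) (h0 : A.IsIt m g0) (x y : ℝ) (hxy : x ≤ y)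
    (h : m * A.l * (y - x) < L.r0) : dist (g0 x) (g0 y) = m * A.l * (y - x) := by
  have e : |x - y| = y - x := by rw [abs_sub_comm, abs_of_nonneg (by linarith)]
  rw [← e] at h ⊢
  exact dist_IsIt hm h0 h

theorem c_per (j : ℕ) (y : ℝ) : A.c (y + j * A.l) = A.c y := by
  induction j with
  | zero => rw [Nat.cast_zero, zero_mul, add_zero]
  | succ j ih =>
    rw [show y + ((j + 1 : ℕ) : ℝ) * A.l = (y + j * A.l) + A.l by push_cast; ring, A.per, ih]

/-- values of `c` at the slices are periodic -/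
theorem c_ix (k : ℕ) (a : ℝ) : A.c ((k + a) * A.l / A.N) = A.c (((A.ix k).val + a) * A.l / A.N) := by
  have hN : (0 : ℝ) < A.N := N_posR
  unfold ix
  rw [ZMod.val_natCast]
  have e : (k : ℝ) = ((k % A.N : ℕ) : ℝ) + A.N * ((k / A.N : ℕ) : ℝ) := by
    exact_mod_cast (Nat.mod_add_div k A.N).symm
  have e2 : ((k : ℝ) + a) * A.l / A.N =
      (((k % A.N : ℕ) : ℝ) + a) * A.l / A.N + ((k / A.N : ℕ) : ℝ) * A.l := by
    rw [e]
    field_simp
    ring
  rw [e2, c_per]

section

variable [NeZero (A.N * m)]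

theorem m_pos (A : SliceSys L S) (m : ℕ) [NeZero (A.N * m)] : 0 < m := by
  have := NeZero.ne (A.N * m)
  exact Nat.pos_of_ne_zero fun h => this (by rw [h, mul_zero])

theorem m_posR (A : SliceSys L S) (m : ℕ) [NeZero (A.N * m)] : (0 : ℝ) < m := by
  exact_mod_cast m_pos A m

theorem g0_at (h0 : A.IsIt m g0) (x : ℝ) :
    g0 ((x / (A.N * m : ℕ) : ℝ) : UnitAddCircle) = A.c (x * A.l / A.N) := by
  have h1 := m_posR A m
  have h2 : (0 : ℝ) < A.N := N_posR
  rw [h0]
  congr 1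
  push_cast
  field_simp

theorem pr_centre (h0 : A.IsIt m g0) (k : ℕ) : pr (A.N * m) g0 k =
    (A.c (((A.ix k).val - 1 / 2) * A.l / A.N), A.c (((A.ix k).val + 1 / 2) * A.l / A.N)) := by
  unfold pr hT
  rw [g0_at h0, g0_at h0]
  refine Prod.ext ?_ ?_
  · show A.c _ = A.c _
    rw [sub_eq_add_neg, c_ix, ← sub_eq_add_neg]
  · show A.c _ = A.c _
    rw [← c_ix]
    congr 1
    push_cast
    ring

theorem τ_centre (h0 : A.IsIt m g0) (k : ℕ) : A.τ (A.ix k) (pr (A.N * m) g0 k) = 1 / 2 := by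
  rw [pr_centre h0, A.τ_mid]

theorem cT_centre (h0 : A.IsIt m g0) (k : ℕ) : A.cT (A.N * m) g0 k = k / (A.N * m : ℕ) := by
  unfold cT hT
  rw [τ_centre h0]
  ring

theorem ph_centre (h0 : A.IsIt m g0) : A.ph (A.N * m) g0 = 0 := by
  funext i
  unfold ph
  rw [pr_centre h0, A.w_mid]
  rfl

theorem vq_centre (k : ℕ) : A.vq (A.N * m) 0 k = A.c (k * A.l / A.N) := by
  unfold vq
  rw [Pi.zero_apply, A.σ_zero]
  have := c_ix (A := A) k 0
  rw [add_zero, add_zero] at this
  exact this.symm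

theorem lN_pos (A : SliceSys L S) : 0 < A.l / A.N := div_pos A.l_pos N_posR

theorem lN_lt (A : SliceSys L S) : A.l / A.N < L.r0 := by
  have h1 := A.small
  have h2 := lN_pos A
  rw [mul_div_assoc] at h1
  linarith

theorem dist_centre (k : ℕ) :
    dist (A.vq (A.N * m) 0 k) (A.vq (A.N * m) 0 (k + 1)) = A.l / A.N := by
  rw [vq_centre, vq_centre]
  have h1 := lN_pos A
  have e : |(k : ℝ) * A.l / A.N - ((k + 1 : ℕ) : ℝ) * A.l / A.N| = A.l / A.N := by
    rw [show (k : ℝ) * A.l / A.N - ((k + 1 : ℕ) : ℝ) * A.l / A.N = -(A.l / A.N) by push_cast; ring,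
      abs_neg, abs_of_pos h1]
  rw [A.geo _ _ (by rw [e]; exact lN_lt A), e]

theorem len_centre : A.len (A.N * m) 0 = m * A.l := by
  have h2 : (0 : ℝ) < A.N := N_posR
  unfold len
  rw [Finset.sum_congr rfl fun k _ => dist_centre k, Finset.sum_const, Finset.card_range,
    nsmul_eq_mul]
  push_cast
  field_simp

theorem ew_centre (k : ℕ) : A.ew (A.N * m) 0 k = 1 / (A.N * m : ℕ) := by
  have h1 := m_posR A m
  have h2 : (0 : ℝ) < A.N := N_posR
  have h3 := A.l_pos
  unfold ew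
  rw [dist_centre, len_centre]
  push_cast
  field_simp

theorem Gd_centre : Gd A (A.N * m) 0 := fun k _ => by
  rw [dist_centre]; exact ⟨lN_pos A, lN_lt A⟩

theorem EE_const {e : ℕ → ℝ} {c : ℝ} (he : ∀ k, e k = c) (k : ℕ) : EE e k = k * c := by
  unfold EE
  rw [Finset.sum_congr rfl fun j _ => he j, Finset.sum_const, Finset.card_range, nsmul_eq_mul]

/-- the centre is the polygon with weights `1/n` -/
theorem BG_centre [Nonempty M] [CompactSpace M] (h0 : A.IsIt m g0) {e : ℕ → ℝ}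
    (he : ∀ k, e k = 1 / (A.N * m : ℕ)) : BG L (A.N * m) e (A.vq (A.N * m) 0) = g0 := by
  have hn : (0 : ℝ) < (A.N * m : ℕ) := n_posR
  have h1 := lN_pos A
  have hA : Adm L (A.N * m) e (A.vq (A.N * m) 0) :=
    { n_pos := n_pos
      e_pos := fun k _ => by rw [he]; positivity
      sum := by rw [EE_const he]; field_simp
      per := vq_per dvN 0
      short := fun k => by rw [dist_centre]; exact lN_lt A }
  refine BG_eq hA fun k _ u hu => ?_
  rw [EE_const he, he]
  have e1 : (k : ℝ) * (1 / (A.N * m : ℕ)) + u * (1 / (A.N * m : ℕ)) = (k + u) / (A.N * m : ℕ) := by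
    ring
  rw [e1, g0_at h0]
  have hd := dist_centre (A := A) (m := m) k
  refine L.uniq (by rw [hd]; exact lN_lt A) hu ?_ ?_
  · rw [hd, vq_centre]
    have e2 : |(k : ℝ) * A.l / A.N - (k + u) * A.l / A.N| = u * (A.l / A.N) := by
      rw [show (k : ℝ) * A.l / A.N - (k + u) * A.l / A.N = -(u * (A.l / A.N)) by ring, abs_neg,
        abs_of_nonneg (mul_nonneg hu.1 h1.le)]
    rw [A.geo _ _ ?_, e2]
    rw [e2]
    exact (mul_le_of_le_one_left h1.le hu.2).trans_lt (lN_lt A)
  · rw [hd, vq_centre]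
    have h3 : 0 ≤ 1 - u := by linarith [hu.2]
    have e2 : |(k + u) * A.l / A.N - ((k + 1 : ℕ) : ℝ) * A.l / A.N| = (1 - u) * (A.l / A.N) := by
      rw [show (k + u) * A.l / A.N - ((k + 1 : ℕ) : ℝ) * A.l / A.N = -((1 - u) * (A.l / A.N)) by
        push_cast; ring, abs_neg, abs_of_nonneg (mul_nonneg h3 h1.le)]
    rw [A.geo _ _ ?_, e2]
    rw [e2]
    exact (mul_le_of_le_one_left h1.le (by linarith [hu.1])).trans_lt (lN_lt A)

/-- `ψ 0 = g0` -/
theorem ps_centre [Nonempty M] [CompactSpace M] (h0 : A.IsIt m g0) : A.ps (A.N * m) 0 = g0 :=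
  BG_centre h0 ew_centre

end

end centre

end SliceSys

end Crest.Agent.R231.GMGeox889
end
end

-- ▼ part R231/GMMaps3_889
section

/-!
# Row 231 (S0357), block GM-GEO (b): proof of `SliceDom`, part 3: the homotopy (helper889)

* `U1`  : loops whose half time pairs are in the domains of the crossing functions
* `al`  : the polygon with vertices at the half times;  `h1 : id ~ al`
* `be`  : the polygon with vertices at the crossing times;  `h2 : al ~ be`
* `h3`  : `be ~ ψ (φ g)` (change of the break times)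
-/

set_option autoImplicit false
set_option linter.unusedSectionVars false

open Set Filter Topology

noncomputable section

namespace Crest.Agent.R231.GMGeox889

open Crest.Agent.R231.GLugx576 Crest.Agent.R231.GMRedx102 Crest.Agent.R231.GCrossx449

namespace SliceSys

section

variable {M : Type*} [MetricSpace M] {L : LUG M}
  {S : Type*} [NormedAddCommGroup S] (A : SliceSys L S) (n : ℕ)

/-- domain of the crossing functions -/
def Oc (i : ZMod A.N) : Set (M × M) := (A.cross i).choose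

theorem isOpen_Oc (i : ZMod A.N) : IsOpen (A.Oc i) := (A.cross i).choose_spec.1

theorem mem_Oc (i : ZMod A.N) :
    (A.c ((i.val - 1 / 2) * A.l / A.N), A.c ((i.val + 1 / 2) * A.l / A.N)) ∈ A.Oc i :=
  (A.cross i).choose_spec.2.1

theorem contOn_τ (i : ZMod A.N) : ContinuousOn (A.τ i) (A.Oc i) := (A.cross i).choose_spec.2.2.1

theorem contOn_w (i : ZMod A.N) : ContinuousOn (A.w i) (A.Oc i) := (A.cross i).choose_spec.2.2.2.1

theorem τ_mem (i : ZMod A.N) {p : M × M} (hp : p ∈ A.Oc i) : A.τ i p ∈ Ioo (0 : ℝ) 1 :=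
  ((A.cross i).choose_spec.2.2.2.2 p hp).1

theorem seg_τ (i : ZMod A.N) {p : M × M} (hp : p ∈ A.Oc i) :
    L.seg p.1 p.2 (A.τ i p) = A.σ i (A.w i p) := ((A.cross i).choose_spec.2.2.2.2 p hp).2

/-- loops with crossings -/
def U1 : Set (Lp M) := {g | ∀ k ∈ Finset.range n, pr n g k ∈ A.Oc (A.ix k)}

variable {A n}

theorem continuous_pr (k : ℕ) : Continuous fun g : Lp M => pr n g k :=
  (continuous_eval_const _).prodMk (continuous_eval_const _)

theorem isOpen_U1 : IsOpen (A.U1 n) := by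
  have e : A.U1 n = ⋂ k ∈ Finset.range n, (fun g : Lp M => pr n g k) ⁻¹' (A.Oc (A.ix k)) := by
    ext p
    simp only [U1, mem_ofPred_eq, mem_iInter, mem_preimage]
  rw [e]
  exact isOpen_biInter_finset fun k _ => (A.isOpen_Oc _).preimage (continuous_pr k)

variable [NeZero n]

theorem U1_all (h : Dv A n) {g : Lp M} (hg : g ∈ A.U1 n) (k : ℕ) : pr n g k ∈ A.Oc (A.ix k) := by
  have h1 := hg (k % n) (Finset.mem_range.2 (Nat.mod_lt _ n_pos))
  rwa [pr_mod, ix_mod h] at h1

theorem contOn_ph : ContinuousOn (A.ph n) (A.U1 n) :=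
  continuousOn_pi.2 fun i => (A.contOn_w _).comp (continuous_pr _).continuousOn
    fun _ hg => hg _ (Finset.mem_range.2 (ZMod.val_lt i))

theorem contOn_cT (h : Dv A n) (k : ℕ) : ContinuousOn (fun g => A.cT n g k) (A.U1 n) := by
  unfold cT
  refine continuousOn_const.add (ContinuousOn.div_const ?_ _)
  exact (A.contOn_τ _).comp (continuous_pr _).continuousOn fun g hg => U1_all h hg k

/-- the half times are admissible -/
theorem tim_hT {t : ℝ} (ht : t / n < L.r0) : Tim L n (hT n) t where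
  lt k _ := by
    rw [hT_succ]
    have : (0 : ℝ) < 1 / n := one_div_pos.2 n_posR
    linarith
  last := by
    have := hT_add_n (n := n) 0
    rwa [zero_add] at this
  short k _ := by
    rw [hT_succ, add_sub_cancel_left, mul_one_div]
    exact ht

theorem cT_gap (A : SliceSys L S) (n : ℕ) [NeZero n] (g : Lp M) (k : ℕ) :
    A.cT n g (k + 1) - A.cT n g k =
      (1 + A.τ (A.ix (k + 1)) (pr n g (k + 1)) - A.τ (A.ix k) (pr n g k)) / n := by
  unfold cT
  rw [hT_succ]
  ring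

theorem cT_lt (h : Dv A n) {g : Lp M} (hg : g ∈ A.U1 n) (k : ℕ) :
    A.cT n g k < A.cT n g (k + 1) := by
  have h1 := A.τ_mem _ (U1_all h hg k)
  have h2 := A.τ_mem _ (U1_all h hg (k + 1))
  have h3 : 0 < A.cT n g (k + 1) - A.cT n g k := by
    rw [cT_gap]
    exact div_pos (by linarith [h1.2, h2.1]) n_posR
  linarith

/-- the crossing times are admissible -/
theorem tim_cT (h : Dv A n) {t : ℝ} (h0 : 0 ≤ t) (ht : t * (2 / n) < L.r0) {g : Lp M}
    (hg : g ∈ A.U1 n) : Tim L n (A.cT n g) t where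
  lt k _ := cT_lt h hg k
  last := by
    have := cT_add_n h g 0
    rwa [zero_add] at this
  short k _ := by
    have h1 := A.τ_mem _ (U1_all h hg k)
    have h2 := A.τ_mem _ (U1_all h hg (k + 1))
    refine (mul_le_mul_of_nonneg_left ?_ h0).trans_lt ht
    rw [cT_gap]
    exact div_le_div_of_nonneg_right (by linarith [h1.1, h2.2]) n_posR.le

end

/-! ### the three homotopies -/

section

variable {M : Type*} [MetricSpace M] [CompactSpace M] {L : LUG M}
  {S : Type*} [NormedAddCommGroup S] (A : SliceSys L S) (n : ℕ)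

/-- straightening on the half time intervals -/
def h1 (L : LUG M) (n : ℕ) (g : Lp M) (r : ℝ) : Lp M := repN L n (hT n) r g

/-- the polygon with vertices at the half times -/
def al (L : LUG M) (n : ℕ) (g : Lp M) : Lp M := h1 L n g 1

/-- straightening on the crossing intervals -/
def h2 (g : Lp M) (r : ℝ) : Lp M := repN L n (A.cT n g) r (al L n g)

/-- weights -/
def er (g : Lp M) (r : ℝ) (k : ℕ) : ℝ :=
  (1 - r) * (A.cT n g (k + 1) - A.cT n g k) + r * A.ew n (A.ph n g) k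

/-- change of break times -/
def h3 [Nonempty M] (g : Lp M) (r : ℝ) : Lp M :=
  rot ((-((1 - r) * A.cT n g 0) : ℝ) : UnitAddCircle) (BG L n (A.er n g r) (A.vq n (A.ph n g)))

variable {A n} [NeZero n] {b : ℝ} {g : Lp M} {r : ℝ}

theorem nb_short (hb : 0 ≤ b) (hs : b * (2 / n) < L.r0) : b / n < L.r0 := by
  have : (0 : ℝ) < n := n_posR
  refine lt_of_le_of_lt ?_ hs
  rw [← mul_div_assoc]
  exact div_le_div_of_nonneg_right (by linarith) this.le

theorem h1_mem (hb : 0 ≤ b) (hs : b * (2 / n) < L.r0) {t : ℝ} (ht : t ≤ b) (hg : g ∈ X M t)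
    (hr : r ∈ Icc (0 : ℝ) 1) : h1 L n g r ∈ X M t :=
  repN_mem (tim_hT (nb_short hb hs)) hr ht hg n le_rfl

theorem al_mem (hb : 0 ≤ b) (hs : b * (2 / n) < L.r0) {t : ℝ} (ht : t ≤ b) (hg : g ∈ X M t) :
    al L n g ∈ X M t := h1_mem hb hs ht hg ⟨zero_le_one, le_rfl⟩

theorem h2_mem (h : Dv A n) (hb : 0 ≤ b) (hs : b * (2 / n) < L.r0) {t : ℝ} (ht : t ≤ b)
    (hg : g ∈ X M t) (hU : g ∈ A.U1 n) (hr : r ∈ Icc (0 : ℝ) 1) : A.h2 n g r ∈ X M t :=
  repN_mem (tim_cT h hb hs hU) hr ht (al_mem hb hs ht hg) n le_rfl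

/-- the polygon passes through the crossing points -/
theorem al_cT (h : Dv A n) (hb : 0 ≤ b) (hs : b * (2 / n) < L.r0) (hg : g ∈ X M b)
    (hU : g ∈ A.U1 n) (k : ℕ) : al L n g (A.cT n g k : UnitAddCircle) = A.vq n (A.ph n g) k := by
  have key : ∀ k < n, al L n g (A.cT n g k : UnitAddCircle) = A.vq n (A.ph n g) k := by
    intro k hk
    have h1 := A.τ_mem _ (U1_all h hU k)
    have h3 := (repN_one (tim_hT (nb_short hb hs)) hg n le_rfl).1 k hk _ ⟨h1.1.le, h1.2.le⟩
    have h4 : A.cT n g k = hT n k + A.τ (A.ix k) (pr n g k) * (hT n (k + 1) - hT n k) := by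
      unfold cT
      rw [hT_succ]
      ring
    rw [← h4] at h3
    rw [vq_ph h, ← A.seg_τ _ (U1_all h hU k)]
    exact h3
  have key2 : ∀ j a : ℕ, al L n g (A.cT n g (a + j * n) : UnitAddCircle) =
      al L n g (A.cT n g a : UnitAddCircle) := by
    intro j
    induction j with
    | zero => intro a; rw [zero_mul, add_zero]
    | succ j ih =>
      intro a
      rw [show a + (j + 1) * n = a + j * n + n by ring, cT_add_n h, coe_add_one, ih]
  have h5 := key2 (k / n) (k % n)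
  rw [mul_comm, Nat.mod_add_div] at h5
  rw [h5, key _ (Nat.mod_lt _ n_pos)]
  exact vq_mod h _ k

/-- the values of the end of `h2` -/
theorem h2_one (h : Dv A n) (hb : 0 ≤ b) (hs : b * (2 / n) < L.r0) (hg : g ∈ X M b)
    (hU : g ∈ A.U1 n) {k : ℕ} (hk : k < n) {u : ℝ} (hu : u ∈ Icc (0 : ℝ) 1) :
    A.h2 n g 1 ((A.cT n g k + u * (A.cT n g (k + 1) - A.cT n g k) : ℝ) : UnitAddCircle) =
      L.seg (A.vq n (A.ph n g) k) (A.vq n (A.ph n g) (k + 1)) u := by
  have h1 := (repN_one (tim_cT h hb hs hU) (al_mem hb hs le_rfl hg) n le_rfl).1 k hk u hu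
  rw [al_cT h hb hs hg hU, al_cT h hb hs hg hU] at h1
  exact h1

/-- the edges of the slice polygon are short -/
theorem edge_le (h : Dv A n) (hb : 0 ≤ b) (hs : b * (2 / n) < L.r0) {t : ℝ} (ht : t ≤ b)
    (hg : g ∈ X M t) (hU : g ∈ A.U1 n) (k : ℕ) :
    dist (A.vq n (A.ph n g) k) (A.vq n (A.ph n g) (k + 1)) ≤
      t * (A.cT n g (k + 1) - A.cT n g k) := by
  have hg' := X_mono ht hg
  rw [← al_cT h hb hs hg' hU, ← al_cT h hb hs hg' hU]
  refine (al_mem hb hs ht hg _ _).trans_eq ?_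
  rw [abs_sub_comm, abs_of_nonneg (by linarith [cT_lt h hU k])]

/-- the length of the slice polygon -/
theorem len_le (h : Dv A n) (hb : 0 ≤ b) (hs : b * (2 / n) < L.r0) {t : ℝ} (ht : t ≤ b)
    (hg : g ∈ X M t) (hU : g ∈ A.U1 n) : A.len n (A.ph n g) ≤ t := by
  refine (Finset.sum_le_sum fun k _ => edge_le h hb hs ht hg hU k).trans_eq ?_
  rw [← Finset.mul_sum, Finset.sum_range_sub (A.cT n g)]
  have := cT_add_n h g 0
  rw [zero_add] at this
  rw [this, add_sub_cancel_left, mul_one]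

theorem er_pos (h : Dv A n) (hU : g ∈ A.U1 n) (hG : Gd A n (A.ph n g)) (hr : r ∈ Icc (0 : ℝ) 1)
    {k : ℕ} (hk : k < n) : 0 < A.er n g r k := by
  have h1 : 0 < A.cT n g (k + 1) - A.cT n g k := by linarith [cT_lt h hU k]
  have h2 : 0 < A.ew n (A.ph n g) k := (hG.adm h).e_pos k hk
  unfold er
  rcases hr.2.lt_or_eq with h3 | h3
  · have h4 : 0 < (1 - r) * (A.cT n g (k + 1) - A.cT n g k) := mul_pos (by linarith) h1
    have h5 : 0 ≤ r * A.ew n (A.ph n g) k := mul_nonneg hr.1 h2.le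
    linarith
  · rw [h3, sub_self, zero_mul, zero_add, one_mul]
    exact h2

theorem EE_er (g : Lp M) (r : ℝ) (k : ℕ) :
    EE (A.er n g r) k = (1 - r) * (A.cT n g k - A.cT n g 0) + r * EE (A.ew n (A.ph n g)) k := by
  unfold EE er
  rw [Finset.sum_add_distrib, ← Finset.mul_sum, ← Finset.mul_sum, Finset.sum_range_sub (A.cT n g)]

theorem er_adm (h : Dv A n) (hU : g ∈ A.U1 n) (hG : Gd A n (A.ph n g)) (hr : r ∈ Icc (0 : ℝ) 1) :
    Adm L n (A.er n g r) (A.vq n (A.ph n g)) where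
  n_pos := n_pos
  e_pos k hk := er_pos h hU hG hr hk
  sum := by
    rw [EE_er, (hG.adm h).sum]
    have := cT_add_n h g 0
    rw [zero_add] at this
    rw [this]
    ring
  per := vq_per h _
  short k := (hG.all h k).2

theorem h3_mem [Nonempty M] (h : Dv A n) (hb : 0 ≤ b) (hs : b * (2 / n) < L.r0) {t : ℝ}
    (ht : t ≤ b) (hg : g ∈ X M t) (hU : g ∈ A.U1 n) (hG : Gd A n (A.ph n g))
    (hr : r ∈ Icc (0 : ℝ) 1) : A.h3 n g r ∈ X M t := by
  refine rot_mem (BG_mem (er_adm h hU hG hr) fun k _ => ?_) _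
  have h1 := edge_le h hb hs ht hg hU k
  have h2 := len_le h hb hs ht hg hU
  have h3 := hG.len_pos
  have h4 : dist (A.vq n (A.ph n g) k) (A.vq n (A.ph n g) (k + 1)) ≤
      t * A.ew n (A.ph n g) k := by
    unfold ew
    rw [← mul_div_assoc, le_div_iff₀ h3, mul_comm]
    exact mul_le_mul_of_nonneg_right h2 dist_nonneg
  have h5 : 0 ≤ 1 - r := by linarith [hr.2]
  unfold er
  have h6 := mul_le_mul_of_nonneg_left h1 h5
  have h7 := mul_le_mul_of_nonneg_left h4 hr.1
  nlinarith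

/-- `h3` starts at the end of `h2` -/
theorem h3_zero [Nonempty M] (h : Dv A n) (hb : 0 ≤ b) (hs : b * (2 / n) < L.r0)
    (hg : g ∈ X M b) (hU : g ∈ A.U1 n) (hG : Gd A n (A.ph n g)) : A.h3 n g 0 = A.h2 n g 1 := by
  have hr : (0 : ℝ) ∈ Icc (0 : ℝ) 1 := ⟨le_rfl, zero_le_one⟩
  have key : BG L n (A.er n g 0) (A.vq n (A.ph n g)) =
      rot ((A.cT n g 0 : ℝ) : UnitAddCircle) (A.h2 n g 1) := by
    refine BG_eq (er_adm h hU hG hr) fun k hk u hu => ?_
    rw [← h2_one h hb hs hg hU hk hu, rot_coe]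
    congr 2
    rw [EE_er]
    unfold er
    ring
  unfold h3
  rw [key, rot_rot, sub_zero, one_mul, AddCircle.coe_neg, neg_add_cancel, rot_zero]

/-- `h3` ends at `ψ (φ g)` -/
theorem h3_one [Nonempty M] (g : Lp M) : A.h3 n g 1 = A.ps n (A.ph n g) := by
  have e : A.er n g 1 = A.ew n (A.ph n g) := by
    funext k
    unfold er
    ring
  unfold h3 ps
  rw [e, sub_self, zero_mul, neg_zero]
  exact rot_zero _

theorem h2_zero (g : Lp M) : A.h2 n g 0 = al L n g := repN_zero _ _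

theorem h1_zero (g : Lp M) : h1 L n g 0 = g := repN_zero _ _

end

end SliceSys

end Crest.Agent.R231.GMGeox889
end
end

-- ▼ part R231/GMMaps4_889
section

/-!
# Row 231 (S0357), block GM-GEO (b): proof of `SliceDom`, part 4: assembly (helper889)

* `sliceDom (A : SliceSys L S) : SliceDom A`
-/

set_option autoImplicit false
set_option linter.unusedSectionVars false

open Set Filter Topology

noncomputable section

namespace Crest.Agent.R231.GMGeox889

open Crest.Agent.R231.GLugx576 Crest.Agent.R231.GMRedx102 Crest.Agent.R231.GCrossx449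

namespace SliceSys

section

variable {M : Type*} [MetricSpace M] [CompactSpace M] [Nonempty M] {L : LUG M}
  {S : Type*} [NormedAddCommGroup S] {A : SliceSys L S} {n : ℕ} [NeZero n]

/-- the domain in loop space -/
def UU (A : SliceSys L S) (n : ℕ) (b : ℝ) : Set (Lp M) :=
  A.U1 n ∩ A.ph n ⁻¹' {p | Gd A n p ∧ A.len n p < b}

theorem isOpen_WW (b : ℝ) : IsOpen {p | Gd A n p ∧ A.len n p < b} :=
  isOpen_Gd.inter (isOpen_lt cont_len continuous_const)

theorem isOpen_UU (b : ℝ) : IsOpen (A.UU n b) := contOn_ph.isOpen_inter_preimage isOpen_U1 (isOpen_WW b)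

variable (A n) in
/-- the homotopy -/
def hh (g : Lp M) (t : ℝ) : Lp M :=
  if t ≤ 1 / 3 then h1 L n g (3 * t) else
    if t ≤ 2 / 3 then A.h2 n g (3 * t - 1) else A.h3 n g (3 * t - 2)

variable {b : ℝ} {g : Lp M} {t : ℝ}

theorem hh_p1 (ht : t ≤ 1 / 3) : A.hh n g t = h1 L n g (3 * t) := if_pos ht

theorem hh_p2 (ht : 1 / 3 ≤ t) (ht' : t ≤ 2 / 3) : A.hh n g t = A.h2 n g (3 * t - 1) := by
  rcases ht.lt_or_eq with h | h
  · rw [hh, if_neg (not_le.2 h), if_pos ht']
  · rw [hh, if_pos h.ge, ← h]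
    norm_num
    exact (h2_zero g).symm

theorem hh_p3 (h : Dv A n) (hb : 0 ≤ b) (hs : b * (2 / n) < L.r0) (hg : g ∈ X M b)
    (hU : g ∈ A.UU n b) (ht : 2 / 3 ≤ t) : A.hh n g t = A.h3 n g (3 * t - 2) := by
  rcases ht.lt_or_eq with h' | h'
  · rw [hh, if_neg (not_le.2 (by linarith)), if_neg (not_le.2 h')]
  · rw [hh_p2 (by linarith) h'.ge, ← h']
    norm_num
    exact (h3_zero h hb hs hg hU.1 hU.2.1).symm

/-- levels -/
theorem hh_mem (h : Dv A n) (hb : 0 ≤ b) (hs : b * (2 / n) < L.r0) {s : ℝ} (hsb : s ≤ b)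
    (hg : g ∈ X M s) (hU : g ∈ A.UU n b) (ht : t ∈ Icc (0 : ℝ) 1) : A.hh n g t ∈ X M s := by
  rcases le_total t (1 / 3) with h1 | h1
  · rw [hh_p1 h1]
    exact h1_mem hb hs hsb hg ⟨by linarith [ht.1], by linarith⟩
  · rcases le_total t (2 / 3) with h2 | h2
    · rw [hh_p2 h1 h2]
      exact h2_mem h hb hs hsb hg hU.1 ⟨by linarith, by linarith⟩
    · rw [hh_p3 h hb hs (X_mono hsb hg) hU h2]
      exact h3_mem h hb hs hsb hg hU.1 hU.2.1 ⟨by linarith, by linarith [ht.2]⟩

/-! ### continuity -/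

theorem cont_h1 (hb : 0 ≤ b) (hs : b * (2 / n) < L.r0) :
    ContinuousOn (fun q : Lp M × ℝ => h1 L n q.1 q.2) ((A.UU n b ∩ X M b) ×ˢ Icc (0 : ℝ) 1) :=
  contOn_repN (θ := fun _ => hT n) (t := b) (fun _ _ => continuousOn_const) continuousOn_snd
    continuousOn_fst (fun _ _ => tim_hT (nb_short hb hs)) (fun _ hq => hq.2)
    (fun _ hq => hq.1.2) n le_rfl

theorem cont_al (hb : 0 ≤ b) (hs : b * (2 / n) < L.r0) :
    ContinuousOn (fun g : Lp M => al L n g) (X M b) :=
  contOn_repN (θ := fun _ => hT n) (r := fun _ => 1) (g := fun g => g) (t := b)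
    (fun _ _ => continuousOn_const) continuousOn_const continuousOn_id
    (fun _ _ => tim_hT (nb_short hb hs)) (fun _ _ => ⟨zero_le_one, le_rfl⟩) (fun _ hq => hq) n le_rfl

theorem fst_maps : MapsTo (Prod.fst : Lp M × ℝ → Lp M) ((A.UU n b ∩ X M b) ×ˢ Icc (0 : ℝ) 1)
    (A.U1 n) := fun _ hq => hq.1.1.1

theorem cont_h2 (h : Dv A n) (hb : 0 ≤ b) (hs : b * (2 / n) < L.r0) :
    ContinuousOn (fun q : Lp M × ℝ => A.h2 n q.1 q.2)
      ((A.UU n b ∩ X M b) ×ˢ Icc (0 : ℝ) 1) :=
  contOn_repN (t := b) (fun k _ => (contOn_cT h k).comp continuousOn_fst fst_maps)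
    continuousOn_snd ((cont_al hb hs).comp continuousOn_fst fun _ hq => hq.1.2)
    (fun _ hq => tim_cT h hb hs hq.1.1.1) (fun _ hq => hq.2)
    (fun _ hq => al_mem hb hs le_rfl hq.1.2) n le_rfl

theorem cont_ew (k : ℕ) :
    ContinuousOn (fun p => A.ew n p k) {p : ZMod n → S | Gd A n p} :=
  ((cont_vq k).dist (cont_vq (k + 1))).continuousOn.div cont_len.continuousOn
    fun _ hp => (Gd.len_pos hp).ne'

theorem cont_h3 (h : Dv A n) :
    ContinuousOn (fun q : Lp M × ℝ => A.h3 n q.1 q.2)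
      ((A.UU n b ∩ X M b) ×ˢ Icc (0 : ℝ) 1) := by
  have hc : ∀ k, ContinuousOn (fun q : Lp M × ℝ => A.cT n q.1 k)
      ((A.UU n b ∩ X M b) ×ˢ Icc (0 : ℝ) 1) :=
    fun k => (contOn_cT h k).comp continuousOn_fst fst_maps
  have hp : ContinuousOn (fun q : Lp M × ℝ => A.ph n q.1)
      ((A.UU n b ∩ X M b) ×ˢ Icc (0 : ℝ) 1) := contOn_ph.comp continuousOn_fst fst_maps
  have hr : ContinuousOn (fun q : Lp M × ℝ => 1 - q.2) ((A.UU n b ∩ X M b) ×ˢ Icc (0 : ℝ) 1) :=
    continuousOn_const.sub continuousOn_snd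
  have hB : ContinuousOn (fun q : Lp M × ℝ =>
      BG L n (A.er n q.1 q.2) (A.vq n (A.ph n q.1))) ((A.UU n b ∩ X M b) ×ˢ Icc (0 : ℝ) 1) := by
    refine contOn_BG (fun q hq => er_adm h hq.1.1.1 hq.1.1.2.1 hq.2) (fun k _ => ?_) fun k _ => ?_
    · unfold er
      exact (hr.mul ((hc (k + 1)).sub (hc k))).add
        (continuousOn_snd.mul ((cont_ew k).comp hp fun _ hq => hq.1.1.2.1))
    · exact (cont_vq k).comp_continuousOn hp
  exact continuous_rot.comp_continuousOn
    (((AddCircle.continuous_mk' 1).comp_continuousOn ((hr.mul (hc 0)).neg)).prodMk hB)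

/-- **continuity of the homotopy** -/
theorem cont_hh (h : Dv A n) (hb : 0 ≤ b) (hs : b * (2 / n) < L.r0) :
    ContinuousOn (fun q : Lp M × ℝ => A.hh n q.1 q.2)
      ((A.UU n b ∩ X M b) ×ˢ Icc (0 : ℝ) 1) := by
  have hT : ContinuousOn (fun q : Lp M × ℝ => 3 * q.2) ((A.UU n b ∩ X M b) ×ˢ Icc (0 : ℝ) 1) :=
    continuousOn_const.mul continuousOn_snd
  refine cont_pieces (n := 3) hT (by norm_num) (fun q hq => ?_) fun k hk => ?_
  · constructor
    · linarith [hq.2.1]
    · push_cast; linarith [hq.2.2]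
  · have hpar : ∀ c : ℝ, ContinuousOn (fun q : Lp M × ℝ => (q.1, 3 * q.2 - c))
        {a | a ∈ (A.UU n b ∩ X M b) ×ˢ Icc (0 : ℝ) 1 ∧ 3 * a.2 ∈ Icc (k : ℝ) (k + 1)} :=
      fun c => (continuous_fst.prodMk
        ((continuous_const.mul continuous_snd).sub continuous_const)).continuousOn
    have hmap : MapsTo (fun q : Lp M × ℝ => (q.1, 3 * q.2 - (k : ℝ)))
        {a | a ∈ (A.UU n b ∩ X M b) ×ˢ Icc (0 : ℝ) 1 ∧ 3 * a.2 ∈ Icc (k : ℝ) (k + 1)}
        ((A.UU n b ∩ X M b) ×ˢ Icc (0 : ℝ) 1) := fun q hq =>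
      ⟨hq.1.1, by linarith [hq.2.1], by linarith [hq.2.2]⟩
    have hk' : k = 0 ∨ k = 1 ∨ k = 2 := by omega
    rcases hk' with rfl | rfl | rfl
    · refine ((cont_h1 (A := A) hb hs).comp (hpar _) hmap).congr fun q hq => ?_
      have h5 := hq.2.2
      push_cast at h5 ⊢
      show A.hh n q.1 q.2 = h1 L n q.1 (3 * q.2 - 0)
      rw [hh_p1 (by linarith), sub_zero]
    · refine ((cont_h2 h hb hs).comp (hpar _) hmap).congr fun q hq => ?_
      have h1 := hq.2.1
      have h2 := hq.2.2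
      push_cast at h1 h2 ⊢
      show A.hh n q.1 q.2 = A.h2 n q.1 (3 * q.2 - 1)
      rw [hh_p2 (by linarith) (by linarith)]
    · refine ((cont_h3 h).comp (hpar _) hmap).congr fun q hq => ?_
      have h1 := hq.2.1
      push_cast at h1 ⊢
      show A.hh n q.1 q.2 = A.h3 n q.1 (3 * q.2 - 2)
      rw [hh_p3 h hb hs hq.1.1.2 hq.1.1.1 (by linarith)]

end

/-! ### assembly -/

section

variable {M : Type*} [MetricSpace M] [CompactSpace M] [Nonempty M] {L : LUG M}
  {S : Type*} [NormedAddCommGroup S] {A : SliceSys L S} {m : ℕ} [NeZero (A.N * m)] {g0 : Lp M}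

theorem g0_U1 (h0 : A.IsIt m g0) : g0 ∈ A.U1 (A.N * m) := fun k _ => by
  rw [pr_centre h0]; exact A.mem_Oc _

theorem g0_UU (h0 : A.IsIt m g0) {b : ℝ} (hb : m * A.l < b) : g0 ∈ A.UU (A.N * m) b := by
  refine ⟨g0_U1 h0, ?_⟩
  rw [mem_preimage, ph_centre h0]
  exact ⟨Gd_centre, by rw [len_centre]; exact hb⟩

theorem h3_centre (h0 : A.IsIt m g0) (r : ℝ) : A.h3 (A.N * m) g0 r = g0 := by
  have e : ∀ k, A.er (A.N * m) g0 r k = 1 / (A.N * m : ℕ) := by
    intro k
    unfold er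
    rw [cT_centre h0, cT_centre h0, ph_centre h0, ew_centre]
    push_cast
    ring
  unfold h3
  rw [ph_centre h0, BG_centre h0 e, cT_centre h0, Nat.cast_zero, zero_div, mul_zero, neg_zero]
  exact rot_zero _

theorem hh_centre (hm : 0 < m) (h0 : A.IsIt m g0) {b : ℝ} (hsb : m * A.l ≤ b) (hb : 0 ≤ b)
    (hs : b * (2 / (A.N * m : ℕ)) < L.r0) {t : ℝ} (ht : t ∈ Icc (0 : ℝ) 1) :
    A.hh (A.N * m) g0 t = g0 := by
  have hg := g0_mem hm h0
  have htight := tight hm h0
  have e1 : ∀ r ∈ Icc (0 : ℝ) 1, h1 L (A.N * m) g0 r = g0 := fun r hr =>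
    repN_fix (tim_hT (nb_short hb hs)) hr hsb hg htight _ le_rfl
  have e2 : ∀ r ∈ Icc (0 : ℝ) 1, A.h2 (A.N * m) g0 r = g0 := fun r hr => by
    unfold h2 al
    rw [e1 1 ⟨zero_le_one, le_rfl⟩]
    exact repN_fix (tim_cT dvN hb hs (g0_U1 h0)) hr hsb hg htight _ le_rfl
  unfold hh
  split_ifs with h1 h2
  · exact e1 _ ⟨by linarith [ht.1], by linarith⟩
  · exact e2 _ ⟨by linarith, by linarith⟩
  · exact h3_centre h0 _

/-- **the maps between loops near an iterate and slice polygons** -/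
theorem sliceDom (A : SliceSys L S) : SliceDom A := by
  intro m _ g0 hm h0 b hb1 hb2
  have hs0 := s_pos A hm
  have hb : 0 ≤ b := by linarith
  have hmR := m_posR A m
  have hN : (0 : ℝ) < A.N := N_posR
  have hs : b * (2 / (A.N * m : ℕ)) < L.r0 := by
    have h1 : b * (2 / (A.N * m : ℕ)) ≤ 2 * (m * A.l) * (2 / (A.N * m : ℕ)) :=
      mul_le_mul_of_nonneg_right hb2 (by positivity)
    have h2 : 2 * (m * A.l) * (2 / (A.N * m : ℕ)) = 4 * A.l / A.N := by
      push_cast
      field_simp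
      ring
    rw [h2] at h1
    exact h1.trans_lt A.small
  have hd : Dv A (A.N * m) := dvN
  refine ⟨{
    U := A.UU (A.N * m) b
    W := {p | Gd A (A.N * m) p ∧ A.len (A.N * m) p < b}
    φ := A.ph (A.N * m)
    ψ := A.ps (A.N * m)
    h := A.hh (A.N * m)
    isOpen_U := isOpen_UU b
    isOpen_W := isOpen_WW b
    mem_U := g0_UU h0 hb1
    mem_W := ⟨Gd_centre, by rw [len_centre]; exact hb1⟩
    φ_cont := contOn_ph.mono fun g hg => hg.1.1
    φ_zero := ph_centre h0
    φ_maps := fun g hg => hg.1.2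
    φ_lev := ?_
    ψ_cont := (contOn_ps hd).mono fun p hp => hp.1
    ψ_zero := ps_centre h0
    ψ_maps := fun p hp => hp.1.ps_mem hd hp.2.le
    ψ_lev := ?_
    h_cont := cont_hh hd hb hs
    h_zero := ?_
    h_one := ?_
    h_fix := fun t ht => hh_centre hm h0 hb1.le hb hs ht
    h_maps := fun g hg t ht => hh_mem hd hb hs le_rfl hg.2 hg.1 ht
    h_lev := ?_ }⟩
  · rintro g hg ⟨t, ht, hgt⟩
    have h1 := len_le hd hb hs (by linarith : t ≤ b) hgt hg.1.1
    rw [Fm_eq]
    linarith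
  · intro p hp hF
    rw [Fm_eq] at hF
    exact ⟨A.len (A.N * m) p, by linarith, hp.1.ps_mem hd le_rfl⟩
  · intro g _
    rw [hh_p1 (by norm_num), mul_zero]
    exact h1_zero g
  · intro g hg
    rw [hh_p3 hd hb hs hg.2 hg.1 (by norm_num), show (3 : ℝ) * 1 - 2 = 1 by norm_num]
    exact h3_one g
  · rintro g hg ⟨t, ht, hgt⟩ u hu
    exact ⟨t, ht, hh_mem hd hb hs (by linarith) hgt hg.1 hu⟩

end

end SliceSys

end Crest.Agent.R231.GMGeox889
end
end

-- ▼ part R231/GMIso_320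

/-!
# Row 231 (S0357), block GM-GEO (helper320): isolatedness of the critical point `0`

`isolated` : if there are only finitely many closed unit speed orbits of the geodesic flow, then
`0` is an isolated critical point of `Fm (D c N) m` for every `m`.
-/

set_option autoImplicit false
set_option linter.unusedSectionVars false

noncomputable section

open MeasureTheory Bundle Set Filter
open scoped Manifold ContDiff Bundle ENNReal Topology
open Crest.GeometryTopology.MTW
open Crest.Agent.R226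

namespace Crest.Agent.R231.GMIsox320

open Crest.Agent.R226.NearLog90 Crest.Agent.R226.NearLem90 Crest.Agent.R226.GeoBasic616
open Crest.Agent.R226.TB616
open Crest.Agent.R231.GMDirx320 Crest.Agent.R231.GMSlx654 Crest.Agent.R231.GMCrossx320
open Crest.Agent.R231.GMSysx320 Crest.Agent.R231.GMRedx102

/-! ### linear algebra: no corner -/

/-- two unit vectors whose sum is orthogonal to a hyperplane not containing their difference -/
theorem no_corner {V : Type*} [NormedAddCommGroup V] [InnerProductSpace ℝ V]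
    [FiniteDimensional ℝ V] (H : Submodule ℝ V)
    (hH : Module.finrank ℝ V ≤ Module.finrank ℝ H + 1) {e e' : V} (he : ‖e‖ = 1) (he' : ‖e'‖ = 1)
    (horth : ∀ h ∈ H, inner ℝ (e + e') h = 0) (hne : e - e' ∉ H) : e = -e' := by
  by_contra hcon
  have hz : e + e' ≠ 0 := fun h => hcon (eq_neg_of_add_eq_zero_left h)
  apply hne
  have h1 : H ≤ (Submodule.span ℝ {e + e'})ᗮ := by
    intro h hh
    rw [Submodule.mem_orthogonal_singleton_iff_inner_right]
    exact horth h hh
  have h2 := Submodule.finrank_add_finrank_orthogonal (Submodule.span ℝ {e + e'})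
  rw [finrank_span_singleton hz] at h2
  have h3 : H = (Submodule.span ℝ {e + e'})ᗮ :=
    Submodule.eq_of_le_of_finrank_le h1 (by omega)
  rw [h3, Submodule.mem_orthogonal_singleton_iff_inner_right, inner_add_left, inner_sub_right,
    inner_sub_right, real_inner_self_eq_norm_sq, real_inner_self_eq_norm_sq, he, he',
    real_inner_comm e e']
  ring

variable {n : ℕ} {M : Type*} [MetricSpace M] [ChartedSpace (EuclideanSpace ℝ (Fin n)) M]
  [IsManifold (𝓡 n) ∞ M]
  [RiemannianBundle (fun p : M => TangentSpace (𝓡 n) p)]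
variable {G : GeoData n M}

/-! ### derivatives -/

variable (n) in
/-- the differential of a map into `M` -/
def Am {E' : Type*} [NormedAddCommGroup E'] [NormedSpace ℝ E'] (σ : E' → M) (a : E') :
    E' →ₗ[ℝ] TangentSpace (𝓡 n) (σ a) :=
  (mfderiv 𝓘(ℝ, E') (𝓡 n) σ a).toLinearMap

/-- chain rule for a real function along a map of a normed space -/
theorem hasFDerivAt_comp_map {E' : Type*} [NormedAddCommGroup E'] [NormedSpace ℝ E']
    {f : M → ℝ} {σ : E' → M} {a : E'}
    (hf : MDifferentiableAt (𝓡 n) 𝓘(ℝ) f (σ a)) (hσ : MDifferentiableAt 𝓘(ℝ, E') (𝓡 n) σ a) :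
    ∃ L : E' →L[ℝ] ℝ, HasFDerivAt (fun a' => f (σ a')) L a ∧
      ∀ v, L v = dL n f (σ a) (Am n σ a v) := by
  have h1 := (hf.hasMFDerivAt).comp a hσ.hasMFDerivAt
  exact ⟨_, h1.hasFDerivAt, fun v => rfl⟩

/-- derivative of the distance to a point along a map -/
theorem hasFDerivAt_dist_map {E' : Type*} [NormedAddCommGroup E'] [NormedSpace ℝ E']
    {σ : E' → M} {a : E'} {y : M} (hσ : MDifferentiableAt 𝓘(ℝ, E') (𝓡 n) σ a)
    (h0 : 0 < dist (σ a) y) (h : dist (σ a) y < G.r₀ / 2) :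
    ∃ L : E' →L[ℝ] ℝ, HasFDerivAt (fun a' => dist (σ a') y) L a ∧
      ∀ v, L v = -inner ℝ (dirv G (σ a) y) (Am n σ a v) := by
  obtain ⟨L1, h1, h1v⟩ := hasFDerivAt_comp_map (n := n) (f := fun x' : M => halfDistSq x' y)
    (σ := σ) (a := a) (mdiffAt_cost_left (nd G) h) hσ
  have h2 : (2 * halfDistSq (σ a) y) ≠ 0 := by
    unfold halfDistSq
    positivity
  have h3 := (h1.const_mul 2).sqrt h2
  have h4 : (fun a' : E' => Real.sqrt (2 * halfDistSq (σ a') y)) =
      fun a' : E' => dist (σ a') y := by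
    funext t
    unfold halfDistSq
    rw [mul_div_cancel₀ _ (two_ne_zero), Real.sqrt_sq dist_nonneg]
  rw [h4] at h3
  refine ⟨_, h3, fun v => ?_⟩
  have h5 : Real.sqrt (2 * halfDistSq (σ a) y) = dist (σ a) y := congrFun h4 a
  rw [h5]
  have h6 : dL n (fun x' : M => halfDistSq x' y) (σ a) (Am n σ a v) =
      -inner ℝ (lg (nd G) (σ a) y) (Am n σ a v) := dL_cost (nd G) h _
  simp only [smul_apply, smul_eq_mul]
  rw [h1v, h6]
  unfold dirv
  rw [inner_smul_left]
  simp only [conj_trivial]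
  field_simp

section
variable [IsContMDiffRiemannianBundle (𝓡 n) ∞ (EuclideanSpace ℝ (Fin n))
    (fun p : M => TangentSpace (𝓡 n) p)]

variable (c : Cg G) (N : ℕ)

theorem contMDiff_sg (i : ZMod N) : ContMDiff 𝓘(ℝ, Sl n) (𝓡 n) ∞ (sg c N i) := by
  have h1 := contMDiff_ex_fibre G (c.pt N i).1
  let L : Sl n →L[ℝ] EuclideanSpace ℝ (Fin n) :=
    ((toFib (c.pt N i).1).symm.toContinuousLinearMap).comp (E (c.pt N i))
  exact h1.comp L.contDiff.contMDiff

theorem mdiff_sg (i : ZMod N) (a : Sl n) : MDifferentiableAt 𝓘(ℝ, Sl n) (𝓡 n) (sg c N i) a :=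
  (contMDiff_sg c N i).mdifferentiableAt (by simp)

/-- joint differentiability -/
theorem differentiableAt_D (i : ZMod N) {q : Sl n × Sl n}
    (h0 : 0 < dist (sg c N i q.1) (sg c N (i + 1) q.2))
    (h : dist (sg c N i q.1) (sg c N (i + 1) q.2) < G.r₀ / 2) :
    DifferentiableAt ℝ (D c N i) q := by
  have h1 : ContMDiffAt 𝓘(ℝ, Sl n × Sl n) ((𝓡 n).prod (𝓡 n)) ∞
      (fun q : Sl n × Sl n => (sg c N i q.1, sg c N (i + 1) q.2)) q := by
    have e1 : ContMDiff 𝓘(ℝ, Sl n × Sl n) 𝓘(ℝ, Sl n) ∞ (fun q : Sl n × Sl n => q.1) :=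
      contDiff_fst.contMDiff
    have e2 : ContMDiff 𝓘(ℝ, Sl n × Sl n) 𝓘(ℝ, Sl n) ∞ (fun q : Sl n × Sl n => q.2) :=
      contDiff_snd.contMDiff
    exact (((contMDiff_sg c N i).comp e1).prodMk ((contMDiff_sg c N (i + 1)).comp e2)) q
  have h2 := (contMDiffAt_cost (nd G) (x := sg c N i q.1) (y := sg c N (i + 1) q.2) h).comp q h1
  have h3 := (contMDiffAt_iff_contDiffAt.1 h2).differentiableAt (by simp)
  have h4 : (2 * halfDistSq (sg c N i q.1) (sg c N (i + 1) q.2)) ≠ 0 := by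
    unfold halfDistSq
    positivity
  have h5 := (h3.const_mul 2).sqrt h4
  have h6 := h5.sub_const (c.l / N)
  refine h6.congr_of_eventuallyEq (Eventually.of_forall fun q => ?_)
  change dist (sg c N i q.1) (sg c N (i + 1) q.2) - c.l / N = _
  change _ = Real.sqrt (2 * halfDistSq (sg c N i q.1) (sg c N (i + 1) q.2)) - c.l / N
  unfold halfDistSq
  rw [mul_div_cancel₀ _ (two_ne_zero), Real.sqrt_sq dist_nonneg]

theorem fderiv_D_left (i : ZMod N) {q : Sl n × Sl n}
    (h0 : 0 < dist (sg c N i q.1) (sg c N (i + 1) q.2))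
    (h : dist (sg c N i q.1) (sg c N (i + 1) q.2) < G.r₀ / 2) (v : Sl n) :
    fderiv ℝ (D c N i) q (v, 0) =
      -inner ℝ (dirv G (sg c N i q.1) (sg c N (i + 1) q.2)) (Am n (sg c N i) q.1 v) := by
  obtain ⟨L, hL, hLv⟩ := hasFDerivAt_dist_map (G := G) (mdiff_sg c N i q.1) h0 h
  have h1 := (differentiableAt_D c N i h0 h).hasFDerivAt
  have h2 : HasFDerivAt (fun a : Sl n => ((a, q.2) : Sl n × Sl n))
      ((ContinuousLinearMap.id ℝ (Sl n)).prod 0) q.1 :=
    (hasFDerivAt_id q.1).prodMk (hasFDerivAt_const q.2 q.1)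
  have h3 := HasFDerivAt.comp (q.1) (f := fun a : Sl n => ((a, q.2) : Sl n × Sl n)) h1 h2
  have h4 := hL.sub_const (c.l / N)
  have h5 := h3.unique h4
  have h6 := congrArg (fun L : Sl n →L[ℝ] ℝ => L v) h5
  exact h6.trans (hLv v)

theorem fderiv_D_right (i : ZMod N) {q : Sl n × Sl n}
    (h0 : 0 < dist (sg c N i q.1) (sg c N (i + 1) q.2))
    (h : dist (sg c N i q.1) (sg c N (i + 1) q.2) < G.r₀ / 2) (v : Sl n) :
    fderiv ℝ (D c N i) q (0, v) =
      -inner ℝ (dirv G (sg c N (i + 1) q.2) (sg c N i q.1))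
        (Am n (sg c N (i + 1)) q.2 v) := by
  have h0' : 0 < dist (sg c N (i + 1) q.2) (sg c N i q.1) := by rwa [dist_comm]
  have h' : dist (sg c N (i + 1) q.2) (sg c N i q.1) < G.r₀ / 2 := by rwa [dist_comm]
  obtain ⟨L, hL, hLv⟩ := hasFDerivAt_dist_map (G := G) (mdiff_sg c N (i + 1) q.2) h0' h'
  have h1 := (differentiableAt_D c N i h0 h).hasFDerivAt
  have h2 : HasFDerivAt (fun b : Sl n => ((q.1, b) : Sl n × Sl n))
      ((0 : Sl n →L[ℝ] Sl n).prod (ContinuousLinearMap.id ℝ (Sl n))) q.2 :=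
    (hasFDerivAt_const q.1 q.2).prodMk (hasFDerivAt_id q.2)
  have h3 := HasFDerivAt.comp (q.2) (f := fun b : Sl n => ((q.1, b) : Sl n × Sl n)) h1 h2
  have h4 := hL.sub_const (c.l / N)
  have h4' : HasFDerivAt (D c N i ∘ fun b : Sl n => ((q.1, b) : Sl n × Sl n)) L q.2 := by
    refine h4.congr_of_eventuallyEq (Eventually.of_forall fun b => ?_)
    change dist (sg c N i q.1) (sg c N (i + 1) b) - c.l / N =
      dist (sg c N (i + 1) b) (sg c N i q.1) - c.l / N
    rw [dist_comm]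
  have h5 := h3.unique h4'
  have h6 := congrArg (fun L : Sl n →L[ℝ] ℝ => L v) h5
  exact h6.trans (hLv v)

/-! ### the tangent spaces of the slices -/

theorem norm_E_pt (i : ZMod N) (a : Sl n) : ‖E (c.pt N i) a‖ = ‖a‖ := norm_E (c.norm_pt N i) a

/-- the height functions along the slice -/
theorem ph_sg (i : ZMod N) {a : Sl n} (ha : ‖a‖ < G.r₀ / 2)
    (ξ : TangentSpace (𝓡 n) (c.pt N i).1) :
    ph G ⟨(c.pt N i).1, ξ⟩ (sg c N i a) = inner ℝ (E (c.pt N i) a) ξ := by
  unfold sg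
  exact ph_ex (P := ⟨(c.pt N i).1, ξ⟩) (by rw [norm_E_pt]; exact ha)

theorem dist_pt_sg (i : ZMod N) {a : Sl n} (ha : ‖a‖ < G.r₀ / 2) :
    dist (c.pt N i).1 (sg c N i a) < G.r₀ / 2 := by
  have := dist_ex_le G (c.pt N i).1 (E (c.pt N i) a)
  rw [norm_E_pt] at this
  exact lt_of_le_of_lt this ha

theorem dL_ph_sg (i : ZMod N) {a : Sl n} (ha : ‖a‖ < G.r₀ / 2)
    (ξ : TangentSpace (𝓡 n) (c.pt N i).1) (v : Sl n) :
    dL n (ph G ⟨(c.pt N i).1, ξ⟩) (sg c N i a) (Am n (sg c N i) a v) =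
      inner ℝ (E (c.pt N i) v) ξ := by
  obtain ⟨L1, h1, h1v⟩ := hasFDerivAt_comp_map (n := n) (f := ph G ⟨(c.pt N i).1, ξ⟩)
    (σ := sg c N i) (a := a)
    ((contMDiffAt_ph (G := G) (P := ⟨(c.pt N i).1, ξ⟩)
      (dist_pt_sg c N i ha)).mdifferentiableAt (by simp)) (mdiff_sg c N i a)
  have hnear : ∀ᶠ a' : Sl n in 𝓝 a, ‖a'‖ < G.r₀ / 2 :=
    (continuous_norm.tendsto a).eventually_lt_const ha
  -- the explicit form
  let Lξ : Sl n →L[ℝ] ℝ := (innerSL ℝ ξ : TangentSpace (𝓡 n) (c.pt N i).1 →L[ℝ] ℝ).comp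
    (E (c.pt N i))
  have h2 : HasFDerivAt (fun a' : Sl n => ph G ⟨(c.pt N i).1, ξ⟩ (sg c N i a')) Lξ a := by
    refine Lξ.hasFDerivAt.congr_of_eventuallyEq ?_
    filter_upwards [hnear] with a' ha'
    rw [ph_sg c N i ha' ξ, real_inner_comm]
    rfl
  have h3 := h1.unique h2
  have h4 := congrArg (fun L : Sl n →L[ℝ] ℝ => L v) h3
  rw [← h1v v]
  refine (Eq.trans h4 ?_)
  change inner ℝ ξ (E (c.pt N i) v) = _
  exact real_inner_comm _ _

theorem Am_injective (i : ZMod N) {a : Sl n} (ha : ‖a‖ < G.r₀ / 2) :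
    Function.Injective (Am n (sg c N i) a) := by
  rw [injective_iff_map_eq_zero]
  intro v hv
  have h1 : ∀ ξ : TangentSpace (𝓡 n) (c.pt N i).1, inner ℝ (E (c.pt N i) v) ξ = 0 := by
    intro ξ
    rw [← dL_ph_sg c N i ha ξ v, hv]
    exact map_zero _
  have h2 := h1 (E (c.pt N i) v)
  have h3 : E (c.pt N i) v = 0 := inner_self_eq_zero.1 h2
  have h4 := norm_E_pt c N i v
  rw [h3, norm_zero] at h4
  exact norm_eq_zero.1 h4.symm

theorem finrank_range_Am (i : ZMod N) {a : Sl n} (ha : ‖a‖ < G.r₀ / 2) :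
    Module.finrank ℝ (TangentSpace (𝓡 n) (sg c N i a)) ≤
      Module.finrank ℝ (LinearMap.range (Am n (sg c N i) a)) + 1 := by
  have h1 : Module.finrank ℝ (LinearMap.range (Am n (sg c N i) a)) = n - 1 := by
    rw [LinearMap.finrank_range_of_inj (Am_injective c N i ha)]
    exact finrank_euclideanSpace_fin
  have h2 : Module.finrank ℝ (TangentSpace (𝓡 n) (sg c N i a)) = n := by
    have : Module.finrank ℝ (EuclideanSpace ℝ (Fin n)) = n := finrank_euclideanSpace_fin
    exact this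
  omega

/-- vectors close to the velocity of `c` are transversal to the slices -/
theorem not_mem_range (i : ZMod N) {a : Sl n} (ha : ‖a‖ < G.r₀ / 2)
    {e e' : TangentSpace (𝓡 n) (sg c N i a)}
    (he : 0 < dph G (c.pt N i) (⟨sg c N i a, e⟩, 0))
    (he' : 0 < dph G (c.pt N i) (⟨sg c N i a, -e'⟩, 0)) :
    e - e' ∉ LinearMap.range (Am n (sg c N i) a) := by
  rintro ⟨v, hv⟩
  have key : ∀ w : TangentSpace (𝓡 n) (sg c N i a),
      dph G (c.pt N i) (⟨sg c N i a, w⟩, 0) = dL n (ph G (c.pt N i)) (sg c N i a) w := by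
    intro w
    have hx : (fun t : ℝ => G.ex (sg c N i a) (t • w)) 0 = sg c N i a := by
      simp only [zero_smul]; exact G.ex_zero _
    have h1 := hasDerivAt_comp_curve (n := n) (f := ph G (c.pt N i)) hx
      ((contMDiffAt_ph (G := G) (P := c.pt N i)
        (dist_pt_sg c N i ha)).mdifferentiableAt (by simp))
      (mdifferentiableAt_ray G (sg c N i a) w 0)
    have h2 : dph G (c.pt N i) (⟨sg c N i a, w⟩, 0) =
        dL n (ph G (c.pt N i)) (sg c N i a)
          (curveVel n (fun t : ℝ => G.ex (sg c N i a) (t • w)) 0) := h1.deriv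
    rw [h2]
    have h3 : curveVel n (fun t : ℝ => G.ex (sg c N i a) (t • w)) 0 = w :=
      G.vel_zero (sg c N i a) w
    exact congrArg _ h3
  rw [key] at he he'
  have h1 := dL_ph_sg c N i ha (c.pt N i).2 v
  have h2 : dL n (ph G (c.pt N i)) (sg c N i a) (e - e') = 0 := by
    rw [← hv]
    refine h1.trans ?_
    rw [real_inner_comm]
    exact inner_E (c.norm_pt N i) v
  rw [map_sub] at h2
  rw [map_neg] at he'
  linarith

/-! ### corners -/

/-- at a critical vertex there is no corner -/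
theorem corner_free (i : ZMod N) {a b d : Sl n} (hb : ‖b‖ < G.r₀ / 2)
    (h0 : 0 < dist (sg c N i a) (sg c N (i + 1) b))
    (h : dist (sg c N i a) (sg c N (i + 1) b) < G.r₀ / 2)
    (h0' : 0 < dist (sg c N (i + 1) b) (sg c N (i + 1 + 1) d))
    (h' : dist (sg c N (i + 1) b) (sg c N (i + 1 + 1) d) < G.r₀ / 2)
    (hd1 : 0 < dph G (c.pt N (i + 1)) (dirT G (sg c N (i + 1) b) (sg c N (i + 1 + 1) d), 0))
    (hd2 : 0 < dph G (c.pt N (i + 1)) (G.Flow (dist (sg c N i a) (sg c N (i + 1) b))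
      (dirT G (sg c N i a) (sg c N (i + 1) b)), 0))
    (hcrit : ∀ v : Sl n, fderiv ℝ (D c N i) (a, b) (0, v) +
      fderiv ℝ (D c N (i + 1)) (b, d) (v, 0) = 0) :
    G.Flow (dist (sg c N i a) (sg c N (i + 1) b)) (dirT G (sg c N i a) (sg c N (i + 1) b)) =
      dirT G (sg c N (i + 1) b) (sg c N (i + 1 + 1) d) := by
  rw [flow_dir h0 h] at hd2 ⊢
  have : FiniteDimensional ℝ (TangentSpace (𝓡 n) (sg c N (i + 1) b)) := finDim _
  have hs0 : 0 < dist (sg c N (i + 1) b) (sg c N i a) := by rwa [dist_comm]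
  have hs : dist (sg c N (i + 1) b) (sg c N i a) < G.r₀ / 2 := by rwa [dist_comm]
  have hkey : dirv G (sg c N (i + 1) b) (sg c N (i + 1 + 1) d) =
      -dirv G (sg c N (i + 1) b) (sg c N i a) := by
    refine no_corner (LinearMap.range (Am n (sg c N (i + 1)) b))
      (finrank_range_Am c N (i + 1) hb) (norm_dirv h0' h') (norm_dirv hs0 hs) ?_
      (not_mem_range c N (i + 1) hb hd1 hd2)
    rintro _ ⟨v, rfl⟩
    have h1 := hcrit v
    rw [fderiv_D_right c N i (q := (a, b)) h0 h v,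
      fderiv_D_left c N (i + 1) (q := (b, d)) h0' h' v] at h1
    simp only at h1
    rw [inner_add_left]
    linarith
  unfold dirT
  rw [hkey]

theorem continuous_scale : Continuous (fun q : ℝ × TangentBundle (𝓡 n) M =>
    (⟨q.2.1, q.1 • q.2.2⟩ : TangentBundle (𝓡 n) M)) :=
  (TB616.contMDiff_smul (I' := 𝓘(ℝ).prod (𝓡 n).tangent)
    (f := fun q : ℝ × TangentBundle (𝓡 n) M => q.1)
    (s := fun q : ℝ × TangentBundle (𝓡 n) M => q.2) (k := ∞) contMDiff_fst contMDiff_snd).continuous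

theorem continuousAt_dirT {z : M × M} (h0 : 0 < dist z.1 z.2) (h : dist z.1 z.2 < G.r₀ / 2) :
    ContinuousAt (fun z : M × M => dirT G z.1 z.2) z := by
  have h1 : ContinuousAt (fun z : M × M => (dist z.1 z.2)⁻¹) z :=
    (continuous_fst.dist continuous_snd).continuousAt.inv₀ h0.ne'
  exact ContinuousAt.comp (f := fun z : M × M => ((dist z.1 z.2)⁻¹,
    (⟨z.1, NearLog90.lg (nd G) z.1 z.2⟩ : TangentBundle (𝓡 n) M)))
    (continuous_scale (n := n) (M := M)).continuousAt (h1.prodMk (continuousAt_lgT (G := G) h))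

variable {N} in
theorem dirT_pt [NeZero N] (hN : c.l / N < G.r₀ / 2) (i : ZMod N) :
    dirT G (c.pt N i).1 (c.pt N (i + 1)).1 = c.pt N i := by
  have hNp : (0 : ℝ) < N := Nat.cast_pos.2 (NeZero.pos N)
  have hl : 0 < c.l / N := div_pos c.l_pos hNp
  have h1 : (c.pt N (i + 1)).1 = G.ex (c.pt N i).1 ((c.l / N) • (c.pt N i).2) := by
    rw [← c.pt_succ i]; rfl
  have h2 : lg (nd G) (c.pt N i).1 (c.pt N (i + 1)).1 = (c.l / N) • (c.pt N i).2 := by
    rw [h1]
    exact lg_e (nd G) (by rw [norm_smul, c.norm_pt, mul_one, Real.norm_of_nonneg hl.le]; exact hN)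
  have h3 := dist_pt c (N := N) (lt_trans hN (half_lt_self G.r₀_pos)) i
  unfold dirT dirv
  rw [h2, h3, smul_smul, inv_mul_cancel₀ hl.ne', one_smul]

/-- all the conditions needed near a vertex -/
def Good (i : ZMod N) (q : Sl n × Sl n) : Prop :=
  ‖q.2‖ < G.r₀ / 2 ∧ 0 < dist (sg c N i q.1) (sg c N (i + 1) q.2) ∧
  dist (sg c N i q.1) (sg c N (i + 1) q.2) < G.r₀ / 2 ∧
  0 < dph G (c.pt N i) (dirT G (sg c N i q.1) (sg c N (i + 1) q.2), 0) ∧
  0 < dph G (c.pt N (i + 1)) (G.Flow (dist (sg c N i q.1) (sg c N (i + 1) q.2))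
      (dirT G (sg c N i q.1) (sg c N (i + 1) q.2)), 0)

theorem continuous_sg (i : ZMod N) : Continuous (sg c N i) := (contMDiff_sg c N i).continuous

theorem continuousAt_edge (i : ZMod N) {q : Sl n × Sl n}
    (h0 : 0 < dist (sg c N i q.1) (sg c N (i + 1) q.2))
    (h : dist (sg c N i q.1) (sg c N (i + 1) q.2) < G.r₀ / 2) :
    ContinuousAt (fun q : Sl n × Sl n => dirT G (sg c N i q.1) (sg c N (i + 1) q.2)) q := by
  have h1 : Continuous (fun q : Sl n × Sl n => (sg c N i q.1, sg c N (i + 1) q.2)) :=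
    ((continuous_sg c N i).comp continuous_fst).prodMk
      ((continuous_sg c N (i + 1)).comp continuous_snd)
  exact ContinuousAt.comp (f := fun q : Sl n × Sl n => (sg c N i q.1, sg c N (i + 1) q.2))
    (g := fun z : M × M => dirT G z.1 z.2) (continuousAt_dirT (G := G) h0 h) h1.continuousAt

variable {N} in
theorem eventually_good [NeZero N] (hN : c.l / N < G.r₀ / 2) (i : ZMod N) :
    ∀ᶠ q in 𝓝 ((0, 0) : Sl n × Sl n), Good c N i q := by
  have hNp : (0 : ℝ) < N := Nat.cast_pos.2 (NeZero.pos N)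
  have hl : 0 < c.l / N := div_pos c.l_pos hNp
  have hdc : Continuous (fun q : Sl n × Sl n => dist (sg c N i q.1) (sg c N (i + 1) q.2)) :=
    ((continuous_sg c N i).comp continuous_fst).dist
      ((continuous_sg c N (i + 1)).comp continuous_snd)
  have hd0 : dist (sg c N i (0 : Sl n)) (sg c N (i + 1) (0 : Sl n)) = c.l / N := by
    rw [sg_zero, sg_zero]
    exact dist_pt c (N := N) (lt_trans hN (half_lt_self G.r₀_pos)) i
  have hd0p : 0 < dist (sg c N i ((0, 0) : Sl n × Sl n).1) (sg c N (i + 1)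
      ((0, 0) : Sl n × Sl n).2) := by rw [hd0]; exact hl
  have hd0l : dist (sg c N i ((0, 0) : Sl n × Sl n).1) (sg c N (i + 1)
      ((0, 0) : Sl n × Sl n).2) < G.r₀ / 2 := by rw [hd0]; exact hN
  have hedge := continuousAt_edge c N i (q := (0, 0)) hd0p hd0l
  have hedge0 : dirT G (sg c N i (0 : Sl n)) (sg c N (i + 1) (0 : Sl n)) = c.pt N i := by
    rw [sg_zero, sg_zero]
    exact dirT_pt c hN i
  have e1 : ∀ᶠ q in 𝓝 ((0, 0) : Sl n × Sl n), ‖q.2‖ < G.r₀ / 2 := by
    have : Continuous (fun q : Sl n × Sl n => ‖q.2‖) := continuous_snd.norm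
    refine this.continuousAt.eventually_lt_const ?_
    simpa using G.r₀_pos
  have e2 := hdc.continuousAt.eventually_const_lt hd0p
  have e3 := hdc.continuousAt.eventually_lt_const hd0l
  have hdist0 : ∀ j : ZMod N, dist (c.pt N j).1 (G.ex (c.pt N j).1 ((0 : ℝ) • (c.pt N j).2)) <
      G.r₀ / 2 := by
    intro j
    rw [zero_smul, G.ex_zero, dist_self]
    exact half_pos G.r₀_pos
  have e4 : ∀ᶠ q in 𝓝 ((0, 0) : Sl n × Sl n),
      0 < dph G (c.pt N i) (dirT G (sg c N i q.1) (sg c N (i + 1) q.2), 0) := by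
    have h1 := continuousAt_dph (G := G) (c.pt N i) (q := (c.pt N i, 0)) (hdist0 i)
    rw [← hedge0] at h1
    have h2 : ContinuousAt (fun q : Sl n × Sl n =>
        dph G (c.pt N i) (dirT G (sg c N i q.1) (sg c N (i + 1) q.2), (0 : ℝ))) (0, 0) := by
      refine ContinuousAt.comp (f := fun q : Sl n × Sl n =>
        (dirT G (sg c N i q.1) (sg c N (i + 1) q.2), (0 : ℝ))) (g := dph G (c.pt N i)) ?_
        (hedge.prodMk continuousAt_const)
      rw [← hedge0]
      exact h1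
    refine h2.eventually_const_lt ?_
    change 0 < dph G (c.pt N i) (dirT G (sg c N i (0 : Sl n)) (sg c N (i + 1) (0 : Sl n)), (0 : ℝ))
    rw [hedge0, dph_self (c.norm_pt N i)]
    exact one_pos
  have e5 : ∀ᶠ q in 𝓝 ((0, 0) : Sl n × Sl n),
      0 < dph G (c.pt N (i + 1)) (G.Flow (dist (sg c N i q.1) (sg c N (i + 1) q.2))
        (dirT G (sg c N i q.1) (sg c N (i + 1) q.2)), 0) := by
    have hval : G.Flow (dist (sg c N i (0 : Sl n)) (sg c N (i + 1) (0 : Sl n)))
        (dirT G (sg c N i (0 : Sl n)) (sg c N (i + 1) (0 : Sl n))) = c.pt N (i + 1) := by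
      rw [hedge0, hd0]
      exact c.pt_succ i
    have h3 : ContinuousAt (fun q : Sl n × Sl n =>
        G.Flow (dist (sg c N i q.1) (sg c N (i + 1) q.2))
        (dirT G (sg c N i q.1) (sg c N (i + 1) q.2))) (0, 0) :=
      ContinuousAt.comp (f := fun q : Sl n × Sl n =>
        (dist (sg c N i q.1) (sg c N (i + 1) q.2),
          dirT G (sg c N i q.1) (sg c N (i + 1) q.2)))
        (g := fun z : ℝ × TangentBundle (𝓡 n) M => G.Flow z.1 z.2)
        (continuous_Flow G).continuousAt (hdc.continuousAt.prodMk hedge)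
    have h1 := continuousAt_dph (G := G) (c.pt N (i + 1)) (q := (c.pt N (i + 1), 0)) (hdist0 (i + 1))
    have h2 : ContinuousAt (fun q : Sl n × Sl n =>
        dph G (c.pt N (i + 1)) (G.Flow (dist (sg c N i q.1) (sg c N (i + 1) q.2))
        (dirT G (sg c N i q.1) (sg c N (i + 1) q.2)), (0 : ℝ))) (0, 0) := by
      refine ContinuousAt.comp (f := fun q : Sl n × Sl n =>
        (G.Flow (dist (sg c N i q.1) (sg c N (i + 1) q.2))
        (dirT G (sg c N i q.1) (sg c N (i + 1) q.2)), (0 : ℝ))) (g := dph G (c.pt N (i + 1))) ?_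
        (h3.prodMk continuousAt_const)
      rw [hval]
      exact h1
    refine h2.eventually_const_lt ?_
    change 0 < dph G (c.pt N (i + 1)) (G.Flow (dist (sg c N i (0 : Sl n)) (sg c N (i + 1) (0 : Sl n)))
        (dirT G (sg c N i (0 : Sl n)) (sg c N (i + 1) (0 : Sl n))), (0 : ℝ))
    rw [hval, dph_self (c.norm_pt N (i + 1))]
    exact one_pos
  filter_upwards [e1, e2, e3, e4, e5] with q h1 h2 h3 h4 h5
  exact ⟨h1, h2, h3, h4, h5⟩

/-! ### periodic chains -/

theorem flow_chain {K : ℕ} (Q : ZMod K → TangentBundle (𝓡 n) M) (d : ZMod K → ℝ)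
    (h : ∀ k, G.Flow (d k) (Q k) = Q (k + 1)) (k : ZMod K) (j : ℕ) :
    G.Flow (∑ i ∈ Finset.range j, d (k + i)) (Q k) = Q (k + j) := by
  induction j with
  | zero => rw [Finset.sum_range_zero, Flow_zero, Nat.cast_zero, add_zero]
  | succ j ih =>
    rw [Finset.sum_range_succ, ← Flow_add, ih, h]
    push_cast
    rw [add_assoc]

theorem isPer_chain {K : ℕ} [NeZero K] (Q : ZMod K → TangentBundle (𝓡 n) M) (d : ZMod K → ℝ)
    (hd : ∀ k, 0 < d k) (h : ∀ k, G.Flow (d k) (Q k) = Q (k + 1)) (k : ZMod K) :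
    IsPer G (Q k) := by
  refine ⟨∑ i ∈ Finset.range K, d (k + i), ?_, ?_⟩
  · exact Finset.sum_pos (fun i _ => hd _) ⟨0, Finset.mem_range.2 (NeZero.pos K)⟩
  · rw [flow_chain Q d h k K, ZMod.natCast_self, add_zero]

/-! ### the derivative of the action -/

variable {N} in
theorem fderiv_Fm [NeZero N] {m : ℕ} [NeZero (N * m)] {p : ZMod (N * m) → Sl n}
    (hg : ∀ k : ZMod (N * m), Good c N (red N (N * m) (dvd_mul_right N m) k) (p k, p (k + 1)))
    (hcrit : fderiv ℝ (Fm (D c N) m) p = 0) (k : ZMod (N * m)) (v : Sl n) :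
    fderiv ℝ (D c N (red N (N * m) (dvd_mul_right N m) k)) (p k, p (k + 1)) (0, v) +
      fderiv ℝ (D c N (red N (N * m) (dvd_mul_right N m) (k + 1))) (p (k + 1), p (k + 1 + 1))
        (v, 0) = 0 := by
  classical
  set r := red N (N * m) (dvd_mul_right N m) with hr
  have hD : ∀ i : ZMod (N * m), HasFDerivAt (fun p : ZMod (N * m) → Sl n =>
      D c N (r i) (p i, p (i + 1)))
      ((fderiv ℝ (D c N (r i)) (p i, p (i + 1))).comp (ev2 (S := Sl n) i)) p := by
    intro i
    have h1 := (differentiableAt_D c N (r i) (q := (p i, p (i + 1))) (hg i).2.1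
      (hg i).2.2.1).hasFDerivAt
    exact HasFDerivAt.comp p (f := fun p : ZMod (N * m) → Sl n => ev2 (S := Sl n) i p) h1
      (ev2 (S := Sl n) i).hasFDerivAt
  have hsum : HasFDerivAt (Fm (D c N) m)
      (∑ i : ZMod (N * m), (fderiv ℝ (D c N (r i)) (p i, p (i + 1))).comp (ev2 (S := Sl n) i)) p := by
    have := HasFDerivAt.sum (u := (Finset.univ : Finset (ZMod (N * m)))) (fun i _ => hD i)
    refine this.congr_of_eventuallyEq (Eventually.of_forall fun p => ?_)
    simp [Fm, hr]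
  have h0 : (∑ i : ZMod (N * m), (fderiv ℝ (D c N (r i)) (p i, p (i + 1))).comp
      (ev2 (S := Sl n) i)) = 0 := hsum.fderiv.symm.trans hcrit
  set u : ZMod (N * m) → Sl n := Pi.single (k + 1) v with hu
  have h1 := congrArg (fun L : (ZMod (N * m) → Sl n) →L[ℝ] ℝ => L u) h0
  simp only [ContinuousLinearMap.sum_apply, ContinuousLinearMap.comp_apply, ev2_apply,
    ContinuousLinearMap.zero_apply] at h1
  have h2 : ∀ i : ZMod (N * m), fderiv ℝ (D c N (r i)) (p i, p (i + 1)) (u i, u (i + 1)) =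
      fderiv ℝ (D c N (r i)) (p i, p (i + 1)) (u i, 0) +
      fderiv ℝ (D c N (r i)) (p i, p (i + 1)) (0, u (i + 1)) := by
    intro i
    rw [← map_add]
    simp
  rw [Finset.sum_congr rfl (fun i _ => h2 i), Finset.sum_add_distrib] at h1
  have h3 : ∑ i : ZMod (N * m), fderiv ℝ (D c N (r i)) (p i, p (i + 1)) (u i, 0) =
      fderiv ℝ (D c N (r (k + 1))) (p (k + 1), p (k + 1 + 1)) (v, 0) := by
    rw [Finset.sum_eq_single (k + 1)]
    · rw [hu, Pi.single_eq_same]
    · intro i _ hi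
      rw [hu, Pi.single_eq_of_ne hi]
      exact map_zero _
    · intro h; exact absurd (Finset.mem_univ _) h
  have h4 : ∑ i : ZMod (N * m), fderiv ℝ (D c N (r i)) (p i, p (i + 1)) (0, u (i + 1)) =
      fderiv ℝ (D c N (r k)) (p k, p (k + 1)) (0, v) := by
    rw [Finset.sum_eq_single k]
    · rw [hu, Pi.single_eq_same]
    · intro i _ hi
      have : i + 1 ≠ k + 1 := fun h => hi (add_right_cancel h)
      rw [hu, Pi.single_eq_of_ne this]
      exact map_zero _
    · intro h; exact absurd (Finset.mem_univ _) h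
  rw [h3, h4] at h1
  rw [add_comm]
  exact h1

/-! ### the theorem -/

variable {N} in
/-- **isolatedness**: `0` is an isolated critical point of `Fm (D c N) m` -/
theorem isolated [NeZero N] (hN : c.l / N < G.r₀ / 2)
    (hF : ∃ F : Set (TangentBundle (𝓡 n) M), F.Finite ∧ ∀ Q : TangentBundle (𝓡 n) M, ‖Q.2‖ = 1 →
      IsPer G Q → ∃ P ∈ F, ∃ s, Q = G.Flow s P)
    (m : ℕ) [NeZero (N * m)] :
    ∀ᶠ p in 𝓝 (0 : ZMod (N * m) → Sl n), fderiv ℝ (Fm (D c N) m) p = 0 → p = 0 := by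
  classical
  obtain ⟨F, hFf, hF⟩ := hF
  have hNp : (0 : ℝ) < N := Nat.cast_pos.2 (NeZero.pos N)
  have hl : 0 < c.l / N := div_pos c.l_pos hNp
  set r := red N (N * m) (dvd_mul_right N m) with hr
  have hrs : ∀ k, r (k + 1) = r k + 1 := fun k => by rw [map_add, map_one]
  -- near the base vectors the closed orbits are the orbit of `c`
  have horb : ∀ i : ZMod N, ∀ᶠ q in 𝓝 ((0, 0) : Sl n × Sl n),
      (∃ P' ∈ F, IsPer G P' ∧ ∃ s, dirT G (sg c N i q.1) (sg c N (i + 1) q.2) = G.Flow s P') →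
      ∃ s, |s| < G.r₀ / 2 ∧ dirT G (sg c N i q.1) (sg c N (i + 1) q.2) = G.Flow s (c.pt N i) := by
    intro i
    have hd0 : dist (sg c N i (0 : Sl n)) (sg c N (i + 1) (0 : Sl n)) = c.l / N := by
      rw [sg_zero, sg_zero]
      exact dist_pt c (N := N) (lt_trans hN (half_lt_self G.r₀_pos)) i
    have hd0p : 0 < dist (sg c N i ((0, 0) : Sl n × Sl n).1) (sg c N (i + 1)
        ((0, 0) : Sl n × Sl n).2) := by rw [hd0]; exact hl
    have hd0l : dist (sg c N i ((0, 0) : Sl n × Sl n).1) (sg c N (i + 1)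
        ((0, 0) : Sl n × Sl n).2) < G.r₀ / 2 := by rw [hd0]; exact hN
    have hedge := continuousAt_edge c N i (q := (0, 0)) hd0p hd0l
    have hedge0 : dirT G (sg c N i (0 : Sl n)) (sg c N (i + 1) (0 : Sl n)) = c.pt N i := by
      rw [sg_zero, sg_zero]
      exact dirT_pt c hN i
    have h1 := near_orbit (G := G) F hFf (c.pt N i) (half_pos G.r₀_pos)
    rw [← hedge0] at h1
    have h2 := hedge.eventually h1
    rw [hedge0] at h2
    exact h2
  -- pull back to `p`
  have hev : ∀ k : ZMod (N * m), Tendsto (fun p : ZMod (N * m) → Sl n => (p k, p (k + 1)))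
      (𝓝 0) (𝓝 ((0, 0) : Sl n × Sl n)) := by
    intro k
    have : Continuous (fun p : ZMod (N * m) → Sl n => (p k, p (k + 1))) :=
      (continuous_apply k).prodMk (continuous_apply (k + 1))
    exact this.tendsto 0
  have hgood : ∀ᶠ p in 𝓝 (0 : ZMod (N * m) → Sl n), ∀ k : ZMod (N * m),
      Good c N (r k) (p k, p (k + 1)) :=
    eventually_all.2 fun k => (hev k).eventually (eventually_good c hN (r k))
  have horb' : ∀ᶠ p in 𝓝 (0 : ZMod (N * m) → Sl n), ∀ k : ZMod (N * m),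
      (∃ P' ∈ F, IsPer G P' ∧ ∃ s, dirT G (sg c N (r k) (p k)) (sg c N (r k + 1) (p (k + 1))) =
        G.Flow s P') →
      ∃ s, |s| < G.r₀ / 2 ∧ dirT G (sg c N (r k) (p k)) (sg c N (r k + 1) (p (k + 1))) =
        G.Flow s (c.pt N (r k)) :=
    eventually_all.2 fun k => (hev k).eventually (horb (r k))
  have hsmall : ∀ᶠ p in 𝓝 (0 : ZMod (N * m) → Sl n), ∀ k : ZMod (N * m), ‖p k‖ < G.r₀ / 2 := by
    refine eventually_all.2 fun k => ?_
    have : Continuous (fun p : ZMod (N * m) → Sl n => ‖p k‖) := (continuous_apply k).norm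
    refine this.continuousAt.eventually_lt_const ?_
    simpa using G.r₀_pos
  filter_upwards [hgood, horb', hsmall] with p hg ho hs hcrit
  -- the chain of vectors
  have hchain : ∀ k : ZMod (N * m),
      G.Flow (dist (sg c N (r k) (p k)) (sg c N (r k + 1) (p (k + 1))))
        (dirT G (sg c N (r k) (p k)) (sg c N (r k + 1) (p (k + 1)))) =
      dirT G (sg c N (r (k + 1)) (p (k + 1))) (sg c N (r (k + 1) + 1) (p (k + 1 + 1))) := by
    intro k
    have h1 := hg k
    have h2 := hg (k + 1)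
    have h3 := fderiv_Fm c (m := m) hg hcrit k
    rw [← hr] at h3
    rw [hrs k] at h2 h3 ⊢
    exact corner_free c N (r k) (a := p k) (b := p (k + 1)) (d := p (k + 1 + 1)) h1.1 h1.2.1
      h1.2.2.1 h2.2.1 h2.2.2.1 h2.2.2.2.1 h1.2.2.2.2 h3
  funext k
  have hper : IsPer G (dirT G (sg c N (r k) (p k)) (sg c N (r k + 1) (p (k + 1)))) :=
    isPer_chain (fun k => dirT G (sg c N (r k) (p k)) (sg c N (r k + 1) (p (k + 1))))
      (fun k => dist (sg c N (r k) (p k)) (sg c N (r k + 1) (p (k + 1))))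
      (fun k => (hg k).2.1) hchain k
  obtain ⟨P', hP', s', hs'⟩ := hF _ (norm_dirv (hg k).2.1 (hg k).2.2.1) hper
  obtain ⟨s, hsl, hs2⟩ := ho k ⟨P', hP', by
    rw [hs'] at hper
    exact isPer_of_flow hper, s', hs'⟩
  have h1 : sg c N (r k) (p k) = G.ex (c.pt N (r k)).1 (s • (c.pt N (r k)).2) :=
    congrArg (fun q : TangentBundle (𝓡 n) M => q.1) hs2
  have h2 : E (c.pt N (r k)) (p k) = s • (c.pt N (r k)).2 := by
    refine G.inj (c.pt N (r k)).1 _ _ ?_ ?_ h1
    · rw [norm_E_pt]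
      exact lt_trans (hs k) (half_lt_self G.r₀_pos)
    · rw [norm_smul, c.norm_pt, mul_one]
      exact lt_trans hsl (half_lt_self G.r₀_pos)
  have h3 := inner_E (c.norm_pt N (r k)) (p k)
  rw [h2, inner_smul_right, real_inner_self_eq_norm_sq, c.norm_pt] at h3
  have h4 : s = 0 := by simpa using h3
  rw [h4, zero_smul] at h2
  have h5 := norm_E_pt c N (r k) (p k)
  rw [h2, norm_zero] at h5
  exact norm_eq_zero.1 h5.symm

end

end Crest.Agent.R231.GMIsox320
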