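import Crest.Agent.R231.Smith_566
import Crest.Agent.R231.Pair_877
import Crest.Agent.R204.EZSym_847
import Crest.Agent.R231.GSmith_651
import Crest.Agent.R231.InstB_895
import Mathlib
import Crest.Agent.R231.GeoLug_724
import Crest.Agent.R226.LoeperUnif_128

-- ▼ part R231/SmithA_609
section

/-!
# Row 231, block H, leaf H7 (helper609): algebra of the end of the Smith theorem

Everything inside one module `C` (566's language: `PP gr A` completed products, `DD d e` the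
differential `d + e`, `RA D P Q` relative acyclicity of `Q / P`).

* `up h` : the degree `+1` operator on sequences
* `ra_six` : 2-out-of-6: acyclicity of `(V, Y)` from `(X, V)`, `(X', X)`, `(Y', Y)` and an equivariant
  homotopy `V × I → X'` from the inclusion to a map `V → Y'` which fixes `Y`.
* `smith_surj`, `smith_inj` : from the `Z/2`-form `RA (d + 1 + g)` of `(X, Y)`, `g = 1` on `Y`, to the
  `T`-form (differential `d + Δ`, `Δ = (1+g)h`).
-/

set_option autoImplicit false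

noncomputable section

namespace Crest.Agent.R231.SmAx609

open Crest.Agent.R204 Crest.Agent.R231.Smx566

variable {C : Type*} [AddCommGroup C] [Module F2 C]

/-- the underlying function of `up` -/
def upF (h : C →ₗ[F2] C) (x : ℕ → C) : ℕ → C
  | 0 => 0
  | j + 1 => h (x j)

/-- degree `+1` operator on sequences -/
def up (h : C →ₗ[F2] C) : (ℕ → C) →ₗ[F2] (ℕ → C) where
  toFun x := upF h x
  map_add' x y := by
    funext j
    cases j with
    | zero => simp [upF]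
    | succ j => simp [upF]
  map_smul' r x := by
    funext j
    cases j with
    | zero => simp [upF]
    | succ j => simp [upF]

@[simp] theorem up_zero (h : C →ₗ[F2] C) (x : ℕ → C) : up h x 0 = 0 := rfl
@[simp] theorem up_succ (h : C →ₗ[F2] C) (x : ℕ → C) (j : ℕ) : up h x (j + 1) = h (x j) := rfl

/-- a degree `0` operator on sequences -/
def zr (r : C →ₗ[F2] C) : (ℕ → C) →ₗ[F2] (ℕ → C) where
  toFun x j := r (x j)
  map_add' x y := by funext j; simp
  map_smul' c x := by funext j; simp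

@[simp] theorem zr_apply (r : C →ₗ[F2] C) (x : ℕ → C) (j : ℕ) : zr r x j = r (x j) := rfl

theorem add_self {M : Type*} [AddCommGroup M] [Module F2 M] (x : M) : x + x = 0 := by
  rw [← two_smul F2 x, show (2 : F2) = 0 from rfl, zero_smul]

theorem neg_self {M : Type*} [AddCommGroup M] [Module F2 M] (x : M) : -x = x :=
  neg_eq_of_add_eq_zero_left (add_self x)

theorem sub_add {M : Type*} [AddCommGroup M] [Module F2 M] (x y : M) : x - y = x + y := by
  rw [sub_eq_add_neg, neg_self]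

theorem eq_of_add {M : Type*} [AddCommGroup M] [Module F2 M] {x y : M} (h : x + y = 0) : x = y := by
  have := eq_neg_of_add_eq_zero_left h
  rwa [neg_self] at this

theorem up_mem {h : C →ₗ[F2] C} {gr : ℕ → Submodule F2 C} {A B : Submodule F2 C}
    (hgr : ∀ j, ∀ x ∈ gr j, h x ∈ gr (j + 1)) (hA : ∀ x ∈ A, h x ∈ B) {x : ℕ → C}
    (hx : x ∈ PP gr A) : up h x ∈ PP gr B := by
  intro j
  cases j with
  | zero => exact ⟨(gr 0).zero_mem, B.zero_mem⟩
  | succ j => exact ⟨hgr j _ (hx j).1, hA _ (hx j).2⟩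

theorem zr_mem {r : C →ₗ[F2] C} {gr : ℕ → Submodule F2 C} {A B : Submodule F2 C}
    (hgr : ∀ j, ∀ x ∈ gr j, r x ∈ gr j) (hA : ∀ x ∈ A, r x ∈ B) {x : ℕ → C}
    (hx : x ∈ PP gr A) : zr r x ∈ PP gr B := fun j => ⟨hgr j _ (hx j).1, hA _ (hx j).2⟩

/-- homotopy formula on the completed product -/
theorem DD_up {d g r K : C →ₗ[F2] C} {gr : ℕ → Submodule F2 C} {V : Submodule F2 C}
    (hd0 : ∀ x ∈ gr 0, d x = 0) (hKg : ∀ x ∈ V, g (K x) = K (g x))
    (hK : ∀ x ∈ V, d (K x) + K (d x) = x + r x) {x : ℕ → C} (hx : x ∈ PP gr V) :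
    DD d (LinearMap.id + g) (up K x) + up K (DD d (LinearMap.id + g) x) = x + zr r x := by
  funext j
  cases j with
  | zero =>
    have h1 := hK _ (hx 0).2
    rw [hd0 _ (hx 0).1, map_zero, add_zero] at h1
    show d (K (x 0)) + (LinearMap.id + g : C →ₗ[F2] C) 0 + 0 = x 0 + r (x 0)
    rw [map_zero, add_zero, add_zero, h1]
  | succ j =>
    show d (K (x (j + 1))) + (K (x j) + g (K (x j))) + K (d (x (j + 1)) + (x j + g (x j))) =
      x (j + 1) + r (x (j + 1))
    rw [map_add, map_add, ← hK _ (hx (j + 1)).2, hKg _ (hx j).2]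
    have h1 : d (K (x (j + 1))) + (K (x j) + K (g (x j))) + (K (d (x (j + 1))) +
        (K (x j) + K (g (x j)))) = d (K (x (j + 1))) + K (d (x (j + 1))) +
        ((K (x j) + K (g (x j))) + (K (x j) + K (g (x j)))) := by abel
    rw [h1, add_self, add_zero]

/-- **2-out-of-6** for relative acyclicity, `Z/2`-Tate form -/
theorem ra_six {d g r K : C →ₗ[F2] C} {gr : ℕ → Submodule F2 C} {Y V X Y' X' : Submodule F2 C}
    (hdd : ∀ x, d (d x) = 0) (hgg : ∀ x, g (g x) = x) (hdg : ∀ x, d (g x) = g (d x))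
    (hd0 : ∀ x ∈ gr 0, d x = 0)
    (hYV : Y ≤ V) (hVX : V ≤ X) (hYX' : Y' ≤ X')
    (hrV : ∀ x ∈ V, r x ∈ Y') (hrgr : ∀ j, ∀ x ∈ gr j, r x ∈ gr j) (hrY : ∀ x ∈ Y, r x = x)
    (hrd : ∀ x ∈ V, d (r x) = r (d x)) (hrg : ∀ x ∈ V, g (r x) = r (g x))
    (hKX : ∀ x ∈ V, K x ∈ X') (hKgr : ∀ j, ∀ x ∈ gr j, K x ∈ gr (j + 1))
    (hKg : ∀ x ∈ V, g (K x) = K (g x)) (hK : ∀ x ∈ V, d (K x) + K (d x) = x + r x)
    (h1 : RA (DD d (LinearMap.id + g)) (PP gr V) (PP gr X))
    (h2 : RA (DD d (LinearMap.id + g)) (PP gr X) (PP gr X'))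
    (h3 : RA (DD d (LinearMap.id + g)) (PP gr Y) (PP gr Y')) :
    RA (DD d (LinearMap.id + g)) (PP gr Y) (PP gr V) := by
  have he : ∀ x, (LinearMap.id + g : C →ₗ[F2] C) ((LinearMap.id + g : C →ₗ[F2] C) x) = 0 := by
    intro x
    simp only [LinearMap.add_apply, LinearMap.id_apply, map_add, hgg]
    have : x + g x + (g x + x) = (x + g x) + (x + g x) := by abel
    rw [this, add_self]
  have hde : ∀ x, d ((LinearMap.id + g : C →ₗ[F2] C) x) = (LinearMap.id + g : C →ₗ[F2] C) (d x) := by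
    intro x
    simp only [LinearMap.add_apply, LinearMap.id_apply, map_add, hdg]
  have hDD : ∀ x : ℕ → C, DD d (LinearMap.id + g) (DD d (LinearMap.id + g) x) = 0 :=
    DD_DD hdd he hde
  intro x hx hDx
  set D := DD d (LinearMap.id + g) with hD
  -- `D (r x) = D x`
  have hrx : D (zr r x) = D x := by
    funext j
    have e1 : D x j ∈ Y := (hDx j).2
    have e2 : r (D x j) = D x j := hrY _ e1
    rw [← e2]
    show d (r (x (j + 1))) + (r (x j) + g (r (x j))) = r (d (x (j + 1)) + (x j + g (x j)))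
    rw [hrd _ (hx (j + 1)).2, hrg _ (hx j).2, map_add, map_add]
  have hrxY : zr r x ∈ PP gr Y' := zr_mem hrgr hrV hx
  obtain ⟨z, hz, hw⟩ := h3 (zr r x) hrxY (by rw [hrx]; exact hDx)
  set w := zr r x - D z with hwdef
  have hDw : D w = D x := by rw [hwdef, map_sub, hDD, sub_zero, hrx]
  set u := x - w with hudef
  have huV : u ∈ PP gr V := (PP gr V).sub_mem hx (PP_mono gr hYV hw)
  have hDu : D u = 0 := by rw [hudef, map_sub, hDw, sub_self]
  have hru : zr r u = D z := by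
    have e1 : zr r w = w := by
      funext j
      exact hrY _ (hw j).2
    rw [hudef, map_sub, e1, hwdef]
    abel
  have hq : D (up K u + z) = u := by
    have e1 := DD_up (g := g) hd0 hKg hK huV
    rw [← hD, hDu, map_zero, add_zero, hru] at e1
    rw [map_add, e1, add_assoc, add_self, add_zero]
  have hqX : up K u + z ∈ PP gr X' :=
    (PP gr X').add_mem (up_mem hKgr hKX huV) (PP_mono gr hYX' hz)
  obtain ⟨b, hb, hb'⟩ := h2 (up K u + z) hqX (by
    rw [hq]; exact PP_mono gr hVX huV)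
  have hDb : D (up K u + z - D b) = u := by rw [map_sub, hDD, sub_zero, hq]
  obtain ⟨b', hb1, hb2⟩ := h1 (up K u + z - D b) hb' (by rw [hDb]; exact huV)
  refine ⟨_, hb2, ?_⟩
  have : D (up K u + z - D b - D b') = u := by rw [map_sub, hDD, sub_zero, hDb]
  rw [this, hudef, sub_sub_cancel]
  exact hw

/-! ## from the `Z/2`-form to the `T`-form -/

section tform

variable {d g h : C →ₗ[F2] C} {gr : ℕ → Submodule F2 C}

/-- the `T`-Tate differential `d + (1+g)h` on sequences -/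
def DTs (d g h : C →ₗ[F2] C) : (ℕ → C) →ₗ[F2] (ℕ → C) :=
  DD d 0 + up ((LinearMap.id + g) ∘ₗ h)

theorem DTs_zero (d g h : C →ₗ[F2] C) (x : ℕ → C) : DTs d g h x 0 = d (x 1) := by
  show d (x 1) + 0 + 0 = d (x 1)
  rw [add_zero, add_zero]

theorem DTs_succ (d g h : C →ₗ[F2] C) (x : ℕ → C) (j : ℕ) :
    DTs d g h x (j + 1) = d (x (j + 2)) + (h (x j) + g (h (x j))) := by
  show d (x (j + 2)) + 0 + (h (x j) + g (h (x j))) = _
  rw [add_zero]

/-- conjugation by `1 + h` -/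
def cj (h : C →ₗ[F2] C) : (ℕ → C) →ₗ[F2] (ℕ → C) := LinearMap.id + up h

theorem cj_zero (h : C →ₗ[F2] C) (x : ℕ → C) : cj h x 0 = x 0 := by
  show x 0 + 0 = x 0
  rw [add_zero]

theorem cj_succ (h : C →ₗ[F2] C) (x : ℕ → C) (j : ℕ) : cj h x (j + 1) = x (j + 1) + h (x j) := rfl

theorem cj_cj (hh : ∀ x, h (h x) = 0) (x : ℕ → C) : cj h (cj h x) = x := by
  funext j
  rcases j with _ | _ | j
  · rw [cj_zero, cj_zero]
  · rw [cj_succ, cj_succ, cj_zero, add_assoc, add_self, add_zero]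
  · rw [cj_succ, cj_succ, cj_succ, map_add, hh, add_zero, add_assoc, add_self, add_zero]

theorem cj_mem {A : Submodule F2 C} (hgr : ∀ j, ∀ x ∈ gr j, h x ∈ gr (j + 1))
    (hA : ∀ x ∈ A, h x ∈ A) {x : ℕ → C} (hx : x ∈ PP gr A) : cj h x ∈ PP gr A :=
  (PP gr A).add_mem hx (up_mem hgr hA hx)

/-- `(1+h)(d+Δ) = (d+1+g)(1+h)` -/
theorem cj_DTs (hh : ∀ x, h (h x) = 0) (hg : ∀ x, h (g x) = g (h x))
    (hdh : ∀ x, d (h x) + h (d x) = x + g x) {x : ℕ → C} (hx : d (x 0) = 0) :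
    cj h (DTs d g h x) = DD d (LinearMap.id + g) (cj h x) := by
  funext j
  have key : ∀ y, d (h y) = y + g y + h (d y) := by
    intro y
    rw [← hdh y, add_assoc, add_self, add_zero]
  cases j with
  | zero =>
    rw [cj_zero, DTs_zero, DD_apply, cj_succ, cj_zero]
    show d (x 1) = d (x 1 + h (x 0)) + (x 0 + g (x 0))
    rw [map_add, key, hx, map_zero, add_zero]
    have : d (x 1) + (x 0 + g (x 0)) + (x 0 + g (x 0)) =
        d (x 1) + ((x 0 + g (x 0)) + (x 0 + g (x 0))) := by abel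
    rw [this, add_self, add_zero]
  | succ j =>
    rw [cj_succ, DTs_succ, DD_apply, cj_succ, cj_succ]
    show d (x (j + 2)) + (h (x j) + g (h (x j))) + h (DTs d g h x j) =
      d (x (j + 2) + h (x (j + 1))) + ((x (j + 1) + h (x j)) + g (x (j + 1) + h (x j)))
    have e1 : h (DTs d g h x j) = h (d (x (j + 1))) := by
      cases j with
      | zero => rw [DTs_zero]
      | succ j =>
        rw [DTs_succ, map_add, map_add, hg, hh, map_zero, add_zero, add_zero]
    rw [e1, map_add, map_add, key]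
    have : d (x (j + 2)) + (x (j + 1) + g (x (j + 1)) + h (d (x (j + 1)))) +
        (x (j + 1) + h (x j) + (g (x (j + 1)) + g (h (x j)))) =
        d (x (j + 2)) + (h (x j) + g (h (x j))) + h (d (x (j + 1))) +
        (x (j + 1) + x (j + 1)) + (g (x (j + 1)) + g (x (j + 1))) := by abel
    rw [this, add_self, add_self, add_zero, add_zero]

theorem cj_DD (hh : ∀ x, h (h x) = 0) (hg : ∀ x, h (g x) = g (h x))
    (hdh : ∀ x, d (h x) + h (d x) = x + g x) {x : ℕ → C} (hx : d (x 0) = 0) :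
    cj h (DD d (LinearMap.id + g) x) = DTs d g h (cj h x) := by
  have h0 : d (cj h x 0) = 0 := by rw [cj_zero]; exact hx
  have h1 := cj_DTs (d := d) (g := g) hh hg hdh h0
  rw [cj_cj hh] at h1
  rw [← h1, cj_cj hh]

/-- on sequences in a submodule where `g = 1`: `d(1+h) = (1+h)d`, and `DD = d` -/
theorem DD_of_fix {x : ℕ → C} (hx : ∀ j, g (x j) = x j) (j : ℕ) :
    DD d (LinearMap.id + g) x j = d (x (j + 1)) := by
  show d (x (j + 1)) + (x j + g (x j)) = d (x (j + 1))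
  rw [hx, add_self, add_zero]

variable {F0 Y X : Submodule F2 C}

/-- **surjectivity of the Smith map, `T`-form** -/
theorem smith_surj (hd0 : ∀ x ∈ gr 0, d x = 0) (hhgr : ∀ j, ∀ x ∈ gr j, h x ∈ gr (j + 1))
    (hh : ∀ x, h (h x) = 0) (hg : ∀ x, h (g x) = g (h x))
    (hdh : ∀ x, d (h x) + h (d x) = x + g x)
    (hF0Y : F0 ≤ Y) (hF0h : ∀ x ∈ F0, h x ∈ F0) (hYh : ∀ x ∈ Y, h x ∈ Y) (hXh : ∀ x ∈ X, h x ∈ X)
    (hYg : ∀ x ∈ Y, g x = x) (hgg : ∀ x, g (g x) = x) (hdg : ∀ x, d (g x) = g (d x))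
    (hdd : ∀ x, d (d x) = 0)
    (hra : RA (DD d (LinearMap.id + g)) (PP gr Y) (PP gr X)) {v : ℕ → C} (hv : v ∈ PP gr X)
    (hDv : DTs d g h v ∈ PP gr F0) :
    ∃ y ∈ PP gr Y, (∀ j, d (y (j + 1)) ∈ F0) ∧ ∃ c ∈ PP gr X, v + y + DTs d g h c = 0 := by
  have he : ∀ x, (LinearMap.id + g : C →ₗ[F2] C) ((LinearMap.id + g : C →ₗ[F2] C) x) = 0 := by
    intro x
    simp only [LinearMap.add_apply, LinearMap.id_apply, map_add, hgg]
    have : x + g x + (g x + x) = (x + g x) + (x + g x) := by abel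
    rw [this, add_self]
  have hde : ∀ x, d ((LinearMap.id + g : C →ₗ[F2] C) x) = (LinearMap.id + g : C →ₗ[F2] C) (d x) := by
    intro x
    simp only [LinearMap.add_apply, LinearMap.id_apply, map_add, hdg]
  have hDD : ∀ x : ℕ → C, DD d (LinearMap.id + g) (DD d (LinearMap.id + g) x) = 0 :=
    DD_DD hdd he hde
  have hv0 : d (v 0) = 0 := hd0 _ (hv 0).1
  have h1 : DD d (LinearMap.id + g) (cj h v) ∈ PP gr F0 := by
    rw [← cj_DTs hh hg hdh hv0]
    exact cj_mem hhgr hF0h hDv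
  have hcv : cj h v ∈ PP gr X := cj_mem hhgr hXh hv
  obtain ⟨c, hc, hy⟩ := hra (cj h v) hcv (PP_mono gr hF0Y h1)
  set y' := cj h v - DD d (LinearMap.id + g) c with hy'
  have hDy' : DD d (LinearMap.id + g) y' = DD d (LinearMap.id + g) (cj h v) := by
    rw [hy', map_sub, hDD, sub_zero]
  have hfix : ∀ j, g (y' j) = y' j := fun j => hYg _ (hy j).2
  have hdy' : ∀ j, d (y' (j + 1)) ∈ F0 := by
    intro j
    rw [← DD_of_fix (d := d) hfix j, hDy']
    exact (h1 j).2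
  have hy0 : d (y' 0) = 0 := hd0 _ (hy 0).1
  refine ⟨cj h y', cj_mem hhgr hYh hy, ?_, cj h c, cj_mem hhgr hXh hc, ?_⟩
  · intro j
    rw [cj_succ, map_add]
    refine F0.add_mem (hdy' j) ?_
    have e1 : d (h (y' j)) = h (d (y' j)) := by
      have := hdh (y' j)
      rw [hfix j, add_self] at this
      exact eq_of_add this
    rw [e1]
    cases j with
    | zero => rw [hy0, map_zero]; exact F0.zero_mem
    | succ j => exact hF0h _ (hdy' j)
  · rw [← cj_DD hh hg hdh (hd0 _ (hc 0).1), hy', map_sub, cj_cj hh]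
    have : v + (v - cj h (DD d (LinearMap.id + g) c)) + cj h (DD d (LinearMap.id + g) c) = v + v := by
      abel
    rw [this, add_self]

/-- **injectivity of the Smith map, `T`-form** -/
theorem smith_inj (hd0 : ∀ x ∈ gr 0, d x = 0) (hhgr : ∀ j, ∀ x ∈ gr j, h x ∈ gr (j + 1))
    (hh : ∀ x, h (h x) = 0) (hg : ∀ x, h (g x) = g (h x))
    (hdh : ∀ x, d (h x) + h (d x) = x + g x)
    (hF0Y : F0 ≤ Y) (hF0h : ∀ x ∈ F0, h x ∈ F0) (hYh : ∀ x ∈ Y, h x ∈ Y) (hXh : ∀ x ∈ X, h x ∈ X)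
    (hYg : ∀ x ∈ Y, g x = x) (hgg : ∀ x, g (g x) = x) (hdg : ∀ x, d (g x) = g (d x))
    (hdd : ∀ x, d (d x) = 0)
    (hra : RA (DD d (LinearMap.id + g)) (PP gr Y) (PP gr X)) {y c : ℕ → C} (hy : y ∈ PP gr Y)
    (hc : c ∈ PP gr X) (hyc : y + DTs d g h c ∈ PP gr F0) :
    ∃ e ∈ PP gr Y, ∀ j, y j + d (e (j + 1)) ∈ F0 := by
  have he : ∀ x, (LinearMap.id + g : C →ₗ[F2] C) ((LinearMap.id + g : C →ₗ[F2] C) x) = 0 := by
    intro x
    simp only [LinearMap.add_apply, LinearMap.id_apply, map_add, hgg]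
    have : x + g x + (g x + x) = (x + g x) + (x + g x) := by abel
    rw [this, add_self]
  have hde : ∀ x, d ((LinearMap.id + g : C →ₗ[F2] C) x) = (LinearMap.id + g : C →ₗ[F2] C) (d x) := by
    intro x
    simp only [LinearMap.add_apply, LinearMap.id_apply, map_add, hdg]
  have hDD : ∀ x : ℕ → C, DD d (LinearMap.id + g) (DD d (LinearMap.id + g) x) = 0 :=
    DD_DD hdd he hde
  have hcc : cj h c ∈ PP gr X := cj_mem hhgr hXh hc
  have h1 : cj h y + DD d (LinearMap.id + g) (cj h c) ∈ PP gr F0 := by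
    have := cj_mem hhgr hF0h hyc
    rwa [map_add, cj_DTs hh hg hdh (hd0 _ (hc 0).1)] at this
  have hcy : cj h y ∈ PP gr Y := cj_mem hhgr hYh hy
  have h2 : DD d (LinearMap.id + g) (cj h c) ∈ PP gr Y := by
    have e1 : DD d (LinearMap.id + g) (cj h c) =
        (cj h y + DD d (LinearMap.id + g) (cj h c)) - cj h y := by abel
    rw [e1]
    exact (PP gr Y).sub_mem (PP_mono gr hF0Y h1) hcy
  obtain ⟨b, _, hb⟩ := hra (cj h c) hcc h2
  set e' := cj h c - DD d (LinearMap.id + g) b with he'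
  have hDe' : DD d (LinearMap.id + g) e' = DD d (LinearMap.id + g) (cj h c) := by
    rw [he', map_sub, hDD, sub_zero]
  have hfix : ∀ j, g (e' j) = e' j := fun j => hYg _ (hb j).2
  refine ⟨cj h e', cj_mem hhgr hYh hb, ?_⟩
  -- the sequence `f := cj y + d e'` is in `F0`; apply `cj`
  have h3 : ∀ j, cj h y j + d (e' (j + 1)) ∈ F0 := by
    intro j
    rw [← DD_of_fix (d := d) hfix j, hDe']
    exact (h1 j).2
  have key : ∀ j, d (h (e' j)) = h (d (e' j)) := by
    intro j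
    have := hdh (e' j)
    rw [hfix j, add_self] at this
    exact eq_of_add this
  intro j
  cases j with
  | zero =>
    have e1 := h3 0
    rw [cj_zero] at e1
    rw [cj_succ, map_add, key 0, hd0 _ (hb 0).1, map_zero, add_zero]
    exact e1
  | succ j =>
    have e1 := h3 (j + 1)
    have e2 := hF0h _ (h3 j)
    have e3 := F0.add_mem e1 e2
    rw [map_add] at e3
    have e4 : h (cj h y j) = h (y j) := by
      cases j with
      | zero => rw [cj_zero]
      | succ j => rw [cj_succ, map_add, hh, add_zero]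
    rw [e4, cj_succ, ← key (j + 1)] at e3
    rw [cj_succ, map_add]
    have e5 : y (j + 1) + h (y j) + d (e' (j + 1 + 1)) + (h (y j) + d (h (e' (j + 1)))) =
        y (j + 1) + (d (e' (j + 1 + 1)) + d (h (e' (j + 1)))) + (h (y j) + h (y j)) := by abel
    rw [e5, add_self, add_zero] at e3
    exact e3

end tform

end Crest.Agent.R231.SmAx609
end
private theorem rz_e359710996 : type_of% @_root_.Crest.Agent.R231.SmAx609.upF.eq_1 := @_root_.Crest.Agent.R231.SmAx609.upF.eq_1 -- L27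
end

-- ▼ part R231/SmithB_609
section

/-!
# Row 231, block H, leaf H7 (helper609): chain operators of an equivariant homotopy

`E` a space, `V : Set E`, `H : C(V × unitInterval, E)`:
* `KV H : CE E →ₗ CE E` (prism operator, zero on the simplices which are not in `V`), `rV k` (push forward)
* degrees, supports, `d K + K d = 1 + r`, commutation with an involution `γ : C(E, E)`
* `cs_In` : 566's `cs (In X)` is 877's `CS X`
* `CS_image` : `CS (φ '' A)` for an embedding `φ`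
* `AcP X A` : degreewise relative acyclicity; `AcP.image`
-/

set_option autoImplicit false

noncomputable section

namespace Crest.Agent.R231.SmBx609

open Crest.Agent.R204 Crest.Agent.R204.Exc406 Function Topology
open Crest.Agent.R231.Pairx877 Crest.Agent.R231.Smx566 Crest.Agent.R231.SmAx609
open SingAct265

variable {E : Type} [TopologicalSpace E]

/-- 566's chains with support in `V` are 877's -/
theorem cs_In (V : Set E) : cs (In V) = CS V := by
  refine le_antisymm (cs_le fun n σ h => ?_) (CS_le fun n σ h => ?_)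
  · exact Pairx877.sx_mem_CS (fun t => h t)
  · exact sx_mem_cs (fun t => h t)

/-- degreewise relative acyclicity of a pair of subsets -/
def AcP (X A : Set E) : Prop :=
  ∀ j, ∀ x ∈ N.gr F2 (SS.Sing E) j, x ∈ CS X → bdE E x ∈ CS A →
    ∃ y ∈ N.gr F2 (SS.Sing E) (j + 1), y ∈ CS X ∧ x - bdE E y ∈ CS A

/-- the graded projections preserve supports -/
theorem prN_mem_CS {X : Set E} (j : ℕ) : ∀ c ∈ CS X, prN F2 (SS.Sing E) j c ∈ CS X := by
  refine map_mem_of_CS fun n σ h => ?_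
  by_cases hn : n = j
  · subst hn
    rw [prN_of_mem_gr n (Smx566.sx_mem_gr σ)]
    exact Pairx877.sx_mem_CS h
  · have : prN F2 (SS.Sing E) j (N.sx F2 σ) = 0 := by
      rw [N.sx, prN_mk, proj_single, if_neg hn]
      rfl
    rw [this]
    exact Submodule.zero_mem _

/-! ### restriction and push forward -/

theorem res_mem_gr {V : Set E} {j : ℕ} {x : CE E} (hx : x ∈ N.gr F2 (SS.Sing E) j) :
    Pairx877.res V x ∈ N.gr F2 (SS.Sing V) j := by
  have : N.gr F2 (SS.Sing E) j ≤ (N.gr F2 (SS.Sing V) j).comap (Pairx877.res V) := by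
    refine gr_le fun σ => ?_
    rw [Submodule.mem_comap]
    by_cases h : ∀ t, ev σ t ∈ V
    · rw [Pairx877.res_sx h]
      exact Smx566.sx_mem_gr _
    · rw [res_sx_neg h]
      exact Submodule.zero_mem _
  exact this hx

/-- push forward of chains of `V` along `k : V → E` -/
def rV {V : Set E} (k : C(V, E)) : CE E →ₗ[F2] CE E := N.map F2 (SS.SingMap k) ∘ₗ Pairx877.res V

section rv

variable {V : Set E} (k : C(V, E))

theorem rV_sx {n : ℕ} {σ : (SS.Sing E).S n} (h : ∀ t, ev σ t ∈ V) :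
    rV k (N.sx F2 σ) = N.sx F2 ((SS.SingMap k).app n (rs V σ h)) := by
  rw [rV, LinearMap.comp_apply, Pairx877.res_sx h, N.map_sx]

theorem rV_gr (j : ℕ) (x : CE E) (hx : x ∈ N.gr F2 (SS.Sing E) j) :
    rV k x ∈ N.gr F2 (SS.Sing E) j := map_mem_gr _ (res_mem_gr hx)

theorem rV_mem {Y : Set E} (h : ∀ v : V, k v ∈ Y) (x : CE E) : rV k x ∈ CS Y :=
  map_mem_CS _ (fun _ _ _ => h _) _

theorem rV_fix {A : Set E} (hA : A ⊆ V) (h : ∀ v : V, (v : E) ∈ A → k v = v) :
    ∀ x ∈ CS A, rV k x = x := by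
  refine eq_on_CS (f := rV k) (g := LinearMap.id) fun n σ hσ => ?_
  rw [rV_sx k fun t => hA (hσ t)]
  exact congrArg _ (sing_ext fun t => h _ (hσ t))

theorem rV_bd : ∀ x ∈ CS V, bdE E (rV k x) = rV k (bdE E x) := by
  intro x hx
  have h := LinearMap.congr_fun (N.map_bd (R := F2) (SS.SingMap k)) (Pairx877.res V x)
  simp only [LinearMap.comp_apply] at h
  rw [rV, LinearMap.comp_apply, LinearMap.comp_apply, ← h, bd_res x hx]

/-- the restriction of an involution -/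
def resC (γ : C(E, E)) (hγ : ∀ v ∈ V, γ v ∈ V) : C(V, V) :=
  ⟨fun v => ⟨γ v, hγ v v.2⟩, (γ.continuous.comp continuous_subtype_val).subtype_mk _⟩

theorem res_map (γ : C(E, E)) (hγ : ∀ v ∈ V, γ v ∈ V) : ∀ x ∈ CS V,
    Pairx877.res V (N.map F2 (SS.SingMap γ) x) =
      N.map F2 (SS.SingMap (resC γ hγ)) (Pairx877.res V x) := by
  refine eq_on_CS (f := Pairx877.res V ∘ₗ N.map F2 (SS.SingMap γ))
    (g := N.map F2 (SS.SingMap (resC γ hγ)) ∘ₗ Pairx877.res V) fun n σ hσ => ?_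
  rw [LinearMap.comp_apply, LinearMap.comp_apply, N.map_sx, Pairx877.res_sx hσ, N.map_sx,
    Pairx877.res_sx (σ := (SS.SingMap γ).app n σ) (fun t => hγ _ (hσ t))]
  rfl

theorem rV_map (γ : C(E, E)) (hγ : ∀ v ∈ V, γ v ∈ V)
    (hk : ∀ v : V, k ⟨γ v, hγ v v.2⟩ = γ (k v)) : ∀ x ∈ CS V,
    N.map F2 (SS.SingMap γ) (rV k x) = rV k (N.map F2 (SS.SingMap γ) x) := by
  intro x hx
  rw [rV, LinearMap.comp_apply, LinearMap.comp_apply, res_map γ hγ x hx, ← N_map_comp,
    ← N_map_comp]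
  congr 2
  refine SS.Hom.ext (funext fun n => funext fun σ => ?_)
  exact sing_ext fun t => (hk _).symm

end rv

/-! ### the prism operator -/

/-- prism operator of a homotopy `V × I → E` -/
def KV {V : Set E} (H : C(V × unitInterval, E)) : CE E →ₗ[F2] CE E :=
  HtpInv334.prism (singHtpy H) ∘ₗ Pairx877.res V

section kv

variable {V : Set E} (H : C(V × unitInterval, E))

theorem KV_apply (x : CE E) : KV H x = N.map F2 (singHtpy H)
    (EZ271.cross F2 (Pairx877.res V x) (HtpInv334.iota1 F2)) := rfl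

theorem KV_gr (j : ℕ) (x : CE E) (hx : x ∈ N.gr F2 (SS.Sing E) j) :
    KV H x ∈ N.gr F2 (SS.Sing E) (j + 1) := by
  rw [KV_apply]
  exact map_mem_gr _ (EZ847.cross_mem_gr F2 (res_mem_gr hx) (Smx566.sx_mem_gr _))

theorem KV_mem {Y : Set E} (h : ∀ p, H p ∈ Y) (x : CE E) : KV H x ∈ CS Y :=
  map_mem_CS _ (fun _ _ _ => h _) _

theorem KV_map (γ : C(E, E)) (hγ : ∀ v ∈ V, γ v ∈ V)
    (hH : ∀ (v : V) (s : unitInterval), H (⟨γ v, hγ v v.2⟩, s) = γ (H (v, s))) : ∀ x ∈ CS V,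
    N.map F2 (SS.SingMap γ) (KV H x) = KV H (N.map F2 (SS.SingMap γ) x) := by
  intro x hx
  rw [KV_apply, KV_apply, res_map γ hγ x hx]
  have h1 := EZ271.map_cross F2 (SS.SingMap (resC γ hγ)) (SS.Hom.id (SS.std 1))
    (Pairx877.res V x) (HtpInv334.iota1 F2)
  rw [EZ271.map_idHom] at h1
  rw [← h1, ← N_map_comp, ← N_map_comp]
  congr 2
  refine SS.Hom.ext (funext fun n => funext fun p => ?_)
  exact sing_ext fun t => (hH _ _).symm

theorem KV_bd (k : C(V, E)) (h0 : ∀ v, H (v, 0) = v) (h1 : ∀ v, H (v, 1) = k v) : ∀ x ∈ CS V,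
    bdE E (KV H x) + KV H (bdE E x) = x + rV k x := by
  intro x hx
  have e := HtpInv334.bd_prism (R := F2) (singHtpy H) (Pairx877.res V x)
  rw [EZ847.sg_F2, bd_res x hx] at e
  have e0 : SS.Hom.comp (singHtpy H) (SpecA.endMap (SS.Sing V) 0) = SS.SingMap (SpecA.inc V) := by
    refine SS.Hom.ext (funext fun n => funext fun σ => ?_)
    exact singHtpy_zero H (SpecA.inc V) h0 σ
  have e1 : SS.Hom.comp (singHtpy H) (SpecA.endMap (SS.Sing V) 1) = SS.SingMap k := by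
    refine SS.Hom.ext (funext fun n => funext fun σ => ?_)
    exact singHtpy_one H k h1 σ
  rw [e0, e1, map_inc_res x hx] at e
  have e2 : bdE E (KV H x) = KV H (bdE E x) + (rV k x - x) := e
  rw [e2, SmAx609.sub_add]
  have : KV H (bdE E x) + (rV k x + x) + KV H (bdE E x) =
      x + rV k x + (KV H (bdE E x) + KV H (bdE E x)) := by abel
  rw [this, SmAx609.add_self, add_zero]

end kv

/-! ### embeddings -/

section emb

variable {E' : Type} [TopologicalSpace E'] (φ : C(E', E))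

theorem map_app_inj (hφ : IsEmbedding φ) (n : ℕ) : Injective ((SS.SingMap φ).app n) := by
  intro σ τ h
  refine sing_ext fun t => hφ.injective ?_
  exact congrArg (fun ρ => ev ρ t) h

theorem N_map_inj (hφ : IsEmbedding φ) : Injective (N.map F2 (SS.SingMap φ)) :=
  map_inj _ (map_app_inj φ hφ)

theorem map_CS (A : Set E') : ∀ c ∈ CS A, N.map F2 (SS.SingMap φ) c ∈ CS (φ '' A) :=
  map_mem_of_CS fun n σ h => by
    rw [N.map_sx]
    exact Pairx877.sx_mem_CS fun t => ⟨_, h t, rfl⟩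

theorem CS_image (hφ : IsEmbedding φ) (A : Set E') :
    CS (φ '' A) = (CS A).map (N.map F2 (SS.SingMap φ)) := by
  refine le_antisymm (CS_le fun n σ h => ?_) ?_
  · choose τ hτ hτ' using h
    have hc : Continuous τ := by
      rw [hφ.continuous_iff]
      have : (φ ∘ τ) = fun t => ev σ t := funext hτ'
      rw [this]
      exact continuous_ev σ
    refine ⟨N.sx F2 (mkS τ hc : (SS.Sing E').S n), Pairx877.sx_mem_CS hτ, ?_⟩
    rw [N.map_sx]
    exact congrArg _ (sing_ext fun t => hτ' t)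
  · rintro _ ⟨c, hc, rfl⟩
    exact map_CS φ A c hc

theorem mem_of_map_CS (hφ : IsEmbedding φ) {A : Set E'} {c : CE E'}
    (h : N.map F2 (SS.SingMap φ) c ∈ CS (φ '' A)) : c ∈ CS A := by
  rw [CS_image φ hφ] at h
  obtain ⟨c', hc', e⟩ := h
  rwa [N_map_inj φ hφ e] at hc'

theorem map_bd (c : CE E') : N.map F2 (SS.SingMap φ) (bdE E' c) = bdE E (N.map F2 (SS.SingMap φ) c) :=
  LinearMap.congr_fun (N.map_bd (R := F2) (SS.SingMap φ)) c

/-- acyclicity of the image of a pair under an embedding -/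
theorem AcP.image (hφ : IsEmbedding φ) {X A : Set E'} (h : AcP X A) : AcP (φ '' X) (φ '' A) := by
  intro j x hx hxX hxA
  rw [CS_image φ hφ] at hxX
  obtain ⟨c, hc, rfl⟩ := hxX
  have hcg := mem_gr_of_map _ (N_map_inj φ hφ) hx
  rw [← map_bd] at hxA
  obtain ⟨y, hy, hyX, hyA⟩ := h j c hcg hc (mem_of_map_CS φ hφ hxA)
  refine ⟨N.map F2 (SS.SingMap φ) y, map_mem_gr _ hy, map_CS φ X y hyX, ?_⟩
  rw [← map_bd, ← map_sub]
  exact map_CS φ A _ hyA

end emb

end Crest.Agent.R231.SmBx609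
end
end

-- ▼ part R231/SmithEnd_609
section

/-!
# Row 231, block H, leaf H7 (helper609): Smith theorem for loops, `Z/2`-form

`M` compact, `D : LUG M` with `SegLip`, `YS M t` = loops of period `1/2` in `X M t`.
* `YS_eq` : `YS M t = dbl '' X M (t / 2)`; `isometry_dbl`
* `smithZ` : for `0 ≤ t < t'` with `(X t', X t)` and `(X (t'/2), X (t/2))` acyclic, the completed
  product of `C(X t) / C(YS t)` with `d + 1 + g` is acyclic.
-/

set_option autoImplicit false

noncomputable section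

namespace Crest.Agent.R231.SmEndx609

open Crest.Agent.R204 Crest.Agent.R204.Exc406 Function Topology Set
open Crest.Agent.R231.Pairx877 Crest.Agent.R231.Smx566 Crest.Agent.R231.SmAx609
open Crest.Agent.R231.SmBx609
open Crest.Agent.R231.GLugx576 Crest.Agent.R231.GSmithx651

variable {M : Type} [MetricSpace M]

/-- loops of period `1/2` in `X M t` -/
def YS (M : Type) [MetricSpace M] (t : ℝ) : Set (Lp M) := {γ | γ ∈ X M t ∧ rot hf γ = γ}

theorem YS_sub (t : ℝ) : YS M t ⊆ X M t := fun _ h => h.1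

theorem YS_mono {s t : ℝ} (h : s ≤ t) : YS M s ⊆ YS M t := fun _ hγ => ⟨X_mono h hγ.1, hγ.2⟩

theorem YS_zero : X M 0 = YS M 0 := by
  refine Subset.antisymm (fun γ hγ => ⟨hγ, ?_⟩) (YS_sub 0)
  have h := mem_X_zero.1 hγ
  ext x
  rw [rot_apply, h, h x]

theorem dbl_apply (γ : Lp M) (x : Ci) : dbl γ x = γ (x + x) := by
  rw [itr_apply, two_nsmul]

theorem exists_double (x : Ci) : ∃ y : Ci, y + y = x := by
  induction x using QuotientAddGroup.induction_on with | _ x => ?_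
  refine ⟨((x / 2 : ℝ) : Ci), ?_⟩
  rw [← AddCircle.coe_add, add_halves]

theorem isometry_dbl : Isometry (dbl : Lp M → Lp M) := by
  refine Isometry.of_dist_eq fun f g => le_antisymm ?_ ?_
  · refine (ContinuousMap.dist_le dist_nonneg).2 fun u => ?_
    rw [dbl_apply, dbl_apply]
    exact ContinuousMap.dist_apply_le_dist _
  · refine (ContinuousMap.dist_le dist_nonneg).2 fun x => ?_
    obtain ⟨y, rfl⟩ := exists_double x
    have h := ContinuousMap.dist_apply_le_dist (f := dbl f) (g := dbl g) y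
    rwa [dbl_apply, dbl_apply] at h

theorem isEmbedding_dbl : IsEmbedding (dbl : C(Lp M, Lp M)) := isometry_dbl.isEmbedding

theorem rot_dbl (γ : Lp M) : rot hf (dbl γ) = dbl γ := by
  ext x
  rw [rot_apply, dbl_apply, dbl_apply]
  congr 1
  rw [add_add_add_comm, hf_add_hf, add_zero]

theorem dbl_mem {t : ℝ} {γ : Lp M} (h : γ ∈ X M t) : dbl γ ∈ X M (2 * t) := by
  have := itr_mem h 2
  simpa using this

/-- a loop of period `1/2` is a doubled loop -/
theorem exists_half {γ : Lp M} (h : rot hf γ = γ) : ∃ η : Lp M, dbl η = γ := by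
  have hp : Function.Periodic (fun u : ℝ => γ (((u / 2 : ℝ)) : Ci)) 1 := by
    intro u
    have h1 := DFunLike.congr_fun h (((u / 2 : ℝ)) : Ci)
    rw [rot_apply] at h1
    show γ ((((u + 1) / 2 : ℝ)) : Ci) = γ (((u / 2 : ℝ)) : Ci)
    rw [← h1]
    congr 1
    rw [add_div, AddCircle.coe_add]
    rfl
  refine ⟨⟨hp.lift, ?_⟩, ?_⟩
  · have hc : Continuous (hp.lift ∘ (QuotientAddGroup.mk : ℝ → Ci)) := by
      have : (hp.lift ∘ (QuotientAddGroup.mk : ℝ → Ci)) = fun u : ℝ => γ (((u / 2 : ℝ)) : Ci) := by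
        funext u
        exact hp.lift_coe u
      rw [this]
      exact γ.continuous.comp ((AddCircle.continuous_mk' 1).comp (continuous_id.div_const 2))
    exact QuotientAddGroup.isOpenQuotientMap_mk.continuous_comp_iff.1 hc
  · ext x
    induction x using QuotientAddGroup.induction_on with | _ x => ?_
    rw [dbl_apply]
    have e1 : ((x : ℝ) : Ci) + ((x : ℝ) : Ci) = ((x + x : ℝ) : Ci) := (AddCircle.coe_add 1 x x).symm
    show hp.lift (((x : ℝ) : Ci) + ((x : ℝ) : Ci)) = γ ((x : ℝ) : Ci)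
    rw [e1]
    refine (hp.lift_coe (x + x)).trans ?_
    show γ ((((x + x) / 2 : ℝ)) : Ci) = γ ((x : ℝ) : Ci)
    congr 2
    ring

theorem YS_eq (t : ℝ) : YS M t = dbl '' X M (t / 2) := by
  ext γ
  constructor
  · rintro ⟨h1, h2⟩
    obtain ⟨η, rfl⟩ := exists_half h2
    refine ⟨η, ?_, rfl⟩
    intro x y
    have h3 := h1 (x / 2) (y / 2)
    rw [dbl_apply, dbl_apply, ← AddCircle.coe_add, ← AddCircle.coe_add, add_halves, add_halves] at h3
    refine h3.trans (le_of_eq ?_)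
    rw [← sub_div, abs_div, abs_two]
    ring
  · rintro ⟨η, hη, rfl⟩
    refine ⟨?_, rot_dbl η⟩
    have := dbl_mem hη
    rwa [mul_div_cancel₀ t two_ne_zero] at this

theorem rot_mem_YS {t : ℝ} {γ : Lp M} (h : γ ∈ YS M t) (a : Ci) : rot a γ ∈ YS M t := by
  refine ⟨rot_mem h.1 a, ?_⟩
  rw [rot_rot, add_comm, ← rot_rot, h.2]

/-- rotation by half a turn on chains -/
abbrev gE (M : Type) [MetricSpace M] : CE (Lp M) →ₗ[F2] CE (Lp M) :=
  N.map F2 (SS.SingMap (rot hf : C(Lp M, Lp M)))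

theorem gE_gE (c : CE (Lp M)) : gE M (gE M c) = c := by
  rw [← N_map_comp]
  have : SS.Hom.comp (SS.SingMap (rot hf : C(Lp M, Lp M))) (SS.SingMap (rot hf : C(Lp M, Lp M))) =
      SS.Hom.id _ := by
    refine SS.Hom.ext (funext fun n => funext fun σ => ?_)
    refine SingAct265.sing_ext fun t => ?_
    show rot hf (rot hf (SingAct265.ev σ t)) = SingAct265.ev σ t
    rw [rot_rot, hf_add_hf, GLugx576.rot_zero]
  rw [this]
  exact EZ271.map_idHom F2 c

theorem bd_gE (c : CE (Lp M)) : bdE (Lp M) (gE M c) = gE M (bdE (Lp M) c) :=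
  (LinearMap.congr_fun (N.map_bd (R := F2) (SS.SingMap (rot hf : C(Lp M, Lp M)))) c).symm

/-- `g = 1` on the chains of loops of period `1/2` -/
theorem gE_fix {t : ℝ} : ∀ c ∈ CS (YS M t), gE M c = c := by
  refine eq_on_CS (f := gE M) (g := LinearMap.id) fun n σ hσ => ?_
  rw [N.map_sx]
  exact congrArg _ (SingAct265.sing_ext fun t => (hσ t).2)

/-- degreewise acyclicity gives completed acyclicity for `d + 1 + g` -/
theorem ra_of_AcP {A B : Set (Lp M)} (hA : ∀ γ ∈ A, rot hf γ ∈ A) (hB : ∀ γ ∈ B, rot hf γ ∈ B)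
    (h : AcP B A) : RA (DD (bdE (Lp M)) (LinearMap.id + gE M))
      (PP (N.gr F2 (SS.Sing (Lp M))) (CS A)) (PP (N.gr F2 (SS.Sing (Lp M))) (CS B)) := by
  have hmem : ∀ {W : Set (Lp M)}, (∀ γ ∈ W, rot hf γ ∈ W) → ∀ c ∈ CS W, gE M c ∈ CS W := by
    intro W hW
    refine map_mem_of_CS fun n σ hσ => ?_
    rw [N.map_sx]
    exact Pairx877.sx_mem_CS fun t => hW _ (hσ t)
  refine ra_of_acyc ?_ ?_ ?_ ?_ ?_ ?_ ?_ h
  · intro x
    simp only [LinearMap.add_apply, LinearMap.id_apply, map_add, gE_gE]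
    have : x + gE M x + (gE M x + x) = (x + gE M x) + (x + gE M x) := by abel
    rw [this, SmAx609.add_self]
  · intro x
    simp only [LinearMap.add_apply, LinearMap.id_apply, map_add, bd_gE]
  · intro x hx
    exact bd_gr_zero hx
  · intro j x hx
    exact bd_mem_gr j hx
  · intro j x hx
    exact (N.gr F2 _ j).add_mem hx (map_mem_gr _ hx)
  · intro x hx
    exact (CS A).add_mem hx (hmem hA x hx)
  · intro x hx
    exact (CS B).add_mem hx (hmem hB x hx)

variable [CompactSpace M]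

/-- **Smith theorem for loops, `Z/2`-Tate form** -/
theorem smithZ (D : LUG M) (hD : D.SegLip) {t t' : ℝ} (ht : 0 ≤ t) (htt : t < t')
    (h1 : AcP (X M t') (X M t)) (h2 : AcP (X M (t' / 2)) (X M (t / 2))) :
    RA (DD (bdE (Lp M)) (LinearMap.id + gE M))
      (PP (N.gr F2 (SS.Sing (Lp M))) (CS (YS M t))) (PP (N.gr F2 (SS.Sing (Lp M))) (CS (X M t))) := by
  classical
  obtain ⟨δ, hδ, hH⟩ := exists_homotopy D hD ht htt
  obtain ⟨H, hH0, hH1, hHf, hHr, -⟩ := hH δ hδ le_rfl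
  obtain ⟨S, hS⟩ := exists_cover (M := M) (t := t) hδ
  have hVX : (V M t δ) ⊆ X M t := fun γ hγ => hγ.1
  have hYV : YS M t ⊆ (V M t δ) := by
    intro γ hγ
    refine ⟨hγ.1, fun x => ?_⟩
    have : γ (x + hf) = γ x := DFunLike.congr_fun hγ.2 x
    rw [this, dist_self]
    exact hδ
  have hinv : ∀ γ : Lp M, rot hf (rot hf γ) = γ := by
    intro γ
    rw [rot_rot, hf_add_hf, GLugx576.rot_zero]
  -- localisation
  have hra1 : RA (DD (bdE (Lp M)) (LinearMap.id + gE M))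
      (PP (N.gr F2 (SS.Sing (Lp M))) (CS (V M t δ))) (PP (N.gr F2 (SS.Sing (Lp M))) (CS (X M t))) := by
    rw [← cs_In, ← cs_In]
    refine smith_ra_sub (rot hf) (X M t) (V M t δ) (fun γ hγ => rot_mem hγ _) (fun γ _ => hinv γ) hVX
      ?_ (fun γ hγ => rot_mem_V hγ _) (S.image (fun q => U q.1 q.2 δ)) ?_ ?_ ?_
    · refine ⟨{γ : Lp M | ∀ x, dist (γ x) (γ (x + hf)) < δ}, ?_, ?_⟩
      · have e1 : {γ : Lp M | ∀ x, dist (γ x) (γ (x + hf)) < δ} =
            (Prod.fst '' {q : Lp M × Ci | δ ≤ dist (q.1 q.2) (q.1 (q.2 + hf))})ᶜ := by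
          ext γ
          constructor
          · rintro h ⟨⟨γ', x⟩, hx, rfl⟩
            exact absurd (h x) (not_lt.2 hx)
          · intro h x
            by_contra hx
            exact h ⟨(γ, x), not_lt.1 hx, rfl⟩
        rw [e1, isOpen_compl_iff]
        have hc : Continuous fun q : Lp M × Ci => dist (q.1 q.2) (q.1 (q.2 + hf)) := by fun_prop
        exact isClosedMap_fst_of_compactSpace _ (isClosed_le continuous_const hc)
      · rfl
    · intro W hW
      obtain ⟨q, _, rfl⟩ := Finset.mem_image.1 hW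
      exact isOpen_U _ _ _
    · intro W hW γ _ hγW hγ'
      obtain ⟨q, _, rfl⟩ := Finset.mem_image.1 hW
      exact Set.disjoint_left.1 (disjoint_U q.1 q.2 δ) hγW hγ'
    · intro γ hγ
      by_cases hγV : γ ∈ (V M t δ)
      · exact Or.inl hγV
      · obtain ⟨q, hq, hγq⟩ := hS γ hγ hγV
        exact Or.inr ⟨_, Finset.mem_image_of_mem _ hq, Or.inl hγq⟩
  -- levels
  have hra2 : RA (DD (bdE (Lp M)) (LinearMap.id + gE M))
      (PP (N.gr F2 (SS.Sing (Lp M))) (CS (X M t))) (PP (N.gr F2 (SS.Sing (Lp M))) (CS (X M t'))) :=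
    ra_of_AcP (fun γ hγ => rot_mem hγ _) (fun γ hγ => rot_mem hγ _) h1
  have hra3 : RA (DD (bdE (Lp M)) (LinearMap.id + gE M))
      (PP (N.gr F2 (SS.Sing (Lp M))) (CS (YS M t))) (PP (N.gr F2 (SS.Sing (Lp M))) (CS (YS M t'))) := by
    refine ra_of_AcP (fun γ hγ => rot_mem_YS hγ _) (fun γ hγ => rot_mem_YS hγ _) ?_
    rw [YS_eq, YS_eq]
    exact h2.image _ isEmbedding_dbl
  -- the homotopy
  let H' : C((V M t δ) × unitInterval, Lp M) := ⟨fun p => (H p : Lp M), continuous_subtype_val.comp H.continuous⟩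
  let k : C((V M t δ), Lp M) := ⟨fun v => H' (v, 1), H'.continuous.comp (by fun_prop)⟩
  have hγV : ∀ v ∈ (V M t δ), rot hf v ∈ (V M t δ) := fun v hv => rot_mem_V hv _
  have hHg : ∀ (v : (V M t δ)) (s : unitInterval), H' (⟨rot hf v, hγV v v.2⟩, s) = rot hf (H' (v, s)) :=
    fun v s => hHr v s hf
  have hk : ∀ v : (V M t δ), k v ∈ YS M t' := by
    intro v
    refine ⟨(H (v, 1)).2.1, ?_⟩
    exact hH1 v
  have hra4 : RA (DD (bdE (Lp M)) (LinearMap.id + gE M))
      (PP (N.gr F2 (SS.Sing (Lp M))) (CS (YS M t))) (PP (N.gr F2 (SS.Sing (Lp M))) (CS (V M t δ))) := by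
    refine ra_six (r := rV k) (K := KV H') (Y' := CS (YS M t')) (X' := CS (X M t'))
      N.bd_bd gE_gE bd_gE (fun x hx => bd_gr_zero hx) (CS_mono hYV) (CS_mono hVX)
      (CS_mono (YS_sub t')) (fun x _ => rV_mem k hk x) (rV_gr k) (rV_fix k hYV ?_) (rV_bd k)
      (rV_map k (rot hf) hγV fun v => hHg v 1) (fun x _ => KV_mem H' (fun p => (H p).2.1) x)
      (KV_gr H') (KV_map H' (rot hf) hγV hHg) (KV_bd H' k (fun v => hH0 v) fun _ => rfl)
      hra1 hra2 hra3
    intro v hv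
    exact hHf v 1 hv.2
  refine hra4.trans hra1 (PP_mono _ (CS_mono hYV)) (PP_mono _ (CS_mono hVX)) fun x _ => ?_
  have : DD (bdE (Lp M)) (LinearMap.id + gE M) (DD (bdE (Lp M)) (LinearMap.id + gE M) x) = 0 := by
    refine DD_DD N.bd_bd ?_ ?_ x
    · intro x
      simp only [LinearMap.add_apply, LinearMap.id_apply, map_add, gE_gE]
      have : x + gE M x + (gE M x + x) = (x + gE M x) + (x + gE M x) := by abel
      rw [this, SmAx609.add_self]
    · intro x
      simp only [LinearMap.add_apply, LinearMap.id_apply, map_add, bd_gE]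
  rw [this]
  exact Submodule.zero_mem _

end Crest.Agent.R231.SmEndx609
end
end

-- ▼ part R231/SmithFin_609
section

/-!
# Row 231, block H, leaf H7 (helper609): the field `smith` of `BaseHyp` (InstB_895)

`smith_of` : for a compact `M` with `D : LUG M`, `D.SegLip`, discrete critical levels and `noncrit`,
the Smith isomorphism `Smith (psiC M) (FF M 0) (FF M t) (FF M 0) (FF M (t / 2))` at all non-critical `t ≥ 0`.
-/

set_option autoImplicit false

noncomputable section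

namespace Crest.Agent.R231.SmFx609

open Crest.Agent.R204 Function Topology Set
open Crest.Agent.R231.Pairx877 Crest.Agent.R231.SmAx609 Crest.Agent.R231.SmBx609
open Crest.Agent.R231.SmEndx609
open Crest.Agent.R231.GLugx576 Crest.Agent.R231.GSmithx651
open Crest.Agent.R231.Instx895 Crest.Agent.R231.IfAx978 Crest.Agent.R231.TActx569
open Crest.Agent.R231.TCx569

variable {M : Type} [MetricSpace M]

/-- homological acyclicity gives degreewise acyclicity -/
theorem AcP_of {E : Type} [TopologicalSpace E] {X A : Set E} (h : Zp X A ≤ Bp X A) : AcP X A := by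
  intro j x hx hxX hxA
  obtain ⟨w, hw, hwA⟩ := mem_Bp.1 (h ⟨hxX, hxA⟩)
  refine ⟨Exc406.prN F2 _ (j + 1) w, Exc406.prN_mem_gr _ _, prN_mem_CS _ w hw, ?_⟩
  have h1 := prN_mem_CS j _ hwA
  rw [map_sub, Exc406.prN_of_mem_gr j hx] at h1
  rw [← Exc406.prN_bd]
  exact h1

theorem gN_eq_gE : (LA M).gN = gE M := by
  unfold TAct.gN gE
  have : (LA M).rot ((1 / 2 : ℝ) : UnitAddCircle) = SS.SingMap (GLugx576.rot hf : C(Lp M, Lp M)) := by
    refine SS.Hom.ext (funext fun n => funext fun σ => ?_)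
    exact SingAct265.sing_ext fun t => rfl
  rw [this]

theorem hN_mem {Y : Set (Lp M)} (hY : RotInv Y) : ∀ z ∈ CS Y, (LA M).hN z ∈ CS Y := hN_mem_CS hY

theorem rotInv_YS (t : ℝ) : RotInv (YS M t) := fun a _ h => rot_mem_YS h a

/-- the sequence of the underlying chains -/
def sq (v : ∀ j, (mix M).C j) : ℕ → CE (Lp M) := fun j => vl j (v j)

theorem sq_DD (v : ∀ j, (mix M).C j) (j : ℕ) :
    vl j (DD v j) = DTs (bdE (Lp M)) (gE M) (LA M).hN (sq v) j := by
  cases j with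
  | zero =>
    rw [DTs_zero]
    rfl
  | succ j =>
    rw [DTs_succ, ← gN_eq_gE]
    rfl

theorem CS_YS_eq (t : ℝ) : CS (YS M t) = (CS (X M (t / 2))).map (psiN M) := by
  rw [YS_eq, CS_image _ isEmbedding_dbl]
  rfl

theorem psiN_inj : Injective (psiN M) := N_map_inj _ isEmbedding_dbl

theorem mem_X_zero_of_psi {c : CE (Lp M)} (h : psiN M c ∈ CS (X M 0)) : c ∈ CS (X M 0) := by
  rw [YS_zero, YS_eq, zero_div] at h
  exact mem_of_map_CS _ isEmbedding_dbl h

theorem psi_mem_YS {t : ℝ} {c : CE (Lp M)} (h : c ∈ CS (X M (t / 2))) : psiN M c ∈ CS (YS M t) := by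
  rw [CS_YS_eq]
  exact ⟨c, h, rfl⟩

theorem psi_mem_gr {j : ℕ} {c : CE (Lp M)} (h : c ∈ N.gr F2 (SS.Sing (Lp M)) j) :
    psiN M c ∈ N.gr F2 (SS.Sing (Lp M)) j := Exc406.map_mem_gr _ h

/-- lifting a sequence of chains of loops of period `1/2` -/
theorem exists_lift {t : ℝ} {y : ℕ → CE (Lp M)}
    (hy : y ∈ Smx566.PP (N.gr F2 (SS.Sing (Lp M))) (CS (YS M t))) :
    ∃ z : ∀ j, (mix M).C j, (∀ j, z j ∈ FF M (t / 2) j) ∧ ∀ j, psiN M (vl j (z j)) = y j := by
  have h : ∀ j, ∃ z : (mix M).C j, z ∈ FF M (t / 2) j ∧ psiN M (vl j z) = y j := by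
    intro j
    have h1 := (hy j).2
    rw [CS_YS_eq] at h1
    obtain ⟨c, hc, hcy⟩ := h1
    have hcg : c ∈ N.gr F2 (SS.Sing (Lp M)) j := by
      refine Exc406.mem_gr_of_map _ psiN_inj ?_
      have h2 := (hy j).1
      rw [← hcy] at h2
      exact h2
    exact ⟨mk c hcg (CS_le_CL _ hc), hc, hcy⟩
  choose z hz1 hz2 using h
  exact ⟨z, hz1, hz2⟩

theorem lift_seq {t : ℝ} {y : ℕ → CE (Lp M)}
    (hy : y ∈ Smx566.PP (N.gr F2 (SS.Sing (Lp M))) (CS (X M t))) :
    ∃ z : ∀ j, (mix M).C j, (∀ j, z j ∈ FF M t j) ∧ sq z = y :=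
  ⟨fun j => mk (y j) (hy j).1 (CS_le_CL _ (hy j).2), fun j => (hy j).2, rfl⟩

theorem sq_mem {t : ℝ} {v : ∀ j, (mix M).C j} (hv : ∀ j, v j ∈ FF M t j) :
    sq v ∈ Smx566.PP (N.gr F2 (SS.Sing (Lp M))) (CS (X M t)) := fun j => ⟨vl_mem_gr _, hv j⟩

/-- the algebraic identities -/
theorem hgE (x : CE (Lp M)) : (LA M).hN (gE M x) = gE M ((LA M).hN x) := by
  rw [← gN_eq_gE]; exact (LA M).hN_gN x

theorem dhE (x : CE (Lp M)) :
    bdE (Lp M) ((LA M).hN x) + (LA M).hN (bdE (Lp M) x) = x + gE M x := by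
  rw [← gN_eq_gE]; exact (LA M).bd_hN x

/-- the Smith isomorphism from the `Z/2`-form -/
theorem smith_of_ra {t : ℝ} (ht : 0 ≤ t)
    (hra : Smx566.RA (Smx566.DD (bdE (Lp M)) (LinearMap.id + gE M))
      (Smx566.PP (N.gr F2 (SS.Sing (Lp M))) (CS (YS M t)))
      (Smx566.PP (N.gr F2 (SS.Sing (Lp M))) (CS (X M t)))) :
    Smith (psiC M) (FF M 0) (FF M t) (FF M 0) (FF M (t / 2)) := by
  have hd0 : ∀ x ∈ N.gr F2 (SS.Sing (Lp M)) 0, bdE (Lp M) x = 0 := fun x hx => Exc406.bd_gr_zero hx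
  have hhgr : ∀ j, ∀ x ∈ N.gr F2 (SS.Sing (Lp M)) j, (LA M).hN x ∈ N.gr F2 (SS.Sing (Lp M)) (j + 1) :=
    fun j x hx => (LA M).hN_mem_gr hx
  have hF0Y : CS (X M 0) ≤ CS (YS M t) := by
    rw [YS_zero]
    exact CS_mono (YS_mono ht)
  constructor
  · intro v hv hDv
    obtain ⟨y, hy, hdy, c, hc, hvc⟩ := smith_surj (F0 := CS (X M 0)) (Y := CS (YS M t))
      (X := CS (X M t)) hd0 hhgr (LA M).hN_hN hgE dhE hF0Y (hN_mem (rotInv_X 0))
      (hN_mem (rotInv_YS t)) (hN_mem (rotInv_X t)) gE_fix gE_gE bd_gE N.bd_bd hra (sq_mem hv)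
      (by
        intro j
        rw [← sq_DD]
        exact ⟨vl_mem_gr _, hDv j⟩)
    obtain ⟨z, hz, hzy⟩ := exists_lift hy
    obtain ⟨c', hc', hcc⟩ := lift_seq hc
    refine ⟨z, c', ?_, hc', ?_⟩
    · intro j
      rw [mem_Zc_FF, mem_Zp]
      refine ⟨hz j, ?_⟩
      cases j with
      | zero =>
        rw [hd0 _ (vl_mem_gr _)]
        exact Submodule.zero_mem _
      | succ j =>
        refine mem_X_zero_of_psi ?_
        rw [← bd_psiN, hzy]
        exact hdy j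
    · intro j
      rw [mem_FF, map_add, map_add, vl_psi, hzy, sq_DD, hcc]
      have := congrFun hvc j
      have h2 : vl j (v j) + y j + DTs (bdE (Lp M)) (gE M) (LA M).hN c j = 0 := this
      rw [h2]
      exact Submodule.zero_mem _
  · intro y c hy hc hyc
    have hyY : (fun j => psiN M (vl j (y j))) ∈
        Smx566.PP (N.gr F2 (SS.Sing (Lp M))) (CS (YS M t)) := by
      intro j
      refine ⟨psi_mem_gr (vl_mem_gr _), psi_mem_YS ?_⟩
      exact (mem_Zp.1 (mem_Zc_FF.1 (hy j))).1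
    obtain ⟨e, he, hey⟩ := smith_inj (F0 := CS (X M 0)) (Y := CS (YS M t))
      (X := CS (X M t)) hd0 hhgr (LA M).hN_hN hgE dhE hF0Y (hN_mem (rotInv_X 0))
      (hN_mem (rotInv_YS t)) (hN_mem (rotInv_X t)) gE_fix gE_gE bd_gE N.bd_bd hra hyY
      (sq_mem hc) (by
        intro j
        have h1 : vl j (psiC M j (y j) + DD c j) ∈ CS (X M 0) := hyc j
        have h2 : (fun j => psiN M (vl j (y j))) j + DTs (bdE (Lp M)) (gE M) (LA M).hN (sq c) j =
            vl j (psiC M j (y j) + DD c j) := by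
          rw [map_add, sq_DD]
          rfl
        show (fun j => psiN M (vl j (y j))) j + DTs (bdE (Lp M)) (gE M) (LA M).hN (sq c) j ∈ _ ∧
          (fun j => psiN M (vl j (y j))) j + DTs (bdE (Lp M)) (gE M) (LA M).hN (sq c) j ∈ _
        rw [h2]
        exact ⟨vl_mem_gr _, h1⟩)
    obtain ⟨z, hz, hze⟩ := exists_lift he
    intro j
    rw [mem_Bd_FF, mem_Bp]
    refine ⟨vl (j + 1) (z (j + 1)), hz (j + 1), ?_⟩
    rw [SmAx609.sub_add]
    refine mem_X_zero_of_psi ?_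
    rw [map_add, ← bd_psiN, hze]
    exact hey j

/-- right of a non-critical level there is a non-critical interval -/
theorem exists_right {S : Set ℝ} (hS : ∀ T : ℝ, (S ∩ Iic T).Finite) {t : ℝ} (ht : t ∉ S) :
    ∃ t' : ℝ, t < t' ∧ ∀ s ∈ S, ¬ (t ≤ s ∧ s ≤ t') := by
  have hc : IsClosed (S ∩ Iic (t + 1)) := (hS (t + 1)).isClosed
  have ho : IsOpen (S ∩ Iic (t + 1))ᶜ := hc.isOpen_compl
  obtain ⟨ε, hε, hball⟩ := Metric.isOpen_iff.1 ho t (fun h => ht h.1)
  refine ⟨t + min (ε / 2) 1, lt_add_of_pos_right _ (lt_min (half_pos hε) one_pos), fun s hs h => ?_⟩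
  have h1 : s ∈ Metric.ball t ε := by
    rw [Metric.mem_ball, Real.dist_eq, abs_of_nonneg (by linarith [h.1])]
    have := min_le_left (ε / 2) 1
    linarith [h.2]
  refine hball h1 ⟨hs, ?_⟩
  have := min_le_right (ε / 2) (1 : ℝ)
  show s ≤ t + 1
  linarith [h.2]

/-- **the field `smith` of `BaseHyp`** -/
theorem smith_of [CompactSpace M] (D : LUG M) (hD : D.SegLip)
    (hfin : ∀ T : ℝ, (CritS M ∩ Set.Iic T).Finite)
    (hnc : ∀ a b : ℝ, 0 ≤ a → a ≤ b → (∀ s ∈ CritS M, ¬ (a ≤ s ∧ s ≤ b)) →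
      Zp (X M b) (X M a) ≤ Bp (X M b) (X M a)) (t : ℝ) (ht : 0 ≤ t) (htc : t ∉ CritS M) :
    Smith (psiC M) (FF M 0) (FF M t) (FF M 0) (FF M (t / 2)) := by
  obtain ⟨t', htt, hno⟩ := exists_right hfin htc
  refine smith_of_ra ht (smithZ D hD ht htt (AcP_of (hnc t t' ht htt.le hno))
    (AcP_of (hnc (t / 2) (t' / 2) (by linarith) (by linarith) ?_)))
  intro s hs h
  exact hno _ (isCrit_two hs) ⟨by linarith [h.1], by linarith [h.2]⟩

end Crest.Agent.R231.SmFx609
end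
end

-- ▼ part R231/GSegCalc_67
section

/-!
# Row 231 (S0357), block G (helper67): calculus for the near isometry of `exp`
-/

set_option autoImplicit false

open Set Filter Topology

namespace Crest.Agent.R231.GSegCalcx67


variable {E : Type*} [NormedAddCommGroup E] [NormedSpace ℝ E]

/-- two-step mean value estimate on `[0,1]` -/
theorem abs_le_of_second {φ φ' φ'' : ℝ → ℝ} {B : ℝ}
    (h1 : ∀ s ∈ Icc (0 : ℝ) 1, HasDerivAt φ (φ' s) s)
    (h2 : ∀ s ∈ Icc (0 : ℝ) 1, HasDerivAt φ' (φ'' s) s)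
    (h3 : ∀ s ∈ Icc (0 : ℝ) 1, |φ'' s| ≤ B) (h0 : φ 0 = 0) (h0' : φ' 0 = 0) :
    |φ 1| ≤ B := by
  have hB : 0 ≤ B := (abs_nonneg _).trans (h3 0 (left_mem_Icc.2 zero_le_one))
  have hφ' : ∀ s ∈ Icc (0 : ℝ) 1, |φ' s| ≤ B := by
    intro s hs
    have h4 := (convex_Icc (0 : ℝ) 1).norm_image_sub_le_of_norm_hasDerivWithin_le
      (f := φ') (f' := φ'') (C := B) (fun x hx => (h2 x hx).hasDerivWithinAt)
      (fun x hx => by rw [Real.norm_eq_abs]; exact h3 x hx) (left_mem_Icc.2 zero_le_one) hs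
    rw [h0', sub_zero, sub_zero, Real.norm_eq_abs, Real.norm_of_nonneg hs.1] at h4
    exact h4.trans (mul_le_of_le_one_right hB hs.2)
  have h4 := (convex_Icc (0 : ℝ) 1).norm_image_sub_le_of_norm_hasDerivWithin_le
    (f := φ) (f' := φ') (C := B) (fun x hx => (h1 x hx).hasDerivWithinAt)
    (fun x hx => by rw [Real.norm_eq_abs]; exact hφ' x hx) (left_mem_Icc.2 zero_le_one)
    (right_mem_Icc.2 zero_le_one)
  rw [h0, sub_zero, sub_zero, Real.norm_eq_abs, norm_one, mul_one] at h4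
  exact h4

theorem quad2 {H : E × E × E → ℝ} {a : E} (hH : ContDiffAt ℝ 3 H (a, 0, 0))
    (h0 : ∀ x A : E, H (x, A, A) = 0) (hnn : ∀ p, 0 ≤ H p) {ε : ℝ} (hε : 0 < ε) :
    ∃ δ : ℝ, 0 < δ ∧ ∀ x A B : E, ‖x - a‖ < δ → ‖A‖ < δ → ‖B‖ < δ →
      |H (x, A, B) - H (x, 0, B - A)| ≤ ε * ‖B - A‖ ^ 2 := by
  have hD2 : ContDiffAt ℝ 1 (fderiv ℝ (fderiv ℝ H)) (a, 0, 0) :=
    (hH.fderiv_right (m := 2) (by norm_num)).fderiv_right (m := 1) (by norm_num)
  obtain ⟨K, t, ht, hK⟩ := hD2.exists_lipschitzOnWith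
  have hev : ∀ᶠ p in 𝓝 ((a, 0, 0) : E × E × E), ContDiffAt ℝ 3 H p := hH.eventually (by simp)
  obtain ⟨δ₁, hδ₁, hball₁⟩ := Metric.mem_nhds_iff.1 (inter_mem ht hev)
  obtain ⟨δ₀, hδ₀, hδ₀₁, hδ₀K⟩ : ∃ δ₀ : ℝ, 0 < δ₀ ∧ δ₀ ≤ δ₁ ∧ (K : ℝ) * δ₀ ≤ ε / 2 := by
    refine ⟨min δ₁ (ε / (2 * (K + 1))), lt_min hδ₁ (by positivity), min_le_left _ _, ?_⟩
    calc (K : ℝ) * min δ₁ (ε / (2 * (K + 1))) ≤ (K + 1) * (ε / (2 * (K + 1))) := by
          gcongr
          · linarith
          · exact min_le_right _ _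
      _ = ε / 2 := by field_simp
  have hball : Metric.ball ((a, 0, 0) : E × E × E) δ₀ ⊆ t ∩ {p | ContDiffAt ℝ 3 H p} :=
    (Metric.ball_subset_ball hδ₀₁).trans hball₁
  have hctr : ((a, 0, 0) : E × E × E) ∈ Metric.ball ((a, 0, 0) : E × E × E) δ₀ :=
    Metric.mem_ball_self hδ₀
  have hcd : ∀ p ∈ Metric.ball ((a, 0, 0) : E × E × E) δ₀, ContDiffAt ℝ 3 H p :=
    fun p hp => (hball hp).2
  refine ⟨δ₀ / 2, by positivity, ?_⟩
  intro x A B hx hA hB
  obtain ⟨η, hη⟩ : ∃ η : E, η = B - A := ⟨_, rfl⟩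
  have hηn : ‖η‖ < δ₀ := by
    rw [hη]
    have := norm_sub_le B A
    linarith
  -- both paths stay in the ball
  have hm1 : ∀ s ∈ Icc (0 : ℝ) 1, (x, A, A + s • η) ∈ Metric.ball ((a, 0, 0) : E × E × E) δ₀ := by
    intro s hs
    rw [Metric.mem_ball, dist_eq_norm]
    simp only [Prod.mk_sub_mk, Prod.norm_def, sub_zero]
    refine max_lt (by linarith) (max_lt (by linarith) ?_)
    have e : A + s • η = (1 - s) • A + s • B := by rw [hη, smul_sub, sub_smul, one_smul]; abel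
    rw [e]
    have h1 := norm_add_le ((1 - s) • A) (s • B)
    rw [norm_smul, norm_smul, Real.norm_of_nonneg (by linarith [hs.2]), Real.norm_of_nonneg hs.1] at h1
    have h2 : (1 - s) * ‖A‖ ≤ (1 - s) * (δ₀ / 2) :=
      mul_le_mul_of_nonneg_left hA.le (by linarith [hs.2])
    have h3 : s * ‖B‖ ≤ s * (δ₀ / 2) := mul_le_mul_of_nonneg_left hB.le hs.1
    linarith
  have hm2 : ∀ s ∈ Icc (0 : ℝ) 1, (x, (0 : E), s • η) ∈ Metric.ball ((a, 0, 0) : E × E × E) δ₀ := by
    intro s hs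
    rw [Metric.mem_ball, dist_eq_norm]
    simp only [Prod.mk_sub_mk, Prod.norm_def, sub_zero, norm_zero]
    refine max_lt (by linarith) (max_lt hδ₀ ?_)
    rw [norm_smul, Real.norm_of_nonneg hs.1]
    calc s * ‖η‖ ≤ 1 * ‖η‖ := by gcongr; exact hs.2
      _ < δ₀ := by rw [one_mul]; exact hηn
  have hp1 : ∀ s : ℝ, HasDerivAt (fun s : ℝ => (x, A, A + s • η)) ((0 : E), (0 : E), η) s := by
    intro s
    have h8 : HasDerivAt (fun s : ℝ => A + s • η) η s := by
      simpa using ((hasDerivAt_id s).smul_const η).const_add A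
    exact (hasDerivAt_const s _).prodMk ((hasDerivAt_const s _).prodMk h8)
  have hp2 : ∀ s : ℝ, HasDerivAt (fun s : ℝ => (x, (0 : E), s • η)) ((0 : E), (0 : E), η) s := by
    intro s
    have h8 : HasDerivAt (fun s : ℝ => s • η) η s := by
      simpa using (hasDerivAt_id s).smul_const η
    exact (hasDerivAt_const s _).prodMk ((hasDerivAt_const s _).prodMk h8)
  have hn : ‖((0 : E), (0 : E), η)‖ = ‖η‖ := by simp [Prod.norm_def]
  -- first derivatives
  have hf1 : ∀ s ∈ Icc (0 : ℝ) 1, HasDerivAt (fun s : ℝ => H (x, A, A + s • η))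
      (fderiv ℝ H (x, A, A + s • η) (0, 0, η)) s := fun s hs =>
    ((hcd _ (hm1 s hs)).differentiableAt (by norm_num)).hasFDerivAt.comp_hasDerivAt s (hp1 s)
  have hf2 : ∀ s ∈ Icc (0 : ℝ) 1, HasDerivAt (fun s : ℝ => H (x, 0, s • η))
      (fderiv ℝ H (x, 0, s • η) (0, 0, η)) s := fun s hs =>
    ((hcd _ (hm2 s hs)).differentiableAt (by norm_num)).hasFDerivAt.comp_hasDerivAt s (hp2 s)
  -- second derivatives
  have hg1 : ∀ s ∈ Icc (0 : ℝ) 1, HasDerivAt (fun s : ℝ => fderiv ℝ H (x, A, A + s • η) (0, 0, η))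
      (fderiv ℝ (fderiv ℝ H) (x, A, A + s • η) (0, 0, η) (0, 0, η)) s := by
    intro s hs
    have h5 : DifferentiableAt ℝ (fderiv ℝ H) (x, A, A + s • η) :=
      ((hcd _ (hm1 s hs)).fderiv_right (m := 2) (by norm_num)).differentiableAt (by norm_num)
    have h6 : HasDerivAt (fun s : ℝ => fderiv ℝ H (x, A, A + s • η))
        (fderiv ℝ (fderiv ℝ H) (x, A, A + s • η) (0, 0, η)) s :=
      h5.hasFDerivAt.comp_hasDerivAt s (hp1 s)
    simpa using h6.clm_apply (hasDerivAt_const s ((0 : E), (0 : E), η))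
  have hg2 : ∀ s ∈ Icc (0 : ℝ) 1, HasDerivAt (fun s : ℝ => fderiv ℝ H (x, 0, s • η) (0, 0, η))
      (fderiv ℝ (fderiv ℝ H) (x, 0, s • η) (0, 0, η) (0, 0, η)) s := by
    intro s hs
    have h5 : DifferentiableAt ℝ (fderiv ℝ H) (x, 0, s • η) :=
      ((hcd _ (hm2 s hs)).fderiv_right (m := 2) (by norm_num)).differentiableAt (by norm_num)
    have h6 : HasDerivAt (fun s : ℝ => fderiv ℝ H (x, 0, s • η))
        (fderiv ℝ (fderiv ℝ H) (x, 0, s • η) (0, 0, η)) s :=
      h5.hasFDerivAt.comp_hasDerivAt s (hp2 s)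
    simpa using h6.clm_apply (hasDerivAt_const s ((0 : E), (0 : E), η))
  have hlm0 : (0 : ℝ) ∈ Icc (0 : ℝ) 1 := left_mem_Icc.2 zero_le_one
  have hmin1 : fderiv ℝ H (x, A, A + (0 : ℝ) • η) (0, 0, η) = 0 := by
    refine IsLocalMin.hasDerivAt_eq_zero (f := fun s : ℝ => H (x, A, A + s • η)) (a := 0) ?_
      (hf1 0 hlm0)
    refine Filter.Eventually.of_forall fun s => ?_
    have e : H (x, A, A + (0 : ℝ) • η) = 0 := by rw [zero_smul, add_zero]; exact h0 x A
    change H (x, A, A + (0 : ℝ) • η) ≤ H (x, A, A + s • η)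
    rw [e]
    exact hnn _
  have hmin2 : fderiv ℝ H (x, 0, (0 : ℝ) • η) (0, 0, η) = 0 := by
    refine IsLocalMin.hasDerivAt_eq_zero (f := fun s : ℝ => H (x, 0, s • η)) (a := 0) ?_
      (hf2 0 hlm0)
    refine Filter.Eventually.of_forall fun s => ?_
    have e : H (x, 0, (0 : ℝ) • η) = 0 := by rw [zero_smul]; exact h0 x 0
    change H (x, 0, (0 : ℝ) • η) ≤ H (x, 0, s • η)
    rw [e]
    exact hnn _
  have hb : ∀ p ∈ Metric.ball ((a, 0, 0) : E × E × E) δ₀,
      |fderiv ℝ (fderiv ℝ H) p (0, 0, η) (0, 0, η) -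
        fderiv ℝ (fderiv ℝ H) (a, 0, 0) (0, 0, η) (0, 0, η)| ≤ ε / 2 * ‖η‖ ^ 2 := by
    intro p hp
    have h1 := hK.dist_le_mul _ (hball hp).1 _ (hball hctr).1
    have h1d : dist p ((a, 0, 0) : E × E × E) ≤ δ₀ := (Metric.mem_ball.1 hp).le
    rw [dist_eq_norm] at h1
    have h1e : (K : ℝ) * dist p ((a, 0, 0) : E × E × E) ≤ ε / 2 :=
      (mul_le_mul_of_nonneg_left h1d K.coe_nonneg).trans hδ₀K
    replace h1 := h1.trans h1e
    obtain ⟨D, hD⟩ : ∃ D : (E × E × E) →L[ℝ] (E × E × E) →L[ℝ] ℝ,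
      D = fderiv ℝ (fderiv ℝ H) p - fderiv ℝ (fderiv ℝ H) (a, 0, 0) := ⟨_, rfl⟩
    have h4 : fderiv ℝ (fderiv ℝ H) p (0, 0, η) (0, 0, η) -
        fderiv ℝ (fderiv ℝ H) (a, 0, 0) (0, 0, η) (0, 0, η) = D (0, 0, η) (0, 0, η) := by
      rw [hD]; rfl
    rw [← hD] at h1
    rw [h4, ← Real.norm_eq_abs]
    have h6 := ContinuousLinearMap.le_opNorm₂ D ((0 : E), (0 : E), η) ((0 : E), (0 : E), η)
    rw [hn] at h6
    calc ‖D (0, 0, η) (0, 0, η)‖ ≤ ‖D‖ * ‖η‖ * ‖η‖ := h6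
      _ ≤ (ε / 2) * ‖η‖ * ‖η‖ := by gcongr
      _ = ε / 2 * ‖η‖ ^ 2 := by ring
  have key := abs_le_of_second
    (φ := fun s : ℝ => H (x, A, A + s • η) - H (x, 0, s • η))
    (φ' := fun s : ℝ => fderiv ℝ H (x, A, A + s • η) (0, 0, η) - fderiv ℝ H (x, 0, s • η) (0, 0, η))
    (φ'' := fun s : ℝ => fderiv ℝ (fderiv ℝ H) (x, A, A + s • η) (0, 0, η) (0, 0, η) -
      fderiv ℝ (fderiv ℝ H) (x, 0, s • η) (0, 0, η) (0, 0, η)) (B := ε * ‖η‖ ^ 2)
    (fun s hs => (hf1 s hs).sub (hf2 s hs)) (fun s hs => (hg1 s hs).sub (hg2 s hs))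
    (fun s hs => by
      have h1 := hb _ (hm1 s hs)
      have h2 := hb _ (hm2 s hs)
      rw [abs_le] at h1 h2 ⊢
      constructor <;> linarith [h1.1, h1.2, h2.1, h2.2])
    (by simp [h0]) (by rw [hmin1, hmin2, sub_zero])
  simp only [one_smul] at key
  rw [show A + η = B by rw [hη]; abel] at key
  rwa [hη] at key

end Crest.Agent.R231.GSegCalcx67
end

-- ▼ part R231/GSegLip_67

/-!
# Row 231 (S0357), block G (helper67): near isometry of `exp` and `SegLip`

`M` compact Riemannian manifold, `G : GeoData n M`.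
* `near_iso` : for all `ε > 0` there is `r > 0` such that for `‖v‖, ‖v'‖ ≤ r` in `T_z M`
  `|d(exp_z v, exp_z v')² - ‖v' - v‖²| ≤ ε ‖v' - v‖²`
* `segLip : (lug G).SegLip`,  `segLipM : SegLipM (lug G)`
-/

set_option autoImplicit false
set_option linter.unusedSectionVars false

noncomputable section

open Bundle Set Filter
open scoped Manifold ContDiff Bundle ENNReal Topology
open Crest.GeometryTopology.MTW
open Crest.Agent.R226 Crest.Agent.R226.LoeperUnif128 Crest.Agent.R226.TMSmooth771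
open Crest.Agent.R231.GeoSegx724 Crest.Agent.R231.GLugx576 Crest.Agent.R231.GeoLugx724

namespace Crest.Agent.R231.GSegLipx67

variable {n : ℕ} {M : Type*} [MetricSpace M] [ChartedSpace (EuclideanSpace ℝ (Fin n)) M]
  [IsManifold (𝓡 n) ∞ M]
  [RiemannianBundle (fun p : M => TangentSpace (𝓡 n) p)]

/-- the cost in bundle coordinates -/
def HH (G : GeoData n M) (y : M) (z : EE n × EE n × EE n) : ℝ :=
  halfDistSq (exT G (tmci y (z.1, z.2.1))) (exT G (tmci y (z.1, z.2.2)))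

theorem contDiffAt_HH (G : GeoData n M) (y : M) :
    ContDiffAt ℝ 3 (HH G y) (extChartAt (𝓡 n) y y, 0, 0) := by
  have hyt : extChartAt (𝓡 n) y y ∈ (extChartAt (𝓡 n) y).target :=
    (extChartAt (𝓡 n) y).map_source (mem_extChartAt_source y)
  have e0 : tmci y (extChartAt (𝓡 n) y y, 0) = (⟨y, 0⟩ : TangentBundle (𝓡 n) M) := by
    have := tmci_tmc (x₀ := y) (p := (⟨y, 0⟩ : TangentBundle (𝓡 n) M)) (mem_chart_source _ y)
    unfold tmc at this
    simp only [map_zero] at this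
    exact this
  have h1 : ContMDiffAt 𝓘(ℝ, EE n × EE n × EE n) 𝓘(ℝ, EE n × EE n) ∞
      (fun z : EE n × EE n × EE n => (z.1, z.2.1)) (extChartAt (𝓡 n) y y, 0, 0) := by
    apply ContDiffAt.contMDiffAt
    fun_prop
  have h2 : ContMDiffAt 𝓘(ℝ, EE n × EE n × EE n) 𝓘(ℝ, EE n × EE n) ∞
      (fun z : EE n × EE n × EE n => (z.1, z.2.2)) (extChartAt (𝓡 n) y y, 0, 0) := by
    apply ContDiffAt.contMDiffAt
    fun_prop
  have h3 := ContMDiffAt.comp (extChartAt (𝓡 n) y y, (0 : EE n), (0 : EE n))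
    (contMDiffAt_tmci (x₀ := y) (q := (extChartAt (𝓡 n) y y, (0 : EE n))) hyt) h1
  have h4 := ContMDiffAt.comp (extChartAt (𝓡 n) y y, (0 : EE n), (0 : EE n))
    (contMDiffAt_tmci (x₀ := y) (q := (extChartAt (𝓡 n) y y, (0 : EE n))) hyt) h2
  have hex : ContMDiff (𝓡 n).tangent (𝓡 n) ∞ (exT G) := G.smooth
  have h5 := (hex.contMDiffAt).comp (extChartAt (𝓡 n) y y, (0 : EE n), (0 : EE n)) h3
  have h6 := (hex.contMDiffAt).comp (extChartAt (𝓡 n) y y, (0 : EE n), (0 : EE n)) h4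
  have h7 := h5.prodMk h6
  have hopen : IsOpen {q : M × M | dist q.1 q.2 < G.r₀} :=
    isOpen_lt (continuous_fst.dist continuous_snd) continuous_const
  have h8 : ContMDiffAt ((𝓡 n).prod (𝓡 n)) 𝓘(ℝ) ∞ (fun q : M × M => halfDistSq q.1 q.2) (y, y) :=
    G.smooth_cost.contMDiffAt (hopen.mem_nhds (by simp [G.r₀_pos]))
  have h9 : ContMDiffAt ((𝓡 n).prod (𝓡 n)) 𝓘(ℝ) ∞ (fun q : M × M => halfDistSq q.1 q.2)
      ((fun z : EE n × EE n × EE n =>
        (exT G (tmci y (z.1, z.2.1)), exT G (tmci y (z.1, z.2.2))))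
        (extChartAt (𝓡 n) y y, (0 : EE n), (0 : EE n))) := by
    simp only [e0]
    have e2 : exT G (⟨y, 0⟩ : TangentBundle (𝓡 n) M) = y := G.ex_zero y
    rw [e2]
    exact h8
  exact (contMDiffAt_iff_contDiffAt.1
    (ContMDiffAt.comp (extChartAt (𝓡 n) y y, (0 : EE n), (0 : EE n)) h9 h7)).of_le
    Crest.Agent.R226.LoeperPt128.three_le_infty

variable [IsContMDiffRiemannianBundle (𝓡 n) ∞ (EuclideanSpace ℝ (Fin n))
  (fun p : M => TangentSpace (𝓡 n) p)]

theorem near_iso_local (G : GeoData n M) (y : M) {ε : ℝ} (hε : 0 < ε) :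
    ∃ r : ℝ, 0 < r ∧ ∀ᶠ z in 𝓝 y, ∀ v v' : TangentSpace (𝓡 n) z, ‖v‖ ≤ r → ‖v'‖ ≤ r →
      |dist (G.ex z v) (G.ex z v') ^ 2 - ‖v' - v‖ ^ 2| ≤ ε * ‖v' - v‖ ^ 2 := by
  obtain ⟨C, hC, hb⟩ := dphi_bounds (n := n) y
  obtain ⟨δ, hδ, hq⟩ := GSegCalcx67.quad2 (contDiffAt_HH G y)
    (fun x A => by simp [HH, halfDistSq]) (fun p => by unfold HH halfDistSq; positivity)
    (show 0 < ε / (2 * C ^ 2) by positivity)
  have hcont : ∀ᶠ z in 𝓝 y, ‖extChartAt (𝓡 n) y z - extChartAt (𝓡 n) y y‖ < δ := by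
    have h1 := (continuousAt_extChartAt (I := 𝓡 n) y)
    have h2 : Tendsto (fun z => ‖extChartAt (𝓡 n) y z - extChartAt (𝓡 n) y y‖) (𝓝 y)
        (𝓝 ‖extChartAt (𝓡 n) y y - extChartAt (𝓡 n) y y‖) := (h1.sub continuousAt_const).norm
    rw [sub_self, norm_zero] at h2
    exact h2.eventually_lt_const hδ
  refine ⟨min (δ / (2 * C)) (G.r₀ / 4), lt_min (by positivity) (by linarith [G.r₀_pos]), ?_⟩
  filter_upwards [hb, hcont] with z ⟨hz, hzb⟩ hzc v v' hv hv'
  have hv1 : ‖dphi y z v‖ < δ := by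
    refine ((hzb v).1).trans_lt ?_
    calc C * ‖v‖ ≤ C * (δ / (2 * C)) := by gcongr; exact hv.trans (min_le_left _ _)
      _ = δ / 2 := by field_simp
      _ < δ := by linarith
  have hv1' : ‖dphi y z v'‖ < δ := by
    refine ((hzb v').1).trans_lt ?_
    calc C * ‖v'‖ ≤ C * (δ / (2 * C)) := by gcongr; exact hv'.trans (min_le_left _ _)
      _ = δ / 2 := by field_simp
      _ < δ := by linarith
  have h1 := hq (extChartAt (𝓡 n) y z) (dphi y z v) (dphi y z v') hzc hv1 hv1'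
  have et : ∀ w : TangentSpace (𝓡 n) z,
      tmci y (extChartAt (𝓡 n) y z, dphi y z w) = (⟨z, w⟩ : TangentBundle (𝓡 n) M) := fun w =>
    tmci_tmc (x₀ := y) (p := (⟨z, w⟩ : TangentBundle (𝓡 n) M)) hz
  have eA : HH G y (extChartAt (𝓡 n) y z, dphi y z v, dphi y z v') =
      dist (G.ex z v) (G.ex z v') ^ 2 / 2 := by
    unfold HH
    simp only [et]
    rfl
  have hn : ‖v' - v‖ < G.r₀ := by
    have h2 := norm_sub_le v' v
    have h3 := hv.trans (min_le_right _ _)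
    have h4 := hv'.trans (min_le_right _ _)
    have := G.r₀_pos
    linarith
  have eB : HH G y (extChartAt (𝓡 n) y z, 0, dphi y z v' - dphi y z v) = ‖v' - v‖ ^ 2 / 2 := by
    have e1 : dphi y z v' - dphi y z v = dphi y z (v' - v) := (map_sub _ _ _).symm
    have e2 : (0 : EE n) = dphi y z 0 := (map_zero _).symm
    unfold HH
    rw [e1, e2]
    simp only [et]
    change dist (G.ex z 0) (G.ex z (v' - v)) ^ 2 / 2 = _
    have h3 := G.dist_eq z (v' - v) 0 1 (by simpa using hn)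
    rw [zero_smul, one_smul] at h3
    rw [h3]
    simp
  rw [eA, eB] at h1
  have h5 : ‖dphi y z v' - dphi y z v‖ ≤ C * ‖v' - v‖ := by
    rw [← map_sub]
    exact (hzb _).1
  have h6 : ε / (2 * C ^ 2) * ‖dphi y z v' - dphi y z v‖ ^ 2 ≤
      ε / (2 * C ^ 2) * (C * ‖v' - v‖) ^ 2 := by gcongr
  have h7 : ε / (2 * C ^ 2) * (C * ‖v' - v‖) ^ 2 = ε / 2 * ‖v' - v‖ ^ 2 := by
    field_simp
  have h8 := (h1.trans h6).trans_eq h7
  rw [abs_le] at h8 ⊢
  constructor <;> linarith [h8.1, h8.2]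

variable [CompactSpace M]

/-- **near isometry of the exponential map at small scale** -/
theorem near_iso (G : GeoData n M) {ε : ℝ} (hε : 0 < ε) :
    ∃ r : ℝ, 0 < r ∧ ∀ (z : M) (v v' : TangentSpace (𝓡 n) z), ‖v‖ ≤ r → ‖v'‖ ≤ r →
      |dist (G.ex z v) (G.ex z v') ^ 2 - ‖v' - v‖ ^ 2| ≤ ε * ‖v' - v‖ ^ 2 := by
  have h : ∃ r : ℝ, 0 < r ∧ ∀ z ∈ (univ : Set M), ∀ v v' : TangentSpace (𝓡 n) z,
      ‖v‖ ≤ r → ‖v'‖ ≤ r →
      |dist (G.ex z v) (G.ex z v') ^ 2 - ‖v' - v‖ ^ 2| ≤ ε * ‖v' - v‖ ^ 2 := by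
    refine isCompact_univ.induction_on (p := fun S : Set M => ∃ r : ℝ, 0 < r ∧ ∀ z ∈ S,
      ∀ v v' : TangentSpace (𝓡 n) z, ‖v‖ ≤ r → ‖v'‖ ≤ r →
      |dist (G.ex z v) (G.ex z v') ^ 2 - ‖v' - v‖ ^ 2| ≤ ε * ‖v' - v‖ ^ 2) ?_ ?_ ?_ ?_
    · exact ⟨1, one_pos, fun z hz => absurd hz (Set.notMem_empty _)⟩
    · rintro s t hst ⟨r, hr, H⟩
      exact ⟨r, hr, fun z hz => H z (hst hz)⟩
    · rintro s t ⟨r, hr, H⟩ ⟨r', hr', H'⟩
      refine ⟨min r r', lt_min hr hr', ?_⟩
      rintro z (hz | hz) v v' h1 h2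
      · exact H z hz v v' (h1.trans (min_le_left _ _)) (h2.trans (min_le_left _ _))
      · exact H' z hz v v' (h1.trans (min_le_right _ _)) (h2.trans (min_le_right _ _))
    · intro y _
      obtain ⟨r, hr, H⟩ := near_iso_local G y hε
      exact ⟨_, mem_nhdsWithin_of_mem_nhds H, r, hr, fun z hz => hz⟩
  obtain ⟨r, hr, H⟩ := h
  exact ⟨r, hr, fun z => H z (mem_univ z)⟩

/-- linear form -/
theorem near_iso' (G : GeoData n M) {ε : ℝ} (hε : 0 < ε) :
    ∃ r : ℝ, 0 < r ∧ ∀ (z : M) (v v' : TangentSpace (𝓡 n) z), ‖v‖ ≤ r → ‖v'‖ ≤ r →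
      dist (G.ex z v) (G.ex z v') ≤ (1 + ε) * ‖v' - v‖ ∧
      ‖v' - v‖ ≤ (1 + ε) * dist (G.ex z v) (G.ex z v') := by
  obtain ⟨η, hη, hη1, hη2⟩ : ∃ η : ℝ, 0 < η ∧ η ≤ ε ∧ 1 ≤ (1 + ε) ^ 2 * (1 - η) := by
    refine ⟨ε / (1 + ε), by positivity, ?_, ?_⟩
    · rw [div_le_iff₀ (by linarith)]
      nlinarith
    · have e : 1 - ε / (1 + ε) = 1 / (1 + ε) := by field_simp; ring
      rw [e]
      have e2 : (1 + ε) ^ 2 * (1 / (1 + ε)) = 1 + ε := by field_simp
      rw [e2]; linarith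
  obtain ⟨r, hr, H⟩ := near_iso G hη
  refine ⟨r, hr, fun z v v' h1 h2 => ?_⟩
  have h3 := H z v v' h1 h2
  rw [abs_le] at h3
  have hN : 0 ≤ ‖v' - v‖ := norm_nonneg _
  have hd : 0 ≤ dist (G.ex z v) (G.ex z v') := dist_nonneg
  constructor
  · refine abs_le_of_sq_le_sq' ?_ (by positivity) |>.2
    rw [mul_pow]
    have h4 : (1 + η) * ‖v' - v‖ ^ 2 ≤ (1 + ε) ^ 2 * ‖v' - v‖ ^ 2 := by
      gcongr
      nlinarith
    linarith [h3.2]
  · refine abs_le_of_sq_le_sq' ?_ (by positivity) |>.2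
    rw [mul_pow]
    have h4 : (1 + ε) ^ 2 * ((1 - η) * ‖v' - v‖ ^ 2) ≤
        (1 + ε) ^ 2 * dist (G.ex z v) (G.ex z v') ^ 2 := by
      gcongr
      linarith [h3.1]
    have h5 : 1 * ‖v' - v‖ ^ 2 ≤ (1 + ε) ^ 2 * (1 - η) * ‖v' - v‖ ^ 2 := by gcongr
    linarith

/-- one variable form of `SegLip` -/
theorem seg_right (G : GeoData n M) {ε : ℝ} (hε : 0 < ε) :
    ∃ r : ℝ, 0 < r ∧ ∀ x y y' : M, dist x y ≤ r → dist x y' ≤ r → ∀ s ∈ Icc (0 : ℝ) 1,
      dist (seg G x y s) (seg G x y' s) ≤ (1 + ε) * (s * dist y y') := by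
  obtain ⟨η, hη, hη1⟩ : ∃ η : ℝ, 0 < η ∧ (1 + η) * (1 + η) ≤ 1 + ε := by
    refine ⟨min 1 (ε / 3), lt_min one_pos (by positivity), ?_⟩
    have h1 : min 1 (ε / 3) ≤ 1 := min_le_left _ _
    have h2 : min 1 (ε / 3) ≤ ε / 3 := min_le_right _ _
    have h3 : 0 < min 1 (ε / 3) := lt_min one_pos (by positivity)
    nlinarith
  obtain ⟨r, hr, H⟩ := near_iso' G hη
  refine ⟨r, hr, fun x y y' h1 h2 s hs => ?_⟩
  have hs0 := hs.1
  have hw : ‖lg G x y‖ ≤ r := by rw [norm_lg]; exact h1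
  have hw' : ‖lg G x y'‖ ≤ r := by rw [norm_lg]; exact h2
  have hsw : ∀ w : TangentSpace (𝓡 n) x, ‖w‖ ≤ r → ‖s • w‖ ≤ r := by
    intro w hwr
    rw [norm_smul, Real.norm_of_nonneg hs0]
    exact (mul_le_of_le_one_left (norm_nonneg _) hs.2).trans hwr
  have h3 := (H x (s • lg G x y) (s • lg G x y') (hsw _ hw) (hsw _ hw')).1
  have h4 := (H x (lg G x y) (lg G x y') hw hw').2
  rw [ex_lg, ex_lg] at h4
  rw [← smul_sub, norm_smul, Real.norm_of_nonneg hs0] at h3
  change dist (G.ex x (s • lg G x y)) (G.ex x (s • lg G x y')) ≤ _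
  calc _ ≤ (1 + η) * (s * ‖lg G x y' - lg G x y‖) := h3
    _ ≤ (1 + η) * (s * ((1 + η) * dist y y')) := by gcongr
    _ = ((1 + η) * (1 + η)) * (s * dist y y') := by ring
    _ ≤ (1 + ε) * (s * dist y y') := by gcongr

/-- **`SegLip` for Riemannian manifolds** -/
theorem segLip (G : GeoData n M) : (lug G).SegLip := by
  intro ε hε
  obtain ⟨r, hr, H⟩ := seg_right G hε
  have hr0 := G.r₀_pos
  refine ⟨min (r / 2) (G.r₀ / 2), lt_min (by positivity) (by positivity), ?_⟩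
  intro x y x' y' h1 h2 h3 s hs
  simp only [lug_seg]
  have a1 := h1.trans_le (min_le_left _ _)
  have a2 := h2.trans_le (min_le_left _ _)
  have a3 := h3.trans_le (min_le_left _ _)
  have b1 := h1.trans_le (min_le_right _ _)
  have b2 := h2.trans_le (min_le_right _ _)
  have b3 := h3.trans_le (min_le_right _ _)
  have h4 : dist x y' < 2 * min (r / 2) (G.r₀ / 2) := by
    have := dist_triangle x x' y'
    linarith
  have h4r : dist x y' < r := h4.trans_le (by linarith [min_le_left (r / 2) (G.r₀ / 2)])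
  have h40 : dist x y' < G.r₀ := h4.trans_le (by linarith [min_le_right (r / 2) (G.r₀ / 2)])
  have h5 := H x y y' (by linarith) h4r.le s hs
  have hs' : 1 - s ∈ Icc (0 : ℝ) 1 := ⟨by linarith [hs.2], by linarith [hs.1]⟩
  have h6 := H y' x x' (by rw [dist_comm]; exact h4r.le) (by rw [dist_comm]; linarith) (1 - s) hs'
  have e1 : seg G y' x (1 - s) = seg G x y' s := by
    rw [seg_symm G h40]; congr 1; ring
  have e2 : seg G y' x' (1 - s) = seg G x' y' s := by
    rw [seg_symm G (x := x') (y := y') (by linarith)]; congr 1; ring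
  rw [e1, e2] at h6
  have h7 := dist_triangle (seg G x y s) (seg G x y' s) (seg G x' y' s)
  have h8 : (1 + ε) * ((1 - s) * dist x x' + s * dist y y') =
      (1 + ε) * ((1 - s) * dist x x') + (1 + ε) * (s * dist y y') := by ring
  rw [h8]
  linarith


end Crest.Agent.R231.GSegLipx67
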