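import Crest.Agent.R231.PairH_877

/-!
# Row 231 (S0357): supports, small chains, excision for pairs of subsets (helper877)

* `prS X` : the projection to the simplices contained in `X`; `CS_inter : CS X ⊓ CS Y = CS (X ∩ Y)`
* `small2_top`, `small2` : small chains for two sets; `smallFam_top`, `smallFam` for families
* `exc_surj`, `exc_inj`, `HP.exc_bijective` : excision
* `exists_isCompact`, `mem_CS_of_directed`, `CS_lt`
* `CS_union_disj`, `CS_inf_disj`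
-/

set_option autoImplicit false

noncomputable section

open Function Finsupp Topology Set
open Crest.Agent.R204

namespace Crest.Agent.R231.Pairx877

open SingAct265 EZ271 HtpInv334 Gr334

variable {E E' E'' : Type} [TopologicalSpace E] [TopologicalSpace E'] [TopologicalSpace E'']
  {X A B X' A' Y : Set E}

/-! ## supports -/

/-- the projection to the simplices contained in `X` -/
def prS (X : Set E) : CE E →ₗ[F2] CE E := N.map F2 (SS.SingMap (SpecA.inc X)) ∘ₗ res X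

theorem prS_sx {n : ℕ} {σ : (SS.Sing E).S n} (h : ∀ t, ev σ t ∈ X) :
    prS X (N.sx F2 σ) = N.sx F2 σ := by
  rw [prS, LinearMap.comp_apply, res_sx h, N.map_sx, map_rs]

theorem prS_sx_neg {n : ℕ} {σ : (SS.Sing E).S n} (h : ¬ ∀ t, ev σ t ∈ X) :
    prS X (N.sx F2 σ) = 0 := by
  rw [prS, LinearMap.comp_apply, res_sx_neg h, map_zero]

theorem prS_of_mem : ∀ c ∈ CS X, prS X c = c := map_inc_res

theorem prS_mem : ∀ c ∈ CS Y, prS X c ∈ CS (X ∩ Y) := by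
  refine map_mem_of_CS fun n σ h => ?_
  by_cases hx : ∀ t, ev σ t ∈ X
  · rw [prS_sx hx]; exact sx_mem_CS fun t => ⟨hx t, h t⟩
  · rw [prS_sx_neg hx]; exact Submodule.zero_mem _


theorem CS_inter : CS (X ∩ Y) = CS X ⊓ CS Y := by
  refine le_antisymm (le_inf (CS_mono inter_subset_left) (CS_mono inter_subset_right)) ?_
  rintro c ⟨h1, h2⟩
  rw [← prS_of_mem c h1]
  exact prS_mem c h2

theorem mem_CS_inter {c : CE E} (h1 : c ∈ CS X) (h2 : c ∈ CS Y) : c ∈ CS (X ∩ Y) := by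
  rw [CS_inter]; exact ⟨h1, h2⟩


/-! ## compact supports -/

theorem isCompact_range_ev {n : ℕ} (σ : (SS.Sing E).S n) : IsCompact (range (ev σ)) :=
  isCompact_range (continuous_ev σ)

theorem exists_isCompact {c : CE E} (hc : c ∈ CS X) : ∃ K ⊆ X, IsCompact K ∧ c ∈ CS K := by
  refine Submodule.span_induction (p := fun c _ => ∃ K ⊆ X, IsCompact K ∧ c ∈ CS K) ?_ ?_ ?_ ?_ hc
  · rintro _ ⟨n, σ, hσ, rfl⟩
    exact ⟨range (ev σ), range_subset_iff.2 hσ, isCompact_range_ev σ,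
      sx_mem_CS fun t => mem_range_self t⟩
  · exact ⟨∅, empty_subset _, isCompact_empty, Submodule.zero_mem _⟩
  · rintro a b _ _ ⟨K, hK, hKc, ha⟩ ⟨L, hL, hLc, hb⟩
    exact ⟨K ∪ L, union_subset hK hL, hKc.union hLc,
      Submodule.add_mem _ (CS_mono subset_union_left ha) (CS_mono subset_union_right hb)⟩
  · rintro r a _ ⟨K, hK, hKc, ha⟩
    exact ⟨K, hK, hKc, Submodule.smul_mem _ _ ha⟩


/-- chains in an open sublevel set lie in a smaller closed sublevel set -/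
theorem mem_CS_lt {f : E → ℝ} (hf : ContinuousOn f X) {s : ℝ} {c : CE E}
    (hc : c ∈ CS {y | y ∈ X ∧ f y < s}) : ∃ s' < s, c ∈ CS {y | y ∈ X ∧ f y ≤ s'} := by
  obtain ⟨K, hK, hKc, hcK⟩ := exists_isCompact hc
  rcases K.eq_empty_or_nonempty with rfl | hne
  · exact ⟨s - 1, by linarith, CS_mono (empty_subset _) hcK⟩
  · obtain ⟨y, hy, hmax⟩ := hKc.exists_isMaxOn hne (hf.mono fun y hy => (hK hy).1)
    have hs : K ⊆ {z | z ∈ X ∧ f z ≤ f y} := fun z hz => ⟨(hK hz).1, hmax hz⟩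
    exact ⟨f y, (hK hy).2, CS_mono hs hcK⟩

/-! ## small chains -/

/-- simplices contained in a member of the family -/
theorem map_incl_cov_mem {Y : Type} [TopologicalSpace Y] (𝒰 : Set (Set Y))
    (c : N F2 (Exc406.cov 𝒰).tk.K) :
    N.map F2 (Exc406.cov 𝒰).incl.hom c ∈ ⨆ U ∈ 𝒰, CS U := by
  refine N_induction (p := fun c => N.map F2 (Exc406.cov 𝒰).incl.hom c ∈ ⨆ U ∈ 𝒰, CS U) c ?_ ?_ ?_ ?_
  · rw [map_zero]; exact Submodule.zero_mem _
  · intro a b ha hb; rw [map_add]; exact Submodule.add_mem _ ha hb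
  · intro r a ha; rw [map_smul]; exact Submodule.smul_mem _ _ ha
  · intro n x
    rw [N.map_sx]
    obtain ⟨σ, U, hU, h⟩ := x
    have h' : ∀ t, ev (Y := Y) σ t ∈ U := h
    exact (le_iSup₂ (f := fun U (_ : U ∈ 𝒰) => CS U) U hU) (sx_mem_CS h')

theorem mem_range_incl_cov {Y : Type} [TopologicalSpace Y] {𝒰 : Set (Set Y)} {c : CE Y}
    (hc : c ∈ ⨆ U ∈ 𝒰, CS U) : ∃ b, N.map F2 (Exc406.cov 𝒰).incl.hom b = c := by
  have h : (⨆ U ∈ 𝒰, CS U) ≤ LinearMap.range (N.map F2 (Exc406.cov 𝒰).incl.hom) := by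
    refine iSup₂_le fun U hU => CS_le fun n σ hσ => ?_
    let x : (Exc406.cov 𝒰).tk.K.S n := ⟨σ, U, hU, hσ⟩
    exact ⟨N.sx F2 x, N.map_sx _ _⟩
  exact h hc

theorem rel_zero {K L : SS} (i : SS.Hom K L) (hinj : Injective (N.map F2 i))
    (hI : Injective (H.map F2 i)) (hS : Surjective (H.map F2 i)) {z : N F2 L} {b : N F2 K}
    (hb : N.map F2 i b = N.bd F2 L z) : ∃ m w, z = N.map F2 i m + N.bd F2 L w := by
  have hbd : ∀ c, N.bd F2 L (N.map F2 i c) = N.map F2 i (N.bd F2 _ c) := fun c => (map_bd' F2 i c).symm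
  have hb0 : N.bd F2 _ b = 0 := by
    apply hinj
    rw [map_zero, ← hbd, hb, N.bd_bd]
  have hbz : H.map F2 i (Hd.mk _ b hb0) = 0 := by
    have : Hd.mk (N.bd F2 _) (N.map F2 i b) (by rw [hbd, hb0, map_zero]) = 0 := by
      rw [Hd.mk_eq_zero]
      exact ⟨z, hb.symm⟩
    exact this
  have hb1 : Hd.mk (N.bd F2 _) b hb0 = 0 := hI (by rw [hbz, map_zero])
  rw [Hd.mk_eq_zero] at hb1
  obtain ⟨m, hm⟩ := hb1
  have hcyc : N.bd F2 L (z - N.map F2 i m) = 0 := by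
    rw [map_sub, hbd, hm, hb, sub_self]
  obtain ⟨x, hx⟩ := hS (Hd.mk _ (z - N.map F2 i m) hcyc)
  obtain ⟨m', hm', rfl⟩ := Hd.mk_surj _ x
  have hx' : Hd.mk (N.bd F2 _) (N.map F2 i m') (by rw [hbd, hm', map_zero]) =
    Hd.mk (N.bd F2 L) (z - N.map F2 i m) hcyc := hx
  rw [Hd.mk_eq_mk] at hx'
  obtain ⟨w, hw⟩ := hx'
  refine ⟨m' + m, -w, ?_⟩
  rw [map_neg, hw, map_add]; abel

theorem smallFam_top {Y : Type} [TopologicalSpace Y] (𝒰 : Set (Set Y))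
    (h : ∀ y, ∃ U ∈ 𝒰, U ∈ 𝓝 y) {z : CE Y} (hz : bdE Y z ∈ ⨆ U ∈ 𝒰, CS U) :
    ∃ w : CE Y, z - bdE Y w ∈ ⨆ U ∈ 𝒰, CS U := by
  obtain ⟨b, hb⟩ := mem_range_incl_cov hz
  obtain ⟨m, w, h1⟩ := rel_zero (L := SS.Sing Y) (Exc406.cov 𝒰).incl.hom
    ((Exc406.cov 𝒰).N_incl_inj F2) (Exc406.small_cover 𝒰 F2 h).1 (Exc406.small_cover 𝒰 F2 h).2 hb
  refine ⟨w, ?_⟩
  have h2 : z - bdE Y w = N.map F2 (Exc406.cov 𝒰).incl.hom m := by
    rw [h1]; exact add_sub_cancel_right _ _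
  rw [h2]
  exact map_incl_cov_mem 𝒰 m

/-- **small chains** for a family of subsets of `X` whose relative interiors cover `X` -/
theorem smallFam (X : Set E) {ι : Type*} (U : ι → Set E) (hU : ∀ i, U i ⊆ X)
    (h : ∀ y ∈ X, ∃ i, U i ∈ 𝓝[X] y) {z : CE E} (hz : z ∈ CS X) (hd : bdE E z ∈ ⨆ i, CS (U i)) :
    ∃ w ∈ CS X, z - bdE E w ∈ ⨆ i, CS (U i) := by
  have e1 : ∀ c ∈ (⨆ i, CS (U i)), res X c ∈ ⨆ V ∈ range (fun i => (Subtype.val ⁻¹' U i : Set X)),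
      CS V := by
    have : (⨆ i, CS (U i)) ≤ (⨆ V ∈ range (fun i => (Subtype.val ⁻¹' U i : Set X)),
        CS V).comap (res X) := by
      refine iSup_le fun i => CS_le fun n σ hσ => ?_
      have hx : ∀ t, ev σ t ∈ X := fun t => hU i (hσ t)
      rw [Submodule.mem_comap, res_sx hx]
      exact (le_iSup₂ (f := fun V (_ : V ∈ range (fun i => (Subtype.val ⁻¹' U i : Set X))) => CS V)
        _ ⟨i, rfl⟩) (sx_mem_CS hσ)
    exact this
  have e2 : ∀ c ∈ (⨆ V ∈ range (fun i => (Subtype.val ⁻¹' U i : Set X)), CS V),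
      N.map F2 (SS.SingMap (SpecA.inc X)) c ∈ ⨆ i, CS (U i) := by
    have : (⨆ V ∈ range (fun i => (Subtype.val ⁻¹' U i : Set X)), CS V) ≤
        (⨆ i, CS (U i)).comap (N.map F2 (SS.SingMap (SpecA.inc X))) := by
      refine iSup₂_le ?_
      rintro _ ⟨i, rfl⟩
      refine CS_le fun n σ hσ => ?_
      rw [Submodule.mem_comap, N.map_sx]
      exact (le_iSup (fun i => CS (U i)) i) (sx_mem_CS hσ)
    exact this
  obtain ⟨w, hw⟩ := smallFam_top (range (fun i => (Subtype.val ⁻¹' U i : Set X))) (fun y => by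
    obtain ⟨i, hi⟩ := h y y.2
    exact ⟨_, ⟨i, rfl⟩, preimage_coe_mem_nhds_subtype.2 hi⟩) (z := res X z)
    (by rw [bd_res z hz]; exact e1 _ hd)
  refine ⟨N.map F2 (SS.SingMap (SpecA.inc X)) w, ?_, ?_⟩
  · rw [CS_eq_range]; exact ⟨w, rfl⟩
  · have := e2 _ hw
    rwa [map_sub, map_inc_res z hz, map_bd'] at this

/-- **small chains** for two sets -/
theorem small2 {U V : Set E} (h : ∀ y ∈ U ∪ V, U ∈ 𝓝[U ∪ V] y ∨ V ∈ 𝓝[U ∪ V] y) {z : CE E}
    (hz : z ∈ CS (U ∪ V)) (hd : bdE E z ∈ CS U ⊔ CS V) :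
    ∃ a ∈ CS U, ∃ b ∈ CS V, ∃ w ∈ CS (U ∪ V), z = a + b + bdE E w := by
  have e : CS U ⊔ CS V = ⨆ b : Bool, CS (cond b U V) := by
    rw [iSup_bool_eq]; rfl
  rw [e] at hd
  obtain ⟨w, hw, h1⟩ := smallFam (U ∪ V) (fun b : Bool => cond b U V) (by
    rintro (_ | _)
    · exact subset_union_right
    · exact subset_union_left) (fun y hy => by
    rcases h y hy with h | h
    · exact ⟨true, h⟩
    · exact ⟨false, h⟩) hz hd
  rw [← e, Submodule.mem_sup] at h1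
  obtain ⟨a, ha, b, hb, h2⟩ := h1
  exact ⟨a, ha, b, hb, w, hw, by rw [h2, sub_add_cancel]⟩

/-! ## excision -/

theorem exc_surj {U V : Set E} (h : ∀ y ∈ U ∪ V, U ∈ 𝓝[U ∪ V] y ∨ V ∈ 𝓝[U ∪ V] y) {z : CE E}
    (hz : z ∈ Zp (U ∪ V) V) : ∃ c ∈ Zp U (U ∩ V), ∃ b ∈ CS V, ∃ w ∈ CS (U ∪ V),
      z = c + b + bdE E w := by
  obtain ⟨a, ha, b, hb, w, hw, rfl⟩ := small2 h hz.1 (Submodule.mem_sup_right hz.2)
  refine ⟨a, ⟨ha, ?_⟩, b, hb, w, hw, rfl⟩
  have h1 : bdE E (a + b + bdE E w) ∈ CS V := hz.2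
  rw [map_add, map_add, bd_bdE, add_zero] at h1
  have h2 := Submodule.sub_mem _ h1 (bd_mem_CS b hb)
  rw [add_sub_cancel_right] at h2
  exact mem_CS_inter (bd_mem_CS a ha) h2

theorem exc_inj {U V : Set E} (h : ∀ y ∈ U ∪ V, U ∈ 𝓝[U ∪ V] y ∨ V ∈ 𝓝[U ∪ V] y) {c : CE E}
    (hc : c ∈ CS U) (hb : c ∈ Bp (U ∪ V) V) : c ∈ Bp U (U ∩ V) := by
  rw [mem_Bp] at hb ⊢
  obtain ⟨w, hw, h1⟩ := hb
  have h2 : bdE E w ∈ CS U ⊔ CS V := by
    have : bdE E w = c + -(c - bdE E w) := by abel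
    rw [this]
    exact Submodule.add_mem_sup hc (Submodule.neg_mem _ h1)
  obtain ⟨a, ha, b, hb, w', hw', rfl⟩ := small2 h hw h2
  refine ⟨a, ha, mem_CS_inter (Submodule.sub_mem _ hc (bd_mem_CS a ha)) ?_⟩
  have e : c - bdE E a = (c - bdE E (a + b + bdE E w')) + bdE E b := by
    rw [map_add, map_add, bd_bdE]; abel
  rw [e]
  exact Submodule.add_mem _ h1 (bd_mem_CS b hb)


/-- the condition of `small2` for open sets -/
theorem cov_of_open {U V : Set E} (hU : IsOpen U) (hV : IsOpen V) :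
    ∀ y ∈ U ∪ V, U ∈ 𝓝[U ∪ V] y ∨ V ∈ 𝓝[U ∪ V] y := by
  rintro y (hy | hy)
  · exact Or.inl (mem_nhdsWithin_of_mem_nhds (hU.mem_nhds hy))
  · exact Or.inr (mem_nhdsWithin_of_mem_nhds (hV.mem_nhds hy))


/-! ## disjoint unions -/





end Crest.Agent.R231.Pairx877
end
namespace Crest.Agent.R231.Pairx877.HP
end Crest.Agent.R231.Pairx877.HP
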