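import Crest.Agent.R231.TDegC_961
import Crest.Agent.R231.InstA_895
import Crest.Agent.R231.TFill_150
import Crest.Agent.R231.OmPow_871
import Crest.Agent.R231.WgK_667
import Crest.Agent.R231.PairExc_877
import Crest.Agent.R231.OmHom_871
import Crest.Agent.R231.FinDim_315
import Crest.Agent.R231.WgS_667
import Crest.Agent.R204.OmS_94

-- ▼ part R231/TDegD_961
section

/-!
# Row 231, leaf T-DEG (helper961), part D: concrete T-DEG in the continuous model

* `mkL` : a loop from a function on `[0,1]`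
* `joined_const` : based loops of a sphere are path connected
-/

set_option autoImplicit false

noncomputable section

namespace Crest.Agent.R231.TDegx961

open Crest.Agent.R204 Crest.Agent.R204.EZ271 Crest.Agent.R231.Capx226
open Crest.Agent.R204.Sigma88 (io sgN)
open Crest.Agent.R204.Gr334 (prN)
open Crest.Agent.R204.Freu297 (Sph pt)
open GLugx576 (Lp)
open OmHomx871 (L0 omHomeo mapHomeo)
open unitInterval Set

variable {M : Type} [MetricSpace M]

/-- a loop from a function -/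
def mkL (f : ℝ → M) (h : Continuous f) (h0 : f 0 = f 1) : Lp M :=
  ⟨AddCircle.liftIco 1 0 f, by
    refine AddCircle.liftIco_continuous ?_ h.continuousOn
    rw [zero_add, h0]⟩

theorem mkL_coe {f : ℝ → M} {h : Continuous f} {h0 : f 0 = f 1} {s : ℝ} (hs : s ∈ Icc (0 : ℝ) 1) :
    mkL f h h0 (s : UnitAddCircle) = f s := by
  have key : ∀ r : ℝ, 0 ≤ r → r < 1 → mkL f h h0 (r : UnitAddCircle) = f r := fun r h h' =>
    AddCircle.liftIco_coe_apply (p := (1 : ℝ)) (a := (0 : ℝ)) (f := f) ⟨h, by simpa using h'⟩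
  rcases hs.2.eq_or_lt with rfl | h1
  · have h2 := key 0 le_rfl zero_lt_one
    rw [GLugx576.coe_one_circle, ← h0]
    exact h2
  · exact key s hs.1 h1

/-- the constant based loop -/
def c0 (p : M) : L0 p := ⟨ContinuousMap.const _ p, rfl⟩

theorem joined_const {k : ℕ} (hk : 1 ≤ k) (φ : M ≃ₜ Sph (k + 1)) (p : M) (ω : L0 p) :
    Joined ω (c0 p) := by
  obtain ⟨ψ, hψ⟩ := OmHomx871.exists_sphere_homeo (n := k + 1) (φ p) (pt (k + 1))
  have h : (φ.trans ψ) p = pt (k + 1) := hψ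
  set E := toOS (φ.trans ψ) p h with hE
  have h1 := OmS94.joined1 hk (E ω)
  have h2 := h1.map E.symm.continuous
  rw [E.symm_apply_apply] at h2
  have h3 : E.symm GenLoop.const = c0 p := by
    rw [Homeomorph.symm_apply_eq]
    refine GenLoop.ext _ _ fun t => ?_
    exact h.symm
  rwa [h3] at h2

/-- concatenation data: `C' (ω, w)` is `ω` on `[0,a]` and `C w` on `[a,1]` -/
structure ConsFam {p : M} {W : Type} [TopologicalSpace W] (a : ℝ) (C' : C(L0 p × W, Lp M))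
    (C : C(W, Lp M)) : Prop where
  pos : 0 < a
  le : a ≤ 1
  left : ∀ ω w (t : ℝ), t ∈ Icc (0 : ℝ) 1 →
    C' (ω, w) ((a * t : ℝ) : UnitAddCircle) = ω.1 (t : UnitAddCircle)
  right : ∀ ω w (t : ℝ), t ∈ Icc (0 : ℝ) 1 →
    C' (ω, w) ((a + (1 - a) * t : ℝ) : UnitAddCircle) = C w (t : UnitAddCircle)

namespace ConsFam

variable {p : M} {W : Type} [TopologicalSpace W] {a : ℝ} {C' : C(L0 p × W, Lp M)}
  {C : C(W, Lp M)} (hc : ConsFam a C' C)

include hc

/-- the family of reparametrised loops -/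
def rep (r : I) (w : W) : Lp M :=
  mkL (fun t : ℝ => C' (c0 p, w) (((1 - r) * t + r * (a + (1 - a) * t) : ℝ) : UnitAddCircle)) (by
    refine (C' (c0 p, w)).continuous.comp ((AddCircle.continuous_mk' 1).comp ?_)
    fun_prop) (by
    have h1 : ((1 - (r : ℝ)) * 0 + r * (a + (1 - a) * 0) : ℝ) = a * r := by ring
    have h2 : ((1 - (r : ℝ)) * 1 + r * (a + (1 - a) * 1) : ℝ) = 1 := by ring
    rw [h1, h2, hc.left _ _ _ r.2, GLugx576.coe_one_circle]
    have h3 := hc.left (c0 p) w 0 ⟨le_rfl, zero_le_one⟩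
    rw [mul_zero] at h3
    exact h3.symm)

theorem rep_coe (r : I) (w : W) {t : ℝ} (ht : t ∈ Icc (0 : ℝ) 1) :
    hc.rep r w (t : UnitAddCircle) =
      C' (c0 p, w) (((1 - r) * t + r * (a + (1 - a) * t) : ℝ) : UnitAddCircle) :=
  mkL_coe ht

theorem continuous_rep : Continuous fun x : I × W => hc.rep x.1 x.2 := by
  refine GLugx576.cont_to_loop ?_
  have h : (fun q : (I × W) × Icc (0 : ℝ) 1 => hc.rep q.1.1 q.1.2 ((q.2 : ℝ) : UnitAddCircle)) =
      fun q => C' (c0 p, q.1.2) (((1 - (q.1.1 : ℝ)) * q.2 + q.1.1 * (a + (1 - a) * q.2) : ℝ) :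
        UnitAddCircle) := funext fun q => hc.rep_coe _ _ q.2.2
  rw [h]
  have h2 : Continuous fun q : (I × W) × Icc (0 : ℝ) 1 =>
      (C' (c0 p, q.1.2), ((1 - (q.1.1 : ℝ)) * q.2 + q.1.1 * (a + (1 - a) * q.2) : ℝ)) := by
    fun_prop
  exact GLugx576.continuous_evalR.comp h2

theorem homotopic : (C'.comp ((ContinuousMap.const W (c0 p)).prodMk (ContinuousMap.id W))).Homotopic
    C := by
  refine ⟨⟨⟨fun x => hc.rep x.1 x.2, hc.continuous_rep⟩, fun w => ?_, fun w => ?_⟩⟩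
  · show hc.rep 0 w = C' (c0 p, w)
    refine ContinuousMap.ext fun x => ?_
    obtain ⟨t, ht, rfl⟩ := GLugx576.exists_Icc x
    rw [hc.rep_coe _ _ ht]
    have : (1 - ((0 : I) : ℝ)) * t + ((0 : I) : ℝ) * (a + (1 - a) * t) = t := by
      rw [show ((0 : I) : ℝ) = 0 from rfl]; ring
    rw [this]
  · show hc.rep 1 w = C w
    refine ContinuousMap.ext fun x => ?_
    obtain ⟨t, ht, rfl⟩ := GLugx576.exists_Icc x
    rw [hc.rep_coe _ _ ht, ← hc.right (c0 p) w t ht]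
    have : (1 - ((1 : I) : ℝ)) * t + ((1 : I) : ℝ) * (a + (1 - a) * t) = a + (1 - a) * t := by
      rw [show ((1 : I) : ℝ) = 1 from rfl]; ring
    rw [this]

end ConsFam

/-! ### families over `Δ¹ × Q × W` -/

section fam

variable {Q W L : Type} [TopologicalSpace Q] [TopologicalSpace W] [TopologicalSpace L]

/-- the coordinate of a simplex of `std 1` -/
def crd {n : ℕ} (θ : Op n 1) : C(Sus330.Dl n, I) :=
  Sus330.lam1.comp ⟨stdSimplex.map θ, stdSimplex.continuous_map θ⟩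

theorem crd_apply {n : ℕ} (θ : Op n 1) (u : Sus330.Dl n) :
    crd θ u = Sus330.lam1 (stdSimplex.map θ u) := rfl

/-- `(Δ¹ × Sing Q) × Sing W → Sing L` -/
def famW (Φ : C((I × Q) × W, L)) :
    SS.Hom (((SS.std 1).prod (SS.Sing Q)).prod (SS.Sing W)) (SS.Sing L) where
  app n x := Φ.comp (((crd (Sus330.so x.1.1)).prodMk (Sus330.sg x.1.2)).prodMk (Sus330.sg x.2))
  nat f x := by
    refine ContinuousMap.ext fun u => ?_
    show Φ ((Sus330.lam1 (stdSimplex.map ((Sus330.so x.1.1).comp f) u), _), _) =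
      Φ ((Sus330.lam1 (stdSimplex.map (Sus330.so x.1.1) (stdSimplex.map f u)), _), _)
    rw [stdSimplex.map_comp_apply]
    rfl


/-- the point of `Δ⁰` -/
def d0 : Sus330.Dl 0 := ⟨fun _ => 1, fun _ => zero_le_one, by simp⟩

theorem eq_d0 (u : Sus330.Dl 0) : u = d0 := Subsingleton.elim _ _

/-- the vertices of `Δ¹ × Sing Q` as points -/
def vpt (v : ((SS.std 1).prod (SS.Sing Q)).S 0) : I × Q :=
  (crd (Sus330.so v.1) d0, Sus330.sg v.2 d0)

theorem crd_comp {m n : ℕ} (θ : Op n 1) (f : Op m n) (u : Sus330.Dl m) :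
    crd (θ.comp f) u = crd θ (stdSimplex.map f u) := by
  rw [crd_apply, crd_apply]
  exact congrArg Sus330.lam1 (stdSimplex.map_comp_apply f θ u).symm

theorem famW_vertex_hom (Φ : C((I × Q) × W, L)) (v : ((SS.std 1).prod (SS.Sing Q)).S 0) :
    (famW Φ).comp (SS.pair (SS.constHom (SS.Sing W) ((SS.std 1).prod (SS.Sing Q)) v)
      (SS.Hom.id (SS.Sing W))) = SS.SingMap (slice Φ (vpt v)) := by
  refine SS.Hom.ext (funext fun n => funext fun x => ContinuousMap.ext fun u => ?_)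
  have h1 : crd ((Sus330.so v.1).comp (Sigma88.c0 n)) u = crd (Sus330.so v.1) d0 := by
    rw [crd_comp, eq_d0 (stdSimplex.map (Sigma88.c0 n) u)]
  have h2 : Sus330.sg v.2 (stdSimplex.map (Sigma88.c0 n) u) = Sus330.sg v.2 d0 := by
    rw [eq_d0 (stdSimplex.map (Sigma88.c0 n) u)]
  exact congrArg₂ (fun s y => Φ ((s, y), Sus330.sg x u)) h1 h2

theorem famW_vertex (Φ : C((I × Q) × W, L)) (v : ((SS.std 1).prod (SS.Sing Q)).S 0)
    (ζ : N F2 (SS.Sing W)) : N.map F2 (famW Φ) (cross F2 (N.sx F2 v) ζ) =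
      N.map F2 (SS.SingMap (slice Φ (vpt v))) ζ := by
  rw [Sigma88.cross_vertex, map_map, famW_vertex_hom]

end fam

/-! ### T-DEG -/

/-- evaluation at `0` -/
def ev0 (M : Type) [MetricSpace M] : C(Lp M, M) :=
  ⟨fun γ => γ 0, continuous_eval_const _⟩

/-- loops with `γ 0 ≠ q` -/
def Uq (q : M) : Set (Lp M) := {γ | γ 0 ≠ q}

variable {p : M} {W : Type} [TopologicalSpace W]

/-- `((s, ω), w) ↦ rot (a s) (C' (ω, w))` -/
def rotFam (a : ℝ) (C' : C(L0 p × W, Lp M)) : C((I × L0 p) × W, Lp M) :=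
  ⟨fun x => GLugx576.rot (((a * x.1.1 : ℝ)) : UnitAddCircle) (C' (x.1.2, x.2)), by
    have h : Continuous fun x : (I × L0 p) × W =>
        ((((a * x.1.1 : ℝ)) : UnitAddCircle), C' (x.1.2, x.2)) := by
      refine Continuous.prodMk ?_ ?_
      · exact (AddCircle.continuous_mk' 1).comp (by fun_prop)
      · fun_prop
    exact GLugx576.continuous_rot.comp h⟩


theorem ev0_rotFam {a : ℝ} {C' : C(L0 p × W, Lp M)} {C : C(W, Lp M)} (hc : ConsFam a C' C) :
    (SS.SingMap (ev0 M)).comp (famW (rotFam a C')) = (evS p).comp (SS.fst _ (SS.Sing W)) := by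
  refine SS.Hom.ext (funext fun n => funext fun x => ContinuousMap.ext fun u => ?_)
  obtain ⟨⟨θ, ω⟩, w⟩ := x
  show (GLugx576.rot (((a * (crd θ u : I) : ℝ)) : UnitAddCircle)
    (C' (Sus330.sg ω u, Sus330.sg w u))) 0 = (Sus330.sg ω u).1 (((crd θ u : I) : ℝ) : UnitAddCircle)
  rw [GLugx576.rot_apply, zero_add]
  exact hc.left _ _ _ (crd θ u).2

/-- **T-DEG, family form** -/
theorem tdegW {k : ℕ} (hk : 1 ≤ k) (φ : M ≃ₜ Sph (k + 1)) (q : M) {a : ℝ}
    {C' : C(L0 p × W, Lp M)} {C : C(W, Lp M)} (hc : ConsFam a C' C)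
    {z : N F2 (SS.Sing (L0 p))} (hz : z ∈ N.gr F2 (SS.Sing (L0 p)) k) (hb : N.bd F2 _ z = 0)
    (hne : z ∉ LinearMap.range (N.bd F2 (SS.Sing (L0 p))))
    {ζ : N F2 (SS.Sing W)} (hζ : N.bd F2 _ ζ = 0)
    (h0 : N.map F2 (SS.SingMap C) ζ ∉ LinearMap.range (N.bd F2 (SS.Sing (Lp M)))) :
    N.map F2 (famW (rotFam a C')) (cross F2 (cross F2 (io F2 1) z) ζ) ∉
      RelBd (SS.SingMap (inc (Uq q))) := by
  refine tdeg (famW (rotFam a C')) (SS.SingMap (ev0 M)) (evS p) (ev0_rotFam hc)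
    (SS.SingMap (inc (Uq q))) (SS.SingMap (inc {x : M | x ≠ q}))
    (SS.SingMap ⟨fun γ : Uq q => (⟨γ.1 0, γ.2⟩ : {x : M | x ≠ q}), by
      refine Continuous.subtype_mk ?_ _
      exact (continuous_eval_const _).comp continuous_subtype_val⟩) rfl hz
    (sus_rel_ne hk φ p q hz hb hne) ζ (N.map F2 (SS.SingMap C) ζ) h0 fun v => ?_
  rw [famW_vertex]
  refine map_htpy ?_ hζ
  refine (slice_homotopic (rotFam a C') (b := ((0 : I), c0 p)) ?_).trans ?_
  · exact (PathConnectedSpace.joined _ _).prod (joined_const hk φ p _)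
  · have h1 : slice (rotFam a C') ((0 : I), c0 p) =
        C'.comp ((ContinuousMap.const W (c0 p)).prodMk (ContinuousMap.id W)) := by
      refine ContinuousMap.ext fun w => ?_
      show GLugx576.rot (((a * ((0 : I) : ℝ) : ℝ)) : UnitAddCircle) (C' (c0 p, w)) = C' (c0 p, w)
      rw [show ((0 : I) : ℝ) = 0 from rfl, mul_zero]
      exact GLugx576.rot_zero _
    rw [h1]
    exact hc.homotopic

/-! ### the operator form -/

/-- the path `t ↦ a t` of the circle -/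
def pth (a : ℝ) : TActx569.ST.S 1 :=
  (⟨fun x => (((a * (x : Fin 2 → ℝ) 1 : ℝ)) : UnitAddCircle), by
    refine (AddCircle.continuous_mk' (1 : ℝ)).comp ?_
    exact continuous_const.mul ((continuous_apply (1 : Fin 2)).comp continuous_subtype_val)⟩ :
    TActx569.CT 1)

theorem op_pth_hom (a : ℝ) (C' : C(L0 p × W, Lp M)) :
    ((TActx569.LA M).a.comp (SS.prodMap (TActx569.ST.yo (pth a))
      ((SS.SingMap C').comp (SingAct265.singPair (L0 p) W)))).comp (Coalg847.asc _ _ _) =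
      famW (rotFam a C') := by
  refine SS.Hom.ext (funext fun n => funext fun x => ContinuousMap.ext fun u => ?_)
  rfl

theorem op_pth (a : ℝ) (C' : C(L0 p × W, Lp M)) (z : N F2 (SS.Sing (L0 p)))
    (ζ : N F2 (SS.Sing W)) :
    (TActx569.LA M).op (N.sx F2 (pth a))
      (N.map F2 ((SS.SingMap C').comp (SingAct265.singPair (L0 p) W)) (cross F2 z ζ)) =
      N.map F2 (famW (rotFam a C')) (cross F2 (cross F2 (io F2 1) z) ζ) := by
  rw [TActx569.TAct.op_apply, sx_eq_map_iota F2 (pth a), ← map_cross, map_map, ← op_pth_hom,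
    ← EZ847.cross_assoc, map_map]
  rfl

/-- **T-DEG**: `ι_a · (C'_# (z × ζ))` is not a boundary modulo the loops with `γ 0 ≠ q` -/
theorem tdegOp {k : ℕ} (hk : 1 ≤ k) (φ : M ≃ₜ Sph (k + 1)) (q : M) {a : ℝ}
    {C' : C(L0 p × W, Lp M)} {C : C(W, Lp M)} (hc : ConsFam a C' C)
    {z : N F2 (SS.Sing (L0 p))} (hz : z ∈ N.gr F2 (SS.Sing (L0 p)) k) (hb : N.bd F2 _ z = 0)
    (hne : z ∉ LinearMap.range (N.bd F2 (SS.Sing (L0 p))))
    {ζ : N F2 (SS.Sing W)} (hζ : N.bd F2 _ ζ = 0)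
    (h0 : N.map F2 (SS.SingMap C) ζ ∉ LinearMap.range (N.bd F2 (SS.Sing (Lp M)))) :
    (TActx569.LA M).op (N.sx F2 (pth a))
      (N.map F2 ((SS.SingMap C').comp (SingAct265.singPair (L0 p) W)) (cross F2 z ζ)) ∉
      RelBd (SS.SingMap (inc (Uq q))) := by
  rw [op_pth]
  exact tdegW hk φ q hc hz hb hne hζ h0

end Crest.Agent.R231.TDegx961
end
end

-- ▼ part R231/TBasA_961
section

/-!
# Row 231, block T (helper961): T-DEG for the chains `A_m(x)`, `v_m(x)` of helper150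

* `vm_one_ne`  : `v_1(x)` is not a boundary modulo the loops with `γ 0 ≠ q`
* `vm_succ_ne` : if `A_m(x)` is not a boundary then `v_(m+1)(x)` is not a boundary modulo these loops
-/

set_option autoImplicit false

noncomputable section

namespace Crest.Agent.R231.TBasx961

open Crest.Agent.R204 Crest.Agent.R204.EZ271 Crest.Agent.R204.SingAct265
open Crest.Agent.R204.Freu297 (Sph pt)
open GLugx576 (Lp)
open Concx150 CPowx150 AmChx150 TFillx150 TDegx961 Pairx877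
open OmHomx871 (L0)
open unitInterval Set

section

variable {M : Type} [MetricSpace M] {p : M}

/-- add a loop at the beginning -/
def consC (p : M) (m : ℕ) : C(Om p × (Fin m → Om p), Fin (m + 1) → Om p) :=
  ⟨fun x => Fin.cons x.1 x.2, continuous_pi fun i => by
    refine Fin.cases ?_ (fun j => ?_) i
    · exact continuous_fst
    · exact (continuous_apply j).comp continuous_snd⟩

/-- the concatenation with the first loop separated -/
def cons' (p : M) (m : ℕ) : C(Om p × (Fin m → Om p), Lp M) := (conc (m + 1)).comp (consC p m)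

theorem exists_slot {m : ℕ} (hm : 0 < m) {t : ℝ} (ht : t ∈ Icc (0 : ℝ) 1) :
    ∃ i : Fin m, ∃ s : ℝ, 0 ≤ s ∧ s ≤ 1 ∧ t = (i + s) / m := by
  have hm0 : (0 : ℝ) < m := by exact_mod_cast hm
  rcases ht.2.eq_or_lt with h1 | h1
  · refine ⟨⟨m - 1, by omega⟩, 1, zero_le_one, le_rfl, ?_⟩
    rw [h1]
    show (1 : ℝ) = (((m - 1 : ℕ) : ℝ) + 1) / m
    have : ((m - 1 : ℕ) : ℝ) + 1 = m := by
      have h2 : (m - 1) + 1 = m := by omega
      exact_mod_cast h2
    rw [this, div_self hm0.ne']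
  · have h0 : 0 ≤ m * t := mul_nonneg hm0.le ht.1
    refine ⟨⟨⌊m * t⌋₊, ?_⟩, m * t - ⌊m * t⌋₊, ?_, ?_, ?_⟩
    · rw [Nat.floor_lt h0]
      nlinarith
    · linarith [Nat.floor_le h0]
    · linarith [Nat.lt_floor_add_one (m * t)]
    · show t = (((⌊m * t⌋₊ : ℕ) : ℝ) + (m * t - (⌊m * t⌋₊ : ℕ))) / m
      rw [add_sub_cancel, mul_div_cancel_left₀ _ hm0.ne']

theorem consFam_succ (p : M) (m : ℕ) [NeZero m] :
    ConsFam (p := p) (1 / ((m + 1 : ℕ) : ℝ)) (cons' p m) (conc m) where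
  pos := by positivity
  le := by
    rw [div_le_one (by positivity)]
    push_cast
    linarith [Nat.cast_nonneg (α := ℝ) m]
  left ω w t ht := by
    have h := conc_first (m + 1) (Fin.cons ω w : Fin (m + 1) → Om p) ht.1 ht.2
    have e : (1 / ((m + 1 : ℕ) : ℝ)) * t = t / ((m + 1 : ℕ) : ℝ) := by ring
    rw [e]
    exact h
  right ω w t ht := by
    obtain ⟨i, s, h0, h1, rfl⟩ := exists_slot (NeZero.pos m) ht
    have h2 := conc_slot m w i h0 h1
    have h3 := conc_slot (m + 1) (Fin.cons ω w : Fin (m + 1) → Om p) i.succ h0 h1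
    have hm : (m : ℝ) ≠ 0 := by exact_mod_cast NeZero.ne m
    have e : 1 / ((m + 1 : ℕ) : ℝ) + (1 - 1 / ((m + 1 : ℕ) : ℝ)) * ((i + s) / m) =
        (((i.succ : Fin (m + 1)) : ℕ) + s) / ((m + 1 : ℕ) : ℝ) := by
      rw [Fin.val_succ]
      push_cast
      field_simp
      ring
    rw [e]
    exact h3.trans h2.symm

theorem consFam_zero (p : M) :
    ConsFam (p := p) 1 (cons' p 0) (ContinuousMap.const (Fin 0 → Om p) (ContinuousMap.const _ p)) where
  pos := one_pos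
  le := le_rfl
  left ω w t ht := by
    have h := conc_first (0 + 1) (Fin.cons ω w : Fin (0 + 1) → Om p) ht.1 ht.2
    have e : (1 : ℝ) * t = t / ((0 + 1 : ℕ) : ℝ) := by push_cast; ring
    rw [e]
    exact h
  right ω w t ht := by
    have e : (1 : ℝ) + (1 - 1) * t = 1 := by ring
    rw [e, GLugx576.coe_one_circle]
    exact conc_zero (0 + 1) _

/-- the chain `x^m` on the space `(Fin m → Om p)` -/
def zet (x : CO p) (m : ℕ) : N F2 (SS.Sing (Fin m → Om p)) :=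
  N.map F2 (piH (Om p) m) (cpow x m)

theorem bd_zet {x : CO p} (hx : N.bd F2 _ x = 0) (m : ℕ) : N.bd F2 _ (zet x m) = 0 := by
  unfold zet
  rw [← map_bd', bd_cpow hx, map_zero]

theorem Am_eq_zet (x : CO p) (m : ℕ) [NeZero m] : N.map F2 (SS.SingMap (conc m)) (zet x m) = Am m x := by
  unfold zet Am
  rw [map_map]
  rfl

theorem Am_succ_eq (x : CO p) (m : ℕ) :
    N.map F2 ((SS.SingMap (cons' p m)).comp (singPair (Om p) (Fin m → Om p)))
      (cross F2 x (zet x m)) = Am (m + 1) x := by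
  unfold zet Am
  rw [cpow_cons, cross_map_right, map_map, map_map]
  congr 2
  refine SS.Hom.ext (funext fun n => funext fun y => sing_ext fun t => ?_)
  show conc (m + 1) (Fin.cons (ev y.1 t) (fun i => ev (y.2 i) t)) =
    conc (m + 1) (fun i => ev ((Fin.cons y.1 y.2 : Fin (m + 1) → (SS.Sing (Om p)).S n) i) t)
  congr 1
  funext i
  refine Fin.cases rfl (fun j => rfl) i

theorem seg_eq_pth (a : ℝ) : seg 0 a = pth a := by
  refine sing_ext fun u => ?_
  show (((0 * (u : Fin 2 → ℝ) 0 + a * (u : Fin 2 → ℝ) 1 : ℝ)) : UnitAddCircle) =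
    ((a * (u : Fin 2 → ℝ) 1 : ℝ) : UnitAddCircle)
  rw [zero_mul, zero_add]

theorem vm_eq (x : CO p) (m : ℕ) :
    vm (m + 1) x = (TActx569.LA M).op (N.sx F2 (pth (1 / ((m + 1 : ℕ) : ℝ))))
      (N.map F2 ((SS.SingMap (cons' p m)).comp (singPair (Om p) (Fin m → Om p)))
      (cross F2 x (zet x m))) := by
  rw [Am_succ_eq]
  unfold vm vv Sg
  rw [seg_eq_pth]

variable {k : ℕ} (hk : 1 ≤ k) (φ : M ≃ₜ Sph (k + 1)) (q : M) {x : CO p}
  (hx : x ∈ N.gr F2 (SS.Sing (Om p)) k) (hb : N.bd F2 _ x = 0)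
  (hne : x ∉ LinearMap.range (N.bd F2 (SS.Sing (Om p))))

include hk φ hx hb hne

/-- **T-DEG for `v_(m+1)`** -/
theorem vm_succ_ne (m : ℕ) [NeZero m]
    (hA : Am m x ∉ LinearMap.range (N.bd F2 (SS.Sing (Lp M)))) :
    vm (m + 1) x ∉ RelBd (SS.SingMap (inc (Uq q))) := by
  rw [vm_eq]
  refine tdegOp hk φ q (consFam_succ p m) hx hb hne (bd_zet hb m) ?_
  rw [Am_eq_zet]
  exact hA

theorem vm_one_ne : vm 1 x ∉ RelBd (SS.SingMap (inc (Uq q))) := by
  have h := tdegOp (W := Fin 0 → Om p) hk φ q (consFam_zero p) hx hb hne (bd_zet hb 0) (by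
    unfold zet
    rw [cpow_zero, N.map_sx, N.map_sx]
    exact OmPowx871.vertex_not_bd _)
  have e := vm_eq x 0
  have e2 : (1 / ((0 + 1 : ℕ) : ℝ)) = 1 := by norm_num
  rw [e2] at e
  have e3 : vm 1 x = (TActx569.LA M).op (N.sx F2 (pth 1))
      (N.map F2 ((SS.SingMap (cons' p 0)).comp (singPair (Om p) (Fin 0 → Om p)))
        (cross F2 x (zet x 0))) := e
  rw [e3]
  exact h

end

end Crest.Agent.R231.TBasx961
end
end

-- ▼ part R231/TBasB_961
section

/-!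
# Row 231, block T (helper961): the basis theorem, abstract form

`A → U → L` simplicial sets (based loops, loops with `γ 0 ≠ q`, all loops).
-/

set_option autoImplicit false

noncomputable section

namespace Crest.Agent.R231.TBasx961

open Crest.Agent.R204 Crest.Agent.R204.EZ271
open Crest.Agent.R204.Gr334 (prN)
open TDegx961

/-- relative boundaries in one degree -/
theorem bd_prN_eq {K : SS} {n : ℕ} {b : N F2 K} (h : N.bd F2 K b ∈ N.gr F2 K n) :
    N.bd F2 K (prN F2 K (n + 1) b) = N.bd F2 K b := by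
  rw [← Gr334.prN_bd, Gr334.prN_of_mem h]

theorem range_le_relBd {A K : SS} (i : SS.Hom A K) : LinearMap.range (N.bd F2 K) ≤ RelBd i :=
  le_sup_left

theorem add_self2 {K : SS} (x : N F2 K) : x + x = 0 := TCx569.TC.add_self x

theorem inj_of_H {K L : SS} {f : SS.Hom K L} (h : Function.Injective (H.map F2 f)) {y : N F2 K}
    (hy : N.bd F2 K y = 0) (h1 : N.map F2 f y ∈ LinearMap.range (N.bd F2 L)) :
    y ∈ LinearMap.range (N.bd F2 K) := by
  have h2 : Hd.mk _ y hy = 0 := by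
    refine h ?_
    rw [map_zero]
    unfold H.map
    rw [Hd.map_mk, Hd.mk_eq_zero]
    exact h1
  rwa [Hd.mk_eq_zero] at h2

theorem surj_of_H {K L : SS} {f : SS.Hom K L} (h : Function.Surjective (H.map F2 f)) {j : ℕ}
    {u : N F2 L} (hu : u ∈ N.gr F2 L j) (hb : N.bd F2 L u = 0) :
    ∃ y ∈ N.gr F2 K j, N.bd F2 K y = 0 ∧ u + N.map F2 f y ∈ LinearMap.range (N.bd F2 L) := by
  obtain ⟨Y, hY⟩ := h (Hd.mk _ u hb)
  obtain ⟨y, hy, rfl⟩ := Hd.mk_surj _ Y
  unfold H.map at hY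
  rw [Hd.map_mk, OmPowx871.mk_eq_iff] at hY
  have hy' : N.bd F2 _ (prN F2 K j y) = 0 := by
    rcases j with _ | j
    · exact Gr334.bd_gr_zero (Gr334.prN_mem _ _)
    · rw [← Gr334.prN_bd, hy, map_zero]
  refine ⟨prN F2 _ j y, Gr334.prN_mem _ _, hy', ?_⟩
  obtain ⟨w, hw⟩ := hY
  refine ⟨prN F2 _ (j + 1) w, ?_⟩
  rw [← Gr334.prN_bd, hw, map_add, Gr334.prN_of_mem hu, Gr334.prN_map, add_comm]

/-- the data of the basis theorem -/
structure BTd (k : ℕ) (A U L : SS) where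
  jA : SS.Hom A U
  i : SS.Hom U L
  hi : HA683.SInj i
  W1 : Function.Bijective (H.map F2 jA)
  a : ℕ → N F2 A
  a_gr : ∀ m, a m ∈ N.gr F2 A (m * k)
  a_cyc : ∀ m, N.bd F2 A (a m) = 0
  a_ne : ∀ m, a m ∉ LinearMap.range (N.bd F2 A)
  a_span : ∀ j, ∀ y ∈ N.gr F2 A j, N.bd F2 A y = 0 → y ∈ LinearMap.range (N.bd F2 A) ∨
    ∃ m, m * k = j ∧ y + a m ∈ LinearMap.range (N.bd F2 A)
  v : ℕ → N F2 L
  v_gr : ∀ m, 1 ≤ m → v m ∈ N.gr F2 L (m * k + 1)
  v_cyc : ∀ m, 1 ≤ m → N.bd F2 L (v m) = 0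
  v_one : v 1 ∉ RelBd i
  v_succ : ∀ m, 1 ≤ m → N.map F2 i (N.map F2 jA (a m)) ∉ LinearMap.range (N.bd F2 L) →
    v (m + 1) ∉ RelBd i
  HZ : ∀ (j : ℕ), ∀ c ∈ N.gr F2 L j, N.bd F2 L c ∈ LinearMap.range (N.map F2 i) → c ∉ RelBd i →
    ∃ m : ℕ, 1 ≤ m ∧ j = m * k + 1
  HU : ∀ (j : ℕ), ∀ c ∈ N.gr F2 L j, N.bd F2 L c ∈ LinearMap.range (N.map F2 i) → c ∉ RelBd i →
    ∀ c' ∈ N.gr F2 L j, N.bd F2 L c' ∈ LinearMap.range (N.map F2 i) → c' ∉ RelBd i →
      c + c' ∈ RelBd i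

namespace BTd

variable {k : ℕ} {A U L : SS} (D : BTd k A U L)

/-- the classes in `L` -/
def b (m : ℕ) : N F2 L := N.map F2 D.i (N.map F2 D.jA (D.a m))

/-- a non-trivial based cycle does not bound in `U` -/
theorem ne_map {y : N F2 A} (hy : N.bd F2 _ y = 0) (hy0 : y ∉ LinearMap.range (N.bd F2 _))
    (u : N F2 U) : N.map F2 D.i (N.map F2 D.jA y) ≠ N.map F2 D.i (N.bd F2 _ u) := by
  intro h
  have h1 := HA683.N_map_injective F2 D.hi h
  exact hy0 (inj_of_H D.W1.1 hy ⟨u, h1.symm⟩)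

/-- the induction step, first half -/
theorem b_ne_of {m : ℕ} (hm : 1 ≤ m) (hv : D.v m ∉ RelBd D.i) :
    D.b m ∉ LinearMap.range (N.bd F2 L) := by
  rintro ⟨c, hc1⟩
  have h2 : N.bd F2 _ (prN F2 _ (m * k + 1) c) = D.b m := by
    rw [bd_prN_eq (n := m * k) (by rw [hc1]; exact Exc406.map_mem_gr _ (Exc406.map_mem_gr _ (D.a_gr m))),
      hc1]
  have key : ∀ c ∈ RelBd D.i, N.bd F2 _ c ≠ D.b m := by
    intro c hc h
    obtain ⟨w, u, rfl⟩ := mem_RelBd.1 hc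
    rw [map_add, N.bd_bd, zero_add, ← map_bd'] at h
    exact D.ne_map (D.a_cyc m) (D.a_ne m) u h.symm
  by_cases hc : prN F2 _ (m * k + 1) c ∈ RelBd D.i
  · exact key _ hc h2
  · have h3 := D.HU (m * k + 1) _ (Gr334.prN_mem (m * k + 1) c) (by rw [h2]; exact ⟨_, rfl⟩) hc
      (D.v m) (D.v_gr m hm) (by rw [D.v_cyc m hm]; exact Submodule.zero_mem _) hv
    refine key _ h3 ?_
    rw [map_add, D.v_cyc m hm, add_zero, h2]

theorem v_ne' : ∀ m : ℕ, D.v (m + 1) ∉ RelBd D.i := by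
  intro m
  induction m with
  | zero => exact D.v_one
  | succ m ih => exact D.v_succ (m + 1) (by omega) (D.b_ne_of (by omega) ih)

theorem v_ne {m : ℕ} (hm : 1 ≤ m) : D.v m ∉ RelBd D.i := by
  obtain ⟨l, rfl⟩ : ∃ l, m = l + 1 := ⟨m - 1, by omega⟩
  exact D.v_ne' l

/-- **(BT), part 1** -/
theorem b_ne {m : ℕ} (hm : 1 ≤ m) : D.b m ∉ LinearMap.range (N.bd F2 L) :=
  D.b_ne_of hm (D.v_ne hm)

theorem v_ne_bd {m : ℕ} (hm : 1 ≤ m) : D.v m ∉ LinearMap.range (N.bd F2 L) := fun h =>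
  D.v_ne hm (range_le_relBd _ h)

/-- generators in degree `j` -/
def Gen (j : ℕ) : Set (N F2 L) :=
  {c | (∃ m, m * k = j ∧ c = D.b m) ∨ ∃ m, 1 ≤ m ∧ m * k + 1 = j ∧ c = D.v m}

/-- **(BT), part 2, relative boundaries** -/
theorem span_rel {j : ℕ} {c : N F2 L} (hc : c ∈ N.gr F2 _ j) (hcb : N.bd F2 _ c = 0)
    (hr : c ∈ RelBd D.i) : ∃ g ∈ Submodule.span F2 (D.Gen j),
      c + g ∈ LinearMap.range (N.bd F2 L) := by
  obtain ⟨w, u, rfl⟩ := mem_RelBd.1 hr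
  have h1 : N.bd F2 _ w + N.map F2 D.i u = N.bd F2 _ (prN F2 _ (j + 1) w) +
      N.map F2 D.i (prN F2 _ j u) := by
    have h2 := Gr334.prN_of_mem hc
    rw [map_add, Gr334.prN_bd, Gr334.prN_map] at h2
    exact h2.symm
  have h3 : N.bd F2 _ (prN F2 _ j u) = 0 := by
    refine HA683.N_map_injective F2 D.hi ?_
    rw [map_zero, map_bd']
    rw [h1, map_add, N.bd_bd, zero_add] at hcb
    exact hcb
  obtain ⟨y, hy, hyb, w', hw'⟩ := surj_of_H D.W1.2 (Gr334.prN_mem j u) h3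
  have h4 : N.bd F2 _ w + N.map F2 D.i u + N.map F2 D.i (N.map F2 D.jA y) ∈
      LinearMap.range (N.bd F2 L) := by
    refine ⟨prN F2 _ (j + 1) w + N.map F2 D.i w', ?_⟩
    rw [h1, map_add, ← map_bd', hw', map_add, add_assoc]
  have hmap : ∀ y' : N F2 A, y' ∈ LinearMap.range (N.bd F2 A) →
      N.map F2 D.i (N.map F2 D.jA y') ∈ LinearMap.range (N.bd F2 L) := by
    rintro _ ⟨b, rfl⟩
    exact ⟨N.map F2 D.i (N.map F2 D.jA b), by rw [map_bd', map_bd']⟩
  have fin : ∀ y0 : N F2 A, y + y0 ∈ LinearMap.range (N.bd F2 A) →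
      N.bd F2 _ w + N.map F2 D.i u + N.map F2 D.i (N.map F2 D.jA y0) ∈
      LinearMap.range (N.bd F2 L) := by
    intro y0 h0
    have h5 := Submodule.add_mem _ h4 (hmap _ h0)
    have e : N.bd F2 _ w + N.map F2 D.i u + N.map F2 D.i (N.map F2 D.jA y) +
        N.map F2 D.i (N.map F2 D.jA (y + y0)) =
        N.bd F2 _ w + N.map F2 D.i u + N.map F2 D.i (N.map F2 D.jA y0) +
        (N.map F2 D.i (N.map F2 D.jA y) + N.map F2 D.i (N.map F2 D.jA y)) := by
      rw [map_add, map_add]; abel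
    rwa [e, add_self2, add_zero] at h5
  rcases D.a_span j y hy hyb with h | ⟨m, hm, h⟩
  · refine ⟨0, Submodule.zero_mem _, ?_⟩
    have := fin 0 (by rwa [add_zero])
    rwa [map_zero, map_zero] at this
  · exact ⟨D.b m, Submodule.subset_span (Or.inl ⟨m, hm, rfl⟩), fin _ h⟩

/-- **(BT), part 2** -/
theorem span_all {j : ℕ} {c : N F2 L} (hc : c ∈ N.gr F2 _ j) (hcb : N.bd F2 _ c = 0) :
    ∃ g ∈ Submodule.span F2 (D.Gen j), c + g ∈ LinearMap.range (N.bd F2 L) := by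
  by_cases hr : c ∈ RelBd D.i
  · exact D.span_rel hc hcb hr
  · obtain ⟨m, hm, rfl⟩ := D.HZ j c hc (by rw [hcb]; exact Submodule.zero_mem _) hr
    have h1 := D.HU _ c hc (by rw [hcb]; exact Submodule.zero_mem _) hr _ (D.v_gr m hm)
      (by rw [D.v_cyc m hm]; exact Submodule.zero_mem _) (D.v_ne hm)
    obtain ⟨g, hg, h2⟩ := D.span_rel (Submodule.add_mem _ hc (D.v_gr m hm))
      (by rw [map_add, hcb, D.v_cyc m hm, add_zero]) h1
    refine ⟨D.v m + g, Submodule.add_mem _ (Submodule.subset_span (Or.inr ⟨m, hm, rfl, rfl⟩)) hg, ?_⟩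
    rwa [← add_assoc]

end BTd

end Crest.Agent.R231.TBasx961
end
end

-- ▼ part R231/WU_566
section

/-!
# Row 231, block T (helper566): (W1) and (W2) for the free loop space of a sphere, by half turns

`S = Sph n`, `Lp S` = continuous loops, `UU q = {g | g 0 ≠ q}`, `L0 p = {g | g 0 = p}`, `p = -q`.
The half turn `ht (z + q)` exchanges `z` and `q`; `g ↦ (g 0, ht (g 0 + q) ∘ g)` is a homeomorphism
`{g 0 ≠ p} ≃ {p}ᶜ × L0 q`.

* `W1` : `L0 p → UU q` is a homology isomorphism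
* `exists_xp` : relative cycles of `(Lp S, UU q)` are images of external products
* `W2_bdry`, `W2_unique` : `dim H_j(Lp S, UU q) ≤ 1` for `j = m (n-1) + 1`, `= 0` otherwise
-/

set_option autoImplicit false

noncomputable section

open Set Filter Topology Function
open Crest.Agent.R204 Crest.Agent.R204.SingAct265
open Crest.Agent.R231.Pairx877 Crest.Agent.R231.WgKx667 Crest.Agent.R231.OmHomx871
open Crest.Agent.R231.GLugx576 (Lp)

namespace Crest.Agent.R231.WUx566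

/-- Euclidean space -/
abbrev Ev (n : ℕ) : Type := EuclideanSpace ℝ (Fin (n + 1))
/-- the sphere -/
abbrev Sp (n : ℕ) : Type := Metric.sphere (0 : EuclideanSpace ℝ (Fin (n + 1))) 1

variable {n : ℕ}

/-! ### half turns -/

/-- half turn about the line of `v` -/
def rf (v x : Ev n) : Ev n := Submodule.reflection (Submodule.span ℝ {v}) x

theorem rf_eq (v x : Ev n) : rf v x = (2 : ℝ) • (inner ℝ v x / ‖v‖ ^ 2) • v - x := by
  have := Submodule.reflection_singleton_apply (𝕜 := ℝ) v x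
  unfold rf
  rw [this]
  simp [two_smul]

theorem norm_rf (v x : Ev n) : ‖rf v x‖ = ‖x‖ := LinearIsometryEquiv.norm_map _ x

theorem rf_rf (v x : Ev n) : rf v (rf v x) = x := Submodule.reflection_reflection _ x

theorem norm_sp (x : Sp n) : ‖(x : Ev n)‖ = 1 := by
  have := x.2
  rwa [mem_sphere_zero_iff_norm] at this

/-- half turn of the sphere -/
def ht (v : Ev n) (x : Sp n) : Sp n := ⟨rf v x, by
  rw [mem_sphere_zero_iff_norm, norm_rf, norm_sp]⟩

@[simp] theorem coe_ht (v : Ev n) (x : Sp n) : ((ht v x : Sp n) : Ev n) = rf v x := rfl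

theorem ht_ht (v : Ev n) (x : Sp n) : ht v (ht v x) = x := Subtype.ext (rf_rf v x)

theorem add_ne_zero' {z q : Sp n} (h : (z : Ev n) ≠ -q) : (z : Ev n) + (q : Ev n) ≠ 0 :=
  fun h' => h (eq_neg_of_add_eq_zero_left h')

theorem rf_add {z q : Sp n} (h : (z : Ev n) ≠ -q) : rf ((z : Ev n) + (q : Ev n)) q = z := by
  have h0 : ‖(z : Ev n) + (q : Ev n)‖ ^ 2 ≠ 0 := pow_ne_zero 2 (norm_ne_zero_iff.2 (add_ne_zero' h))
  have h1 : ‖(z : Ev n) + (q : Ev n)‖ ^ 2 = 2 * inner ℝ ((z : Ev n) + (q : Ev n)) (q : Ev n) := by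
    rw [norm_add_sq_real, norm_sp, norm_sp, inner_add_left, real_inner_self_eq_norm_sq, norm_sp]
    ring
  rw [rf_eq, smul_smul]
  have h2 : (2 : ℝ) * (inner ℝ ((z : Ev n) + (q : Ev n)) (q : Ev n) / ‖(z : Ev n) + (q : Ev n)‖ ^ 2) = 1 := by
    rw [← mul_div_assoc, ← h1, div_self h0]
  rw [h2, one_smul, add_sub_cancel_right]

theorem ht_add {z q : Sp n} (h : (z : Ev n) ≠ -q) : ht ((z : Ev n) + (q : Ev n)) q = z :=
  Subtype.ext (rf_add h)

theorem ht_add' {z q : Sp n} (h : (z : Ev n) ≠ -q) : ht ((z : Ev n) + (q : Ev n)) z = q := by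
  have := ht_ht ((z : Ev n) + (q : Ev n)) q
  rwa [ht_add h] at this

theorem continuous_ht' {X : Type*} [TopologicalSpace X] {f : X → Ev n} {g : X → Sp n}
    (hf : Continuous f) (hg : Continuous g) (h : ∀ x, f x ≠ 0) :
    Continuous fun x => ht (f x) (g x) := by
  refine Continuous.subtype_mk ?_ _
  have e : (fun x => rf (f x) (g x : Ev n)) = fun x =>
      ((2 : ℝ) * (inner ℝ (f x) (g x : Ev n) / ‖f x‖ ^ 2)) • f x - (g x : Ev n) := by
    funext x
    rw [rf_eq, smul_smul]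
  rw [e]
  have h2 : Continuous fun x => (g x : Ev n) := continuous_subtype_val.comp hg
  have h3 : Continuous fun x => inner ℝ (f x) (g x : Ev n) / ‖f x‖ ^ 2 :=
    (hf.inner h2).div (hf.norm.pow 2) fun x => pow_ne_zero 2 (norm_ne_zero_iff.2 (h x))
  exact ((continuous_const.mul h3).smul hf).sub h2

theorem continuous_ht (v : Ev n) : Continuous (ht v : Sp n → Sp n) :=
  Continuous.subtype_mk ((LinearIsometryEquiv.continuous _).comp continuous_subtype_val) _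

/-- half turn of a loop -/
def act (v : Ev n) (g : Lp (Sp n)) : Lp (Sp n) := ⟨fun t => ht v (g t), (continuous_ht v).comp g.continuous⟩

@[simp] theorem act_apply (v : Ev n) (g : Lp (Sp n)) (t : UnitAddCircle) : act v g t = ht v (g t) := rfl

theorem act_act (v : Ev n) (g : Lp (Sp n)) : act v (act v g) = g := by
  ext t : 1
  exact ht_ht v _

/-- continuity of families of half turns -/
theorem continuous_act {X : Type*} [TopologicalSpace X] {f : X → Ev n} {g : X → Lp (Sp n)}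
    (hf : Continuous f) (hg : Continuous g) (h : ∀ x, f x ≠ 0) :
    Continuous fun x => act (f x) (g x) := by
  refine ContinuousMap.continuous_of_continuous_uncurry _ ?_
  have h1 : Continuous fun p : X × UnitAddCircle => (g p.1) p.2 := by fun_prop
  exact continuous_ht' (hf.comp continuous_fst) h1 fun p => h p.1

/-! ### the sets -/

/-- loops which do not start at `q` -/
def UU (q : Sp n) : Set (Lp (Sp n)) := {g | g 0 ≠ q}

theorem isOpen_UU (q : Sp n) : IsOpen (UU q) := by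
  have h : Continuous fun g : Lp (Sp n) => g 0 := continuous_eval_const 0
  have e : UU q = (fun g : Lp (Sp n) => g 0) ⁻¹' {q}ᶜ := rfl
  rw [e]
  exact isOpen_compl_singleton.preimage h

/-! ### (W1) -/

section W1

variable {p q : Sp n} (hpq : (p : Ev n) = -q)

include hpq

theorem ne_neg_of_ne {z : Sp n} (h : z ≠ q) : (z : Ev n) ≠ -p := by
  rw [hpq, neg_neg]
  exact fun h' => h (Subtype.ext h')

theorem ne_neg_of_ne' {z : Sp n} (h : z ≠ p) : (z : Ev n) ≠ -q := by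
  rw [← hpq]
  exact fun h' => h (Subtype.ext h')

theorem p_ne_q : p ≠ q := by
  intro h
  rw [h] at hpq
  have h1 := norm_sp q
  have h3 : (2 : ℝ) • (q : Ev n) = 0 := by
    rw [two_smul]
    nth_rewrite 1 [hpq]
    exact neg_add_cancel _
  have h2 : (q : Ev n) = 0 := (smul_eq_zero.1 h3).resolve_left two_ne_zero
  rw [h2, norm_zero] at h1
  exact zero_ne_one h1

/-- the segment from `z` to `p` avoids the half line of `q` -/
theorem seg_ne {z : Sp n} (h : z ≠ q) {s : ℝ} (hs : 0 ≤ s) (hs1 : s ≤ 1) {r : ℝ} (hr : 0 ≤ r) :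
    (1 - s) • (z : Ev n) + s • (p : Ev n) ≠ r • (q : Ev n) := by
  intro e
  have hz := norm_sp z
  have hq := norm_sp q
  rw [hpq, smul_neg, ← sub_eq_add_neg, sub_eq_iff_eq_add, ← add_smul] at e
  have h1 : |1 - s| = |r + s| := by
    have := congrArg norm e
    rwa [norm_smul, norm_smul, hz, hq, mul_one, mul_one, Real.norm_eq_abs, Real.norm_eq_abs] at this
  rw [abs_of_nonneg (by linarith), abs_of_nonneg (by linarith)] at h1
  rw [← h1] at e
  rcases (sub_nonneg.2 hs1).eq_or_lt with h2 | h2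
  · linarith
  · exact h (Subtype.ext (smul_right_injective _ h2.ne' e))

/-- the contraction of `S - q` to `p` -/
def cz (p : Sp n) (z : Sp n) (s : ℝ) : Ev n := (1 - s) • (z : Ev n) + s • (p : Ev n)

theorem cz_ne_zero {z : Sp n} (h : z ≠ q) {s : ℝ} (hs : 0 ≤ s) (hs1 : s ≤ 1) : cz p z s ≠ 0 := by
  have := seg_ne hpq h hs hs1 le_rfl
  rwa [zero_smul] at this

/-- direction of the half turn -/
def dir' (p z : Sp n) (s : ℝ) : Ev n := ‖cz p z s‖⁻¹ • cz p z s + (p : Ev n)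

theorem dir_ne_zero {z : Sp n} (h : z ≠ q) {s : ℝ} (hs : 0 ≤ s) (hs1 : s ≤ 1) :
    dir' p z s ≠ 0 := by
  intro e
  have hc := cz_ne_zero hpq h hs hs1
  have hc' : 0 < ‖cz p z s‖ := norm_pos_iff.2 hc
  have h1 : ‖cz p z s‖⁻¹ • cz p z s = (q : Ev n) := by
    have := eq_neg_of_add_eq_zero_left e
    rw [this, hpq, neg_neg]
  refine seg_ne hpq h hs hs1 hc'.le (r := ‖cz p z s‖) ?_
  rw [← h1, smul_smul, mul_inv_cancel₀ hc'.ne', one_smul]
  rfl

/-- the end of the half turn -/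
theorem norm_end {z : Sp n} (h : z ≠ q) {s : ℝ} (hs : 0 ≤ s) (hs1 : s ≤ 1) :
    ‖‖cz p z s‖⁻¹ • cz p z s‖ = 1 := by
  rw [norm_smul, norm_inv, norm_norm,
    inv_mul_cancel₀ (norm_ne_zero_iff.2 (cz_ne_zero hpq h hs hs1))]

/-- the point `cz / |cz|` -/
def pz (p z : Sp n) (s : ℝ) (h : ‖‖cz p z s‖⁻¹ • cz p z s‖ = 1) : Sp n :=
  ⟨‖cz p z s‖⁻¹ • cz p z s, mem_sphere_zero_iff_norm.2 h⟩

theorem pz_ne {z : Sp n} (h : z ≠ q) {s : ℝ} (hs : 0 ≤ s) (hs1 : s ≤ 1) :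
    pz p z s (norm_end hpq h hs hs1) ≠ q := by
  intro e
  have h1 : ‖cz p z s‖⁻¹ • cz p z s = (q : Ev n) := congrArg Subtype.val e
  have hc' : 0 < ‖cz p z s‖ := norm_pos_iff.2 (cz_ne_zero hpq h hs hs1)
  refine seg_ne hpq h hs hs1 hc'.le (r := ‖cz p z s‖) ?_
  rw [← h1, smul_smul, mul_inv_cancel₀ hc'.ne', one_smul]
  rfl

omit hpq in
theorem cz_zero (z : Sp n) : cz p z 0 = z := by simp [cz]
omit hpq in
theorem cz_one (z : Sp n) : cz p z 1 = p := by simp [cz]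
omit hpq in
theorem dir_zero (z : Sp n) : dir' p z 0 = (z : Ev n) + (p : Ev n) := by
  rw [dir', cz_zero, norm_sp, inv_one, one_smul]
omit hpq in
theorem dir_one (z : Sp n) : dir' p z 1 = (p : Ev n) + (p : Ev n) := by
  rw [dir', cz_one, norm_sp, inv_one, one_smul]

/-- the homotopy -/
def Fh (p : Sp n) (g : Lp (Sp n)) (s : ℝ) : Lp (Sp n) :=
  act (dir' p (g 0) s) (act (((g 0 : Sp n) : Ev n) + (p : Ev n)) g)

theorem Fh_mem {g : Lp (Sp n)} (h : g ∈ UU q) {s : ℝ} (hs : 0 ≤ s) (hs1 : s ≤ 1) :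
    Fh p g s ∈ UU q := by
  show ht (dir' p (g 0) s) (ht (((g 0 : Sp n) : Ev n) + (p : Ev n)) (g 0)) ≠ q
  rw [ht_add' (ne_neg_of_ne hpq h)]
  have h1 := pz_ne hpq h hs hs1
  have h2 := ht_add (z := pz p (g 0) s (norm_end hpq h hs hs1)) (q := p)
    (ne_neg_of_ne hpq h1)
  intro e
  apply h1
  rw [← h2]
  exact e

omit hpq in
theorem Fh_zero (g : Lp (Sp n)) : Fh p g 0 = g := by
  rw [Fh, dir_zero, act_act]

theorem Fh_one_mem {g : Lp (Sp n)} (h : g ∈ UU q) : Fh p g 1 ∈ L0 p := by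
  show ht (dir' p (g 0) 1) (ht (((g 0 : Sp n) : Ev n) + (p : Ev n)) (g 0)) = p
  rw [ht_add' (ne_neg_of_ne hpq h), dir_one]
  refine ht_add (ne_neg_of_ne hpq (p_ne_q hpq))

omit hpq in
theorem Fh_one_L0 {g : Lp (Sp n)} (h : g ∈ L0 p) : Fh p g 1 = g := by
  have h' : g 0 = p := h
  rw [Fh, dir_one, h', act_act]

theorem L0_sub_UU : L0 p ⊆ UU q := by
  intro g hg
  have h' : g 0 = p := hg
  show g 0 ≠ q
  rw [h']
  exact p_ne_q hpq

theorem continuous_Fh {X : Type*} [TopologicalSpace X] {g : X → Lp (Sp n)} {s : X → ℝ}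
    (hg : Continuous g) (hs : Continuous s) (h : ∀ x, g x ∈ UU q) (h0 : ∀ x, 0 ≤ s x)
    (h1 : ∀ x, s x ≤ 1) : Continuous fun x => Fh p (g x) (s x) := by
  have e0 : Continuous fun x => (g x) 0 := by fun_prop
  have e0' : Continuous fun x => (((g x) 0 : Sp n) : Ev n) := continuous_subtype_val.comp e0
  have ec : Continuous fun x => cz p ((g x) 0) (s x) := by
    unfold cz
    exact ((continuous_const.sub hs).smul e0').add (hs.smul continuous_const)
  refine continuous_act ?_ (continuous_act (e0'.add continuous_const) hg fun x =>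
    add_ne_zero' (ne_neg_of_ne hpq (h x))) fun x => dir_ne_zero hpq (h x) (h0 x) (h1 x)
  unfold dir'
  refine ((ec.norm.inv₀ fun x => ?_).smul ec).add continuous_const
  exact norm_ne_zero_iff.2 (cz_ne_zero hpq (h x) (h0 x) (h1 x))

/-- the inclusion `L0 p → UU q` -/
def incU : C(L0 p, UU q) := ⟨fun g => ⟨g.1, L0_sub_UU hpq g.2⟩, by fun_prop⟩

/-- the retraction -/
def retU : C(UU q, L0 p) := ⟨fun g => ⟨Fh p g.1 1, Fh_one_mem hpq g.2⟩,
  (continuous_Fh hpq continuous_subtype_val continuous_const (fun x => x.2) (fun _ => zero_le_one)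
    fun _ => le_rfl).subtype_mk _⟩

/-- **(W1)** -/
theorem W1 : Bijective (H.map F2 (SS.SingMap (incU hpq))) := by
  refine FinDim315.Hm_bijective_of_inv (g := retU hpq) ?_ ?_
  · have e : (retU hpq).comp (incU hpq) = ContinuousMap.id _ := by
      ext g : 2
      exact Fh_one_L0 g.2
    rw [e]
  · refine ContinuousMap.Homotopic.symm ⟨⟨⟨fun x => ⟨Fh p x.2.1 x.1, Fh_mem hpq x.2.2 x.1.2.1 x.1.2.2⟩,
      ?_⟩, ?_, ?_⟩⟩
    · exact (continuous_Fh hpq (by fun_prop) (by fun_prop) (fun x => x.2.2) (fun x => x.1.2.1)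
        fun x => x.1.2.2).subtype_mk _
    · intro g
      exact Subtype.ext (Fh_zero g.1)
    · intro g
      rfl

end W1

/-! ### (W2), reduction to based loops -/

section W2

/-- `g ↦ (g 0, half turn of g)` -/
def Φm (q : Sp n) (g : Lp (Sp n)) : Sp n × Lp (Sp n) :=
  (g 0, act (((g 0 : Sp n) : Ev n) + (q : Ev n)) g)

/-- `(z, w) ↦ half turn of w` -/
def Ψm (q : Sp n) (x : Sp n × Lp (Sp n)) : Lp (Sp n) := act ((x.1 : Ev n) + (q : Ev n)) x.2

variable {p q : Sp n} (hpq : (p : Ev n) = -q)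

include hpq

theorem contOn_Φ : ContinuousOn (Φm q) (UU p) := by
  rw [continuousOn_iff_continuous_domRestrict]
  have e0 : Continuous fun g : UU p => (g.1 : Lp (Sp n)) 0 :=
    (continuous_eval_const (F := Lp (Sp n)) 0).comp continuous_subtype_val
  refine e0.prodMk (continuous_act ((continuous_subtype_val.comp e0).add continuous_const)
    continuous_subtype_val fun g => add_ne_zero' (ne_neg_of_ne' hpq g.2))

theorem contOn_Ψ : ContinuousOn (Ψm q) (({p}ᶜ : Set (Sp n)) ×ˢ L0 q) := by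
  rw [continuousOn_iff_continuous_domRestrict]
  refine continuous_act ((continuous_subtype_val.comp
    (continuous_fst.comp continuous_subtype_val)).add continuous_const)
    (continuous_snd.comp continuous_subtype_val) fun x => add_ne_zero' (ne_neg_of_ne' hpq ?_)
  exact x.2.1

theorem Φ_mem {g : Lp (Sp n)} (h : g ∈ UU p) : Φm q g ∈ ({p}ᶜ : Set (Sp n)) ×ˢ L0 q := by
  refine ⟨h, ?_⟩
  show ht (((g 0 : Sp n) : Ev n) + (q : Ev n)) (g 0) = q
  exact ht_add' (ne_neg_of_ne' hpq h)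

theorem Ψ_zero {x : Sp n × Lp (Sp n)} (h : x ∈ ({p}ᶜ : Set (Sp n)) ×ˢ L0 q) :
    (Ψm q x) 0 = x.1 := by
  have h2 : x.2 0 = q := h.2
  show ht ((x.1 : Ev n) + (q : Ev n)) (x.2 0) = x.1
  rw [h2]
  exact ht_add (ne_neg_of_ne' hpq h.1)

omit hpq in
theorem Ψ_Φ (g : Lp (Sp n)) : Ψm q (Φm q g) = g := act_act _ _

/-- excision to `{g 0 ≠ p}` and the homeomorphism -/
theorem exists_xp' {z : CE (Lp (Sp n))} (hd : bdE _ z ∈ CS (UU q)) :
    ∃ b ∈ CS (UU p), z - b ∈ Bp univ (UU q) ∧ bdE _ b ∈ CS (UU q) ∧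
      push (UU p) (Φm q) (contOn_Φ hpq) b ∈ CS (({p}ᶜ : Set (Sp n)) ×ˢ L0 q) ∧
      bdE _ (push (UU p) (Φm q) (contOn_Φ hpq) b) ∈ CS (({p}ᶜ ∩ {q}ᶜ : Set (Sp n)) ×ˢ L0 q) := by
  have huv : UU q ∪ UU p = (univ : Set (Lp (Sp n))) := by
    ext g
    simp only [mem_union, mem_univ, iff_true]
    by_cases hg : g 0 = q
    · right
      show g 0 ≠ p
      rw [hg]
      exact (p_ne_q hpq).symm
    · exact Or.inl hg
  obtain ⟨a, ha, b, hb, w, hw, e⟩ := small2 (U := UU q) (V := UU p) (fun y hy => by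
    rcases hy with hy | hy
    · exact Or.inl (mem_nhdsWithin_of_mem_nhds ((isOpen_UU q).mem_nhds hy))
    · exact Or.inr (mem_nhdsWithin_of_mem_nhds ((isOpen_UU p).mem_nhds hy))) (z := z)
    (by rw [huv, CS_univ]; exact Submodule.mem_top) (Submodule.mem_sup_left hd)
  have hbd : bdE _ b ∈ CS (UU q) := by
    have : bdE _ b = bdE _ z - bdE _ a := by
      rw [e, map_add, map_add, bd_bdE, add_zero, add_sub_cancel_left]
    rw [this]
    exact Submodule.sub_mem _ hd (bd_mem_CS a ha)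
  refine ⟨b, hb, ?_, hbd, push_mem (fun g hg => Φ_mem hpq hg) b hb, ?_⟩
  · rw [mem_Bp]
    refine ⟨w, by rw [CS_univ]; exact Submodule.mem_top, ?_⟩
    rw [e]
    have : a + b + bdE _ w - b - bdE _ w = a := by abel
    rw [this]
    exact ha
  · rw [bd_push b hb]
    have h1 : bdE _ b ∈ CS (UU p ∩ UU q) := by
      rw [CS_inter]
      exact ⟨bd_mem_CS b hb, hbd⟩
    have hm : MapsTo (Φm q) (UU p ∩ UU q) (({p}ᶜ ∩ {q}ᶜ : Set (Sp n)) ×ˢ L0 q) :=
      fun g hg => ⟨⟨hg.1, hg.2⟩, (Φ_mem hpq hg.1).2⟩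
    exact push_mem hm _ h1

/-- back -/
theorem back {b : CE (Lp (Sp n))} (hb : b ∈ CS (UU p)) {x : CE (Sp n × Lp (Sp n))}
    (hx : push (UU p) (Φm q) (contOn_Φ hpq) b + x ∈
      Bp (({p}ᶜ : Set (Sp n)) ×ˢ L0 q) (({p}ᶜ ∩ {q}ᶜ : Set (Sp n)) ×ˢ L0 q)) :
    b + push (({p}ᶜ : Set (Sp n)) ×ˢ L0 q) (Ψm q) (contOn_Ψ hpq) x ∈ Bp univ (UU q) := by
  rw [mem_Bp] at hx ⊢
  obtain ⟨w, hw, hw'⟩ := hx
  refine ⟨push (({p}ᶜ : Set (Sp n)) ×ˢ L0 q) (Ψm q) (contOn_Ψ hpq) w,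
    by rw [CS_univ]; exact Submodule.mem_top, ?_⟩
  rw [bd_push w hw]
  have e1 : push (({p}ᶜ : Set (Sp n)) ×ˢ L0 q) (Ψm q) (contOn_Ψ hpq)
      (push (UU p) (Φm q) (contOn_Φ hpq) b) = b := by
    rw [push_push (X := UU p) (l := fun x => x) (hl := continuousOn_id)
      (fun g hg => Φ_mem hpq hg) (fun g _ => Ψ_Φ g) b hb]
    exact push_id b hb
  have e2 : b + push (({p}ᶜ : Set (Sp n)) ×ˢ L0 q) (Ψm q) (contOn_Ψ hpq) x -
      push (({p}ᶜ : Set (Sp n)) ×ˢ L0 q) (Ψm q) (contOn_Ψ hpq) (bdE _ w) =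
      push (({p}ᶜ : Set (Sp n)) ×ˢ L0 q) (Ψm q) (contOn_Ψ hpq)
        (push (UU p) (Φm q) (contOn_Φ hpq) b + x - bdE _ w) := by
    rw [map_sub, map_add, e1]
  rw [e2]
  refine push_mem (A := ({p}ᶜ ∩ {q}ᶜ : Set (Sp n)) ×ˢ L0 q) (fun y hy => ?_) _ hw'
  show (Ψm q y) 0 ≠ q
  rw [Ψ_zero hpq ⟨hy.1.1, hy.2⟩]
  exact hy.1.2

variable {u : CE (Sp n)} (h : OneS ({p}ᶜ : Set (Sp n)) ({p}ᶜ ∩ {q}ᶜ) u)

omit hpq in
theorem prN_sub_mem_Bp {X Y : Set (Lp (Sp n))} {j : ℕ} {z b : CE (Lp (Sp n))}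
    (hz : z ∈ N.gr F2 (SS.Sing (Lp (Sp n))) j) (h : z - b ∈ Bp X Y) :
    z - Gr334.prN F2 (SS.Sing (Lp (Sp n))) j b ∈ Bp X Y := by
  have := prN_mem_Bp j h
  rwa [map_sub, Gr334.prN_of_mem hz] at this

omit hpq in
theorem bd_prN_mem {Y : Set (Lp (Sp n))} {j : ℕ} {b : CE (Lp (Sp n))} (h : bdE _ b ∈ CS Y) :
    bdE _ (Gr334.prN F2 (SS.Sing (Lp (Sp n))) j b) ∈ CS Y := by
  rcases j with _ | j
  · have : bdE _ (Gr334.prN F2 (SS.Sing (Lp (Sp n))) 0 b) = 0 :=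
      Gr334.bd_gr_zero (Gr334.prN_mem _ _)
    rw [this]
    exact Submodule.zero_mem _
  · have : bdE _ (Gr334.prN F2 (SS.Sing (Lp (Sp n))) (j + 1) b) =
        Gr334.prN F2 _ j (bdE _ b) := (Gr334.prN_bd j b).symm
    rw [this]
    exact WgKx667.prN_mem_CS _ _ h

include h

/-- graded version -/
theorem exists_xp {d m : ℕ} (hu : u ∈ N.gr F2 (SS.Sing (Sp n)) d) {z : CE (Lp (Sp n))}
    (hz : z ∈ N.gr F2 _ (d + m)) (hd : bdE _ z ∈ CS (UU q)) :
    ∃ y ∈ CS (L0 q), y ∈ N.gr F2 (SS.Sing (Lp (Sp n))) m ∧ bdE _ y = 0 ∧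
      z + push (({p}ᶜ : Set (Sp n)) ×ˢ L0 q) (Ψm q) (contOn_Ψ hpq) (xp u y) ∈ Bp univ (UU q) := by
  obtain ⟨b0, hb0, hzb0, hbd0, -, -⟩ := exists_xp' hpq hd
  set b := Gr334.prN F2 (SS.Sing (Lp (Sp n))) (d + m) b0 with hb'
  have hb : b ∈ CS (UU p) := WgKx667.prN_mem_CS _ b0 hb0
  have hzb : z - b ∈ Bp univ (UU q) := prN_sub_mem_Bp hz hzb0
  have hbd : bdE _ b ∈ CS (UU q) := bd_prN_mem hbd0
  have hP : push (UU p) (Φm q) (contOn_Φ hpq) b ∈ CS (({p}ᶜ : Set (Sp n)) ×ˢ L0 q) :=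
    push_mem (fun g hg => Φ_mem hpq hg) b hb
  have hP' : bdE _ (push (UU p) (Φm q) (contOn_Φ hpq) b) ∈
      CS (({p}ᶜ ∩ {q}ᶜ : Set (Sp n)) ×ˢ L0 q) := by
    rw [bd_push b hb]
    have h1 : bdE _ b ∈ CS (UU p ∩ UU q) := by
      rw [CS_inter]
      exact ⟨bd_mem_CS b hb, hbd⟩
    have hm : MapsTo (Φm q) (UU p ∩ UU q) (({p}ᶜ ∩ {q}ᶜ : Set (Sp n)) ×ˢ L0 q) :=
      fun g hg => ⟨⟨hg.1, hg.2⟩, (Φ_mem hpq hg.1).2⟩
    exact push_mem hm _ h1
  obtain ⟨y, hy, hym, hyc, hyb⟩ := xp_surj_gr h hu _ hP hP' (push_gr (Gr334.prN_mem _ _))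
  refine ⟨y, hy, hym, hyc, ?_⟩
  have h1 := back hpq hb hyb
  have h2 := Submodule.add_mem _ hzb h1
  rwa [show z - b + (b + push (({p}ᶜ : Set (Sp n)) ×ˢ L0 q) (Ψm q) (contOn_Ψ hpq) (xp u y)) =
    z + push (({p}ᶜ : Set (Sp n)) ×ˢ L0 q) (Ψm q) (contOn_Ψ hpq) (xp u y) by abel] at h2

/-- vanishing below the dimension of the sphere -/
theorem bdry_lt {d j : ℕ} (hu : u ∈ N.gr F2 (SS.Sing (Sp n)) d) (hj : j < d)
    {z : CE (Lp (Sp n))} (hz : z ∈ N.gr F2 _ j) (hd : bdE _ z ∈ CS (UU q)) :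
    z ∈ Bp univ (UU q) := by
  obtain ⟨b0, hb0, hzb0, hbd0, -, -⟩ := exists_xp' hpq hd
  set b := Gr334.prN F2 (SS.Sing (Lp (Sp n))) j b0 with hb'
  have hb : b ∈ CS (UU p) := WgKx667.prN_mem_CS _ b0 hb0
  have hzb : z - b ∈ Bp univ (UU q) := prN_sub_mem_Bp hz hzb0
  have hbd : bdE _ b ∈ CS (UU q) := bd_prN_mem hbd0
  have hP : push (UU p) (Φm q) (contOn_Φ hpq) b ∈ CS (({p}ᶜ : Set (Sp n)) ×ˢ L0 q) :=
    push_mem (fun g hg => Φ_mem hpq hg) b hb
  have hP' : bdE _ (push (UU p) (Φm q) (contOn_Φ hpq) b) ∈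
      CS (({p}ᶜ ∩ {q}ᶜ : Set (Sp n)) ×ˢ L0 q) := by
    rw [bd_push b hb]
    have h1 : bdE _ b ∈ CS (UU p ∩ UU q) := by
      rw [CS_inter]
      exact ⟨bd_mem_CS b hb, hbd⟩
    have hm : MapsTo (Φm q) (UU p ∩ UU q) (({p}ᶜ ∩ {q}ᶜ : Set (Sp n)) ×ˢ L0 q) :=
      fun g hg => ⟨⟨hg.1, hg.2⟩, (Φ_mem hpq hg.1).2⟩
    exact push_mem hm _ h1
  have hyb := xp_surj_lt h hu hj _ hP hP' (push_gr (Gr334.prN_mem _ _))
  have h1 := back hpq hb (x := 0) (by rwa [add_zero])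
  rw [map_zero, add_zero] at h1
  have h2 := Submodule.add_mem _ hzb h1
  rwa [sub_add_cancel] at h2

omit h in
/-- external products with boundaries of based loops are relative boundaries -/
theorem push_xp_mem (hu : u ∈ CS ({p}ᶜ : Set (Sp n))) (hu' : bdE _ u ∈ CS ({p}ᶜ ∩ {q}ᶜ : Set (Sp n)))
    {v : CE (Lp (Sp n))} (hv : v ∈ CS (L0 q)) :
    push (({p}ᶜ : Set (Sp n)) ×ˢ L0 q) (Ψm q) (contOn_Ψ hpq) (xp u (bdE _ v)) ∈
      Bp univ (UU q) := by
  have hx := xp_mem hu hv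
  have e : xp u (bdE _ v) = bdE _ (xp u v) - xp (bdE _ u) v := by
    rw [bd_xp, add_sub_cancel_left]
  rw [e, map_sub, ← bd_push _ hx, mem_Bp]
  refine ⟨push (({p}ᶜ : Set (Sp n)) ×ˢ L0 q) (Ψm q) (contOn_Ψ hpq) (xp u v),
    by rw [CS_univ]; exact Submodule.mem_top, ?_⟩
  rw [sub_sub_cancel_left]
  refine Submodule.neg_mem _ (push_mem (A := ({p}ᶜ ∩ {q}ᶜ : Set (Sp n)) ×ˢ L0 q)
    (fun y hy => ?_) _ (xp_mem hu' hv))
  show (Ψm q y) 0 ≠ q
  rw [Ψ_zero hpq ⟨hy.1.1, hy.2⟩]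
  exact hy.1.2

end W2

end Crest.Agent.R231.WUx566
end
end

-- ▼ part R231/WU2_566
section

/-!
# Row 231, block T (helper566): (W2), final form

`S = Sph (k+1)`, `k ≥ 1`, `p = -q`; `H_j(Lp S, UU q)` is `0` unless `j = m k + 1`, `m ≥ 1`, and has at most
one nonzero class.
-/

set_option autoImplicit false

noncomputable section

open Set Filter Topology Function
open Crest.Agent.R204 Crest.Agent.R204.SingAct265
open Crest.Agent.R231.Pairx877 Crest.Agent.R231.WgKx667 Crest.Agent.R231.OmHomx871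
open Crest.Agent.R231.GLugx576 (Lp)
open Crest.Agent.R204.OmS94 (OS)

namespace Crest.Agent.R231.WUx566

variable {k : ℕ}

/-! ### based loops -/

/-- based loops of the sphere, any base point, and the loop space of the archive -/
theorem exists_homeo (q : Sp (k + 1)) : Nonempty (L0 q ≃ₜ OS k) := by
  obtain ⟨φ, hφ⟩ := exists_sphere_homeo (n := k + 1) q (Freu297.pt (k + 1))
  exact ⟨(omHomeo q).trans (mapHomeo φ hφ)⟩

theorem pathConn_OS (hk : 1 ≤ k) : PathConnectedSpace (OS k) :=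
  Geo979.pathConn (OmS94.joined1 hk)

/-- elementwise form of `omS` -/
theorem exists_pows (hk : 1 ≤ k) : ∃ c : ℕ → H F2 (SS.Sing (OS k)),
    ∀ t, 1 ≤ t → ∀ y ∈ H.gr F2 (SS.Sing (OS k)) t, y = 0 ∨ ∃ j, j * k = t ∧ y = c j := by
  refine Exists.elim (OmS94.exists_gen k) fun x hx => ?_
  have hx1 : x ≠ 0 := fun h => hx.2 (by rw [h]; exact LinearMap.map_zero _)
  exact ⟨_, (OmS94.omS hk hx.1 hx1).1⟩


theorem exists_zero {Y : Type} [TopologicalSpace Y] [PathConnectedSpace Y] (y : Y) :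
    ∃ c : H F2 (SS.Sing Y), ∀ a ∈ H.gr F2 (SS.Sing Y) 0, a = 0 ∨ a = c := by
  refine ⟨Coalg847.vtx (K := SS.Sing Y) (HZ76.vtx y), fun a ha => ?_⟩
  obtain ⟨r, hr⟩ := OmS94.gr_zero y a ha
  have h2 : ∀ r : F2, r = 0 ∨ r = 1 := by decide
  rcases h2 r with h | h
  · left; rw [hr, h, zero_smul]
  · right; rw [hr, h, one_smul]

/-- at most one class in each degree -/
def AtMost {Y : Type} [TopologicalSpace Y] (k : ℕ) : Prop :=
  ∀ j, ((∀ m, j ≠ m * k) → ∀ a ∈ H.gr F2 (SS.Sing Y) j, a = 0) ∧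
    (∀ a ∈ H.gr F2 (SS.Sing Y) j, ∀ b ∈ H.gr F2 (SS.Sing Y) j, a ≠ 0 → b ≠ 0 → a = b)

theorem atMost_of {Y : Type} [TopologicalSpace Y] (hk : 1 ≤ k) (c : ℕ → H F2 (SS.Sing Y))
    (hc : ∀ t, 1 ≤ t → ∀ y ∈ H.gr F2 (SS.Sing Y) t, y = 0 ∨ ∃ j, j * k = t ∧ y = c j)
    (c0 : H F2 (SS.Sing Y)) (hc0 : ∀ a ∈ H.gr F2 (SS.Sing Y) 0, a = 0 ∨ a = c0) :
    AtMost (Y := Y) k := by
  intro j
  rcases Nat.eq_zero_or_pos j with h | hj
  · subst h
    refine ⟨fun h => absurd (Nat.zero_mul k).symm (h 0), ?_⟩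
    intro a ha b hb ha0 hb0
    rcases hc0 a ha with h | h
    · exact absurd h ha0
    · rcases hc0 b hb with h' | h'
      · exact absurd h' hb0
      · rw [h, h']
  · constructor
    · intro h a ha
      rcases hc j hj a ha with h' | ⟨m, hm, -⟩
      · exact h'
      · exact absurd hm.symm (h m)
    · intro a ha b hb ha0 hb0
      rcases hc j hj a ha with h' | ⟨m, hm, e⟩
      · exact absurd h' ha0
      rcases hc j hj b hb with h' | ⟨m', hm', e'⟩
      · exact absurd h' hb0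
      have : m = m' := Nat.eq_of_mul_eq_mul_right (by omega) (hm.trans hm'.symm)
      rw [e, e', this]

theorem AtMost.homeo {Y Z : Type} [TopologicalSpace Y] [TopologicalSpace Z] (h : AtMost (Y := Z) k)
    (e : Y ≃ₜ Z) : AtMost (Y := Y) k := by
  intro j
  have hb := FinDim315.Hm_bijective_of_homeo e
  have hg : ∀ a ∈ H.gr F2 (SS.Sing Y) j, H.map F2 (SS.SingMap (e : C(Y, Z))) a ∈
      H.gr F2 (SS.Sing Z) j := fun a ha => Exc406.H_map_mem_gr _ ha
  have h0 : ∀ a, H.map F2 (SS.SingMap (e : C(Y, Z))) a = 0 → a = 0 := fun a ha =>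
    (injective_iff_map_eq_zero _).1 hb.1 a ha
  constructor
  · intro h' a ha
    exact h0 a ((h j).1 h' _ (hg a ha))
  · intro a ha b hb' ha0 hb0
    exact hb.1 ((h j).2 _ (hg a ha) _ (hg b hb') (fun h => ha0 (h0 a h))
      fun h => hb0 (h0 b h))

theorem OS_classes (hk : 1 ≤ k) : AtMost (Y := OS k) k := by
  have : PathConnectedSpace (OS k) := pathConn_OS hk
  have y : OS k := Classical.choice inferInstance
  refine Exists.elim (exists_pows hk) fun c hc => ?_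
  refine Exists.elim (exists_zero y) fun c0 hc0 => ?_
  exact atMost_of hk c hc c0 hc0

/-- **based loops of the sphere: at most one class in each degree, none outside the multiples of `k`** -/
theorem L0_classes (hk : 1 ≤ k) (q : Sp (k + 1)) : AtMost (Y := L0 q) k :=
  (OS_classes hk).homeo (Classical.choice (exists_homeo q))

/-! ### cycles supported in `L0 q` -/

theorem neg_eq_F2 {V : Type*} [AddCommGroup V] [Module F2 V] (x : V) : -x = x := by
  have h : (-1 : F2) = 1 := by decide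
  rw [← neg_one_smul F2 x, h, one_smul]

theorem sub_eq_add_F2 {V : Type*} [AddCommGroup V] [Module F2 V] (x y : V) : x - y = x + y := by
  rw [sub_eq_add_neg, neg_eq_F2]

section cyc

variable {E : Type} [TopologicalSpace E] {O : Set E}

/-- a homogeneous cycle in `CS O` as a homogeneous cycle of the subspace -/
theorem exists_sub_cycle {j : ℕ} {y : CE E} (hy : y ∈ CS O) (hg : y ∈ N.gr F2 (SS.Sing E) j)
    (hc : bdE E y = 0) : ∃ c ∈ N.gr F2 (SS.Sing O) j, N.bd F2 _ c = 0 ∧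
      N.map F2 (SS.SingMap (SpecA.inc O)) c = y := by
  refine ⟨res O y, res_gr hg, ?_, map_inc_res y hy⟩
  have := bd_res y hy
  rw [hc, map_zero] at this
  exact this

theorem cycle_bdry {j : ℕ} (h : ∀ a ∈ H.gr F2 (SS.Sing O) j, a = 0) {y : CE E} (hy : y ∈ CS O)
    (hg : y ∈ N.gr F2 (SS.Sing E) j) (hc : bdE E y = 0) : ∃ v ∈ CS O, bdE E v = y := by
  obtain ⟨c, hc1, hc2, rfl⟩ := exists_sub_cycle hy hg hc
  have := h _ (Gr334.mk_mem_gr hc1 hc2)
  rw [Hd.mk_eq_zero] at this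
  obtain ⟨v, rfl⟩ := this
  refine ⟨N.map F2 (SS.SingMap (SpecA.inc O)) v, by rw [CS_eq_range]; exact ⟨v, rfl⟩, ?_⟩
  exact map_bd_inc O v

theorem cycle_unique {j : ℕ} (h : ∀ a ∈ H.gr F2 (SS.Sing O) j, ∀ b ∈ H.gr F2 (SS.Sing O) j,
    a ≠ 0 → b ≠ 0 → a = b) {y y' : CE E} (hy : y ∈ CS O) (hg : y ∈ N.gr F2 (SS.Sing E) j)
    (hc : bdE E y = 0) (hy' : y' ∈ CS O) (hg' : y' ∈ N.gr F2 (SS.Sing E) j)
    (hc' : bdE E y' = 0) : (∃ v ∈ CS O, bdE E v = y) ∨ (∃ v ∈ CS O, bdE E v = y') ∨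
      ∃ v ∈ CS O, bdE E v = y + y' := by
  obtain ⟨c, hc1, hc2, rfl⟩ := exists_sub_cycle hy hg hc
  obtain ⟨c', hc1', hc2', rfl⟩ := exists_sub_cycle hy' hg' hc'
  have key : ∀ (b : N F2 (SS.Sing O)), (∃ w, N.bd F2 _ w = b) →
      ∃ v ∈ CS O, bdE E v = N.map F2 (SS.SingMap (SpecA.inc O)) b := by
    rintro b ⟨w, rfl⟩
    exact ⟨N.map F2 (SS.SingMap (SpecA.inc O)) w, by rw [CS_eq_range]; exact ⟨w, rfl⟩,
      map_bd_inc O w⟩
  by_cases h1 : Hd.mk (N.bd F2 (SS.Sing O)) c hc2 = 0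
  · exact Or.inl (key c (Hd.mk_eq_zero.1 h1))
  by_cases h2 : Hd.mk (N.bd F2 (SS.Sing O)) c' hc2' = 0
  · exact Or.inr (Or.inl (key c' (Hd.mk_eq_zero.1 h2)))
  refine Or.inr (Or.inr ?_)
  have h3 := h _ (Gr334.mk_mem_gr hc1 hc2) _ (Gr334.mk_mem_gr hc1' hc2') h1 h2
  rw [Hd.mk_eq_mk] at h3
  obtain ⟨w, hw⟩ := h3
  have := key (c + c') ⟨w, by rw [hw, sub_eq_add_F2]⟩
  rwa [map_add] at this

end cyc

/-! ### (W2) -/

section W2

variable {p q : Sp (k + 1)} (hpq : (p : Ev (k + 1)) = -q)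

include hpq

theorem exists_oneS : ∃ u ∈ N.gr F2 (SS.Sing (Sp (k + 1))) (k + 1),
    OneS ({p}ᶜ : Set (Sp (k + 1))) ({p}ᶜ ∩ {q}ᶜ) u := by
  obtain ⟨u0, hg0, hb0, hne, htop, hmid⟩ := WgSx667.exists_fund k
  obtain ⟨u, hu, h1, -⟩ := WgSx667.oneS_compl (p_ne_q hpq) hg0
    (WgSx667.oneS_univ q hg0 hb0 hne htop hmid)
  exact ⟨u, hu, h1⟩

/-- `H_j(Lp S, UU q) = 0` unless `j = m k + 1`, `m ≥ 1` -/
theorem rel_bdry (hk : 1 ≤ k) {j : ℕ} (hj : ∀ m, 1 ≤ m → j ≠ m * k + 1)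
    {z : CE (Lp (Sp (k + 1)))} (hz : z ∈ N.gr F2 (SS.Sing (Lp (Sp (k + 1)))) j)
    (hd : bdE _ z ∈ CS (UU q)) : z ∈ Bp univ (UU q) := by
  obtain ⟨u, hu, h⟩ := exists_oneS hpq
  rcases lt_or_ge j (k + 1) with hlt | hge
  · exact bdry_lt hpq h hu hlt hz hd
  obtain ⟨m, rfl⟩ := Nat.exists_eq_add_of_le hge
  obtain ⟨y, hy, hym, hyc, hyb⟩ := exists_xp hpq h hu hz hd
  obtain ⟨v, hv, rfl⟩ := cycle_bdry ((L0_classes hk q m).1 (fun i hi => hj (i + 1) (by omega) (by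
    rw [hi, add_mul, one_mul]; omega))) hy hym hyc
  have h1 := Submodule.sub_mem _ hyb (push_xp_mem hpq h.mem h.cyc hv)
  rwa [add_sub_cancel_right] at h1

/-- two relative cycles of degree `j` -/
theorem rel_unique (hk : 1 ≤ k) {j : ℕ} {z z' : CE (Lp (Sp (k + 1)))}
    (hz : z ∈ N.gr F2 (SS.Sing (Lp (Sp (k + 1)))) j) (hd : bdE _ z ∈ CS (UU q))
    (hz' : z' ∈ N.gr F2 (SS.Sing (Lp (Sp (k + 1)))) j) (hd' : bdE _ z' ∈ CS (UU q)) :
    z ∈ Bp univ (UU q) ∨ z' ∈ Bp univ (UU q) ∨ z - z' ∈ Bp univ (UU q) := by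
  obtain ⟨u, hu, h⟩ := exists_oneS hpq
  rcases lt_or_ge j (k + 1) with hlt | hge
  · exact Or.inl (bdry_lt hpq h hu hlt hz hd)
  obtain ⟨m, rfl⟩ := Nat.exists_eq_add_of_le hge
  obtain ⟨y, hy, hym, hyc, hyb⟩ := exists_xp hpq h hu hz hd
  obtain ⟨y', hy', hym', hyc', hyb'⟩ := exists_xp hpq h hu hz' hd'
  rcases cycle_unique (L0_classes hk q m).2 hy hym hyc hy' hym' hyc' with
    ⟨v, hv, e⟩ | ⟨v, hv, e⟩ | ⟨v, hv, e⟩
  · left
    rw [← e] at hyb
    have h1 := Submodule.sub_mem _ hyb (push_xp_mem hpq h.mem h.cyc hv)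
    rwa [add_sub_cancel_right] at h1
  · right; left
    rw [← e] at hyb'
    have h1 := Submodule.sub_mem _ hyb' (push_xp_mem hpq h.mem h.cyc hv)
    rwa [add_sub_cancel_right] at h1
  · right; right
    have h0 := push_xp_mem hpq h.mem h.cyc hv
    rw [e, map_add, map_add] at h0
    have h1 := Submodule.sub_mem _ (Submodule.add_mem _ hyb hyb') h0
    rw [sub_eq_add_F2]
    have : ∀ a b c d : CE (Lp (Sp (k + 1))), a + c + (b + d) - (c + d) = a + b := fun a b c d => by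
      abel
    rwa [this] at h1

/-! ### literal forms -/




end W2

end Crest.Agent.R231.WUx566
end
end

-- ▼ part R231/TBas_961

/-!
# Row 231, block T (helper961): the basis theorem (BT) for the free loop space of a sphere

`M` homeomorphic to the sphere of dimension `k + 1`, `k ≥ 1`, `z` a cycle of degree `k` of based loops
which is not a boundary, `A_m = Am m z`, `v_m = vm m z` (helper150).

* `Am_not_bd`, `vm_not_bd` : not boundaries, `m ≥ 1`
* `exists_span` : every cycle of degree `j` is homologous to a combination of the `A_m`, `m k = j`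
  (the constant loop for `j = 0`) and the `v_m`, `m k + 1 = j`
-/

set_option autoImplicit false

noncomputable section

namespace Crest.Agent.R231.TBasx961

open Crest.Agent.R204 Crest.Agent.R204.EZ271 Crest.Agent.R204.SingAct265
open Crest.Agent.R204.Freu297 (Sph pt)
open Crest.Agent.R204.Gr334 (prN)
open GLugx576 (Lp)
open Concx150 CPowx150 AmChx150 TFillx150 TDegx961 Pairx877
open OmHomx871 (L0)
open WUx566 (Ev Sp UU incU)
open Set

/-- maps of pairs preserve relative boundaries -/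
theorem relBd_map {U L U' L' : SS} {i : SS.Hom U L} {i' : SS.Hom U' L'} (F : SS.Hom L L')
    (G : SS.Hom U U') (h : F.comp i = i'.comp G) {c : N F2 L} (hc : c ∈ RelBd i) :
    N.map F2 F c ∈ RelBd i' := by
  obtain ⟨w, u, rfl⟩ := mem_RelBd.1 hc
  refine mem_RelBd.2 ⟨N.map F2 F w, N.map F2 G u, ?_⟩
  rw [map_add, map_bd', map_map, h, ← map_map]

theorem H_bij_comp {J K L : SS} {f : SS.Hom J K} {g : SS.Hom K L}
    (hf : Function.Bijective (H.map F2 f)) (hg : Function.Bijective (H.map F2 g)) :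
    Function.Bijective (H.map F2 (g.comp f)) := by
  have h2 : (H.map F2 (g.comp f) : H F2 J → H F2 L) = H.map F2 g ∘ H.map F2 f :=
    funext fun x => HZ76.H_map_comp F2 g f x
  rw [h2]
  exact hg.comp hf

theorem mem_relBd_iff {E : Type} [TopologicalSpace E] {S : Set E} {c : CE E} :
    c ∈ RelBd (SS.SingMap (SpecA.inc S)) ↔ c ∈ Bp univ S := by
  rw [mem_Bp, mem_RelBd]
  constructor
  · rintro ⟨w, u, rfl⟩
    refine ⟨w, by rw [CS_univ]; trivial, ?_⟩
    rw [add_sub_cancel_left, CS_eq_range]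
    exact ⟨u, rfl⟩
  · rintro ⟨w, -, h⟩
    rw [CS_eq_range] at h
    obtain ⟨u, hu⟩ := h
    refine ⟨w, u, ?_⟩
    rw [hu, add_sub_cancel]

section inst

variable {M : Type} [MetricSpace M] {k : ℕ} (φ : M ≃ₜ Sp (k + 1)) (p : M)

/-- postcomposition -/
def Ep : C(Lp M, Lp (Sp (k + 1))) :=
  ⟨fun γ => (φ : C(M, Sp (k + 1))).comp γ, ContinuousMap.continuous_postcomp _⟩

/-- inverse -/
def Em : C(Lp (Sp (k + 1)), Lp M) :=
  ⟨fun γ => (φ.symm : C(Sp (k + 1), M)).comp γ, ContinuousMap.continuous_postcomp _⟩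

theorem Em_Ep (γ : Lp M) : Em φ (Ep φ γ) = γ := ContinuousMap.ext fun _ => φ.symm_apply_apply _
theorem Ep_Em (γ : Lp (Sp (k + 1))) : Ep φ (Em φ γ) = γ :=
  ContinuousMap.ext fun _ => φ.apply_symm_apply _

theorem Ep_zero {γ : Lp M} (h : γ 0 = p) : (Ep φ γ) 0 = φ p := by
  show φ (γ 0) = φ p
  rw [h]

theorem Em_zero {γ : Lp (Sp (k + 1))} (h : γ 0 = φ p) : (Em φ γ) 0 = p := by
  show φ.symm (γ 0) = p
  rw [h, φ.symm_apply_apply]

/-- based loops -/
def EOf : C(Om p, L0 (φ p)) :=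
  ⟨fun γ => ⟨Ep φ γ.1, Ep_zero φ p γ.2⟩,
    ((Ep φ).continuous.comp continuous_subtype_val).subtype_mk _⟩

/-- inverse on based loops -/
def EOi : C(L0 (φ p), Om p) :=
  ⟨fun γ => ⟨Em φ γ.1, Em_zero φ p γ.2⟩,
    ((Em φ).continuous.comp continuous_subtype_val).subtype_mk _⟩

/-- based loops, homeomorphism -/
def EO : Om p ≃ₜ L0 (φ p) where
  toFun := EOf φ p
  invFun := EOi φ p
  left_inv γ := Subtype.ext (Em_Ep φ γ.1)
  right_inv γ := Subtype.ext (Ep_Em φ γ.1)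
  continuous_toFun := (EOf φ p).continuous
  continuous_invFun := (EOi φ p).continuous

/-- the opposite point -/
def qq : Sp (k + 1) := -(φ p)

theorem hpq : ((φ p : Sp (k + 1)) : Ev (k + 1)) = -(qq φ p : Ev (k + 1)) := by
  show _ = -(((-(φ p) : Sp (k + 1))) : Ev (k + 1))
  rw [coe_neg_sphere, neg_neg]

/-- the inclusion of the loops with `γ 0 ≠ -φ p` -/
def iQ : SS.Hom (SS.Sing (UU (qq φ p))) (SS.Sing (Lp (Sp (k + 1)))) :=
  SS.SingMap (SpecA.inc (UU (qq φ p)))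

theorem iQ_inj : HA683.SInj (iQ φ p) := inc_SInj (UU (qq φ p))

/-- based loops to `U` -/
def jQ : SS.Hom (SS.Sing (Om p)) (SS.Sing (UU (qq φ p))) :=
  SS.SingMap ((incU (hpq φ p)).comp (EO φ p : C(Om p, L0 (φ p))))

theorem iQ_jQ : (iQ φ p).comp (jQ φ p) = (SS.SingMap (Ep φ)).comp (SS.SingMap (ιO p)) := rfl

theorem jQ_bij : Function.Bijective (H.map F2 (jQ φ p)) :=
  H_bij_comp (f := SS.SingMap (EO φ p : C(Om p, L0 (φ p)))) (g := SS.SingMap (incU (hpq φ p)))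
    (FinDim315.Hm_bijective_of_homeo (EO φ p)) (WUx566.W1 (hpq φ p))

/-- vanishing of the relative homology -/
theorem hz (hk : 1 ≤ k) (j : ℕ) (c : CE (Lp (Sp (k + 1))))
    (hc : c ∈ N.gr F2 (SS.Sing (Lp (Sp (k + 1)))) j)
    (hb : N.bd F2 _ c ∈ LinearMap.range (N.map F2 (iQ φ p))) (hr : c ∉ RelBd (iQ φ p)) :
    ∃ m : ℕ, 1 ≤ m ∧ j = m * k + 1 := by
  by_contra hcon
  refine hr (mem_relBd_iff.2 (WUx566.rel_bdry (hpq φ p) hk (j := j) (fun m hm h => hcon ⟨m, hm, h⟩)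
    hc ?_))
  rw [CS_eq_range]
  exact hb

/-- at most one relative class -/
theorem hu (hk : 1 ≤ k) (j : ℕ) (c : CE (Lp (Sp (k + 1))))
    (hc : c ∈ N.gr F2 (SS.Sing (Lp (Sp (k + 1)))) j)
    (hb : N.bd F2 _ c ∈ LinearMap.range (N.map F2 (iQ φ p))) (hr : c ∉ RelBd (iQ φ p))
    (c' : CE (Lp (Sp (k + 1)))) (hc' : c' ∈ N.gr F2 (SS.Sing (Lp (Sp (k + 1)))) j)
    (hb' : N.bd F2 _ c' ∈ LinearMap.range (N.map F2 (iQ φ p))) (hr' : c' ∉ RelBd (iQ φ p)) :
    c + c' ∈ RelBd (iQ φ p) := by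
  rcases WUx566.rel_unique (hpq φ p) hk hc (by rw [CS_eq_range]; exact hb) hc'
    (by rw [CS_eq_range]; exact hb') with h | h | h
  · exact absurd (mem_relBd_iff.2 h) hr
  · exact absurd (mem_relBd_iff.2 h) hr'
  · rw [WUx566.sub_eq_add_F2] at h
    exact mem_relBd_iff.2 h

/-- pushing to the sphere -/
abbrev EpN : CE (Lp M) →ₗ[F2] CE (Lp (Sp (k + 1))) := N.map F2 (SS.SingMap (Ep φ))
/-- and back -/
abbrev EmN : CE (Lp (Sp (k + 1))) →ₗ[F2] CE (Lp M) := N.map F2 (SS.SingMap (Em φ))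

theorem EmN_EpN (c : CE (Lp M)) : EmN φ (EpN φ c) = c := by
  rw [map_map]
  have h : (SS.SingMap (Em φ)).comp (SS.SingMap (Ep φ)) = SS.Hom.id (SS.Sing (Lp M)) :=
    SS.Hom.ext (funext fun n => funext fun σ => sing_ext fun t => Em_Ep φ (ev σ t))
  rw [h, map_idHom]


/-- restriction of `Em` to the pair -/
def EmU : C(UU (qq φ p), Uq (φ.symm (qq φ p))) :=
  ⟨fun γ => ⟨Em φ γ.1, fun h => γ.2 (φ.symm.injective h)⟩,
    ((Em φ).continuous.comp continuous_subtype_val).subtype_mk _⟩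

theorem relBd_back {c : CE (Lp M)} (h : EpN φ c ∈ RelBd (iQ φ p)) :
    c ∈ RelBd (SS.SingMap (inc (Uq (φ.symm (qq φ p))))) := by
  have h1 := relBd_map (i := iQ φ p) (i' := SS.SingMap (inc (Uq (φ.symm (qq φ p)))))
    (SS.SingMap (Em φ)) (SS.SingMap (EmU φ p)) rfl h
  rwa [EmN_EpN φ c] at h1

variable {p}

/-- the based classes -/
def aO (z : CO p) : ℕ → CO p
  | 0 => N.sx F2 (HspSS696.ptS (cO p))
  | (m + 1) => AmO (m + 1) z

/-- the classes `v_m` -/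
def vO (z : CO p) : ℕ → CE (Lp M)
  | 0 => 0
  | (m + 1) => vm (m + 1) z

/-- the classes `A_m`, `A_0` the constant loop -/
def bO (z : CO p) : ℕ → CE (Lp M)
  | 0 => N.sx F2 (HspSS696.ptS (ContinuousMap.const _ p : Lp M))
  | (m + 1) => Am (m + 1) z

theorem aO_eq (z : CO p) {m : ℕ} [NeZero m] : aO z m = AmO m z := by
  obtain ⟨l, rfl⟩ : ∃ l, m = l + 1 := ⟨m - 1, by have := NeZero.pos m; omega⟩
  rfl

theorem bO_eq (z : CO p) {m : ℕ} [NeZero m] : bO z m = Am m z := by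
  obtain ⟨l, rfl⟩ : ∃ l, m = l + 1 := ⟨m - 1, by have := NeZero.pos m; omega⟩
  rfl

theorem vO_eq (z : CO p) {m : ℕ} [NeZero m] : vO z m = vm m z := by
  obtain ⟨l, rfl⟩ : ∃ l, m = l + 1 := ⟨m - 1, by have := NeZero.pos m; omega⟩
  rfl

theorem jN_aO (z : CO p) : ∀ m, jN p (aO z m) = bO z m
  | 0 => by
    unfold jN aO bO
    rw [N.map_sx]
    rfl
  | (m + 1) => (Am_eq_AmO (m + 1) z).symm

theorem iQ_aO (z : CO p) (m : ℕ) :
    N.map F2 (iQ φ p) (N.map F2 (jQ φ p) (aO z m)) = EpN φ (bO z m) := by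
  rw [← jN_aO]
  unfold jN
  rw [map_map, map_map, iQ_jQ]

variable (hk : 1 ≤ k) {z : CO p} (hz1 : z ∈ N.gr F2 (SS.Sing (Om p)) k)
  (hb : N.bd F2 _ z = 0) (hn : z ∉ LinearMap.range (N.bd F2 (SS.Sing (Om p))))

/-- **the data of the basis theorem for `M`** -/
def btd : BTd k (SS.Sing (Om p)) (SS.Sing (UU (qq φ p))) (SS.Sing (Lp (Sp (k + 1)))) where
  jA := jQ φ p
  i := iQ φ p
  hi := iQ_inj φ p
  W1 := jQ_bij φ p
  a := aO z
  a_gr
    | 0 => by
      rw [Nat.zero_mul]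
      exact Gr334.sx_mem_gr _
    | (m + 1) => AmO_mem_gr (m + 1) hz1
  a_cyc
    | 0 => Coalg847.bd_vertex _
    | (m + 1) => bd_AmO (m + 1) hb
  a_ne
    | 0 => OmPowx871.vertex_not_bd _
    | (m + 1) => OmPowx871.AmO_not_bd hk φ hz1 hb hn (m + 1)
  a_span j y hy hyb := by
    rcases Nat.eq_zero_or_pos j with rfl | hj
    · rcases OmPowx871.span_zero hk φ (HspSS696.ptS (cO p)) hy with h | h
      · exact Or.inl h
      · exact Or.inr ⟨0, Nat.zero_mul k, h⟩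
    · rcases OmPowx871.AmO_span hk φ hz1 hb hn hj hy hyb with h | ⟨m, hm0, hm, h⟩
      · exact Or.inl h
      · exact Or.inr ⟨m, hm, by rwa [aO_eq]⟩
  v m := EpN φ (vO z m)
  v_gr := by
    rintro (_ | m) hm
    · omega
    · exact Exc406.map_mem_gr _ (vm_mem_gr (m + 1) hz1)
  v_cyc := by
    rintro (_ | m) hm
    · omega
    · have h5 : N.bd F2 _ (vm (m + 1) z) = 0 := bd_vm (m + 1) hb
      show N.bd F2 _ (EpN φ (vm (m + 1) z)) = 0
      rw [← map_bd', h5, map_zero]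
  v_one h := vm_one_ne hk φ (φ.symm (qq φ p)) hz1 hb hn (relBd_back φ p h)
  v_succ := by
    rintro (_ | m) hm hA h
    · omega
    · refine vm_succ_ne hk φ (φ.symm (qq φ p)) hz1 hb hn (m + 1) ?_ (relBd_back φ p h)
      rw [iQ_aO] at hA
      exact not_bd_of_map _ hA
  HZ := hz φ p hk
  HU j c hc hcb hr c' hc' hcb' hr' := hu φ p hk j c hc hcb hr c' hc' hcb' hr'

end inst

section final

variable {M : Type} [MetricSpace M] {k : ℕ} (hk : 1 ≤ k) (φ : M ≃ₜ Sph (k + 1)) {p : M}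
  {z : CO p} (hz1 : z ∈ N.gr F2 (SS.Sing (Om p)) k)
  (hb : N.bd F2 _ z = 0) (hn : z ∉ LinearMap.range (N.bd F2 (SS.Sing (Om p))))

include hk φ hz1 hb hn

/-- **`A_m` is not a boundary** -/
theorem Am_not_bd (m : ℕ) [NeZero m] : Am m z ∉ LinearMap.range (N.bd F2 (SS.Sing (Lp M))) := by
  have h := (btd φ hk hz1 hb hn).b_ne (NeZero.pos m)
  have e : (btd φ hk hz1 hb hn).b m = EpN φ (Am m z) := by
    rw [← bO_eq]
    exact iQ_aO φ z m
  rw [e] at h
  exact not_bd_of_map _ h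

/-- `v_m` is not a boundary, even modulo the loops with `γ 0 ≠ q` -/
theorem vm_not_bd (m : ℕ) [NeZero m] : vm m z ∉ LinearMap.range (N.bd F2 (SS.Sing (Lp M))) := by
  have h := (btd φ hk hz1 hb hn).v_ne_bd (NeZero.pos m)
  have e : (btd φ hk hz1 hb hn).v m = EpN φ (vm m z) := by
    rw [← vO_eq]
    rfl
  rw [e] at h
  exact not_bd_of_map _ h

omit hk φ hz1 hb hn in
/-- generators in degree `j` -/
def GenL (z : CO p) (k j : ℕ) : Set (CE (Lp M)) :=
  {c | (∃ (m : ℕ) (_ : NeZero m), m * k = j ∧ c = Am m z) ∨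
    (∃ (m : ℕ) (_ : NeZero m), m * k + 1 = j ∧ c = vm m z) ∨
    (j = 0 ∧ c = N.sx F2 (HspSS696.ptS (ContinuousMap.const _ p : Lp M)))}

omit hk φ hz1 hb hn in
theorem bO_mem_GenL (z : CO p) (k m : ℕ) : bO z m ∈ GenL z k (m * k) := by
  cases m with
  | zero => exact Or.inr (Or.inr ⟨Nat.zero_mul k, rfl⟩)
  | succ m => exact Or.inl ⟨m + 1, inferInstance, rfl, rfl⟩

/-- **every cycle is homologous to a combination of generators** -/
theorem exists_span {j : ℕ} {c : CE (Lp M)} (hc : c ∈ N.gr F2 (SS.Sing (Lp M)) j)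
    (hcb : N.bd F2 _ c = 0) : ∃ g ∈ Submodule.span F2 (GenL z k j),
      c + g ∈ LinearMap.range (N.bd F2 (SS.Sing (Lp M))) := by
  obtain ⟨g, hg, b, hgb⟩ := (btd φ hk hz1 hb hn).span_all (c := EpN φ c) (Exc406.map_mem_gr _ hc)
    (by rw [← map_bd', hcb, map_zero])
  have hg' : EmN φ g ∈ Submodule.span F2 (GenL z k j) := by
    have h1 : EmN φ g ∈ (Submodule.span F2 ((btd φ hk hz1 hb hn).Gen j)).map (EmN φ) := ⟨g, hg, rfl⟩
    rw [Submodule.map_span] at h1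
    refine Submodule.span_mono ?_ h1
    rintro _ ⟨d, hd | hd, rfl⟩
    · obtain ⟨m, rfl, rfl⟩ := hd
      have e : (btd φ hk hz1 hb hn).b m = EpN φ (bO z m) := iQ_aO φ z m
      rw [e, EmN_EpN φ]
      exact bO_mem_GenL z k m
    · obtain ⟨m, hm, rfl, rfl⟩ := hd
      have hm0 : NeZero m := ⟨by omega⟩
      have e : (btd φ hk hz1 hb hn).v m = EpN φ (vm m z) := by
        rw [← vO_eq]
        rfl
      rw [e, EmN_EpN φ]
      exact Or.inr (Or.inl ⟨m, hm0, rfl, rfl⟩)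
  refine ⟨EmN φ g, hg', EmN φ b, ?_⟩
  rw [← map_bd', hgb, map_add, EmN_EpN φ]

/-- the same as membership in a sum -/
theorem mem_span_sup {j : ℕ} {c : CE (Lp M)} (hc : c ∈ N.gr F2 (SS.Sing (Lp M)) j)
    (hcb : N.bd F2 _ c = 0) :
    c ∈ Submodule.span F2 (GenL z k j) ⊔ LinearMap.range (N.bd F2 (SS.Sing (Lp M))) := by
  obtain ⟨g, hg, h⟩ := exists_span hk φ hz1 hb hn hc hcb
  have e : c = g + (c + g) := by
    have h2 := add_self2 g
    rw [add_comm c g, ← add_assoc, h2, zero_add]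
  rw [e]
  exact Submodule.add_mem_sup hg h

end final

end Crest.Agent.R231.TBasx961
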