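import Crest.Agent.R231.Cap_226
import Crest.Agent.R204.EZHtp_271
import Crest.Agent.R204.ExcD_406
import Crest.Agent.R204.Sigma_88
import Crest.Agent.R204.Gr_334
import Crest.Agent.R231.OmHom_871
import Crest.Agent.R204.OmS_94
import Crest.Agent.R204.Rel_683

-- ▼ part R231/TDegA_961
section

/-!
# Row 231, leaf T-DEG (helper961), part A: the strict cup lemma

`K, Z` simplicial sets, `F : K × Z → Lam`, `e : Lam → S`, `eps : K → S` with `e ∘ F = eps ∘ fst`.
For a chain `w` of degree `n` of `K`, a chain `ζ` of `Z`, a cochain `α` of `S` which sees only degree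
`n` and a cochain `β` of `Lam` such that `β (F (v, ·)_# ζ) = c` for all vertices `v` of `K`:

`(e^* α ∪ β) (F_# (w × ζ)) = α (eps_# w) * c`.
-/

set_option autoImplicit false

noncomputable section

namespace Crest.Agent.R231.TDegx961

open Crest.Agent.R204 Crest.Agent.R204.EZ271 Crest.Agent.R231.Capx226 TensorProduct

variable {K Z Lam S : SS}

theorem pull_comp {J K L : SS} (g : SS.Hom K L) (f : SS.Hom J K) (u : Co L) :
    pull (g.comp f) u = pull f (pull g u) := by
  refine LinearMap.ext fun z => ?_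
  rw [pull_apply, pull_apply, pull_apply, ← map_map]

theorem pull_aug {J K : SS} (f : SS.Hom J K) : pull f (aug F2 : Co K) = (aug F2 : Co J) := by
  refine LinearMap.ext fun z => ?_
  rw [pull_apply]
  exact aug_map F2 f z

theorem pull_fst_eq (u : Co K) : pull (SS.fst K Z) u = crs u (aug F2 : Co Z) := by
  rw [crs_eq_cup, pull_aug, cup_aug_right]

theorem cup_cross (F : SS.Hom (K.prod Z) Lam) (e : SS.Hom Lam S) (eps : SS.Hom K S)
    (h : e.comp F = eps.comp (SS.fst K Z)) (α : Co S) (β : Co Lam) (w : N F2 K) (ζ : N F2 Z) :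
    cup (pull e α) β (N.map F2 F (cross F2 w ζ)) =
      β (N.map F2 F (cross F2 (cap (pull eps α) w) ζ)) := by
  rw [cup_apply, ← map_cap, ← pull_comp, h, pull_comp, pull_fst_eq, cap_crs_cross, cap_aug]

/-- evaluation on a chain of degree `0` -/
theorem eval_deg_zero (F : SS.Hom (K.prod Z) Lam) (β : Co Lam) (ζ : N F2 Z) (c : F2)
    (hc : ∀ v : K.S 0, β (N.map F2 F (cross F2 (N.sx F2 v) ζ)) = c) {a : N F2 K}
    (ha : a ∈ N.gr F2 K 0) : β (N.map F2 F (cross F2 a ζ)) = aug F2 a * c := by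
  obtain ⟨b, hb, rfl⟩ := ha
  refine Submodule.span_induction
    (p := fun b _ => β (N.map F2 F (cross F2 (Submodule.mkQ _ b) ζ)) = aug F2 (Submodule.mkQ _ b) * c)
    ?_ ?_ ?_ ?_ hb
  · rintro _ ⟨x, rfl⟩
    have h1 := hc x
    have h2 : (aug F2 (N.sx F2 x) : F2) = 1 := aug_sx_zero F2 x
    change β (N.map F2 F (cross F2 (N.sx F2 x) ζ)) = aug F2 (N.sx F2 x) * c
    rw [h1, h2, one_mul]
  · simp
  · intro x y _ _ hx hy
    simp only [map_add, LinearMap.add_apply, hx, hy, add_mul]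
  · intro r x _ hx
    simp only [map_smul, LinearMap.smul_apply, hx, smul_eq_mul, mul_assoc]

/-- `u` only sees degree `n` -/
def Dg (n : ℕ) (u : Co K) : Prop := ∀ j, j ≠ n → ∀ x : K.S j, u (N.sx F2 x) = 0

theorem Dg.pull {J : SS} {n : ℕ} {u : Co K} (h : Dg n u) (f : SS.Hom J K) : Dg n (pull f u) := by
  intro j hj x
  rw [pull_apply, N.map_sx]
  exact h j hj _

theorem sx_mem_gr {n : ℕ} (x : K.S n) : N.sx F2 x ∈ N.gr F2 K n :=
  ⟨Finsupp.single ⟨_, x⟩ 1, Submodule.subset_span ⟨x, rfl⟩, rfl⟩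

theorem cap_mem_gr_zero {n : ℕ} {u : Co K} (hu : Dg n u) {w : N F2 K} (hw : w ∈ N.gr F2 K n) :
    cap u w ∈ N.gr F2 K 0 := by
  obtain ⟨b, hb, rfl⟩ := hw
  refine Submodule.span_induction (p := fun b _ => cap u (Submodule.mkQ _ b) ∈ N.gr F2 K 0)
    ?_ ?_ ?_ ?_ hb
  · rintro _ ⟨x, rfl⟩
    change cap u (N.sx F2 x) ∈ _
    rw [cap_sx]
    refine Submodule.sum_mem _ fun a ha => ?_
    by_cases h : a = n
    · subst h
      refine Submodule.smul_mem _ _ ?_
      have h0 : a - a = 0 := Nat.sub_self a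
      rw [h0]
      exact sx_mem_gr _
    · rw [hu a h, zero_smul]
      exact Submodule.zero_mem _
  · simp
  · intro x y _ _ hx hy
    simp only [map_add]
    exact Submodule.add_mem _ hx hy
  · intro r x _ hx
    simp only [map_smul]
    exact Submodule.smul_mem _ _ hx

theorem aug_cap (u : Co K) (z : N F2 K) : aug F2 (cap u z) = u z := by
  rw [← cup_apply, cup_aug_right]

/-- **the strict cup lemma** -/
theorem cup_eval (F : SS.Hom (K.prod Z) Lam) (e : SS.Hom Lam S) (eps : SS.Hom K S)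
    (h : e.comp F = eps.comp (SS.fst K Z)) {n : ℕ} {α : Co S} (hα : Dg n α) (β : Co Lam)
    {w : N F2 K} (hw : w ∈ N.gr F2 K n) (ζ : N F2 Z) (c : F2)
    (hc : ∀ v : K.S 0, β (N.map F2 F (cross F2 (N.sx F2 v) ζ)) = c) :
    cup (pull e α) β (N.map F2 F (cross F2 w ζ)) = α (N.map F2 eps w) * c := by
  rw [cup_cross F e eps h, eval_deg_zero F β ζ c hc (cap_mem_gr_zero (hα.pull eps) hw), aug_cap,
    pull_apply]

/-- a cup product with first factor pulled back from `S` and zero on the chains of `B → S`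
vanishes on the chains of every `A → Lam` lying over `B` -/
theorem cup_zero {A B : SS} (i : SS.Hom A Lam) (j : SS.Hom B S) (e : SS.Hom Lam S)
    (g : SS.Hom A B) (h : e.comp i = j.comp g) {α : Co S} (hα : pull j α = 0) (β : Co Lam)
    (z : N F2 A) : cup (pull e α) β (N.map F2 i z) = 0 := by
  rw [cup_apply, ← map_cap, ← pull_comp, h, pull_comp, hα]
  have h0 : pull g (0 : Co B) = 0 := LinearMap.ext fun z => rfl
  rw [h0, cap_zero_left, map_zero, map_zero]

/-- cup products of cocycles are cocycles -/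
theorem cobd_cup_zero {u v : Co K} (hu : cobd u = 0) (hv : cobd v = 0) : cobd (cup u v) = 0 := by
  rw [cobd_cup, hu, hv]
  refine LinearMap.ext fun z => ?_
  rw [LinearMap.add_apply, cup_apply, cup_apply, cap_zero_left, map_zero]
  simp

theorem cobd_pull_zero {J : SS} (f : SS.Hom J K) {u : Co K} (hu : cobd u = 0) :
    cobd (pull f u) = 0 := by
  rw [← pull_cobd, hu]; rfl

end Crest.Agent.R231.TDegx961
end
end

-- ▼ part R231/TDegB_961
section

/-!
# Row 231, leaf T-DEG (helper961), part B: detection of `F_# ((ι × z) × ζ)` modulo a subspace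

`exists_cochain` : a chain which is not a boundary modulo a subcomplex is detected by a cocycle which
vanishes on the subcomplex and sees only one degree.

`tdeg` : if `e ∘ F = ev ∘ fst`, the suspension `ev_# (ι × z)` is not a boundary in `S` modulo `B`, and all
the slices `F (v, ·)_# ζ` are homologous to a cycle `ζ₀` which is not a boundary in `Lam`, then
`F_# ((ι × z) × ζ)` is not a boundary in `Lam` modulo any `U` lying over `B`.
-/

set_option autoImplicit false

noncomputable section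

namespace Crest.Agent.R231.TDegx961

open Crest.Agent.R204 Crest.Agent.R204.EZ271 Crest.Agent.R231.Capx226 TensorProduct
open Crest.Agent.R204.Sigma88 (io sgN)
open Crest.Agent.R204.Gr334 (prN)

variable {K Z Lam S : SS}

/-- chains which are boundaries modulo the subcomplex `A` -/
def RelBd {A K : SS} (i : SS.Hom A K) : Submodule F2 (N F2 K) :=
  LinearMap.range (N.bd F2 K) ⊔ LinearMap.range (N.map F2 i)

theorem mem_RelBd {A K : SS} {i : SS.Hom A K} {z : N F2 K} :
    z ∈ RelBd i ↔ ∃ c u, z = N.bd F2 K c + N.map F2 i u := by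
  unfold RelBd
  rw [Submodule.mem_sup]
  constructor
  · rintro ⟨_, ⟨c, rfl⟩, _, ⟨u, rfl⟩, rfl⟩
    exact ⟨c, u, rfl⟩
  · rintro ⟨c, u, rfl⟩
    exact ⟨_, ⟨c, rfl⟩, _, ⟨u, rfl⟩, rfl⟩

/-- a functional seeing only degree `n` -/
theorem Dg_comp_prN (n : ℕ) (u : Co K) : Dg n (u ∘ₗ prN F2 K n) := by
  intro j hj x
  rw [LinearMap.comp_apply, Gr334.prN_sx_ne hj, map_zero]

theorem f2_eq_one {a : F2} (h : a ≠ 0) : a = 1 := by
  revert a; decide

/-- **detection by a cocycle** -/
theorem exists_cochain {A K : SS} (i : SS.Hom A K) {n : ℕ} {z : N F2 K} (hz : z ∈ N.gr F2 K n)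
    (h : z ∉ RelBd i) : ∃ α : Co K, cobd α = 0 ∧ pull i α = 0 ∧ Dg n α ∧ α z = 1 := by
  obtain ⟨f, hf, hB⟩ := Submodule.exists_le_ker_of_notMem (K := F2) h
  refine ⟨f ∘ₗ prN F2 K n, ?_, ?_, Dg_comp_prN n f, ?_⟩
  · refine LinearMap.ext fun c => ?_
    rw [cobd_apply, LinearMap.comp_apply, Gr334.prN_bd]
    exact hB (Submodule.mem_sup_left ⟨_, rfl⟩)
  · refine LinearMap.ext fun c => ?_
    rw [pull_apply, LinearMap.comp_apply, Gr334.prN_map]
    exact hB (Submodule.mem_sup_right ⟨_, rfl⟩)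
  · rw [LinearMap.comp_apply, Gr334.prN_of_mem hz]
    exact f2_eq_one hf

/-- detection of a cycle which is not a boundary (no degree) -/
theorem exists_cocycle {K : SS} {z : N F2 K} (h : z ∉ LinearMap.range (N.bd F2 K)) :
    ∃ β : Co K, cobd β = 0 ∧ β z = 1 := by
  obtain ⟨f, hf, hB⟩ := Submodule.exists_le_ker_of_notMem (K := F2) h
  refine ⟨f, LinearMap.ext fun c => hB ⟨c, rfl⟩, f2_eq_one hf⟩

/-- `sgN ev z` has degree `k + 1` -/
theorem io_cross_mem {P : SS} {k : ℕ} {z : N F2 P} (hz : z ∈ N.gr F2 P k) :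
    cross F2 (io F2 1) z ∈ N.gr F2 ((SS.std 1).prod P) (k + 1) := by
  rw [add_comm]
  exact EZ847.cross_mem_gr F2 (sx_mem_gr _) hz

/-- **T-DEG, abstract form** -/
theorem tdeg {P Z Lam S U B : SS}
    (F : SS.Hom (((SS.std 1).prod P).prod Z) Lam) (e : SS.Hom Lam S)
    (ev : SS.Hom ((SS.std 1).prod P) S) (h : e.comp F = ev.comp (SS.fst _ Z))
    (i : SS.Hom U Lam) (j : SS.Hom B S) (g : SS.Hom U B) (hU : e.comp i = j.comp g)
    {k : ℕ} {z : N F2 P} (hz : z ∈ N.gr F2 P k) (hs : sgN ev z ∉ RelBd j)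
    (ζ : N F2 Z) (ζ₀ : N F2 Lam) (hne : ζ₀ ∉ LinearMap.range (N.bd F2 Lam))
    (hF : ∀ v : ((SS.std 1).prod P).S 0, ∃ b, N.map F2 F (cross F2 (N.sx F2 v) ζ) =
      ζ₀ + N.bd F2 Lam b) :
    N.map F2 F (cross F2 (cross F2 (io F2 1) z) ζ) ∉ RelBd i := by
  obtain ⟨α, hα1, hα2, hα3, hα4⟩ := exists_cochain (n := k + 1) j
    (z := sgN ev z) (Exc406.map_mem_gr ev (io_cross_mem hz)) hs
  obtain ⟨β, hβ1, hβ2⟩ := exists_cocycle hne
  intro hmem
  obtain ⟨c, u, hcu⟩ := mem_RelBd.1 hmem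
  have h1 : cup (pull e α) β (N.map F2 F (cross F2 (cross F2 (io F2 1) z) ζ)) =
      α (N.map F2 ev (cross F2 (io F2 1) z)) * 1 := by
    refine cup_eval F e ev h hα3 β (io_cross_mem hz) ζ 1 fun v => ?_
    obtain ⟨b, hb⟩ := hF v
    have h2 : β (N.bd F2 Lam b) = 0 := LinearMap.congr_fun hβ1 b
    rw [hb, map_add, hβ2, h2, add_zero]
  have h2 : α (N.map F2 ev (cross F2 (io F2 1) z)) = 1 := hα4
  have h3 : cobd (cup (pull e α) β) = 0 := cobd_cup_zero (cobd_pull_zero e hα1) hβ1
  rw [h2, hcu, map_add, cup_zero i j e g hU hα2 β u] at h1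
  have h4 : cup (pull e α) β (N.bd F2 Lam c) = 0 := LinearMap.congr_fun h3 c
  rw [h4] at h1
  exact absurd h1 (by decide)

end Crest.Agent.R231.TDegx961
end
end

-- ▼ part R231/TDegC_961

/-!
# Row 231, leaf T-DEG (helper961), part C: topology

* `map_htpy` : homotopic maps, elementwise; `fam_homotopic` : the slices of a family over a path
* `acyc` : positive degree cycles of a contractible space are boundaries
* `compl_contractible` : a sphere minus a point
-/

set_option autoImplicit false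

noncomputable section

namespace Crest.Agent.R231.TDegx961

open Crest.Agent.R204 Crest.Agent.R204.EZ271 Crest.Agent.R231.Capx226
open Crest.Agent.R204.Sigma88 (io sgN)
open Crest.Agent.R204.Gr334 (prN)
open Crest.Agent.R204.Freu297 (Sph pt)
open unitInterval

section htp

variable {W L P : Type} [TopologicalSpace W] [TopologicalSpace L] [TopologicalSpace P]

/-- homotopic maps agree on cycles up to a boundary -/
theorem map_htpy {f g : C(W, L)} (h : f.Homotopic g) {ζ : N F2 (SS.Sing W)}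
    (hζ : N.bd F2 _ ζ = 0) :
    ∃ b, N.map F2 (SS.SingMap f) ζ = N.map F2 (SS.SingMap g) ζ + N.bd F2 _ b := by
  have h1 := LinearMap.congr_fun (HZ76.topHomotopyInv F2 W L f g h) (Hd.mk _ ζ hζ)
  unfold H.map at h1
  rw [Hd.map_mk, Hd.map_mk, Hd.mk_eq_mk] at h1
  obtain ⟨b, hb⟩ := h1
  exact ⟨b, by rw [hb]; abel⟩

/-- slice of a family -/
def slice (Φ : C(P × W, L)) (a : P) : C(W, L) :=
  Φ.comp ((ContinuousMap.const W a).prodMk (ContinuousMap.id W))


theorem slice_homotopic (Φ : C(P × W, L)) {a b : P} (h : Joined a b) :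
    (slice Φ a).Homotopic (slice Φ b) := by
  obtain ⟨γ⟩ := h
  refine ⟨⟨⟨fun x => Φ (γ x.1, x.2), ?_⟩, fun w => ?_, fun w => ?_⟩⟩
  · exact Φ.continuous.comp ((γ.continuous.comp continuous_fst).prodMk continuous_snd)
  · show Φ (γ 0, w) = Φ (a, w)
    rw [γ.source]
  · show Φ (γ 1, w) = Φ (b, w)
    rw [γ.target]

theorem N_const_pos {Y : SS} (v : Y.S 0) {K : SS} {n : ℕ} {c : N F2 K}
    (hc : c ∈ N.gr F2 K (n + 1)) : N.map F2 (SS.constHom K Y v) c = 0 := by
  refine Gr334.gr_induction (p := fun c => N.map F2 (SS.constHom K Y v) c = 0) hc (map_zero _)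
    ?_ ?_ ?_
  · intro a b ha hb; rw [map_add, ha, hb, add_zero]
  · intro r a ha; rw [map_smul, ha, smul_zero]
  · intro x
    rw [N.map_sx]
    exact Gr334.sx_act_of_lt (K := Y) (n := n + 1) (m := 0) (Nat.succ_pos n)
      ⟨fun _ => 0, fun _ _ _ => le_rfl⟩ v

/-- positive degree cycles of a contractible space are boundaries -/
theorem acyc (X : Type) [TopologicalSpace X] [ContractibleSpace X] {n : ℕ} {c : N F2 (SS.Sing X)}
    (hc : c ∈ N.gr F2 (SS.Sing X) (n + 1)) (hz : N.bd F2 _ c = 0) : ∃ b, N.bd F2 _ b = c := by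
  obtain ⟨x0, hx0⟩ := id_nullhomotopic X
  obtain ⟨b, hb⟩ := map_htpy hx0 hz
  have h1 : SS.SingMap (ContinuousMap.id X) = SS.Hom.id (SS.Sing X) := rfl
  rw [h1, map_idHom, HspSS696.singMap_const, N_const_pos _ hc, zero_add] at hb
  exact ⟨b, hb.symm⟩

end htp

/-! ### a sphere minus a point -/

theorem sph_compl_contractible {n : ℕ} (v : Sph n) :
    ContractibleSpace ({v}ᶜ : Set (Sph n)) := by
  have hv : ‖(v : EuclideanSpace ℝ (Fin (n + 1)))‖ = 1 := by simp
  have hs : (stereographic hv).source = ({v}ᶜ : Set (Sph n)) := stereographic_source hv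
  have ht : (stereographic hv).target = Set.univ := stereographic_target hv
  have h1 : ContractibleSpace (stereographic hv).source :=
    ((stereographic hv).toHomeomorphSourceTarget.trans
      ((Homeomorph.setCongr ht).trans (Homeomorph.Set.univ _))).contractibleSpace
  exact (Homeomorph.setCongr hs).symm.contractibleSpace

theorem compl_contractible {M : Type} [TopologicalSpace M] {n : ℕ} (φ : M ≃ₜ Sph n) (q : M) :
    ContractibleSpace {x : M // x ≠ q} := by
  have h := sph_compl_contractible (φ q)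
  exact (φ.subtype (p := fun x => x ≠ q) (q := fun y => y ∈ ({φ q}ᶜ : Set (Sph n))) (by
    intro x
    show x ≠ q ↔ φ x ≠ φ q
    exact (φ.injective.ne_iff).symm)).contractibleSpace

/-! ### evaluation of based loops and the suspension -/

section ev

variable {M : Type} [MetricSpace M]

open GLugx576 (Lp)
open OmHomx871 (L0 omHomeo mapHomeo)

/-- `(t, γ) ↦ γ t` -/
def evI (M : Type) [MetricSpace M] : C(I × Lp M, M) :=
  ⟨fun x => x.2 (((x.1 : I) : ℝ) : UnitAddCircle), by
    have h : Continuous fun x : I × Lp M => (x.2, ((x.1 : I) : ℝ)) :=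
      continuous_snd.prodMk (continuous_subtype_val.comp continuous_fst)
    exact GLugx576.continuous_evalR.comp h⟩


/-- evaluation on based loops -/
def evL (p : M) : C(I × L0 p, M) :=
  (evI M).comp ((ContinuousMap.id I).prodMap ⟨Subtype.val, continuous_subtype_val⟩)

/-- the evaluation family `Δ¹ × Sing (L0 p) → Sing M` -/
def evS (p : M) : SS.Hom ((SS.std 1).prod (SS.Sing (L0 p))) (SS.Sing M) :=
  Sus330.fam (n := 1) ((evL p).comp (Sus330.lam1.prodMap (ContinuousMap.id _)))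

theorem evS_app (p : M) {n : ℕ} (θ : Op n 1) (x : (SS.Sing (L0 p)).S n) (u : Sus330.Dl n) :
    Sus330.sg ((evS p).app n (θ, x)) u =
      (Sus330.sg x u).1 ((((Sus330.lam1 (stdSimplex.map θ u) : I) : ℝ)) : UnitAddCircle) := rfl

/-- both ends of the evaluation family are constant -/
theorem evS_ends (p : M) : Sigma88.Ends (evS p) (HspSS696.ptS p) where
  zero n x := by
    refine ContinuousMap.ext fun u => ?_
    refine (evS_app p (Sigma88.cst n 0) x u).trans ?_
    have h : Sus330.lam1 (stdSimplex.map (Sigma88.cst n 0) u) = 0 := by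
      refine Subtype.ext ?_
      rw [Sus330.LoopStr.map_one_val]
      exact Finset.sum_eq_zero fun a _ => if_neg (show ¬ ((0 : Fin 2) = 1) by decide)
    rw [h]
    exact (Sus330.sg x u).2
  one n x := by
    refine ContinuousMap.ext fun u => ?_
    refine (evS_app p (Sigma88.cst n 1) x u).trans ?_
    have h : Sus330.lam1 (stdSimplex.map (Sigma88.cst n 1) u) = 1 := by
      refine Subtype.ext ?_
      rw [Sus330.LoopStr.map_one_val]
      refine (Finset.sum_congr rfl fun a _ => if_pos (show (1 : Fin 2) = 1 from rfl)).trans ?_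
      exact stdSimplex.sum_eq_one u
    rw [h]
    show (Sus330.sg x u).1 ((1 : ℝ) : UnitAddCircle) = p
    rw [GLugx576.coe_one_circle]
    exact (Sus330.sg x u).2

/-- a point as a loop of dimension `0` -/
def toG0 {Z : Type} [TopologicalSpace Z] (z₀ : Z) : C(Z, GenLoop (Fin 0) Z z₀) :=
  ⟨fun y => ⟨ContinuousMap.const _ y, fun _ h => h.elim fun i => i.elim0⟩, by
    refine Continuous.subtype_mk (f := fun y : Z => (ContinuousMap.const (Fin 0 → I) y)) ?_ _
    exact ContinuousMap.continuous_const'⟩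

variable {k : ℕ} (hk : 1 ≤ k)

/-- homeomorphism to the archive's loop space -/
def toOS (φ : M ≃ₜ Sph (k + 1)) (p : M) (h : φ p = pt (k + 1)) : L0 p ≃ₜ OmS94.OS k :=
  (omHomeo p).trans (mapHomeo φ h)

theorem toOS_ev (φ : M ≃ₜ Sph (k + 1)) (p : M) (h : φ p = pt (k + 1)) :
    (Sus330.LoopStr.evH (Sus330.genLoop (Z := Sph (k + 1)) (z₀ := pt (k + 1)) 0)).comp
      (SS.prodMap (SS.Hom.id _) (SS.SingMap ((toOS φ p h : L0 p ≃ₜ _) : C(_, _)))) =
    (SS.SingMap ((toG0 (pt (k + 1))).comp (φ : C(M, Sph (k + 1))))).comp (evS p) := by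
  refine SS.Hom.ext (funext fun n => funext fun x => ?_)
  refine ContinuousMap.ext fun u => ?_
  refine GenLoop.ext _ _ fun c => ?_
  exact (Cubes735.ev_apply (Z := Sph (k + 1)) (n := 0) _ _ c)

/-- not being a boundary is detected after a map -/
theorem not_bd_of_map {K L : SS} (f : SS.Hom K L) {c : N F2 K}
    (h : N.map F2 f c ∉ LinearMap.range (N.bd F2 L)) : c ∉ LinearMap.range (N.bd F2 K) := by
  rintro ⟨b, rfl⟩
  exact h ⟨N.map F2 f b, (map_bd' F2 f b).symm⟩

/-- homeomorphisms preserve non-boundaries -/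
theorem not_bd_homeo {X Y : Type} [TopologicalSpace X] [TopologicalSpace Y] (e : X ≃ₜ Y)
    {c : N F2 (SS.Sing X)} (h : c ∉ LinearMap.range (N.bd F2 (SS.Sing X))) :
    N.map F2 (SS.SingMap (e : C(X, Y))) c ∉ LinearMap.range (N.bd F2 (SS.Sing Y)) := by
  refine not_bd_of_map (SS.SingMap (e.symm : C(Y, X))) ?_
  have h1 : (SS.SingMap (e.symm : C(Y, X))).comp (SS.SingMap (e : C(X, Y))) = SS.Hom.id _ := by
    refine SS.Hom.ext (funext fun n => funext fun x => ContinuousMap.ext fun u => ?_)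
    exact e.symm_apply_apply _
  rwa [map_map, h1, map_idHom]

include hk in
/-- **the suspension of a nonzero class of degree `k` is nonzero** -/
theorem sus_ne (φ : M ≃ₜ Sph (k + 1)) (p : M) {z : N F2 (SS.Sing (L0 p))}
    (hz : z ∈ N.gr F2 (SS.Sing (L0 p)) k) (hb : N.bd F2 _ z = 0)
    (hne : z ∉ LinearMap.range (N.bd F2 (SS.Sing (L0 p)))) :
    sgN (evS p) z ∉ LinearMap.range (N.bd F2 (SS.Sing M)) := by
  obtain ⟨ψ, hψ⟩ := OmHomx871.exists_sphere_homeo (n := k + 1) (φ p) (pt (k + 1))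
  have h : (φ.trans ψ) p = pt (k + 1) := hψ
  set E := toOS (φ.trans ψ) p h with hE
  have h1 := not_bd_homeo E hne
  set z' := N.map F2 (SS.SingMap (E : C(L0 p, OmS94.OS k))) z with hz'
  have hb' : N.bd F2 _ z' = 0 := by rw [hz', ← map_bd', hb, map_zero]
  have hx : Hd.mk (N.bd F2 _) z' hb' ∈ H.gr F2 (SS.Sing (OmS94.OS k)) k :=
    Gr334.mk_mem_gr (Exc406.map_mem_gr _ hz) hb'
  have hx0 : Hd.mk (N.bd F2 _) z' hb' ≠ 0 := by
    intro h0
    rw [Hd.mk_eq_zero] at h0
    exact h1 h0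
  have h2 := OmS94.sigma_ne hk hx hx0
  rw [Sus330.LoopStr.sigma_mk] at h2
  refine not_bd_of_map (SS.SingMap ((toG0 (pt (k + 1))).comp
    ((φ.trans ψ : M ≃ₜ Sph (k + 1)) : C(M, Sph (k + 1))))) ?_
  have h3 : N.map F2 (SS.SingMap ((toG0 (pt (k + 1))).comp
      ((φ.trans ψ : M ≃ₜ Sph (k + 1)) : C(M, Sph (k + 1))))) (sgN (evS p) z) =
      (Sus330.genLoop (Z := Sph (k + 1)) (z₀ := pt (k + 1)) 0).sig F2 z' := by
    rw [Sigma88.sgN_apply, map_map, ← toOS_ev (φ.trans ψ) p h, ← map_map, map_cross, map_idHom]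
    rfl
  rw [h3]
  intro h4
  exact h2 (Hd.mk_eq_zero.2 h4)

/-- degree `k + 1` of the suspension -/
theorem sgN_mem {P Y : SS} (e : SS.Hom ((SS.std 1).prod P) Y) {k : ℕ} {z : N F2 P}
    (hz : z ∈ N.gr F2 P k) : sgN e z ∈ N.gr F2 Y (k + 1) := Exc406.map_mem_gr e (io_cross_mem hz)

/-- inclusion of a subset -/
def inc {X : Type} [TopologicalSpace X] (s : Set X) : C(s, X) := ⟨Subtype.val, continuous_subtype_val⟩

theorem inc_SInj {X : Type} [TopologicalSpace X] (s : Set X) : HA683.SInj (SS.SingMap (inc s)) := by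
  intro n x y h
  refine ContinuousMap.ext fun u => Subtype.ext ?_
  exact congrArg (fun f : C(stdSimplex ℝ (Fin (n + 1)), X) => f u) h

/-- relative boundaries modulo an acyclic subspace: a cycle of positive degree is a boundary -/
theorem bd_of_relBd {A K : SS} {i : SS.Hom A K} (hi : HA683.SInj i) {n : ℕ}
    (hA : ∀ u ∈ N.gr F2 A n, N.bd F2 A u = 0 → ∃ b, N.bd F2 A b = u)
    {c : N F2 K} (hc : c ∈ N.gr F2 K n) (hb : N.bd F2 K c = 0) (h : c ∈ RelBd i) :
    c ∈ LinearMap.range (N.bd F2 K) := by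
  obtain ⟨w, u, rfl⟩ := mem_RelBd.1 h
  have h1 : N.bd F2 K w + N.map F2 i u = N.bd F2 K (prN F2 K (n + 1) w) +
      N.map F2 i (prN F2 A n u) := by
    have h2 := Gr334.prN_of_mem hc
    rw [map_add, Gr334.prN_bd, Gr334.prN_map] at h2
    exact h2.symm
  have h3 : N.bd F2 A (prN F2 A n u) = 0 := by
    refine HA683.N_map_injective F2 hi ?_
    rw [map_zero, map_bd']
    rw [h1, map_add, N.bd_bd, zero_add] at hb
    exact hb
  obtain ⟨b, hb'⟩ := hA _ (Gr334.prN_mem n u) h3
  rw [h1, ← hb', map_bd', ← map_add]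
  exact ⟨_, rfl⟩

include hk in
/-- **the suspension of a nonzero class of degree `k` is nonzero modulo the complement of a point** -/
theorem sus_rel_ne (φ : M ≃ₜ Sph (k + 1)) (p q : M) {z : N F2 (SS.Sing (L0 p))}
    (hz : z ∈ N.gr F2 (SS.Sing (L0 p)) k) (hb : N.bd F2 _ z = 0)
    (hne : z ∉ LinearMap.range (N.bd F2 (SS.Sing (L0 p)))) :
    sgN (evS p) z ∉ RelBd (SS.SingMap (inc {x : M | x ≠ q})) := by
  intro h
  have : ContractibleSpace {x : M // x ≠ q} := compl_contractible φ q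
  refine sus_ne hk φ p hz hb hne (bd_of_relBd (inc_SInj _) (n := k + 1) ?_ (sgN_mem _ hz) ?_ h)
  · intro u hu hu0
    exact acyc {x : M // x ≠ q} hu hu0
  · rw [Sigma88.bd_sgN (evS_ends p), hb, map_zero, neg_zero]

end ev

end Crest.Agent.R231.TDegx961
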