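import Crest.Agent.R204.EZSym_847
import Crest.Agent.R204.EZHtp_271
import Crest.Agent.R204.ExcD_406
import Crest.Agent.R231.TC_569
import Crest.Agent.R231.Pair_877
import Crest.Agent.R231.GLoop_576
import Crest.Agent.R231.IfA_978

-- ▼ part R231/TAct_569
section

/-!
# Row 231, leaf H1 (helper569): actions of the simplicial circle group on R204 chains

* `ST = Sing T`, `T = UnitAddCircle`; `addH`, `pont` (Pontryagin product of chains of `T`);
* `TAct K` : action of `ST` on a simplicial set `K`;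
* `A.op c z` chain operator of a chain `c` of `T`: Leibniz `bd_op`, `op_op`, `pont_comm`;
* `half = [path t ↦ t/2]`, `bd_half`, `pont_half_half = 0`;
* `A.rot v`; `A.gN`, `A.hN` and all identities of a `TC`;
* `A.tc : TC`, chain groups `N.gr F2 K n`.
-/

set_option autoImplicit false

noncomputable section

namespace Crest.Agent.R231.TActx569

open Crest.Agent.R204 EZ271 EZ847 Coalg847

/-- the simplicial circle group -/
abbrev ST : SS := SS.Sing UnitAddCircle

/-- `n`-simplices of the circle -/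
abbrev CT (n : ℕ) : Type := C(stdSimplex ℝ (Fin (n + 1)), UnitAddCircle)

/-- addition of simplices of the circle -/
def sadd {n : ℕ} (s t : ST.S n) : ST.S n := @HAdd.hAdd (CT n) (CT n) (CT n) _ s t
/-- zero simplex of the circle -/
def szero (n : ℕ) : ST.S n := (0 : CT n)
/-- negative simplex -/
def sneg {n : ℕ} (s : ST.S n) : ST.S n := @Neg.neg (CT n) _ s

theorem sadd_comm {n : ℕ} (s t : ST.S n) : sadd s t = sadd t s := @add_comm (CT n) _ s t

/-- addition of the simplicial circle group -/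
def addH : SS.Hom (ST.prod ST) ST :=
  ⟨fun _ x => sadd x.1 x.2, fun _ _ => rfl⟩

theorem addH_swap : addH.comp (SS.swap ST ST) = addH := by
  refine SS.Hom.ext (funext fun n => funext fun x => ?_)
  exact sadd_comm x.2 x.1

/-- action of the simplicial circle group -/
structure TAct (K : SS) where
  a : SS.Hom (ST.prod K) K
  assoc : ∀ (n : ℕ) (s t : ST.S n) (x : K.S n),
    a.app n (sadd s t, x) = a.app n (s, a.app n (t, x))
  zero : ∀ (n : ℕ) (x : K.S n), a.app n (szero n, x) = x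

/-- Pontryagin product of chains on the circle -/
def pont : N F2 ST →ₗ[F2] N F2 ST →ₗ[F2] N F2 ST := (cross F2).compr₂ (N.map F2 addH)

theorem pont_apply (c c' : N F2 ST) : pont c c' = N.map F2 addH (cross F2 c c') := rfl

theorem pont_comm (c c' : N F2 ST) : pont c c' = pont c' c := by
  rw [pont_apply, pont_apply, ← cross_swap_F2 c' c, map_map, addH_swap]

/-- if `c = C.c u` is a cone, then the square of `c` is zero -/
theorem pont_cone_sq {p : ℕ} (x : ST.S (p + 1)) : pont (N.sx F2 x) (N.sx F2 x) = 0 := by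
  have iotaS : N.sx F2 (iota (p + 1)) =
      (Cone.std (p + 1)).c F2 (N.map F2 (stdMap (Op.face 0)) (N.sx F2 (iota p))) := iota_succ F2 p
  have e1 : N.sx F2 x = N.map F2 (ST.yo x) (N.sx F2 (iota (p + 1))) := sx_eq_map_iota F2 x
  rw [pont_apply]
  rw [e1, ← map_cross, iotaS]
  set A := Cone.std (p + 1)
  set u := N.map F2 (stdMap (Op.face 0)) (N.sx F2 (iota p))
  rw [cross_c_c, sg_F2, map_add, map_add]
  have h2 : (A.prod A).c F2 (cross F2 (A.c F2 u) u) =
      N.map F2 (SS.swap _ _) ((A.prod A).c F2 (cross F2 u (A.c F2 u))) := by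
    rw [map_swap_c, cross_swap_F2]
  rw [h2, map_add, map_map, map_map, map_map]
  have h3 : (addH.comp (SS.prodMap (ST.yo x) (ST.yo x))).comp (SS.swap _ _) =
      addH.comp (SS.prodMap (ST.yo x) (ST.yo x)) := by
    have h4 : (addH.comp (SS.prodMap (ST.yo x) (ST.yo x))).comp (SS.swap _ _) =
      (addH.comp (SS.swap ST ST)).comp (SS.prodMap (ST.yo x) (ST.yo x)) := rfl
    rw [h4, addH_swap]
  rw [h3]
  exact TCx569.TC.add_self _

/-- vertices of the circle -/
def vx (v : UnitAddCircle) : ST.S 0 := (ContinuousMap.const _ v : CT 0)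

/-- half turn path -/
def hp : ST.S 1 :=
  (⟨fun x => (((x : Fin 2 → ℝ) 1 / 2 : ℝ) : UnitAddCircle), by
    refine (AddCircle.continuous_mk' (1 : ℝ)).comp ?_
    exact (((continuous_apply (1 : Fin 2)).comp continuous_subtype_val).div_const 2)⟩ : CT 1)

/-- the half turn chain -/
def half : N F2 ST := N.sx F2 hp


theorem pont_half_half : pont half half = 0 := pont_cone_sq (p := 0) hp

theorem face_vert0 : ST.act (Op.face (0 : Fin 2)) hp = vx ((1 / 2 : ℝ) : UnitAddCircle) := by
  refine ContinuousMap.ext fun x => ?_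
  change ((((stdSimplex.map (Op.face (0 : Fin 2)) x : stdSimplex ℝ (Fin 2)) : Fin 2 → ℝ) 1 / 2 : ℝ) :
    UnitAddCircle) = ((1 / 2 : ℝ) : UnitAddCircle)
  have h1 : ((stdSimplex.map (Op.face (0 : Fin 2)) x : stdSimplex ℝ (Fin 2)) : Fin 2 → ℝ) 1 = 1 := by
    refine (congrFun (stdSimplex.map_coe (Op.face (0 : Fin 2)) x) 1).trans ?_
    rw [FunOnFinite.linearMap_apply_apply, Finset.filter_true_of_mem (fun a _ => by
      have : a = 0 := Fin.ext (by omega)
      subst this; rfl)]
    exact x.2.2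
  rw [h1]

theorem face_vert1 : ST.act (Op.face (1 : Fin 2)) hp = vx 0 := by
  refine ContinuousMap.ext fun x => ?_
  change ((((stdSimplex.map (Op.face (1 : Fin 2)) x : stdSimplex ℝ (Fin 2)) : Fin 2 → ℝ) 1 / 2 : ℝ) :
    UnitAddCircle) = 0
  have h1 : ((stdSimplex.map (Op.face (1 : Fin 2)) x : stdSimplex ℝ (Fin 2)) : Fin 2 → ℝ) 1 = 0 := by
    refine (congrFun (stdSimplex.map_coe (Op.face (1 : Fin 2)) x) 1).trans ?_
    rw [FunOnFinite.linearMap_apply_apply, Finset.filter_false_of_mem (fun a _ => by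
      have : a = 0 := Fin.ext (by omega)
      subst this
      intro h
      have := congrArg Fin.val h
      rw [Ch.face_val] at this
      simp at this)]
    rfl
  rw [h1, zero_div, AddCircle.coe_zero]

theorem bd_half : N.bd F2 ST half = N.sx F2 (vx ((1 / 2 : ℝ) : UnitAddCircle)) + N.sx F2 (vx 0) := by
  unfold half
  rw [bd_sx_succ, Fin.sum_univ_two, face_vert0, face_vert1]
  have h : (-1 : F2) = 1 := rfl
  simp [h]

namespace TAct

variable {K : SS} (A : TAct K)

/-- the operator of a chain of the circle -/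
def op : N F2 ST →ₗ[F2] N F2 K →ₗ[F2] N F2 K := (cross F2).compr₂ (N.map F2 A.a)

theorem op_apply (c : N F2 ST) (z : N F2 K) : A.op c z = N.map F2 A.a (cross F2 c z) := rfl

theorem bd_op (c : N F2 ST) (z : N F2 K) :
    N.bd F2 K (A.op c z) = A.op (N.bd F2 ST c) z + A.op c (N.bd F2 K z) := by
  rw [op_apply, ← map_bd', bd_cross, map_add, sg_F2]; rfl

theorem op_op (c c' : N F2 ST) (z : N F2 K) : A.op c (A.op c' z) = A.op (pont c c') z := by
  rw [op_apply, op_apply, op_apply, pont_apply]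
  have h1 := map_cross F2 (SS.Hom.id ST) A.a c (cross F2 c' z)
  rw [map_idHom] at h1
  have h2 := map_cross F2 addH (SS.Hom.id K) (cross F2 c c') z
  rw [map_idHom] at h2
  rw [← h1, ← h2, ← cross_assoc, map_map, map_map, map_map]
  have h3 : (A.a.comp (SS.prodMap (SS.Hom.id ST) A.a)).comp (asc ST ST K) =
      A.a.comp (SS.prodMap addH (SS.Hom.id K)) := by
    refine SS.Hom.ext (funext fun n => funext fun x => ?_)
    exact (A.assoc n x.1.1 x.1.2 x.2).symm
  rw [h3]

theorem op_comm (c c' : N F2 ST) (z : N F2 K) : A.op c (A.op c' z) = A.op c' (A.op c z) := by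
  rw [op_op, op_op, pont_comm]

/-- rotation -/
def rot (v : UnitAddCircle) : SS.Hom K K :=
  A.a.comp (SS.pair (SS.constHom K ST (vx v)) (SS.Hom.id K))



theorem op_vx (v : UnitAddCircle) (z : N F2 K) : A.op (N.sx F2 (vx v)) z = N.map F2 (A.rot v) z := by
  rw [op_apply, cross_vertex_left, map_map]; rfl

theorem rot_zero : A.rot 0 = SS.Hom.id K := by
  refine SS.Hom.ext (funext fun n => funext fun x => ?_)
  exact A.zero n x

theorem rot_comp (v w : UnitAddCircle) : (A.rot v).comp (A.rot w) = A.rot (v + w) := by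
  refine SS.Hom.ext (funext fun n => funext fun x => ?_)
  exact (A.assoc n _ _ x).symm

theorem half_add_half : (((1 / 2 : ℝ) : UnitAddCircle)) + ((1 / 2 : ℝ) : UnitAddCircle) = 0 := by
  rw [← AddCircle.coe_add, show (1 / 2 : ℝ) + 1 / 2 = 1 by norm_num]
  exact AddCircle.coe_period 1

/-- rotation by a half turn on chains -/
def gN : N F2 K →ₗ[F2] N F2 K := N.map F2 (A.rot ((1 / 2 : ℝ) : UnitAddCircle))
/-- the half turn chain operator -/
def hN : N F2 K →ₗ[F2] N F2 K := A.op half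

theorem gN_eq (z : N F2 K) : A.gN z = A.op (N.sx F2 (vx ((1 / 2 : ℝ) : UnitAddCircle))) z :=
  (A.op_vx _ z).symm

theorem gN_gN (z : N F2 K) : A.gN (A.gN z) = z := by
  unfold gN
  rw [map_map, rot_comp, half_add_half, rot_zero, map_idHom]

theorem hN_hN (z : N F2 K) : A.hN (A.hN z) = 0 := by
  unfold hN
  rw [op_op, pont_half_half, map_zero, LinearMap.zero_apply]

theorem hN_gN (z : N F2 K) : A.hN (A.gN z) = A.gN (A.hN z) := by
  rw [gN_eq, gN_eq]; exact A.op_comm _ _ _

theorem bd_gN (z : N F2 K) : N.bd F2 K (A.gN z) = A.gN (N.bd F2 K z) := (map_bd' F2 _ _).symm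

theorem bd_hN (z : N F2 K) : N.bd F2 K (A.hN z) + A.hN (N.bd F2 K z) = z + A.gN z := by
  unfold hN
  rw [bd_op, bd_half, map_add, LinearMap.add_apply, op_vx, op_vx, rot_zero, map_idHom, add_assoc,
    TCx569.TC.add_self, add_zero, add_comm]
  rfl

/-! ## degrees -/

theorem sx_mem_gr {L : SS} {n : ℕ} (x : L.S n) : N.sx F2 x ∈ N.gr F2 L n :=
  ⟨Finsupp.single ⟨_, x⟩ 1, Submodule.subset_span ⟨x, rfl⟩, rfl⟩

theorem op_mem_gr {m n : ℕ} {c : N F2 ST} {z : N F2 K} (hc : c ∈ N.gr F2 ST m) (hz : z ∈ N.gr F2 K n) :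
    A.op c z ∈ N.gr F2 K (m + n) :=
  Exc406.map_mem_gr A.a (cross_mem_gr F2 hc hz)

theorem gN_mem_gr {n : ℕ} {z : N F2 K} (hz : z ∈ N.gr F2 K n) : A.gN z ∈ N.gr F2 K n :=
  Exc406.map_mem_gr _ hz

theorem hN_mem_gr {n : ℕ} {z : N F2 K} (hz : z ∈ N.gr F2 K n) : A.hN z ∈ N.gr F2 K (n + 1) := by
  rw [add_comm n 1]
  exact A.op_mem_gr (sx_mem_gr hp) hz

/-- **the T-complex of a simplicial set with an action of the circle** -/
def tc : TCx569.TC where
  C n := N.gr F2 K n
  d n := (N.bd F2 K).restrict (fun _ hx => Exc406.bd_mem_gr n hx)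
  g n := A.gN.restrict (fun _ hx => A.gN_mem_gr hx)
  h n := A.hN.restrict (fun _ hx => A.hN_mem_gr hx)
  dd n x := Subtype.ext (N.bd_bd _)
  gg n x := Subtype.ext (A.gN_gN _)
  hh n x := Subtype.ext (A.hN_hN _)
  hg n x := Subtype.ext (A.hN_gN _)
  dg n x := Subtype.ext (A.bd_gN _)
  dh_zero x := Subtype.ext (by
    have h := A.bd_hN x.1
    rw [Exc406.bd_gr_zero x.2, map_zero, add_zero] at h
    exact h)
  dh_succ n x := Subtype.ext (A.bd_hN _)

/-- underlying chain -/
def val (n : ℕ) : A.tc.C n →ₗ[F2] N F2 K := (N.gr F2 K n).subtype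

/-- a chain in degree `n` as an element of the complex -/
def mkC {n : ℕ} (z : N F2 K) (hz : z ∈ N.gr F2 K n) : A.tc.C n := ⟨z, hz⟩
@[simp] theorem val_mkC {n : ℕ} (z : N F2 K) (hz : z ∈ N.gr F2 K n) : A.val n (A.mkC z hz) = z := rfl

@[simp] theorem val_d (n : ℕ) (x : A.tc.C (n + 1)) :
    A.val n (A.tc.d n x) = N.bd F2 K (A.val (n + 1) x) := rfl
@[simp] theorem val_g (n : ℕ) (x : A.tc.C n) : A.val n (A.tc.g n x) = A.gN (A.val n x) := rfl
@[simp] theorem val_h (n : ℕ) (x : A.tc.C n) : A.val (n + 1) (A.tc.h n x) = A.hN (A.val n x) := rfl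

end TAct

end Crest.Agent.R231.TActx569
end
end

-- ▼ part R231/TSub_569

/-!
# Row 231, leaf H1b (helper569): T-complexes of spaces with circle action, sub-complexes, loops

* `TAct.sing ρ h0 ha : TAct (SS.Sing E)` for a continuous action `ρ : C(UnitAddCircle × E, E)`;
  `op_mem_CS` : chains of an invariant set are stable under all `op c`
* `A.Stb W` (stable submodules of `N F2 K`), `A.sub W hW : TC` with `C j = ↥(N.gr F2 K j ⊓ W)`,
  `sval`, `smk`, graded submodules `A.gs hW V j = comap sval V`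
* `TC.toMix : Mix` (`De = (1+g)h`), `DD_toMix : DD = DT`
* loops: `LA M : TAct (SS.Sing (Lp M))`, `WL M = ⨆ t, CS (X M t)`, `TL M : TC`, `FL M t`.
-/

set_option autoImplicit false

noncomputable section

open Crest.Agent.R204 Crest.Agent.R204.EZ271 Crest.Agent.R204.EZ847 Crest.Agent.R204.SingAct265
open Crest.Agent.R231.TCx569 Crest.Agent.R231.Pairx877

namespace Crest.Agent.R231.TActx569

/-! ## spaces with an action of the circle -/

section sing

variable {E : Type} [TopologicalSpace E]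

/-- a continuous action of the circle as a simplicial action -/
def TAct.sing (ρ : C(UnitAddCircle × E, E)) (h0 : ∀ x, ρ (0, x) = x)
    (ha : ∀ s t x, ρ (s + t, x) = ρ (s, ρ (t, x))) : TAct (SS.Sing E) where
  a := famAct (SS.Hom.id ST) ρ
  assoc n s t x := sing_ext fun u => ha _ _ _
  zero n x := sing_ext fun u => h0 _

variable {ρ : C(UnitAddCircle × E, E)} {h0 : ∀ x, ρ (0, x) = x}
  {ha : ∀ s t x, ρ (s + t, x) = ρ (s, ρ (t, x))}

@[simp] theorem TAct.ev_sing {n : ℕ} (s : ST.S n) (x : (SS.Sing E).S n) (u : stdSimplex ℝ (Fin (n + 1))) :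
    ev ((TAct.sing ρ h0 ha).a.app n (s, x)) u = ρ (ev s u, ev x u) := rfl

@[simp] theorem TAct.ev_rot {n : ℕ} (v : UnitAddCircle) (x : (SS.Sing E).S n)
    (u : stdSimplex ℝ (Fin (n + 1))) :
    ev (((TAct.sing ρ h0 ha).rot v).app n x) u = ρ (v, ev x u) := rfl

/-- rotation on the space -/
def rotC (ρ : C(UnitAddCircle × E, E)) (v : UnitAddCircle) : C(E, E) :=
  ⟨fun x => ρ (v, x), ρ.continuous.comp (by fun_prop)⟩

theorem TAct.rot_sing (v : UnitAddCircle) :
    (TAct.sing ρ h0 ha).rot v = SS.SingMap (rotC ρ v) := by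
  refine SS.Hom.ext (funext fun n => funext fun x => ?_)
  exact sing_ext fun u => rfl

/-- chains of an invariant set are stable under the operators of chains of the circle -/
theorem TAct.op_mem_CS {X : Set E} (hX : ∀ (v : UnitAddCircle), ∀ x ∈ X, ρ (v, x) ∈ X) (c : N F2 ST) :
    ∀ z ∈ CS X, (TAct.sing ρ h0 ha).op c z ∈ CS X := by
  refine map_mem_of_CS fun n σ hσ => ?_
  rw [TAct.op_apply]
  have e1 : N.sx F2 σ = N.map F2 ((SS.Sing E).yo σ) (N.sx F2 (iota n)) := sx_eq_map_iota F2 σ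
  have e2 := map_cross F2 (SS.Hom.id ST) ((SS.Sing E).yo σ) c (N.sx F2 (iota n))
  rw [map_idHom, ← e1] at e2
  rw [← e2, map_map]
  refine map_mem_CS _ (fun m x t => ?_) _
  exact hX _ _ (hσ _)

end sing

/-! ## stable submodules -/

namespace TAct

variable {K : SS} (A : TAct K)

/-- submodules of the chains which are stable under boundary, `g`, `h` -/
structure Stb (W : Submodule F2 (N F2 K)) : Prop where
  bd : ∀ z ∈ W, N.bd F2 K z ∈ W
  g : ∀ z ∈ W, A.gN z ∈ W
  h : ∀ z ∈ W, A.hN z ∈ W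

variable {A}

theorem Stb.iSup {ι : Sort*} {W : ι → Submodule F2 (N F2 K)} (hW : ∀ i, A.Stb (W i)) :
    A.Stb (⨆ i, W i) := by
  have key : ∀ f : N F2 K →ₗ[F2] N F2 K, (∀ i, ∀ z ∈ W i, f z ∈ W i) → ∀ z ∈ ⨆ i, W i, f z ∈ ⨆ i, W i := by
    intro f hf
    have h1 : (⨆ i, W i) ≤ (⨆ i, W i).comap f :=
      iSup_le fun i z hz => (le_iSup W i) (hf i z hz)
    exact fun z hz => h1 hz
  exact ⟨key _ fun i => (hW i).bd, key _ fun i => (hW i).g, key _ fun i => (hW i).h⟩

variable (A)

/-- the T-complex of a stable submodule -/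
def sub (W : Submodule F2 (N F2 K)) (hW : A.Stb W) : TC where
  C n := ↥(N.gr F2 K n ⊓ W)
  d n := (N.bd F2 K).restrict (fun _ hx => ⟨Exc406.bd_mem_gr n hx.1, hW.bd _ hx.2⟩)
  g n := A.gN.restrict (fun _ hx => ⟨A.gN_mem_gr hx.1, hW.g _ hx.2⟩)
  h n := A.hN.restrict (fun _ hx => ⟨A.hN_mem_gr hx.1, hW.h _ hx.2⟩)
  dd n x := Subtype.ext (N.bd_bd _)
  gg n x := Subtype.ext (A.gN_gN _)
  hh n x := Subtype.ext (A.hN_hN _)
  hg n x := Subtype.ext (A.hN_gN _)
  dg n x := Subtype.ext (A.bd_gN _)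
  dh_zero x := Subtype.ext (by
    have h := A.bd_hN x.1
    rw [Exc406.bd_gr_zero x.2.1, map_zero, add_zero] at h
    exact h)
  dh_succ n x := Subtype.ext (A.bd_hN _)

variable {W : Submodule F2 (N F2 K)} (hW : A.Stb W)

/-- underlying chain -/
def sval (n : ℕ) : (A.sub W hW).C n →ₗ[F2] N F2 K := (N.gr F2 K n ⊓ W).subtype

theorem sval_inj (n : ℕ) : Function.Injective (A.sval hW n) := Subtype.val_injective
theorem sval_mem {n : ℕ} (x : (A.sub W hW).C n) : A.sval hW n x ∈ N.gr F2 K n := x.2.1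
theorem sval_mem' {n : ℕ} (x : (A.sub W hW).C n) : A.sval hW n x ∈ W := x.2.2
/-- a chain in degree `n` as an element of the complex -/
def smk {n : ℕ} (z : N F2 K) (hz : z ∈ N.gr F2 K n) (hz' : z ∈ W) : (A.sub W hW).C n := ⟨z, hz, hz'⟩
@[simp] theorem sval_smk {n : ℕ} (z : N F2 K) (hz : z ∈ N.gr F2 K n) (hz' : z ∈ W) :
    A.sval hW n (A.smk hW z hz hz') = z := rfl

@[simp] theorem sval_d (n : ℕ) (x : (A.sub W hW).C (n + 1)) :
    A.sval hW n ((A.sub W hW).d n x) = N.bd F2 K (A.sval hW (n + 1) x) := rfl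
@[simp] theorem sval_g (n : ℕ) (x : (A.sub W hW).C n) :
    A.sval hW n ((A.sub W hW).g n x) = A.gN (A.sval hW n x) := rfl
@[simp] theorem sval_h (n : ℕ) (x : (A.sub W hW).C n) :
    A.sval hW (n + 1) ((A.sub W hW).h n x) = A.hN (A.sval hW n x) := rfl

/-- graded submodule of the chains in `V` -/
def gs (V : Submodule F2 (N F2 K)) : ∀ j, Submodule F2 ((A.sub W hW).C j) := fun j => V.comap (A.sval hW j)


theorem gs_mono {V V' : Submodule F2 (N F2 K)} (h : V ≤ V') (j : ℕ) : A.gs hW V j ≤ A.gs hW V' j :=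
  fun _ hx => h hx


end TAct

end Crest.Agent.R231.TActx569

/-! ## the mixed complex of block A -/

namespace Crest.Agent.R231.TCx569

open Crest.Agent.R231.IfAx978

/-- forget to a mixed complex -/
def TC.toMix (X : TC) : Mix where
  C := X.C
  d := X.d
  De n := (LinearMap.id + X.g (n + 1)) ∘ₗ X.h n
  dd := X.dd
  DeDe n x := by
    simp only [LinearMap.comp_apply, LinearMap.add_apply, LinearMap.id_apply, map_add]
    rw [X.hg, X.hh, map_zero]; simp
  dDe0 x := by
    simp only [LinearMap.comp_apply, LinearMap.add_apply, LinearMap.id_apply, map_add]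
    rw [X.dg, X.dh_zero, map_add, X.gg]
    have h1 : x + X.g 0 x + (X.g 0 x + x) = (x + x) + (X.g 0 x + X.g 0 x) := by abel
    rw [h1, TC.add_self, TC.add_self, add_zero]
  dDe n x := by
    simp only [LinearMap.comp_apply, LinearMap.add_apply, LinearMap.id_apply, map_add]
    have h0 : X.d (n + 1) (X.h (n + 1) x) = x + X.g (n + 1) x + X.h n (X.d n x) := by
      have h2 := congrArg (· + X.h n (X.d n x)) (X.dh_succ n x)
      simp only [add_assoc, TC.add_self, add_zero] at h2
      rw [h2]; abel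
    rw [X.dg, h0, map_add, map_add, X.gg]
    have h1 : x + X.g (n + 1) x + X.h n (X.d n x) +
        (X.g (n + 1) x + x + X.g (n + 1) (X.h n (X.d n x))) =
        (x + x) + (X.g (n + 1) x + X.g (n + 1) x) + (X.h n (X.d n x) + X.g (n + 1) (X.h n (X.d n x))) := by
      abel
    rw [h1, TC.add_self, TC.add_self, zero_add, zero_add]

theorem TC.DD_toMix (X : TC) (c : X.P) : DD (X := X.toMix) c = X.DT c := by
  funext n
  rcases n with _ | n
  · change X.d 0 (c 1) = X.d 0 (c 1) + ((0 : X.C 0) + X.g 0 (0 : X.C 0))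
    rw [map_zero, add_zero, add_zero]
  · rfl

end Crest.Agent.R231.TCx569

/-! ## loops -/

namespace Crest.Agent.R231.TActx569

open Crest.Agent.R231.GLugx576 Crest.Agent.R231.IfAx978

section loops

variable (M : Type) [MetricSpace M]

/-- joint rotation -/
def rho : C(UnitAddCircle × Lp M, Lp M) := ⟨fun p => rot p.1 p.2, continuous_rot⟩

/-- the action of the circle on loops -/
def LA : TAct (SS.Sing (Lp M)) :=
  TAct.sing (rho M) (fun γ => rot_zero γ) (fun s t γ => (rot_rot s t γ).symm)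

/-- chains of the union of the Lipschitz loops: `⨆ t, CS (X M t)` -/
def WL : Submodule F2 (CE (Lp M)) := ⨆ t : ℝ, CS (X M t)

theorem stb_X (t : ℝ) : (LA M).Stb (CS (X M t)) where
  bd := bd_mem_CS
  g z hz := by
    rw [TAct.gN_eq]
    exact TAct.op_mem_CS (fun v x hx => rot_mem hx v) _ z hz
  h z hz := TAct.op_mem_CS (fun v x hx => rot_mem hx v) _ z hz

theorem stb_WL : (LA M).Stb (WL M) := TAct.Stb.iSup (stb_X M)

/-- **the T-complex of the free loop space** (chains of `⋃ X_t`) -/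
def TL : TC := (LA M).sub (WL M) (stb_WL M)

/-- graded submodule of a submodule of chains -/
abbrev GSL (V : Submodule F2 (CE (Lp M))) : ∀ j, Submodule F2 ((TL M).C j) := (LA M).gs (stb_WL M) V

/-- chains of `X M t` -/
abbrev FL (t : ℝ) : ∀ j, Submodule F2 ((TL M).C j) := GSL M (CS (X M t))

theorem mem_WL {c : CE (Lp M)} : c ∈ WL M ↔ ∃ t, c ∈ CS (X M t) := by
  unfold WL
  rw [Submodule.mem_iSup_of_directed]
  intro s t
  exact ⟨max s t, CS_mono (X_mono (le_max_left _ _)), CS_mono (X_mono (le_max_right _ _))⟩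

theorem FL_mono {s t : ℝ} (h : s ≤ t) (j : ℕ) : FL M s j ≤ FL M t j :=
  TAct.gs_mono _ _ (CS_mono (X_mono h)) j

theorem FL_exh (j : ℕ) (x : (TL M).C j) : ∃ t, x ∈ FL M t j :=
  (mem_WL M).1 ((LA M).sval_mem' (stb_WL M) x)

end loops

end Crest.Agent.R231.TActx569
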