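import Crest.Agent.R231.GSmith_651
import Crest.Agent.R231.PairExc_877
import Crest.Agent.R231.TSub_569
import Crest.Agent.R231.TFill_150
import Crest.Agent.R231.TDegC_961

-- ▼ part R231/CmpPoly_952
section

/-!
# Row 231 (S0357), comparison of Lipschitz loops with continuous loops: metric part (helper952)

* `Dom ρ N` : loops with `dist (γ x) (γ y) < ρ` for `|x - y| ≤ 1/N` (all loops of a compact set of
  loops for `N` large: `exists_Dom`; `X M t ⊆ Dom ρ N` for `t < ρ N`)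
* `pl L N : Lp M → Lp M` : the inscribed geodesic polygon (vertices `γ (i/N)`), continuous on
  `Dom L.r0 N`, with values in `X M (N * L.r0)`
* `ht L N γ r` : geodesic homotopy from `γ` (`r = 0`) to `pl L N γ` (`r = 1`), continuous on
  `Dom (L.r0/2) N × [0,1]`; keeps `γ 0`, constants, and (with `SegLip`) maps `X M t` into `X M (2 t)`.
-/

set_option autoImplicit false
set_option linter.unusedSectionVars false

noncomputable section

open Set Filter Topology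
open Crest.Agent.R231.GLugx576

namespace Crest.Agent.R231.Cmpx952

variable {M : Type*} [MetricSpace M]

/-- loops which move less than `ρ` in time `1/N` -/
def Dom (M : Type*) [MetricSpace M] (ρ : ℝ) (N : ℕ) : Set (Lp M) :=
  {γ | ∀ x y : ℝ, |x - y| ≤ 1 / N → dist (γ x) (γ y) < ρ}



/-- a compact set of loops is contained in `Dom ρ N` for large `N` -/
theorem exists_Dom {K : Set (Lp M)} (hK : IsCompact K) {ρ : ℝ} (hρ : 0 < ρ) :
    ∃ N₀ : ℕ, ∀ N : ℕ, N₀ ≤ N → 0 < N → K ⊆ Dom M ρ N := by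
  have h1 : IsCompact (K ×ˢ (univ : Set UnitAddCircle)) := hK.prod isCompact_univ
  have h2 : ContinuousOn (fun p : Lp M × UnitAddCircle => p.1 p.2) (K ×ˢ univ) :=
    continuous_eval.continuousOn
  have h3 := h1.uniformContinuousOn_of_continuous h2
  rw [Metric.uniformContinuousOn_iff] at h3
  obtain ⟨δ, hδ, h4⟩ := h3 ρ hρ
  obtain ⟨N₀, hN₀⟩ := exists_nat_gt (1 / δ)
  refine ⟨N₀, fun N hN hN0 γ hγ x y hxy => ?_⟩
  have hN' : (0 : ℝ) < N := by exact_mod_cast hN0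
  have h5 : (1 : ℝ) / N < δ := by
    rw [div_lt_iff₀ hN']
    rw [div_lt_iff₀ hδ] at hN₀
    have : (N₀ : ℝ) ≤ N := by exact_mod_cast hN
    nlinarith
  refine h4 (γ, (x : UnitAddCircle)) ⟨hγ, trivial⟩ (γ, (y : UnitAddCircle)) ⟨hγ, trivial⟩ ?_
  rw [Prod.dist_eq, dist_self, max_eq_right dist_nonneg]
  refine lt_of_le_of_lt ?_ h5
  rw [dist_eq_norm, ← AddCircle.coe_sub]
  exact (norm_coe_le _).trans hxy

variable (L : LUG M)

/-- the polygon as a function on the line -/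
def pf (N : ℕ) (γ : Lp M) (u : ℝ) : M :=
  L.seg (γ (((⌊(N : ℝ) * u⌋ : ℤ) : ℝ) / N : ℝ)) (γ ((((⌊(N : ℝ) * u⌋ : ℤ) : ℝ) + 1) / N : ℝ))
    (Int.fract ((N : ℝ) * u))

/-- the polygon on one interval -/
theorem pf_eq {N : ℕ} (hN : 0 < N) {γ : Lp M} (hγ : γ ∈ Dom M L.r0 N) (i : ℤ) {u : ℝ}
    (h1 : (i : ℝ) ≤ N * u) (h2 : (N : ℝ) * u ≤ i + 1) :
    pf L N γ u = L.seg (γ (((i : ℝ)) / N : ℝ)) (γ (((i : ℝ) + 1) / N : ℝ)) (N * u - i) := by
  have hN' : (0 : ℝ) < N := by exact_mod_cast hN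
  have hd : ∀ j : ℤ, dist (γ (((j : ℝ)) / N : ℝ)) (γ (((j : ℝ) + 1) / N : ℝ)) < L.r0 := by
    intro j
    refine hγ _ _ (le_of_eq ?_)
    rw [← sub_div, abs_div, abs_of_pos hN']
    congr 1
    rw [show (j : ℝ) - (j + 1) = -1 by ring, abs_neg, abs_one]
  rcases h2.eq_or_lt with h | h
  · have hf : ⌊(N : ℝ) * u⌋ = i + 1 := by
      rw [h]
      have : (i : ℝ) + 1 = ((i + 1 : ℤ) : ℝ) := by push_cast; ring
      rw [this, Int.floor_intCast]
    have hfr : Int.fract ((N : ℝ) * u) = 0 := by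
      rw [Int.fract, hf, h]; push_cast; ring
    have h3 := hd (i + 1)
    rw [pf, hf, hfr, L.seg_zero h3, h]
    rw [show (i : ℝ) + 1 - i = 1 by ring, L.seg_one (hd i)]
    push_cast
    rfl
  · have hf : ⌊(N : ℝ) * u⌋ = i := Int.floor_eq_iff.2 ⟨h1, h⟩
    have hfr : Int.fract ((N : ℝ) * u) = N * u - i := by
      rw [Int.fract, hf]
    rw [pf, hf, hfr]

theorem pf_add_one {N : ℕ} (hN : 0 < N) (γ : Lp M) (u : ℝ) : pf L N γ (u + 1) = pf L N γ u := by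
  have hN' : (N : ℝ) ≠ 0 := by exact_mod_cast hN.ne'
  have h1 : (N : ℝ) * (u + 1) = N * u + (N : ℤ) := by push_cast; ring
  have h2 : ⌊(N : ℝ) * (u + 1)⌋ = ⌊(N : ℝ) * u⌋ + N := by rw [h1, Int.floor_add_intCast]
  have h3 : Int.fract ((N : ℝ) * (u + 1)) = Int.fract ((N : ℝ) * u) := by
    rw [h1, Int.fract_add_intCast]
  rw [pf, pf, h2, h3]
  have e1 : ((((⌊(N : ℝ) * u⌋ + N : ℤ) : ℝ) / N : ℝ) : UnitAddCircle) =
      (((⌊(N : ℝ) * u⌋ : ℤ) : ℝ) / N : ℝ) := by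
    have : (((⌊(N : ℝ) * u⌋ + N : ℤ) : ℝ) / N : ℝ) = ((⌊(N : ℝ) * u⌋ : ℤ) : ℝ) / N + (1 : ℤ) := by
      push_cast; field_simp
    rw [this, coe_add_int]
  have e2 : (((((⌊(N : ℝ) * u⌋ + N : ℤ) : ℝ) + 1) / N : ℝ) : UnitAddCircle) =
      ((((⌊(N : ℝ) * u⌋ : ℤ) : ℝ) + 1) / N : ℝ) := by
    have : ((((⌊(N : ℝ) * u⌋ + N : ℤ) : ℝ) + 1) / N : ℝ) =
        (((⌊(N : ℝ) * u⌋ : ℤ) : ℝ) + 1) / N + (1 : ℤ) := by
      push_cast; field_simp; ring
    rw [this, coe_add_int]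
  rw [e1, e2]


/-- the polygon is Lipschitz on intervals of length `1/N` -/
theorem dist_pf_le {N : ℕ} (hN : 0 < N) {γ : Lp M} (hγ : γ ∈ Dom M L.r0 N) {ρ : ℝ}
    (hρ : ∀ i : ℤ, dist (γ (((i : ℝ)) / N : ℝ)) (γ (((i : ℝ) + 1) / N : ℝ)) ≤ ρ) {u v : ℝ}
    (huv : u ≤ v) (h : v - u ≤ 1 / N) : dist (pf L N γ u) (pf L N γ v) ≤ N * ρ * (v - u) := by
  have hN' : (0 : ℝ) < N := by exact_mod_cast hN
  have hd : ∀ j : ℤ, dist (γ (((j : ℝ)) / N : ℝ)) (γ (((j : ℝ) + 1) / N : ℝ)) < L.r0 := by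
    intro j
    refine hγ _ _ (le_of_eq ?_)
    rw [← sub_div, abs_div, abs_of_pos hN']
    congr 1
    rw [show (j : ℝ) - (j + 1) = -1 by ring, abs_neg, abs_one]
  have hfu := Int.floor_le ((N : ℝ) * u)
  have hfu' := Int.lt_floor_add_one ((N : ℝ) * u)
  set i : ℤ := ⌊(N : ℝ) * u⌋ with hi
  have huv' : (N : ℝ) * u ≤ N * v := mul_le_mul_of_nonneg_left huv hN'.le
  have hv' : (N : ℝ) * v ≤ N * u + 1 := by
    have := mul_le_mul_of_nonneg_left h hN'.le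
    rw [mul_one_div, div_self hN'.ne'] at this
    linarith
  have e1 := pf_eq L hN hγ i hfu hfu'.le
  rcases le_or_gt ((N : ℝ) * v) (i + 1) with hv | hv
  · have e2 := pf_eq L hN hγ i (hfu.trans huv') hv
    rw [e1, e2, L.dist_seg (hd i) ⟨by linarith, by linarith⟩ ⟨by linarith, by linarith⟩]
    rw [abs_sub_comm, abs_of_nonneg (by linarith)]
    have := mul_le_mul_of_nonneg_left (hρ i) (show 0 ≤ (N : ℝ) * v - i - (N * u - i) by linarith)
    refine this.trans (le_of_eq ?_)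
    ring
  · have e2 := pf_eq L hN hγ (i + 1) (u := v) (by push_cast; linarith) (by push_cast; linarith)
    have hc1 : dist (pf L N γ u) (γ (((i : ℝ) + 1) / N : ℝ)) ≤ (i + 1 - N * u) * ρ := by
      rw [e1, L.dist_right (hd i) ⟨by linarith, by linarith⟩]
      have := mul_le_mul_of_nonneg_left (hρ i) (show 0 ≤ 1 - ((N : ℝ) * u - i) by linarith)
      refine this.trans (le_of_eq ?_)
      ring
    have hd2 := hd (i + 1)
    have hr2 := hρ (i + 1)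
    push_cast at e2 hd2 hr2
    have hc2 : dist (γ (((i : ℝ) + 1) / N : ℝ)) (pf L N γ v) ≤ (N * v - (i + 1)) * ρ := by
      rw [e2, L.dist_left hd2 ⟨by linarith, by linarith⟩]
      exact mul_le_mul_of_nonneg_left hr2 (by linarith)
    refine (dist_triangle _ _ _).trans ((add_le_add hc1 hc2).trans (le_of_eq ?_))
    ring

theorem continuous_pf {N : ℕ} (hN : 0 < N) {γ : Lp M} (hγ : γ ∈ Dom M L.r0 N) :
    Continuous (pf L N γ) := by
  have hN' : (0 : ℝ) < N := by exact_mod_cast hN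
  refine Metric.continuous_iff.2 fun v ε hε => ?_
  refine ⟨min (1 / N) (ε / (N * L.r0 + 1)), ?_, ?_⟩
  · have := L.r0_pos
    positivity
  intro u hu
  have hr : ∀ i : ℤ, dist (γ (((i : ℝ)) / N : ℝ)) (γ (((i : ℝ) + 1) / N : ℝ)) ≤ L.r0 := by
    intro j
    refine (hγ _ _ (le_of_eq ?_)).le
    rw [← sub_div, abs_div, abs_of_pos hN']
    congr 1
    rw [show (j : ℝ) - (j + 1) = -1 by ring, abs_neg, abs_one]
  have h1 := (lt_min_iff.1 hu).1
  have h2 := (lt_min_iff.1 hu).2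
  have hden : 0 < N * L.r0 + 1 := by have := L.r0_pos; positivity
  rw [Real.dist_eq] at h1 h2
  rw [lt_div_iff₀ hden] at h2
  have key : dist (pf L N γ u) (pf L N γ v) ≤ N * L.r0 * |u - v| := by
    rcases le_total u v with huv | huv
    · have := dist_pf_le L hN hγ hr huv (by rw [abs_sub_comm, abs_of_nonneg (by linarith)] at h1; exact h1.le)
      rwa [abs_sub_comm, abs_of_nonneg (by linarith)]
    · have := dist_pf_le L hN hγ hr huv (by rw [abs_of_nonneg (by linarith)] at h1; exact h1.le)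
      rwa [dist_comm, abs_of_nonneg (by linarith)]
  refine key.trans_lt ?_
  have := abs_nonneg (u - v)
  nlinarith [L.r0_pos]

open Classical in
/-- the inscribed polygon with vertices `γ (i/N)` -/
def pl (N : ℕ) (γ : Lp M) : Lp M :=
  if h : 0 < N ∧ γ ∈ Dom M L.r0 N then
    ⟨AddCircle.liftIco 1 0 (pf L N γ), AddCircle.liftIco_continuous
      (by rw [pf_add_one L h.1]) (continuous_pf L h.1 h.2).continuousOn⟩
  else γ

theorem pl_coe {N : ℕ} (hN : 0 < N) {γ : Lp M} (hγ : γ ∈ Dom M L.r0 N) (u : ℝ) :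
    pl L N γ (u : UnitAddCircle) = pf L N γ u := by
  rw [pl, dif_pos ⟨hN, hγ⟩]
  show AddCircle.liftIco 1 0 (pf L N γ) (u : UnitAddCircle) = pf L N γ u
  have hper : Function.Periodic (pf L N γ) 1 := pf_add_one L hN γ
  have h1 : (u : UnitAddCircle) = ((Int.fract u : ℝ) : UnitAddCircle) := by
    rw [AddCircle.coe_fract]
  have h2 : Int.fract u ∈ Ico (0 : ℝ) (0 + 1) := ⟨Int.fract_nonneg u, by
    rw [zero_add]; exact Int.fract_lt_one u⟩
  rw [h1, AddCircle.liftIco_coe_apply h2]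
  have h3 := hper.sub_int_mul_eq (x := u) ⌊u⌋
  rw [mul_one] at h3
  exact h3

theorem dist_grid_lt {N : ℕ} (hN : 0 < N) {ρ : ℝ} {γ : Lp M} (hγ : γ ∈ Dom M ρ N) (j : ℤ) :
    dist (γ (((j : ℝ)) / N : ℝ)) (γ (((j : ℝ) + 1) / N : ℝ)) < ρ := by
  have hN' : (0 : ℝ) < N := by exact_mod_cast hN
  refine hγ _ _ (le_of_eq ?_)
  rw [← sub_div, abs_div, abs_of_pos hN']
  congr 1
  rw [show (j : ℝ) - (j + 1) = -1 by ring, abs_neg, abs_one]

/-- polygons are Lipschitz -/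
theorem pl_mem_X_of {N : ℕ} (hN : 0 < N) {γ : Lp M} (hγ : γ ∈ Dom M L.r0 N) {ρ : ℝ}
    (hρ : ∀ i : ℤ, dist (γ (((i : ℝ)) / N : ℝ)) (γ (((i : ℝ) + 1) / N : ℝ)) ≤ ρ) :
    pl L N γ ∈ X M (N * ρ) := by
  have hN' : (0 : ℝ) < N := by exact_mod_cast hN
  refine GSmithx651.mem_X_of_local (d := min (1 / N) (1 / 2)) (by positivity) fun x y hxy => ?_
  obtain ⟨a, rfl, ha, ha2⟩ := GSmithx651.exists_real x y
  induction x using QuotientAddGroup.induction_on with | _ u => ?_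
  have h1 := (lt_min_iff.1 hxy).1.le
  rw [← ha] at h1 ⊢
  have e : (u : UnitAddCircle) + (a : UnitAddCircle) = ((u + a : ℝ) : UnitAddCircle) := by
    rw [AddCircle.coe_add]
  change dist (pl L N γ (u : UnitAddCircle)) (pl L N γ ((u : UnitAddCircle) + (a : UnitAddCircle))) ≤ _
  rw [e, pl_coe L hN hγ, pl_coe L hN hγ]
  rcases le_total 0 a with h | h
  · rw [abs_of_nonneg h] at h1 ⊢
    have := dist_pf_le L hN hγ hρ (u := u) (v := u + a) (by linarith) (by linarith)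
    rwa [add_sub_cancel_left] at this
  · rw [abs_of_nonpos h] at h1 ⊢
    have := dist_pf_le L hN hγ hρ (u := u + a) (v := u) (by linarith) (by linarith)
    rw [dist_comm]
    refine this.trans (le_of_eq ?_)
    ring

theorem pl_mem_X {N : ℕ} (hN : 0 < N) {γ : Lp M} (hγ : γ ∈ Dom M L.r0 N) :
    pl L N γ ∈ X M (N * L.r0) :=
  pl_mem_X_of L hN hγ fun i => (dist_grid_lt hN hγ i).le





end Crest.Agent.R231.Cmpx952
end
end

-- ▼ part R231/CmpHt_952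
section

/-!
# Row 231 (S0357), comparison leaf: the homotopy from a loop to its inscribed polygon (helper952)

`ht L N γ r` : on `[i/N, (i+1)/N]` the arc of `γ` over `[i/N, (i+r)/N]` is replaced by the minimal
geodesic.  `ht L N γ 0 = γ`, `ht L N γ 1 = pl L N γ`; continuous on `Dom M L.r0 N ×ˢ [0,1]`;
preserves every `X M t`, the value `γ 0` and the constants.
-/

set_option autoImplicit false
set_option linter.unusedSectionVars false

noncomputable section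

open Set Filter Topology
open Crest.Agent.R231.GLugx576

namespace Crest.Agent.R231.Cmpx952

variable {M : Type*} [MetricSpace M] (L : LUG M)

/-- one interval -/
def rg (N : ℕ) (i : ℝ) (γ : Lp M) (r s : ℝ) : M :=
  L.seg (γ ((i / N : ℝ) : UnitAddCircle)) (γ (((i + max s r) / N : ℝ) : UnitAddCircle))
    (s / max s r)

/-- the homotopy on the line -/
def rf (N : ℕ) (γ : Lp M) (r u : ℝ) : M :=
  rg L N ((⌊(N : ℝ) * u⌋ : ℤ) : ℝ) γ r (Int.fract ((N : ℝ) * u))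

theorem max_mem {s r : ℝ} (hs : s ∈ Icc (0 : ℝ) 1) (hr : r ∈ Icc (0 : ℝ) 1) :
    max s r ∈ Icc (0 : ℝ) 1 := ⟨hs.1.trans (le_max_left _ _), max_le hs.2 hr.2⟩

theorem frac_mem {s r : ℝ} (hs : s ∈ Icc (0 : ℝ) 1) (hr : r ∈ Icc (0 : ℝ) 1) :
    s / max s r ∈ Icc (0 : ℝ) 1 :=
  ⟨div_nonneg hs.1 (max_mem hs hr).1, div_le_one_of_le₀ (le_max_left _ _) (max_mem hs hr).1⟩

theorem rg_dist {N : ℕ} (hN : 0 < N) {ρ : ℝ} {γ : Lp M} (hγ : γ ∈ Dom M ρ N) (i : ℝ) {m : ℝ}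
    (hm : m ∈ Icc (0 : ℝ) 1) :
    dist (γ ((i / N : ℝ) : UnitAddCircle)) (γ (((i + m) / N : ℝ) : UnitAddCircle)) < ρ := by
  have hN' : (0 : ℝ) < N := by exact_mod_cast hN
  refine hγ _ _ ?_
  rw [← sub_div, abs_div, abs_of_pos hN']
  refine div_le_div_of_nonneg_right ?_ hN'.le
  rw [show i - (i + m) = -m by ring, abs_neg, abs_of_nonneg hm.1]
  exact hm.2

theorem rg_zero {N : ℕ} (hN : 0 < N) {γ : Lp M} (hγ : γ ∈ Dom M L.r0 N) (i : ℝ) {r : ℝ}
    (hr : r ∈ Icc (0 : ℝ) 1) : rg L N i γ r 0 = γ ((i / N : ℝ) : UnitAddCircle) := by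
  rw [rg, zero_div]
  exact L.seg_zero (rg_dist hN hγ i (max_mem ⟨le_rfl, zero_le_one⟩ hr))

theorem rg_of_ge {N : ℕ} (hN : 0 < N) {γ : Lp M} (hγ : γ ∈ Dom M L.r0 N) (i : ℝ) {r s : ℝ}
    (hr : r ∈ Icc (0 : ℝ) 1) (hs : s ∈ Icc (0 : ℝ) 1) (h : r ≤ s) :
    rg L N i γ r s = γ (((i + s) / N : ℝ) : UnitAddCircle) := by
  rcases hs.1.eq_or_lt with h0 | h0
  · rw [← h0, rg_zero L hN hγ i hr, add_zero]
  · rw [rg, max_eq_left h, div_self h0.ne']
    exact L.seg_one (rg_dist hN hγ i hs)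

theorem rf_eq {N : ℕ} (hN : 0 < N) {γ : Lp M} (hγ : γ ∈ Dom M L.r0 N) {r : ℝ}
    (hr : r ∈ Icc (0 : ℝ) 1) (i : ℤ) {u : ℝ} (h1 : (i : ℝ) ≤ N * u) (h2 : (N : ℝ) * u ≤ i + 1) :
    rf L N γ r u = rg L N i γ r (N * u - i) := by
  rcases h2.eq_or_lt with h | h
  · have hf : ⌊(N : ℝ) * u⌋ = i + 1 := by
      rw [h]
      have : (i : ℝ) + 1 = ((i + 1 : ℤ) : ℝ) := by push_cast; ring
      rw [this, Int.floor_intCast]
    have hfr : Int.fract ((N : ℝ) * u) = 0 := by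
      rw [Int.fract, hf, h]; push_cast; ring
    rw [rf, hf, hfr, rg_zero L hN hγ _ hr, h, show (i : ℝ) + 1 - i = 1 by ring,
      rg_of_ge L hN hγ _ hr ⟨zero_le_one, le_rfl⟩ hr.2]
    push_cast
    rfl
  · have hf : ⌊(N : ℝ) * u⌋ = i := Int.floor_eq_iff.2 ⟨h1, h⟩
    have hfr : Int.fract ((N : ℝ) * u) = N * u - i := by
      rw [Int.fract, hf]
    rw [rf, hf, hfr]

theorem rf_add_one {N : ℕ} (hN : 0 < N) (γ : Lp M) (r u : ℝ) :
    rf L N γ r (u + 1) = rf L N γ r u := by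
  have hN' : (N : ℝ) ≠ 0 := by exact_mod_cast hN.ne'
  have h1 : (N : ℝ) * (u + 1) = N * u + (N : ℤ) := by push_cast; ring
  have h2 : ⌊(N : ℝ) * (u + 1)⌋ = ⌊(N : ℝ) * u⌋ + N := by rw [h1, Int.floor_add_intCast]
  have h3 : Int.fract ((N : ℝ) * (u + 1)) = Int.fract ((N : ℝ) * u) := by
    rw [h1, Int.fract_add_intCast]
  rw [rf, rf, h2, h3, rg, rg]
  have e : ∀ m : ℝ, (((((⌊(N : ℝ) * u⌋ + N : ℤ) : ℝ) + m) / N : ℝ) : UnitAddCircle) =
      ((((⌊(N : ℝ) * u⌋ : ℤ) : ℝ) + m) / N : ℝ) := by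
    intro m
    have : ((((⌊(N : ℝ) * u⌋ + N : ℤ) : ℝ) + m) / N : ℝ) =
        (((⌊(N : ℝ) * u⌋ : ℤ) : ℝ) + m) / N + (1 : ℤ) := by
      push_cast; field_simp; ring
    rw [this, coe_add_int]
  have e0 := e 0
  rw [add_zero, add_zero] at e0
  rw [e, e0]

theorem rf_zero_right {N : ℕ} (hN : 0 < N) {γ : Lp M} (hγ : γ ∈ Dom M L.r0 N) {r : ℝ}
    (hr : r ∈ Icc (0 : ℝ) 1) : rf L N γ r 0 = γ 0 := by
  rw [rf_eq L hN hγ hr 0 (by simp) (by simp)]
  rw [show (N : ℝ) * 0 - (0 : ℤ) = 0 by simp, rg_zero L hN hγ _ hr]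
  simp

theorem rf_zero {N : ℕ} (hN : 0 < N) {γ : Lp M} (hγ : γ ∈ Dom M L.r0 N) (u : ℝ) :
    rf L N γ 0 u = γ u := by
  have hN' : (N : ℝ) ≠ 0 := by exact_mod_cast hN.ne'
  rw [rf, rg_of_ge L hN hγ _ ⟨le_rfl, zero_le_one⟩
    ⟨Int.fract_nonneg _, (Int.fract_lt_one _).le⟩ (Int.fract_nonneg _), Int.floor_add_fract,
    mul_div_cancel_left₀ _ hN']

theorem rf_one {N : ℕ} (γ : Lp M) (u : ℝ) : rf L N γ 1 u = pf L N γ u := by
  rw [rf, rg, max_eq_right (Int.fract_lt_one _).le, div_one, pf]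

/-- a family which is continuous on the `N` intervals is continuous -/
theorem cont_of_pieces {α M : Type*} [TopologicalSpace α] [TopologicalSpace M] {N : ℕ} (hN : 0 < N)
    {F : α × Icc (0 : ℝ) 1 → M}
    (h : ∀ i : ℕ, i < N → ContinuousOn F {p | ((i : ℕ) : ℝ) ≤ N * (p.2 : ℝ) ∧
      (N : ℝ) * p.2 ≤ (i : ℕ) + 1}) : Continuous F := by
  have hN' : (0 : ℝ) < N := by exact_mod_cast hN
  have hcov : ⋃ i : Fin N, {p : α × Icc (0 : ℝ) 1 |
      ((i : ℕ) : ℝ) ≤ N * (p.2 : ℝ) ∧ (N : ℝ) * p.2 ≤ (i : ℕ) + 1} = univ := by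
    refine eq_univ_of_forall fun p => mem_iUnion.2 ?_
    obtain ⟨γ, u, hu0, hu1⟩ := p
    rcases hu1.eq_or_lt with h | h
    · refine ⟨⟨N - 1, by omega⟩, ?_, ?_⟩
      · show ((N - 1 : ℕ) : ℝ) ≤ N * u
        rw [h, mul_one]
        exact_mod_cast Nat.sub_le _ _
      · show (N : ℝ) * u ≤ ((N - 1 : ℕ) : ℝ) + 1
        rw [h, mul_one]
        have : ((N - 1 : ℕ) : ℝ) + 1 = N := by
          rw [Nat.cast_sub hN]; simp
        rw [this]
    · have h0 : 0 ≤ (N : ℝ) * u := mul_nonneg hN'.le hu0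
      have h3 : ⌊(N : ℝ) * u⌋₊ < N := by
        rw [Nat.floor_lt h0]
        calc (N : ℝ) * u < N * 1 := mul_lt_mul_of_pos_left h hN'
          _ = N := mul_one _
      exact ⟨⟨⌊(N : ℝ) * u⌋₊, h3⟩, Nat.floor_le h0, (Nat.lt_floor_add_one _).le⟩
  refine (locallyFinite_of_finite _).continuous hcov ?_ ?_
  · intro i
    have hc : Continuous (fun p : α × Icc (0 : ℝ) 1 => (N : ℝ) * (p.2 : ℝ)) :=
      continuous_const.mul (continuous_subtype_val.comp continuous_snd)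
    have h1 : IsClosed {p : α × Icc (0 : ℝ) 1 | ((i : ℕ) : ℝ) ≤ (N : ℝ) * (p.2 : ℝ)} :=
      isClosed_le continuous_const hc
    have h2 : IsClosed {p : α × Icc (0 : ℝ) 1 | (N : ℝ) * (p.2 : ℝ) ≤ ((i : ℕ) : ℝ) + 1} :=
      isClosed_le hc continuous_const
    exact h1.inter h2
  · exact fun i => h i i.2

/-- continuity of one interval -/
theorem continuousOn_rg [CompactSpace M] {N : ℕ} (hN : 0 < N) (i : ℝ) :
    ContinuousOn (fun p : Lp M × ℝ × ℝ => rg L N i p.1 p.2.1 p.2.2)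
      (Dom M L.r0 N ×ˢ Icc (0 : ℝ) 1 ×ˢ Icc (0 : ℝ) 1) := by
  have c1 : Continuous (fun p : Lp M × ℝ × ℝ => p.1 ((i / N : ℝ) : UnitAddCircle)) :=
    (continuous_eval_const _).comp continuous_fst
  have cm : Continuous (fun p : Lp M × ℝ × ℝ => max p.2.2 p.2.1) :=
    (continuous_snd.comp continuous_snd).max (continuous_fst.comp continuous_snd)
  have c2 : Continuous (fun p : Lp M × ℝ × ℝ =>
      p.1 (((i + max p.2.2 p.2.1) / N : ℝ) : UnitAddCircle)) :=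
    continuous_evalR.comp (continuous_fst.prodMk ((continuous_const.add cm).div_const _))
  have hmaps : ∀ p ∈ (Dom M L.r0 N ×ˢ Icc (0 : ℝ) 1 ×ˢ Icc (0 : ℝ) 1 : Set (Lp M × ℝ × ℝ)),
      dist (p.1 ((i / N : ℝ) : UnitAddCircle))
        (p.1 (((i + max p.2.2 p.2.1) / N : ℝ) : UnitAddCircle)) < L.r0 ∧
      p.2.2 / max p.2.2 p.2.1 ∈ Icc (0 : ℝ) 1 := fun p hp =>
    ⟨rg_dist hN hp.1 i (max_mem hp.2.2 hp.2.1), frac_mem hp.2.2 hp.2.1⟩
  rintro ⟨γ, r, s⟩ hp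
  rcases (max_mem hp.2.2 hp.2.1).1.eq_or_lt with h0 | h0
  · -- `s = r = 0`
    have h0' : max s r = 0 := h0.symm
    have hs : s = 0 := le_antisymm ((le_max_left _ _).trans h0'.le) hp.2.2.1
    have hv : rg L N i γ r s = γ ((i / N : ℝ) : UnitAddCircle) := by
      rw [hs]; exact rg_zero L hN hp.1 i hp.2.1
    show Tendsto _ _ (𝓝 (rg L N i γ r s))
    rw [hv, tendsto_iff_dist_tendsto_zero]
    have hb : Tendsto (fun p : Lp M × ℝ × ℝ => dist (p.1 ((i / N : ℝ) : UnitAddCircle))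
        (p.1 (((i + max p.2.2 p.2.1) / N : ℝ) : UnitAddCircle)) +
        dist (p.1 ((i / N : ℝ) : UnitAddCircle)) (γ ((i / N : ℝ) : UnitAddCircle)))
        (𝓝[Dom M L.r0 N ×ˢ Icc (0 : ℝ) 1 ×ˢ Icc (0 : ℝ) 1] (γ, r, s)) (𝓝 0) := by
      have hc : Continuous (fun p : Lp M × ℝ × ℝ => dist (p.1 ((i / N : ℝ) : UnitAddCircle))
          (p.1 (((i + max p.2.2 p.2.1) / N : ℝ) : UnitAddCircle)) +
          dist (p.1 ((i / N : ℝ) : UnitAddCircle)) (γ ((i / N : ℝ) : UnitAddCircle))) :=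
        (c1.dist c2).add (c1.dist continuous_const)
      have hv0 : dist (γ ((i / N : ℝ) : UnitAddCircle))
          (γ (((i + max s r) / N : ℝ) : UnitAddCircle)) +
          dist (γ ((i / N : ℝ) : UnitAddCircle)) (γ ((i / N : ℝ) : UnitAddCircle)) = 0 := by
        rw [h0', add_zero, dist_self, add_zero]
      have hc' := hc.tendsto (γ, r, s)
      change Tendsto _ _ (𝓝 (dist (γ ((i / N : ℝ) : UnitAddCircle))
          (γ (((i + max s r) / N : ℝ) : UnitAddCircle)) +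
          dist (γ ((i / N : ℝ) : UnitAddCircle)) (γ ((i / N : ℝ) : UnitAddCircle)))) at hc'
      rw [hv0] at hc'
      exact hc'.mono_left nhdsWithin_le_nhds
    refine squeeze_zero' (Eventually.of_forall fun _ => dist_nonneg) ?_ hb
    filter_upwards [self_mem_nhdsWithin] with p hp'
    obtain ⟨h1, h2⟩ := hmaps p hp'
    refine (dist_triangle _ (p.1 ((i / N : ℝ) : UnitAddCircle)) _).trans (add_le_add_left ?_ _)
    rw [dist_comm, rg, L.dist_left h1 h2]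
    exact mul_le_of_le_one_left dist_nonneg h2.2
  · have hk : ContinuousAt (fun p : Lp M × ℝ × ℝ => p.2.2 / max p.2.2 p.2.1) (γ, r, s) :=
      ContinuousAt.div (continuous_snd.comp continuous_snd).continuousAt cm.continuousAt h0.ne'
    have hcomp : ContinuousWithinAt (fun p : Lp M × ℝ × ℝ =>
        (p.1 ((i / N : ℝ) : UnitAddCircle), p.1 (((i + max p.2.2 p.2.1) / N : ℝ) : UnitAddCircle),
          p.2.2 / max p.2.2 p.2.1)) (Dom M L.r0 N ×ˢ Icc (0 : ℝ) 1 ×ˢ Icc (0 : ℝ) 1) (γ, r, s) :=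
      (c1.continuousAt.prodMk (c2.continuousAt.prodMk hk)).continuousWithinAt
    exact (L.continuousOn_seg _ (hmaps _ hp)).comp hcomp fun p hp' => hmaps p hp'

/-- joint continuity on the line -/
theorem continuous_rf [CompactSpace M] {N : ℕ} (hN : 0 < N) :
    Continuous (fun p : (Dom M L.r0 N ×ˢ Icc (0 : ℝ) 1 : Set (Lp M × ℝ)) × Icc (0 : ℝ) 1 =>
      rf L N p.1.1.1 p.1.1.2 (p.2 : ℝ)) := by
  refine cont_of_pieces hN fun i hi => ?_
  have he : EqOn (fun p : (Dom M L.r0 N ×ˢ Icc (0 : ℝ) 1 : Set (Lp M × ℝ)) × Icc (0 : ℝ) 1 =>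
      rf L N p.1.1.1 p.1.1.2 (p.2 : ℝ))
      (fun p => rg L N (((i : ℕ) : ℤ) : ℝ) p.1.1.1 p.1.1.2 (N * (p.2 : ℝ) - (((i : ℕ) : ℤ) : ℝ)))
      {p | ((i : ℕ) : ℝ) ≤ N * (p.2 : ℝ) ∧ (N : ℝ) * p.2 ≤ (i : ℕ) + 1} := by
    intro p hp
    exact rf_eq L hN p.1.2.1 p.1.2.2 ((i : ℕ) : ℤ) (by exact_mod_cast hp.1)
      (by exact_mod_cast hp.2)
  refine ContinuousOn.congr ?_ he
  have hc : Continuous (fun p : (Dom M L.r0 N ×ˢ Icc (0 : ℝ) 1 : Set (Lp M × ℝ)) × Icc (0 : ℝ) 1 =>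
      ((p.1.1.1, p.1.1.2, (N : ℝ) * (p.2 : ℝ) - (((i : ℕ) : ℤ) : ℝ)) : Lp M × ℝ × ℝ)) := by
    fun_prop
  refine (continuousOn_rg L hN (((i : ℕ) : ℤ) : ℝ)).comp hc.continuousOn fun p hp => ?_
  have h1 : (((i : ℕ) : ℤ) : ℝ) = ((i : ℕ) : ℝ) := by push_cast; rfl
  refine ⟨p.1.2.1, p.1.2.2, ?_⟩
  show (N : ℝ) * (p.2 : ℝ) - (((i : ℕ) : ℤ) : ℝ) ∈ Icc (0 : ℝ) 1
  rw [h1]
  exact ⟨by linarith [hp.1], by linarith [hp.2]⟩

theorem continuousOn_rf_Icc [CompactSpace M] {N : ℕ} (hN : 0 < N) {γ : Lp M}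
    (hγ : γ ∈ Dom M L.r0 N) {r : ℝ} (hr : r ∈ Icc (0 : ℝ) 1) :
    ContinuousOn (rf L N γ r) (Icc 0 1) := by
  rw [continuousOn_iff_continuous_domRestrict]
  have h := continuous_rf (M := M) L hN
  exact h.comp (continuous_const (y := (⟨(γ, r), hγ, hr⟩ :
    (Dom M L.r0 N ×ˢ Icc (0 : ℝ) 1 : Set (Lp M × ℝ)))) |>.prodMk continuous_id)

open Classical in
/-- **the homotopy** -/
def ht [CompactSpace M] (N : ℕ) (γ : Lp M) (r : ℝ) : Lp M :=
  if h : 0 < N ∧ γ ∈ Dom M L.r0 N ∧ r ∈ Icc (0 : ℝ) 1 then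
    ⟨AddCircle.liftIco 1 0 (rf L N γ r), AddCircle.liftIco_continuous
      (by rw [rf_add_one L h.1])
      (by rw [zero_add]; exact continuousOn_rf_Icc L h.1 h.2.1 h.2.2)⟩
  else γ

variable [CompactSpace M]

theorem ht_coe {N : ℕ} (hN : 0 < N) {γ : Lp M} (hγ : γ ∈ Dom M L.r0 N) {r : ℝ}
    (hr : r ∈ Icc (0 : ℝ) 1) (u : ℝ) : ht L N γ r (u : UnitAddCircle) = rf L N γ r u := by
  rw [ht, dif_pos ⟨hN, hγ, hr⟩]
  show AddCircle.liftIco 1 0 (rf L N γ r) (u : UnitAddCircle) = rf L N γ r u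
  have hper : Function.Periodic (rf L N γ r) 1 := rf_add_one L hN γ r
  have h1 : (u : UnitAddCircle) = ((Int.fract u : ℝ) : UnitAddCircle) := by
    rw [AddCircle.coe_fract]
  have h2 : Int.fract u ∈ Ico (0 : ℝ) (0 + 1) := ⟨Int.fract_nonneg u, by
    rw [zero_add]; exact Int.fract_lt_one u⟩
  rw [h1, AddCircle.liftIco_coe_apply h2]
  have h3 := hper.sub_int_mul_eq (x := u) ⌊u⌋
  rw [mul_one] at h3
  exact h3

theorem ht_zero {N : ℕ} (hN : 0 < N) {γ : Lp M} (hγ : γ ∈ Dom M L.r0 N) : ht L N γ 0 = γ := by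
  ext x
  induction x using QuotientAddGroup.induction_on with | _ u => ?_
  exact (ht_coe L hN hγ ⟨le_rfl, zero_le_one⟩ u).trans (rf_zero L hN hγ u)

theorem ht_one {N : ℕ} (hN : 0 < N) {γ : Lp M} (hγ : γ ∈ Dom M L.r0 N) :
    ht L N γ 1 = pl L N γ := by
  ext x
  induction x using QuotientAddGroup.induction_on with | _ u => ?_
  exact (ht_coe L hN hγ ⟨zero_le_one, le_rfl⟩ u).trans ((rf_one L γ u).trans
    (pl_coe L hN hγ u).symm)

theorem ht_at_zero {N : ℕ} (hN : 0 < N) {γ : Lp M} (hγ : γ ∈ Dom M L.r0 N) {r : ℝ}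
    (hr : r ∈ Icc (0 : ℝ) 1) : ht L N γ r 0 = γ 0 :=
  (ht_coe L hN hγ hr 0).trans (rf_zero_right L hN hγ hr)

/-- **continuity** -/
theorem continuousOn_ht {N : ℕ} (hN : 0 < N) :
    ContinuousOn (fun p : Lp M × ℝ => ht L N p.1 p.2) (Dom M L.r0 N ×ˢ Icc (0 : ℝ) 1) := by
  rw [continuousOn_iff_continuous_domRestrict]
  refine cont_to_loop ?_
  refine (continuous_rf (M := M) L hN).congr fun p => ?_
  exact (ht_coe L hN p.1.2.1 p.1.2.2 _).symm

/-! ### Lipschitz constants -/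

theorem dist_rg_le {N : ℕ} (hN : 0 < N) {γ : Lp M} (hγ : γ ∈ Dom M L.r0 N) {t : ℝ}
    (ht : γ ∈ X M t) (i : ℝ) {r : ℝ} (hr : r ∈ Icc (0 : ℝ) 1) {s s' : ℝ} (hs : 0 ≤ s)
    (hss : s ≤ s') (hs' : s' ≤ 1) :
    dist (rg L N i γ r s) (rg L N i γ r s') ≤ t * ((s' - s) / N) := by
  have hN' : (0 : ℝ) < N := by exact_mod_cast hN
  have t0 := nonneg_of_mem ht
  -- both on the geodesic
  have hA : ∀ a b : ℝ, 0 ≤ a → a ≤ b → b ≤ r →
      dist (rg L N i γ r a) (rg L N i γ r b) ≤ t * ((b - a) / N) := by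
    intro a b ha hab hb
    have hr0 : 0 ≤ r := hr.1
    rcases hr0.eq_or_lt with h0 | h0
    · have e1 : a = 0 := le_antisymm (hab.trans (hb.trans h0.symm.le)) ha
      have e2 : b = 0 := le_antisymm (hb.trans h0.symm.le) (ha.trans hab)
      rw [e1, e2, dist_self]
      simp
    · have ha1 : a ≤ r := hab.trans hb
      have hra : max a r = r := max_eq_right ha1
      have hrb : max b r = r := max_eq_right hb
      have hfa : a / r ∈ Icc (0 : ℝ) 1 := ⟨div_nonneg ha h0.le, div_le_one_of_le₀ ha1 h0.le⟩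
      have hfb : b / r ∈ Icc (0 : ℝ) 1 :=
        ⟨div_nonneg (ha.trans hab) h0.le, div_le_one_of_le₀ hb h0.le⟩
      rw [rg, rg, hra, hrb, L.dist_seg (rg_dist hN hγ i hr) hfa hfb]
      have h1 : dist (γ ((i / N : ℝ) : UnitAddCircle)) (γ (((i + r) / N : ℝ) : UnitAddCircle)) ≤
          t * (r / N) := by
        refine (ht _ _).trans (le_of_eq ?_)
        rw [← sub_div, abs_div, abs_of_pos hN', show i - (i + r) = -r by ring, abs_neg,
          abs_of_pos h0]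
      have h2 : |a / r - b / r| = (b - a) / r := by
        rw [abs_sub_comm, ← sub_div, abs_of_nonneg (div_nonneg (by linarith) h0.le)]
      rw [h2]
      refine (mul_le_mul_of_nonneg_left h1 (div_nonneg (by linarith) h0.le)).trans (le_of_eq ?_)
      field_simp
  have hB : ∀ a b : ℝ, r ≤ a → a ≤ b → b ≤ 1 →
      dist (rg L N i γ r a) (rg L N i γ r b) ≤ t * ((b - a) / N) := by
    intro a b ha hab hb
    rw [rg_of_ge L hN hγ i hr ⟨hr.1.trans ha, hab.trans hb⟩ ha,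
      rg_of_ge L hN hγ i hr ⟨hr.1.trans (ha.trans hab), hb⟩ (ha.trans hab)]
    refine (ht _ _).trans (le_of_eq ?_)
    rw [← sub_div, abs_div, abs_of_pos hN', show i + a - (i + b) = -(b - a) by ring, abs_neg,
      abs_of_nonneg (by linarith)]
  rcases le_total s' r with h | h
  · exact hA s s' hs hss h
  · rcases le_total r s with h' | h'
    · exact hB s s' h' hss hs'
    · refine (dist_triangle _ (rg L N i γ r r) _).trans
        ((add_le_add (hA s r hs h' le_rfl) (hB r s' le_rfl h hs')).trans (le_of_eq ?_))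
      ring

theorem dist_rf_le {N : ℕ} (hN : 0 < N) {γ : Lp M} (hγ : γ ∈ Dom M L.r0 N) {t : ℝ}
    (ht : γ ∈ X M t) {r : ℝ} (hr : r ∈ Icc (0 : ℝ) 1) {u v : ℝ}
    (huv : u ≤ v) (h : v - u ≤ 1 / N) : dist (rf L N γ r u) (rf L N γ r v) ≤ t * (v - u) := by
  have hN' : (0 : ℝ) < N := by exact_mod_cast hN
  have hfu := Int.floor_le ((N : ℝ) * u)
  have hfu' := Int.lt_floor_add_one ((N : ℝ) * u)
  set i : ℤ := ⌊(N : ℝ) * u⌋ with hi
  have huv' : (N : ℝ) * u ≤ N * v := mul_le_mul_of_nonneg_left huv hN'.le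
  have hv' : (N : ℝ) * v ≤ N * u + 1 := by
    have := mul_le_mul_of_nonneg_left h hN'.le
    rw [mul_one_div, div_self hN'.ne'] at this
    linarith
  have e1 := rf_eq L hN hγ hr i hfu hfu'.le
  rcases le_or_gt ((N : ℝ) * v) (i + 1) with hv | hv
  · have e2 := rf_eq L hN hγ hr i (hfu.trans huv') hv
    rw [e1, e2]
    refine (dist_rg_le L hN hγ ht i hr (by linarith) (by linarith) (by linarith)).trans
      (le_of_eq ?_)
    field_simp
    ring
  · have e2 := rf_eq L hN hγ hr (i + 1) (u := v) (by push_cast; linarith) (by push_cast; linarith)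
    have hz : rg L N ((i + 1 : ℤ) : ℝ) γ r 0 = rg L N (i : ℝ) γ r 1 := by
      rw [rg_zero L hN hγ _ hr, rg_of_ge L hN hγ _ hr ⟨zero_le_one, le_rfl⟩ hr.2]
      push_cast
      rfl
    have hc1 := dist_rg_le L hN hγ ht (i : ℝ) hr (s := N * u - i) (s' := 1) (by linarith)
      (by linarith) le_rfl
    have hc2 := dist_rg_le L hN hγ ht ((i + 1 : ℤ) : ℝ) hr (s := 0)
      (s' := N * v - ((i + 1 : ℤ) : ℝ)) le_rfl (by push_cast; linarith) (by push_cast; linarith)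
    rw [hz] at hc2
    rw [e1, e2]
    refine (dist_triangle _ _ _).trans ((add_le_add hc1 hc2).trans (le_of_eq ?_))
    push_cast
    field_simp
    ring

/-- the homotopy preserves the Lipschitz constant -/
theorem ht_mem_X {N : ℕ} (hN : 0 < N) {γ : Lp M} (hγ : γ ∈ Dom M L.r0 N) {t : ℝ}
    (hX : γ ∈ X M t) {r : ℝ} (hr : r ∈ Icc (0 : ℝ) 1) : ht L N γ r ∈ X M t := by
  have hN' : (0 : ℝ) < N := by exact_mod_cast hN
  refine GSmithx651.mem_X_of_local (d := min (1 / N) (1 / 2)) (by positivity) fun x y hxy => ?_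
  obtain ⟨a, rfl, ha, ha2⟩ := GSmithx651.exists_real x y
  induction x using QuotientAddGroup.induction_on with | _ u => ?_
  have h1 := (lt_min_iff.1 hxy).1.le
  rw [← ha] at h1 ⊢
  have e : (u : UnitAddCircle) + (a : UnitAddCircle) = ((u + a : ℝ) : UnitAddCircle) := by
    rw [AddCircle.coe_add]
  change dist (ht L N γ r (u : UnitAddCircle))
    (ht L N γ r ((u : UnitAddCircle) + (a : UnitAddCircle))) ≤ _
  rw [e, ht_coe L hN hγ hr, ht_coe L hN hγ hr]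
  rcases le_total 0 a with h | h
  · rw [abs_of_nonneg h] at h1 ⊢
    have := dist_rf_le L hN hγ hX hr (u := u) (v := u + a) (by linarith) (by linarith)
    rwa [add_sub_cancel_left] at this
  · rw [abs_of_nonpos h] at h1 ⊢
    have := dist_rf_le L hN hγ hX hr (u := u + a) (v := u) (by linarith) (by linarith)
    rw [dist_comm]
    refine this.trans (le_of_eq ?_)
    ring


end Crest.Agent.R231.Cmpx952
end
end

-- ▼ part R231/Cmp_952
section

/-!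
# Row 231 (S0357): COMPARISON of Lipschitz loops with all continuous loops (helper952)

`Good L P` : the set `P` of loops is preserved by the polygon homotopy `ht` (true for every condition
on `γ 0`, for `X M t`, for unions and intersections).  For good sets `Q`, `P`:

* `C1` : a relative cycle of `(P, Q)` is homologous to one with Lipschitz support
* `C2` : a Lipschitz relative cycle of `(P, Q)` which bounds, bounds with Lipschitz support
* `operator` : the chain operators behind it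
-/

set_option autoImplicit false
set_option linter.unusedSectionVars false

noncomputable section

open Set Filter Topology
open Crest.Agent.R204
open Crest.Agent.R231.GLugx576 Crest.Agent.R231.Pairx877

namespace Crest.Agent.R231.Cmpx952

variable {M : Type} [MetricSpace M] [CompactSpace M] (L : LUG M)

/-- sets of loops preserved by the polygon homotopy -/
def Good (P : Set (Lp M)) : Prop :=
  ∀ N : ℕ, 0 < N → ∀ γ ∈ P, γ ∈ Dom M L.r0 N → ∀ r ∈ Icc (0 : ℝ) 1, ht L N γ r ∈ P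

theorem good_univ : Good L (univ : Set (Lp M)) := fun _ _ _ _ _ _ _ => trivial
theorem good_empty : Good L (∅ : Set (Lp M)) := fun _ _ _ h => h.elim

/-- conditions on the base point of the loop -/
theorem good_at (U : Set M) : Good L {γ : Lp M | γ 0 ∈ U} := fun _ hN γ h hD _ hr => by
  show ht L _ γ _ 0 ∈ U
  rw [ht_at_zero L hN hD hr]; exact h


theorem Good.union {P Q : Set (Lp M)} (hP : Good L P) (hQ : Good L Q) : Good L (P ∪ Q) :=
  fun N hN γ h hD r hr => h.elim (fun h => Or.inl (hP N hN γ h hD r hr))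
    fun h => Or.inr (hQ N hN γ h hD r hr)

/-- **the chain operators**: `φ` = inscribed polygon, `P` = prism of the homotopy -/
theorem operator {K : Set (Lp M)} (hK : IsCompact K) (t₀ : ℝ) :
    ∃ (t₁ : ℝ) (A : Set (Lp M)) (φ P : CE (Lp M) →ₗ[F2] CE (Lp M)), t₀ ≤ t₁ ∧ K ⊆ A ∧ X M t₀ ⊆ A ∧
      (∀ c ∈ CS A, bdE (Lp M) (P c) = c + φ c + P (bdE (Lp M) c)) ∧
      (∀ c ∈ CS A, bdE (Lp M) (φ c) = φ (bdE (Lp M) c)) ∧
      (∀ B : Set (Lp M), Good L B → ∀ c ∈ CS (B ∩ A), P c ∈ CS B ∧ φ c ∈ CS (B ∩ X M t₁)) ∧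
      (∀ B : Set (Lp M), Good L B → ∀ t ≤ t₀, ∀ c ∈ CS (B ∩ X M t),
        P c ∈ CS (B ∩ X M t) ∧ φ c ∈ CS (B ∩ X M t)) ∧
      (∀ n, ∀ c ∈ N.gr F2 (SS.Sing (Lp M)) n, P c ∈ N.gr F2 (SS.Sing (Lp M)) (n + 1)) ∧
      (∀ n, ∀ c ∈ N.gr F2 (SS.Sing (Lp M)) n, φ c ∈ N.gr F2 (SS.Sing (Lp M)) n) := by
  obtain ⟨N₀, hN₀⟩ := exists_Dom (K := K ∪ X M t₀) (hK.union (isCompact_X t₀)) L.r0_pos
  obtain ⟨N₁, hN₁⟩ := exists_nat_gt (t₀ / L.r0)
  set k : ℕ := max (max N₀ N₁) 1 with hk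
  have hk0 : 0 < k := lt_of_lt_of_le one_pos (le_max_right _ _)
  have hkN : N₀ ≤ k := (le_max_left _ _).trans (le_max_left _ _)
  have hkN1 : N₁ ≤ k := (le_max_right _ _).trans (le_max_left _ _)
  have hsub := hN₀ k hkN hk0
  have hD : ∀ t ≤ t₀, X M t ⊆ Dom M L.r0 k := fun t ht =>
    (X_mono ht).trans (subset_union_right.trans hsub)
  obtain ⟨φ, P, h1, h2, h3, h4, h5, h6⟩ := deform (A := Dom M L.r0 k) (fun γ r => ht L k γ r)
    (continuousOn_ht L hk0) (fun γ hγ => ht_zero L hk0 hγ)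
  refine ⟨max t₀ (k * L.r0), Dom M L.r0 k, φ, P, le_max_left _ _, subset_union_left.trans hsub,
    hD t₀ le_rfl, h1, h2, ?_, ?_, h5, h6⟩
  · intro B hB c hc
    refine ⟨h3 (B ∩ Dom M L.r0 k) B inter_subset_right (fun γ hγ r hr =>
      hB k hk0 γ hγ.1 hγ.2 r hr) c hc, h4 (B ∩ Dom M L.r0 k) (B ∩ X M (max t₀ (k * L.r0)))
      inter_subset_right (fun γ hγ => ?_) c hc⟩
    refine ⟨hB k hk0 γ hγ.1 hγ.2 1 ⟨zero_le_one, le_rfl⟩, ?_⟩
    show ht L k γ 1 ∈ _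
    rw [ht_one L hk0 hγ.2]
    exact X_mono (le_max_right _ _) (pl_mem_X L hk0 hγ.2)
  · intro B hB t ht' c hc
    have hs : B ∩ X M t ⊆ Dom M L.r0 k := inter_subset_right.trans (hD t ht')
    exact ⟨h3 (B ∩ X M t) (B ∩ X M t) hs (fun γ hγ r hr => ⟨hB k hk0 γ hγ.1 (hD t ht' hγ.2) r hr,
        ht_mem_X L hk0 (hD t ht' hγ.2) hγ.2 hr⟩) c hc,
      h4 (B ∩ X M t) (B ∩ X M t) hs (fun γ hγ => ⟨hB k hk0 γ hγ.1 (hD t ht' hγ.2) 1 ⟨zero_le_one, le_rfl⟩,
        ht_mem_X L hk0 (hD t ht' hγ.2) hγ.2 ⟨zero_le_one, le_rfl⟩⟩) c hc⟩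

/-- **(C1)** every relative cycle of `(P, Q)` is homologous to one with Lipschitz support. -/
theorem C1 {P Q : Set (Lp M)} (hP : Good L P) (hQ : Good L Q) {c : CE (Lp M)} (h1 : c ∈ CS P)
    (h2 : bdE (Lp M) c ∈ CS Q) : ∃ (t : ℝ) (c' w : CE (Lp M)), c' ∈ CS (P ∩ X M t) ∧
      bdE (Lp M) c' ∈ CS (Q ∩ X M t) ∧ w ∈ CS P ∧ c - c' - bdE (Lp M) w ∈ CS Q ∧
      (∀ n, c ∈ N.gr F2 (SS.Sing (Lp M)) n → c' ∈ N.gr F2 (SS.Sing (Lp M)) n ∧
        w ∈ N.gr F2 (SS.Sing (Lp M)) (n + 1)) := by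
  obtain ⟨K, hKP, hK, hcK⟩ := exists_isCompact h1
  obtain ⟨K', hKQ, hK', hcK'⟩ := exists_isCompact h2
  obtain ⟨t, A, φ, Pr, -, hKA, -, e1, e2, e3, -, e5, e6⟩ := operator L (hK.union hK') 0
  have a1 : c ∈ CS (P ∩ A) := CS_mono (subset_inter hKP (subset_union_left.trans hKA)) hcK
  have a2 : bdE (Lp M) c ∈ CS (Q ∩ A) :=
    CS_mono (subset_inter hKQ (subset_union_right.trans hKA)) hcK'
  have a3 : c ∈ CS A := CS_mono inter_subset_right a1
  refine ⟨t, φ c, Pr c, (e3 P hP c a1).2, ?_, (e3 P hP c a1).1, ?_, fun n hn => ⟨e6 n c hn, e5 n c hn⟩⟩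
  · rw [e2 c a3]; exact (e3 Q hQ _ a2).2
  · have : c - φ c - bdE (Lp M) (Pr c) = Pr (bdE (Lp M) c) := by
      rw [e1 c a3, ZModModule.sub_eq_add, ZModModule.sub_eq_add]
      have h1 := add_self_CE c
      have h2 := add_self_CE (φ c)
      calc c + φ c + (c + φ c + Pr (bdE (Lp M) c)) = (c + c) + (φ c + φ c) + Pr (bdE (Lp M) c) := by
            abel
        _ = _ := by rw [h1, h2]; abel
    rw [this]
    exact (e3 Q hQ _ a2).1

/-- **(C2)** a Lipschitz relative cycle of `(P, Q)` which bounds, bounds with Lipschitz support. -/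
theorem C2 {P Q : Set (Lp M)} (hP : Good L P) (hQ : Good L Q) {t : ℝ} {c w : CE (Lp M)}
    (h1 : c ∈ CS (P ∩ X M t)) (h2 : bdE (Lp M) c ∈ CS (Q ∩ X M t)) (h3 : w ∈ CS P)
    (h4 : c - bdE (Lp M) w ∈ CS Q) : ∃ (t' : ℝ) (w' : CE (Lp M)), t ≤ t' ∧
      w' ∈ CS (P ∩ X M t') ∧ c - bdE (Lp M) w' ∈ CS (Q ∩ X M t') ∧
      (∀ n, c ∈ N.gr F2 (SS.Sing (Lp M)) n → w ∈ N.gr F2 (SS.Sing (Lp M)) (n + 1) →
        w' ∈ N.gr F2 (SS.Sing (Lp M)) (n + 1)) := by
  obtain ⟨K, hKP, hK, hcK⟩ := exists_isCompact h3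
  obtain ⟨K', hKQ, hK', hcK'⟩ := exists_isCompact h4
  obtain ⟨t₁, A, φ, Pr, ht₁, hKA, hXA, e1, e2, e3, e4, e5, e6⟩ := operator L (hK.union hK') t
  have a1 : w ∈ CS (P ∩ A) := CS_mono (subset_inter hKP (subset_union_left.trans hKA)) hcK
  have a2 : c - bdE (Lp M) w ∈ CS (Q ∩ A) :=
    CS_mono (subset_inter hKQ (subset_union_right.trans hKA)) hcK'
  have a3 : w ∈ CS A := CS_mono inter_subset_right a1
  have a4 : c ∈ CS A := CS_mono (inter_subset_right.trans hXA) h1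
  have b1 := e4 P hP t le_rfl c h1
  have b2 := e4 Q hQ t le_rfl _ h2
  have m1 : P ∩ X M t ⊆ P ∩ X M t₁ := inter_subset_inter_right _ (X_mono ht₁)
  have m2 : Q ∩ X M t ⊆ Q ∩ X M t₁ := inter_subset_inter_right _ (X_mono ht₁)
  refine ⟨t₁, φ w + Pr c, ht₁, Submodule.add_mem _ (e3 P hP w a1).2 (CS_mono m1 b1.1), ?_,
    fun n hc hw => Submodule.add_mem _ (e6 _ w hw) (e5 n c hc)⟩
  have key : c - bdE (Lp M) (φ w + Pr c) = φ (c - bdE (Lp M) w) + Pr (bdE (Lp M) c) := by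
    rw [map_add, e2 w a3, e1 c a4, map_sub, ZModModule.sub_eq_add, ZModModule.sub_eq_add]
    have h1 := add_self_CE c
    calc c + (φ (bdE (Lp M) w) + (c + φ c + Pr (bdE (Lp M) c))) =
        (c + c) + (φ c + φ (bdE (Lp M) w)) + Pr (bdE (Lp M) c) := by abel
      _ = _ := by rw [h1, zero_add]
  rw [key]
  exact Submodule.add_mem _ (e3 Q hQ _ a2).2 (CS_mono m2 b2.1)

/-! ### the same with `WL M = ⨆ t, CS (X M t)` -/

open TActx569 in
theorem mem_CS_inf_WL {P : Set (Lp M)} {c : CE (Lp M)} :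
    c ∈ CS P ⊓ WL M ↔ ∃ t, c ∈ CS (P ∩ X M t) := by
  rw [Submodule.mem_inf, mem_WL M]
  constructor
  · rintro ⟨h1, t, h2⟩
    exact ⟨t, mem_CS_inter h1 h2⟩
  · rintro ⟨t, h⟩
    exact ⟨CS_mono inter_subset_left h, t, CS_mono inter_subset_right h⟩

open TActx569 in
theorem mem_WL_inter {P Q : Set (Lp M)} {t : ℝ} {c : CE (Lp M)} (h1 : c ∈ CS (P ∩ X M t))
    (h2 : bdE (Lp M) c ∈ CS Q) : bdE (Lp M) c ∈ CS (Q ∩ X M t) :=
  mem_CS_inter h2 (CS_mono inter_subset_right (bd_mem_CS c h1))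

open TActx569 in
/-- **(C1)** in terms of `WL M` -/
theorem C1_WL {P Q : Set (Lp M)} (hP : Good L P) (hQ : Good L Q) {c : CE (Lp M)} (h1 : c ∈ CS P)
    (h2 : bdE (Lp M) c ∈ CS Q) : ∃ c' w : CE (Lp M), c' ∈ CS P ⊓ WL M ∧
      bdE (Lp M) c' ∈ CS Q ⊓ WL M ∧ w ∈ CS P ∧ c - c' - bdE (Lp M) w ∈ CS Q ∧
      (∀ n, c ∈ N.gr F2 (SS.Sing (Lp M)) n → c' ∈ N.gr F2 (SS.Sing (Lp M)) n ∧
        w ∈ N.gr F2 (SS.Sing (Lp M)) (n + 1)) := by
  obtain ⟨t, c', w, a1, a2, a3, a4, a5⟩ := C1 L hP hQ h1 h2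
  exact ⟨c', w, mem_CS_inf_WL.2 ⟨t, a1⟩, mem_CS_inf_WL.2 ⟨t, a2⟩, a3, a4, a5⟩

open TActx569 in
/-- **(C2)** in terms of `WL M` -/
theorem C2_WL {P Q : Set (Lp M)} (hP : Good L P) (hQ : Good L Q) {c w : CE (Lp M)}
    (h1 : c ∈ CS P ⊓ WL M) (h2 : bdE (Lp M) c ∈ CS Q) (h3 : w ∈ CS P)
    (h4 : c - bdE (Lp M) w ∈ CS Q) : ∃ w' : CE (Lp M), w' ∈ CS P ⊓ WL M ∧
      c - bdE (Lp M) w' ∈ CS Q ⊓ WL M ∧
      (∀ n, c ∈ N.gr F2 (SS.Sing (Lp M)) n → w ∈ N.gr F2 (SS.Sing (Lp M)) (n + 1) →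
        w' ∈ N.gr F2 (SS.Sing (Lp M)) (n + 1)) := by
  obtain ⟨t, ht⟩ := mem_CS_inf_WL.1 h1
  obtain ⟨t', w', -, a1, a2, a3⟩ := C2 L hP hQ ht (mem_WL_inter ht h2) h3 h4
  exact ⟨w', mem_CS_inf_WL.2 ⟨t', a1⟩, mem_CS_inf_WL.2 ⟨t', a2⟩, a3⟩

open TActx569 in
/-- absolute version of (C1) -/
theorem C1_abs {P : Set (Lp M)} (hP : Good L P) {c : CE (Lp M)} (h1 : c ∈ CS P)
    (h2 : bdE (Lp M) c = 0) : ∃ c' w : CE (Lp M), c' ∈ CS P ⊓ WL M ∧ bdE (Lp M) c' = 0 ∧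
      w ∈ CS P ∧ c = c' + bdE (Lp M) w ∧
      (∀ n, c ∈ N.gr F2 (SS.Sing (Lp M)) n → c' ∈ N.gr F2 (SS.Sing (Lp M)) n ∧
        w ∈ N.gr F2 (SS.Sing (Lp M)) (n + 1)) := by
  obtain ⟨c', w, a1, a2, a3, a4, a5⟩ := C1_WL L hP (good_empty L) h1
    (by rw [h2]; exact Submodule.zero_mem _)
  rw [CS_empty] at a2 a4
  have b2 : bdE (Lp M) c' = 0 := by
    have := a2.1
    rwa [SetLike.mem_coe, Submodule.mem_bot] at this
  rw [Submodule.mem_bot] at a4
  refine ⟨c', w, a1, b2, a3, ?_, a5⟩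
  rw [sub_sub, sub_eq_zero] at a4
  exact a4

open TActx569 in
/-- absolute version of (C2) -/
theorem C2_abs {P : Set (Lp M)} (hP : Good L P) {c w : CE (Lp M)} (h1 : c ∈ CS P ⊓ WL M)
    (h3 : w ∈ CS P) (h4 : bdE (Lp M) w = c) : ∃ w' : CE (Lp M), w' ∈ CS P ⊓ WL M ∧
      bdE (Lp M) w' = c ∧
      (∀ n, c ∈ N.gr F2 (SS.Sing (Lp M)) n → w ∈ N.gr F2 (SS.Sing (Lp M)) (n + 1) →
        w' ∈ N.gr F2 (SS.Sing (Lp M)) (n + 1)) := by
  obtain ⟨w', a1, a2, a3⟩ := C2_WL L hP (good_empty L) h1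
    (by rw [← h4, bd_bdE]; exact Submodule.zero_mem _) h3
    (by rw [h4, sub_self]; exact Submodule.zero_mem _)
  rw [CS_empty] at a2
  have b2 : c - bdE (Lp M) w' = 0 := by
    have := a2.1
    rwa [SetLike.mem_coe, Submodule.mem_bot] at this
  exact ⟨w', a1, (sub_eq_zero.1 b2).symm, a3⟩

open TActx569 in
/-- free loops: a Lipschitz chain which bounds, bounds a Lipschitz chain -/
theorem map_bd_WL (L : LUG M) {c : CE (Lp M)} (hc : c ∈ WL M) (h : ∃ w, bdE (Lp M) w = c) :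
    c ∈ (WL M).map (bdE (Lp M)) := by
  obtain ⟨w, hw⟩ := h
  have hu : CS (univ : Set (Lp M)) = ⊤ := CS_univ
  obtain ⟨w', a1, a2, -⟩ := C2_abs L (good_univ L) (c := c) (w := w)
    ⟨by rw [hu]; trivial, hc⟩ (by rw [hu]; trivial) hw
  exact ⟨w', a1.2, a2⟩

end Crest.Agent.R231.Cmpx952
end
end

-- ▼ part R231/TEv_952

/-!
# Row 231, block T (helper952): based chains, evaluation at the base point, constants

* `jN p : CO p → CE (Lp M)` is injective with image `CS (L0 p)`;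
* `ev0 _# (Am m x) = 0`, `ev0 _# (vm m x) = 0` (`m ≥ 2`), `ev0 _# (vm 1 x)` = suspension of `x`;
* `not_const` : a cycle which is not a boundary and whose evaluation is zero is not
  homologous to a chain of constant loops;
* `lip_rep` : every cycle of based loops is homologous to a Lipschitz one.
-/

set_option autoImplicit false
set_option linter.unusedSectionVars false

noncomputable section

open Set
open Crest.Agent.R204 EZ271 EZ847 SingAct265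
open Crest.Agent.R231.GLugx576 Crest.Agent.R231.Pairx877 Crest.Agent.R231.TActx569
open Crest.Agent.R231.Concx150 Crest.Agent.R231.CPowx150 Crest.Agent.R231.AmChx150
open Crest.Agent.R231.TFillx150 Crest.Agent.R231.Cmpx952
open Crest.Agent.R231.OmHomx871 (L0)

namespace Crest.Agent.R231.TTransx952

variable {M : Type} [MetricSpace M]

/-- restriction to based loops -/
def rO (p : M) : CE (Lp M) →ₗ[F2] CO p := res (L0 p)

theorem CS_L0 (p : M) : CS (L0 p) = LinearMap.range (jN p) := CS_eq_range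

theorem rO_jN {p : M} (x : CO p) : rO p (jN p x) = x := res_map_inc x


theorem jN_mem_L0 {p : M} (x : CO p) : jN p x ∈ CS (L0 p) := by
  rw [CS_L0]; exact ⟨x, rfl⟩

theorem jN_rO {p : M} {c : CE (Lp M)} (hc : c ∈ CS (L0 p)) : jN p (rO p c) = c :=
  map_inc_res c hc

theorem bd_jN {p : M} (x : CO p) : bdE (Lp M) (jN p x) = jN p (N.bd F2 _ x) :=
  (map_bd' F2 _ _).symm

theorem bd_rO {p : M} {c : CE (Lp M)} (hc : c ∈ CS (L0 p)) :
    N.bd F2 _ (rO p c) = rO p (bdE (Lp M) c) := bd_res c hc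

theorem rO_gr {p : M} {n : ℕ} {c : CE (Lp M)} (hc : c ∈ N.gr F2 (SS.Sing (Lp M)) n) :
    rO p c ∈ N.gr F2 (SS.Sing (Om p)) n := res_gr hc

theorem jN_gr {p : M} {n : ℕ} {x : CO p} (hx : x ∈ N.gr F2 (SS.Sing (Om p)) n) :
    jN p x ∈ N.gr F2 (SS.Sing (Lp M)) n := Exc406.map_mem_gr _ hx

theorem jN_mem_X {p : M} {t : ℝ} {x : CO p} (hx : x ∈ CS (OmX p t)) : jN p x ∈ CS (X M t) :=
  Instx895.SingMap_mem_CS (ιO p) (fun _ h => h) x hx

theorem res_L0_X {p : M} {t : ℝ} : ∀ c ∈ CS (L0 p ∩ X M t),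
    res (L0 p) c ∈ CS {γ : L0 p | γ.1 ∈ X M t} := by
  refine map_mem_of_CS fun n σ hσ => ?_
  rw [res_sx fun t => (hσ t).1]
  exact sx_mem_CS fun s => (hσ s).2

theorem rO_mem_OmX {p : M} {t : ℝ} {c : CE (Lp M)} (hc : c ∈ CS (L0 p ∩ X M t)) :
    rO p c ∈ CS (OmX p t) := res_L0_X c hc

section eval

/-- evaluation at `0` -/
def ev0 (M : Type) [MetricSpace M] : C(Lp M, M) :=
  ⟨fun γ => γ 0, by
    have h : Continuous fun γ : Lp M => (γ, (0 : ℝ)) := continuous_id.prodMk continuous_const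
    have h2 := GLugx576.continuous_evalR.comp h
    exact h2⟩

/-- constant loops -/
def cst (M : Type) [MetricSpace M] : C(M, Lp M) :=
  ⟨fun q => ContinuousMap.const _ q, ContinuousMap.continuous_const'⟩

theorem cst_ev0 {γ : Lp M} (h : γ ∈ X M 0) : cst M (ev0 M γ) = γ := by
  refine ContinuousMap.ext fun x => ?_
  exact (mem_X_zero.1 h x).symm

theorem cst_ev0_CS : ∀ c ∈ CS (X M 0),
    N.map F2 (SS.SingMap (cst M)) (N.map F2 (SS.SingMap (ev0 M)) c) = c := by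
  refine eq_on_CS (f := (N.map F2 (SS.SingMap (cst M))) ∘ₗ (N.map F2 (SS.SingMap (ev0 M))))
    (g := LinearMap.id) fun n σ hσ => ?_
  rw [LinearMap.comp_apply, N.map_sx, N.map_sx, LinearMap.id_apply]
  congr 1
  exact sing_ext fun y => cst_ev0 (hσ y)

theorem ev0_jN {p : M} {n : ℕ} {x : CO p} (hx : x ∈ N.gr F2 _ (n + 1)) :
    N.map F2 (SS.SingMap (ev0 M)) (jN p x) = 0 := by
  unfold jN
  rw [map_map]
  have h : (SS.SingMap (ev0 M)).comp (SS.SingMap (ιO p)) =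
      SS.SingMap (ContinuousMap.const (Om p) p) := by
    refine SS.Hom.ext (funext fun n => funext fun σ => sing_ext fun y => ?_)
    exact (ev σ y).2
  rw [h, HspSS696.singMap_const]
  exact TDegx961.N_const_pos _ hx

/-- **`ev_# A_m(x) = 0`** -/
theorem ev0_Am {p : M} {d m : ℕ} [NeZero m] (hd : 0 < d) {x : CO p} (hx : x ∈ N.gr F2 _ d) :
    N.map F2 (SS.SingMap (ev0 M)) (Am m x) = 0 := by
  rw [Am_eq_AmO]
  have h1 : AmO m x ∈ N.gr F2 _ (m * d) := AmO_mem_gr m hx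
  obtain ⟨n, hn⟩ : ∃ n, m * d = n + 1 := ⟨m * d - 1, by
    have := Nat.mul_pos (NeZero.pos m) hd
    omega⟩
  rw [hn] at h1
  exact ev0_jN h1

theorem aug_pos {K : SS} {n : ℕ} (hn : 0 < n) {c : N F2 K} (hc : c ∈ N.gr F2 K n) :
    aug F2 c = 0 := by
  refine Gr334.gr_induction (p := fun c => aug F2 c = 0) hc (map_zero _) ?_ ?_ ?_
  · intro a b ha hb; rw [map_add, ha, hb, add_zero]
  · intro r a ha; rw [map_smul, ha, smul_zero]
  · intro x
    obtain ⟨k, rfl⟩ : ∃ k, n = k + 1 := ⟨n - 1, by omega⟩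
    exact EZ271.aug_sx_succ F2 x

/-- first coordinate -/
def p0H (K : SS) (m : ℕ) : SS.Hom (Pw K (m + 1)) K :=
  ⟨fun _ x => x 0, fun _ _ => rfl⟩

theorem p0_cpow {K : SS} {d m : ℕ} (hd : 0 < d) {x : N F2 K} (hx : x ∈ N.gr F2 _ d) (hm : 0 < m) :
    N.map F2 (p0H K m) (cpow x (m + 1)) = 0 := by
  rw [cpow_cons, map_map]
  have h : (p0H K m).comp (consH K m) = SS.fst K (Pw K m) := rfl
  rw [h, fst_cross, aug_pos (Nat.mul_pos hm hd) (cpow_mem_gr hx m), zero_smul]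

/-- the evaluation family of `TDegC_961` on `Om p` -/
def evSO (p : M) : SS.Hom ((SS.std 1).prod (SS.Sing (Om p))) (SS.Sing M) := TDegx961.evS p

/-- `γ_1 ... γ_m (s/m) = γ_1 (s)` on simplices -/
theorem ev_factor (p : M) (m : ℕ) :
    (SS.SingMap (ev0 M)).comp ((LA M).a.comp
      (SS.prodMap (ST.yo (seg 0 (1 / (m + 1 : ℕ)))) (concH (m + 1) p))) =
    (evSO p).comp (SS.prodMap (SS.Hom.id (SS.std 1)) (p0H (SS.Sing (Om p)) m)) := by
  refine SS.Hom.ext (funext fun n => funext fun x => sing_ext fun y => ?_)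
  obtain ⟨θ, f⟩ := x
  change Op n 1 at θ
  set t : stdSimplex ℝ (Fin 2) := stdSimplex.map θ y with ht
  have h2 : ev ((ST.yo (seg 0 (1 / (m + 1 : ℕ)))).app n θ) y =
      (((t : Fin 2 → ℝ) 1 / (m + 1 : ℕ) : ℝ) : UnitAddCircle) := by
    have h3 : ev ((ST.yo (seg 0 (1 / (m + 1 : ℕ)))).app n θ) y =
      ((0 * (t : Fin 2 → ℝ) 0 + (1 / (m + 1 : ℕ)) * (t : Fin 2 → ℝ) 1 : ℝ) : UnitAddCircle) := rfl
    rw [h3]
    congr 1
    ring
  have h1 : ev (((SS.SingMap (ev0 M)).comp ((LA M).a.comp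
      (SS.prodMap (ST.yo (seg 0 (1 / (m + 1 : ℕ)))) (concH (m + 1) p)))).app n (θ, f)) y =
      (rot (ev ((ST.yo (seg 0 (1 / (m + 1 : ℕ)))).app n θ) y)
        (conc (m + 1) fun i => ev (f i) y)) 0 := rfl
  rw [h1, h2, rot_apply, zero_add, conc_first (m + 1) (fun i => ev (f i) y)
    (stdSimplex.zero_le t 1) (stdSimplex.le_one t 1)]
  rfl

theorem vm_eq {p : M} (m : ℕ) (x : CO p) : vm (m + 1) x =
    N.map F2 ((LA M).a.comp (SS.prodMap (ST.yo (seg 0 (1 / (m + 1 : ℕ)))) (concH (m + 1) p)))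
      (cross F2 (N.sx F2 (iota 1)) (cpow x (m + 1))) := by
  have h1 : vm (m + 1) x = N.map F2 (LA M).a (cross F2 (N.sx F2 (seg 0 (1 / (m + 1 : ℕ))))
    (N.map F2 (concH (m + 1) p) (cpow x (m + 1)))) := rfl
  rw [h1, sx_eq_map_iota F2 (seg 0 (1 / (m + 1 : ℕ))), ← map_cross, map_map]

/-- **`ev_# v_m(x) = 0` for `m ≥ 2`** -/
theorem ev0_vm_succ {p : M} {d m : ℕ} (hd : 0 < d) (hm : 0 < m) {x : CO p} (hx : x ∈ N.gr F2 _ d) :
    N.map F2 (SS.SingMap (ev0 M)) (vm (m + 1) x) = 0 := by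
  rw [vm_eq, map_map, ev_factor, ← map_map, map_cross, p0_cpow hd hx hm, map_zero, map_zero]

theorem ev0_vm {p : M} {d m : ℕ} [NeZero m] (hd : 0 < d) (hm : 2 ≤ m) {x : CO p}
    (hx : x ∈ N.gr F2 _ d) : N.map F2 (SS.SingMap (ev0 M)) (vm m x) = 0 := by
  obtain ⟨m, rfl⟩ : ∃ m', m = m' + 1 := ⟨m - 1, by omega⟩
  exact ev0_vm_succ hd (by omega) hx

/-- a cycle which is not a boundary and whose evaluation bounds is not homologous to a chain of
constant loops -/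
theorem not_const {c : CE (Lp M)} (hne : c ∉ LinearMap.range (bdE (Lp M)))
    (hev : N.map F2 (SS.SingMap (ev0 M)) c ∈ LinearMap.range (bdE M)) :
    c ∉ CS (X M 0) ⊔ LinearMap.range (bdE (Lp M)) := by
  intro h
  obtain ⟨c0, h0, b, ⟨w, rfl⟩, h⟩ := Submodule.mem_sup.1 h
  obtain ⟨u, hu⟩ := hev
  have e1 : c0 = c - bdE (Lp M) w := by rw [← h, add_sub_cancel_right]
  have e2 : N.map F2 (SS.SingMap (ev0 M)) c0 =
      bdE M (u - N.map F2 (SS.SingMap (ev0 M)) w) := by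
    rw [e1, map_sub, map_sub, hu, map_bd']
  refine hne ⟨N.map F2 (SS.SingMap (cst M)) (u - N.map F2 (SS.SingMap (ev0 M)) w) + w, ?_⟩
  have e3 : bdE (Lp M) (N.map F2 (SS.SingMap (cst M)) (u - N.map F2 (SS.SingMap (ev0 M)) w)) =
      c0 := by
    refine (map_bd' F2 (SS.SingMap (cst M)) _).symm.trans ?_
    refine Eq.trans ?_ (cst_ev0_CS c0 h0)
    rw [e2]
  rw [map_add, e3, h]

end eval

section lip

variable [CompactSpace M] (L : LUG M)

theorem good_L0 (p : M) : Good L (L0 p) := good_at L {p}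

include L in
/-- **every cycle of based loops is homologous to a Lipschitz one** -/
theorem lip_rep {p : M} {d : ℕ} {z : CO p} (hz : z ∈ N.gr F2 _ d) (hb : N.bd F2 _ z = 0) :
    ∃ (t : ℝ) (x w : CO p), x ∈ CS (OmX p t) ∧ x ∈ N.gr F2 _ d ∧ N.bd F2 _ x = 0 ∧
      z = x + N.bd F2 _ w := by
  obtain ⟨c', w, a1, a2, a3, a4, a5⟩ := C1_abs L (good_L0 L p) (jN_mem_L0 z)
    (by rw [bd_jN, hb, map_zero])
  obtain ⟨t, ht⟩ := mem_CS_inf_WL.1 a1
  refine ⟨t, rO p c', rO p w, rO_mem_OmX ht, rO_gr (a5 d (jN_gr hz)).1, ?_, ?_⟩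
  · rw [bd_rO a1.1, a2, map_zero]
  · rw [bd_rO a3, ← map_add, ← a4, rO_jN]

end lip

end Crest.Agent.R231.TTransx952
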