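import Crest.Agent.R231.If_G_651_Mg
import Crest.Agent.R231.InstA_895
import Crest.Agent.R231.Asm_895
import Crest.Agent.R231.GSegLip_67_Mg
import Crest.Agent.R231.GNon_651
import Crest.Agent.R231.GPoly_943
import Crest.Agent.R231.FinDim_315
import Crest.Agent.R231.TOut_482
import Crest.Agent.R231.TEv_952
import Crest.Agent.R231.OmPow_871
import Crest.Agent.R231.TBas_961
import Crest.Agent.R231.TFill_150
import Crest.Agent.R231.InstC_895
import Crest.Agent.R231.TC_569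
import Crest.Agent.R231.IfA_978
import Crest.Agent.R231.TSub_569
import Crest.Agent.R231.SplitR2_737
import Crest.Agent.R231.PairH_877
import Crest.Agent.R231.GCross_449
import Crest.Agent.R231.GSmith_651
import Crest.Agent.R231.CritPM_893
import Crest.Agent.R231.GPush_576

-- ▼ part R231/GFinB_315
section

/-!
# Row 231 (S0357), block G: the fields `fin` and `bdd` of `IfAx978.Base` (helper315)

For 895's concrete mixed complex `mix M`, `FF M t`:
* `rd_ne_top_of_frk`, `bdd_of_frk` : graded statements from `Frk`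
* `Zp_le_Bp_of_graded` : total version of a graded statement
* `fin_bdd` : `Frk (X t') (X 0) (X t) (X 0)` and `H(X t, X t') = 0` give both fields at the level `t`
-/

set_option autoImplicit false
set_option linter.unusedSectionVars false

noncomputable section

open Function Topology

namespace Crest.Agent.R231.GFinBx315

open Crest.Agent.R204
open Pairx877 GLugx576 IfAx978 Gr334 GFinx315 FinDim315 Instx895

variable {M : Type} [MetricSpace M]








/-! ### the form of `If_G_651` -/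

section general

variable {E : Type} [TopologicalSpace E]

/-- the finite dimensional complement can be chosen inside the relative cycles -/
theorem exists_finset_of_frk {X A X' A' : Set E} (h : Frk X A X' A') :
    ∃ S : Finset (CE E), (∀ z ∈ S, z ∈ Zp X A) ∧
      Zp X A ≤ Bp X' A' ⊔ Submodule.span F2 (S : Set (CE E)) := by
  obtain ⟨S, hS, h⟩ := h
  let ψ : Zp X A →ₗ[F2] (CE E ⧸ Bp X' A') := (Bp X' A').mkQ ∘ₗ (Zp X A).subtype
  have hψ : LinearMap.range ψ ≤ S.map (Bp X' A').mkQ := by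
    rintro _ ⟨c, rfl⟩
    obtain ⟨b, hb, s, hs, hbs⟩ := Submodule.mem_sup.1 (h c.2)
    refine ⟨s, hs, ?_⟩
    show (Bp X' A').mkQ s = (Bp X' A').mkQ c.1
    rw [← hbs, map_add, show (Bp X' A').mkQ b = 0 from (Submodule.Quotient.mk_eq_zero _).2 hb,
      zero_add]
  have hfg : (LinearMap.range ψ).FG := by
    have h5 : (S.map (Bp X' A').mkQ).FG := hS.map _
    have h6 : Module.Finite F2 (S.map (Bp X' A').mkQ) := ⟨(Submodule.fg_top _).2 h5⟩
    have h7 : Module.Finite F2 (LinearMap.range ψ) :=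
      Module.Finite.of_injective (Submodule.inclusion hψ) (Submodule.inclusion_injective hψ)
    exact (Submodule.fg_top _).1 h7.1
  obtain ⟨n, g, hg⟩ := Submodule.fg_iff_exists_fin_generating_family.1 hfg
  have hgm : ∀ i, g i ∈ LinearMap.range ψ := fun i => by
    rw [← hg]; exact Submodule.subset_span ⟨i, rfl⟩
  choose z hz using hgm
  classical
  refine ⟨Finset.univ.image fun i => (z i : CE E), fun w hw => ?_, fun c hc => ?_⟩
  · obtain ⟨i, -, rfl⟩ := Finset.mem_image.1 hw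
    exact (z i).2
  · have h8 : ψ ⟨c, hc⟩ ∈ LinearMap.range ψ := ⟨_, rfl⟩
    rw [← hg, Submodule.mem_span_range_iff_exists_fun] at h8
    obtain ⟨a, ha⟩ := h8
    have h9 : ψ (∑ i, a i • z i) = ψ ⟨c, hc⟩ := by
      rw [← ha, map_sum]
      exact Finset.sum_congr rfl fun i _ => by rw [map_smul, hz]
    have h10 : ψ (⟨c, hc⟩ - ∑ i, a i • z i) = 0 := by rw [map_sub, h9, sub_self]
    have h11 : c - ((∑ i, a i • z i : Zp X A) : CE E) ∈ Bp X' A' :=
      (Submodule.Quotient.mk_eq_zero _).1 h10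
    have h12 : c = (c - ((∑ i, a i • z i : Zp X A) : CE E)) +
        ((∑ i, a i • z i : Zp X A) : CE E) := by abel
    rw [h12]
    refine Submodule.add_mem_sup h11 ?_
    rw [AddSubmonoidClass.coe_finsetSum]
    exact Submodule.sum_mem _ fun i _ => Submodule.smul_mem _ _ (Submodule.subset_span
      (Finset.mem_coe.2 (Finset.mem_image_of_mem _ (Finset.mem_univ i))))

theorem frk_of_finset {X A X' A' : Set E} {S : Finset (CE E)}
    (h : Zp X A ≤ Bp X' A' ⊔ Submodule.span F2 (S : Set (CE E))) : Frk X A X' A' :=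
  ⟨_, Submodule.fg_span S.finite_toSet, h⟩

/-- a space with finite dimensional homology -/
theorem frk_of_finite {X : Set E} (h : Module.Finite F2 (HS X)) : Frk X ∅ X ∅ :=
  frk_of_finRk subset_rfl (FinRk.of_finite_left _ h)

end general

/-- a compact retract of an open subset of a normed space has finite dimensional homology -/
theorem finite_of_retract {V Y : Type} [NormedAddCommGroup V] [NormedSpace ℝ V]
    [TopologicalSpace Y] [CompactSpace Y] {O : Set V} (hO : IsOpen O) (i : C(Y, O)) (r : C(O, Y))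
    (h : ∀ y, r (i y) = y) : Module.Finite F2 (HS Y) := by
  have hK : IsCompact (Set.range fun y => (i y : V)) := isCompact_range (by fun_prop)
  have hKO : (Set.range fun y => (i y : V)) ⊆ O := by
    rintro _ ⟨y, rfl⟩
    exact (i y).2
  have e : ContinuousMap.id Y = r.comp i := by
    ext y; exact (h y).symm
  refine finite_of_factor hK hO hKO i (fun y => ⟨y, rfl⟩) r (ContinuousMap.id Y) ?_ ?_
  · rw [e]
  · intro x y hxy
    rwa [Hm_id, Hm_id] at hxy

/-- constant loops -/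
def X0equiv (M : Type) [MetricSpace M] : GLugx576.X M 0 ≃ₜ M where
  toFun γ := γ.1 0
  invFun p := ⟨ContinuousMap.const _ p, const_mem le_rfl p⟩
  left_inv γ := by
    apply Subtype.ext
    ext x
    exact (mem_X_zero.1 γ.2 x).symm
  right_inv p := rfl
  continuous_toFun := by fun_prop
  continuous_invFun := by
    refine Continuous.subtype_mk ?_ _
    exact ContinuousMap.continuous_const'

theorem frk_X0 (h : Module.Finite F2 (HS M)) :
    Frk (GLugx576.X M 0) ∅ (GLugx576.X M 0) ∅ :=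
  frk_of_finite (finite_of_homeo (X0equiv M).symm h)

/-- **(G4)** from the absolute finite rank -/
theorem frk_X {a b : ℝ} (ha : 0 ≤ a) (hab : a ≤ b) (h0 : Module.Finite F2 (HS M))
    (h : FinRk (SpecA.Hm (incl (X_mono (M := M) hab)))) :
    Frk (GLugx576.X M a) (GLugx576.X M 0) (GLugx576.X M b) (GLugx576.X M 0) :=
  frk_pair (frk_X0 h0) (frk_of_finRk _ h) subset_rfl (X_mono ha) subset_rfl

/-- the literal statement of `If_G_651` -/
theorem G4_iff {a b : ℝ} : IfGx651.G4 M a b ↔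
    Frk (GLugx576.X M a) (GLugx576.X M 0) (GLugx576.X M b) (GLugx576.X M 0) :=
  ⟨fun ⟨_, _, h⟩ => frk_of_finset h, fun h => exists_finset_of_frk h⟩



end Crest.Agent.R231.GFinBx315
end
end

-- ▼ part R231/TopBase_220
section

/-!
# Row 231 (S0357): the geometric fields on `(S^n, g)` (helper220)

`G : GeoData n M`, `M` compact, `S : PrimeSys M G.r₀ ι` finite.

* `finite_HP` : `H(X t, X 0)` is finite dimensional at the non-critical levels, from the finite rank of
  `H(X a) → H(X b)` (leaf G4a, `FinStep M`)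
* `baseHyp_of` : `BaseHyp M`
-/

set_option autoImplicit false
set_option linter.unusedSectionVars false

noncomputable section

open Bundle Set Filter Function
open scoped Manifold ContDiff Bundle ENNReal Topology
open Crest.GeometryTopology.MTW Crest.GeometryTopology.Geodesic
open Crest.Agent.R226 Crest.Agent.R226.GeoBasic616 Crest.Agent.R226.TB616
open Crest.Agent.R204

namespace Crest.Agent.R231.TopBasex220

open Pairx877 GLugx576 TActx569 TCx569 IfAx978 Gr334 Instx895 GFinx315 GFinBx315 FinDim315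
open PrimeGeox893 CritPMx893 GeoLugx724 GeoBasex724 Frontx893 Asmx895

section metric

variable {M : Type} [MetricSpace M]

theorem finite_HP_of_frk {E : Type} [TopologicalSpace E] {X A : Set E} (h : Frk X A X A) :
    Module.Finite F2 (HP X A) := by
  have h1 := (finRk_inc_iff (X := X) (A := A) subset_rfl subset_rfl).2 h
  have h2 : LinearMap.range (Hr.inc (d := bdE E) (CS_mono (subset_rfl : X ⊆ X))
      (CS_mono (subset_rfl : A ⊆ A))) = ⊤ := by
    rw [LinearMap.range_eq_top]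
    intro x
    exact ⟨x, Hr.inc_refl x⟩
  unfold FinRk at h1
  rw [h2] at h1
  exact Module.Finite.equiv (Submodule.topEquiv (R := F2) (M := HP X A))

variable (M) in
/-- leaf G4: `H(X a, X 0) → H(X b, X 0)` has finite rank -/
def FinStep : Prop := ∀ a b : ℝ, 0 ≤ a → a < b → IfGx651.G4 M a b

theorem finite_HP {Crit : Set ℝ} (hfin : ∀ T : ℝ, (Crit ∩ Set.Iic T).Finite)
    (h4 : FinStep M)
    (hnc : ∀ a b : ℝ, 0 ≤ a → a ≤ b → (∀ s ∈ Crit, ¬ (a ≤ s ∧ s ≤ b)) →
      Zp (X M b) (X M a) ≤ Bp (X M b) (X M a)) (t : ℝ) (ht : 0 ≤ t) (htc : t ∉ Crit) :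
    Module.Finite F2 (HP (X M t) (X M 0)) := by
  rcases ht.eq_or_lt with h | h
  · subst h
    refine finite_HP_of_frk ⟨⊥, Submodule.fg_bot, ?_⟩
    intro c hc
    refine Submodule.mem_sup_left (mem_Bp.2 ⟨0, Submodule.zero_mem _, ?_⟩)
    rw [map_zero, sub_zero]
    exact hc.1
  · obtain ⟨t', h0, h1, h2⟩ : ∃ t' : ℝ, 0 ≤ t' ∧ t' < t ∧ ∀ s ∈ Crit, ¬ (t' ≤ s ∧ s ≤ t) := by
      have hc : IsClosed (Crit ∩ Set.Iic t) := (hfin t).isClosed
      have ho : (Crit ∩ Set.Iic t)ᶜ ∈ 𝓝 t := hc.isOpen_compl.mem_nhds fun h => htc h.1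
      obtain ⟨ε, hε, hb⟩ := Metric.mem_nhds_iff.1 ho
      refine ⟨max 0 (t - ε / 2), le_max_left _ _, max_lt h (by linarith), fun s hs hst => ?_⟩
      have hmem : s ∈ Metric.ball t ε := ?_
      · exact hb hmem ⟨hs, hst.2⟩
      rw [Metric.mem_ball, Real.dist_eq, abs_sub_comm, abs_of_nonneg (by linarith [hst.2])]
      have := (le_max_right 0 (t - ε / 2)).trans hst.1
      linarith
    exact finite_HP_of_frk (frk_of_acyclic (X_mono h0) (hnc t' t h0 h1.le h2)
      (G4_iff.1 (h4 t' t h0 h1)))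

/-- `BaseHyp` from a metric package -/
theorem baseHyp_of_lug [CompactSpace M] {ι : Type} [Finite ι] (L : LUG M) (hS : L.SegLip)
    (hL : L.LocMin) (nb : NonBr M L.r0) (S : PrimeSys M L.r0 ι) (h4 : FinStep M) : BaseHyp M := by
  have hfin : ∀ T : ℝ, (CritS M ∩ Set.Iic T).Finite := crit_fin_of L hL nb S
  have hnc : ∀ a b : ℝ, 0 ≤ a → a ≤ b → (∀ s ∈ CritS M, ¬ (a ≤ s ∧ s ≤ b)) →
      Zp (X M b) (X M a) ≤ Bp (X M b) (X M a) := fun a b ha hab hc =>
    GNonx651.acyclic L ha hab hc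
  exact ⟨hfin, hnc, fun t ht htc => finite_HP hfin h4 hnc t ht htc,
    fun t ht htc => SmFx609.smith_of L hS hfin hnc t ht htc⟩

end metric

section riem

variable {n : ℕ} {M : Type} [MetricSpace M] [ChartedSpace (EuclideanSpace ℝ (Fin n)) M]
  [IsManifold (𝓡 n) ∞ M] [CompactSpace M]
  [RiemannianBundle (fun p : M => TangentSpace (𝓡 n) p)]
  [IsContMDiffRiemannianBundle (𝓡 n) ∞ (EuclideanSpace ℝ (Fin n))
    (fun p : M => TangentSpace (𝓡 n) p)]

variable (G : GeoData n M)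

theorem baseHyp_of {ι : Type} [Finite ι] (S : PrimeSys M G.r₀ ι) (h4 : FinStep M) : BaseHyp M :=
  baseHyp_of_lug (lug G) (GSegLipx67.segLip G) (locMin G) (nonBr G) S h4

theorem window_of' {ι : Type} [Finite ι] (S : PrimeSys M G.r₀ ι) :
    BDAx969.Window (CritS M) := window_of (lug G) (locMin G) (nonBr G) S

end riem

section sphere

variable {n : ℕ} [NeZero n] (g : Met n) (G : GeoData n (SG g))


end sphere

end Crest.Agent.R231.TopBasex220
end
end

-- ▼ part R231/GPolyF_943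
section

/-!
# Row 231 (S0357), block G, part G4a (helper943): finite dimensional approximation

* `ENR M E` : `M` is a retract of an open subset of the normed space `E`
* `factor_gen` : abstract form
* `factor_X`, `factor_base` : for `a < b`, `b/N < r0`, the inclusion `X M a → X M b` (of based loops)
  factors up to homotopy through a map into an open subset of `Fin N → E` with image in a compact
  subset; `finRk_X`, `finRk_base` : finite rank in homology
* `enrSphere` : the unit sphere;  `ENR.congr` : transport along a homeomorphism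
-/

set_option autoImplicit false
set_option linter.unusedSectionVars false

open Set Filter Topology

namespace Crest.Agent.R231.GPolyx943

open GLugx576 FinDim315

/-- Euclidean neighbourhood retracts -/
structure ENR (M E : Type*) [TopologicalSpace M] [TopologicalSpace E] where
  /-- the embedding -/
  ι : C(M, E)
  /-- the open set -/
  U : Set E
  isOpen_U : IsOpen U
  /-- the retraction -/
  ρ : E → M
  contOn : ContinuousOn ρ U
  ι_mem : ∀ x, ι x ∈ U
  ρ_ι : ∀ x, ρ (ι x) = x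

/-- transport along a homeomorphism -/
def ENR.congr {M M' E : Type*} [TopologicalSpace M] [TopologicalSpace M'] [TopologicalSpace E]
    (D : ENR M E) (e : M ≃ₜ M') : ENR M' E where
  ι := D.ι.comp (e.symm : C(M', M))
  U := D.U
  isOpen_U := D.isOpen_U
  ρ x := e (D.ρ x)
  contOn := e.continuous.comp_continuousOn D.contOn
  ι_mem x := D.ι_mem _
  ρ_ι x := by
    show e (D.ρ (D.ι (e.symm x))) = x
    rw [D.ρ_ι]; simp

open Classical in
/-- radial projection to the unit sphere -/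
noncomputable def rhoS {V : Type*} [NormedAddCommGroup V] [NormedSpace ℝ V]
    (v0 : Metric.sphere (0 : V) 1) (x : V) : Metric.sphere (0 : V) 1 :=
  if h : x = 0 then v0 else
    ⟨‖x‖⁻¹ • x, by
      rw [mem_sphere_zero_iff_norm, norm_smul, norm_inv, norm_norm,
        inv_mul_cancel₀ (norm_ne_zero_iff.2 h)]⟩

theorem rhoS_coe {V : Type*} [NormedAddCommGroup V] [NormedSpace ℝ V]
    (v0 : Metric.sphere (0 : V) 1) {x : V} (h : x ≠ 0) : (rhoS v0 x : V) = ‖x‖⁻¹ • x := by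
  unfold rhoS
  rw [dif_neg h]

/-- the unit sphere -/
noncomputable def enrSphere (V : Type*) [NormedAddCommGroup V] [NormedSpace ℝ V]
    (v0 : Metric.sphere (0 : V) 1) : ENR (Metric.sphere (0 : V) 1) V where
  ι := ⟨Subtype.val, continuous_subtype_val⟩
  U := {0}ᶜ
  isOpen_U := isOpen_compl_singleton
  ρ := rhoS v0
  contOn := by
    rw [continuousOn_iff_continuous_domRestrict]
    refine continuous_induced_rng.2 ?_
    have h1 : Continuous (fun x : (({0} : Set V)ᶜ : Set V) => ‖(x : V)‖⁻¹ • (x : V)) := by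
      refine Continuous.smul (Continuous.inv₀ (continuous_norm.comp continuous_subtype_val) ?_)
        continuous_subtype_val
      intro x
      exact norm_ne_zero_iff.2 x.2
    refine h1.congr fun x => ?_
    exact (rhoS_coe v0 x.2).symm
  ι_mem x := by
    show (x : V) ≠ 0
    intro h
    have h2 := x.2
    rw [h, mem_sphere_zero_iff_norm, norm_zero] at h2
    exact zero_ne_one h2
  ρ_ι x := by
    have h0 : (x : V) ≠ 0 := by
      intro h
      have h2 := x.2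
      rw [h, mem_sphere_zero_iff_norm, norm_zero] at h2
      exact zero_ne_one h2
    refine Subtype.ext ?_
    have h3 : ‖(x : V)‖ = 1 := mem_sphere_zero_iff_norm.1 x.2
    refine (rhoS_coe v0 h0).trans ?_
    rw [h3, inv_one, one_smul]



variable {M : Type} [MetricSpace M] {L : LUG M} {N : ℕ}

/-- the admissible set of node vectors -/
def OO {E' : Type} (O1 : Set E') (nd : E' → ℕ → M) (N : ℕ) (r : ℝ) : Set E' :=
  O1 ∩ ⋂ i : Fin N, {x | dist (nd x i) (nd x (i + 1)) < r}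

theorem isOpen_OO {E' : Type} [TopologicalSpace E'] {O1 : Set E'} (hO : IsOpen O1)
    {nd : E' → ℕ → M} (hnd : ∀ i ≤ N, ContinuousOn (fun x => nd x i) O1) (r : ℝ) :
    IsOpen (OO O1 nd N r) := by
  have e : OO O1 nd N r = O1 ∩ ⋂ i : Fin N, (O1 ∩ {x | dist (nd x i) (nd x (i + 1)) < r}) := by
    ext x
    simp only [OO, mem_inter_iff, mem_iInter, mem_ofPred_eq]
    constructor
    · rintro ⟨h1, h2⟩; exact ⟨h1, fun i => ⟨h1, h2 i⟩⟩
    · rintro ⟨h1, h2⟩; exact ⟨h1, fun i => (h2 i).2⟩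
  rw [e]
  refine hO.inter (isOpen_iInter_of_finite fun i => ?_)
  have h1 : ContinuousOn (fun x => dist (nd x i) (nd x (i + 1))) O1 :=
    continuous_dist.comp_continuousOn ((hnd _ i.2.le).prodMk (hnd _ i.2))
  exact h1.isOpen_inter_preimage hO isOpen_Iio

/-- **abstract factorisation** -/
theorem factor_gen [CompactSpace M] {E' : Type} [TopologicalSpace E'] {O1 : Set E'}
    (hO : IsOpen O1) {nd : E' → ℕ → M} (hnd : ∀ i ≤ N, ContinuousOn (fun x => nd x i) O1)
    (hper : ∀ x ∈ O1, nd x N = nd x 0) {b : ℝ} (hN : 0 < N) (hb : b / N < L.r0)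
    {Sa Sb : Set (Lp M)} (hSa : IsCompact Sa) (hab : Sa ⊆ Sb) (hSb : Sb ⊆ X M b)
    (hst : Stab L N Sb) {samp : Lp M → E'} (hs : Continuous samp) (hs1 : ∀ γ ∈ Sa, samp γ ∈ O1)
    (hs2 : ∀ γ ∈ Sa, ∀ i ≤ N, nd (samp γ) i = nodes N γ i)
    (hs3 : ∀ γ ∈ Sa, ∀ i < N, dist (nodes N γ i) (nodes N γ (i + 1)) < b / N)
    (hpol : ∀ x ∈ OO O1 nd N (b / N), pol L N (nd x) ∈ Sb) :
    ∃ K O : Set E', IsCompact K ∧ IsOpen O ∧ K ⊆ O ∧ ∃ (f : C(Sa, O)) (g : C(O, Sb)),
      (∀ x, (f x : E') ∈ K) ∧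
      (⟨inclusion hab, continuous_inclusion hab⟩ : C(Sa, Sb)).Homotopic (g.comp f) := by
  have hgood : ∀ x ∈ OO O1 nd N (b / N), Good L N (nd x) := fun x hx =>
    ⟨hN, hper x hx.1, fun i hi => (mem_iInter.1 hx.2 ⟨i, hi⟩).trans hb⟩
  have hmem : ∀ γ ∈ Sa, samp γ ∈ OO O1 nd N (b / N) := fun γ hγ => by
    refine ⟨hs1 γ hγ, mem_iInter.2 fun i => ?_⟩
    show dist (nd (samp γ) i) (nd (samp γ) (i + 1)) < b / N
    rw [hs2 γ hγ _ i.2.le, hs2 γ hγ _ i.2]
    exact hs3 γ hγ i i.2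
  have hcp : ContinuousOn (fun x => pol L N (nd x)) (OO O1 nd N (b / N)) :=
    contOn_pol (fun i hi => (hnd i hi).mono inter_subset_left) hgood
  let f : C(Sa, OO O1 nd N (b / N)) :=
    ⟨fun γ => ⟨samp γ, hmem γ γ.2⟩, (hs.comp continuous_subtype_val).subtype_mk _⟩
  let g : C(OO O1 nd N (b / N), Sb) :=
    ⟨fun x => ⟨pol L N (nd x), hpol x x.2⟩,
      (continuousOn_iff_continuous_domRestrict.1 hcp).subtype_mk _⟩
  refine ⟨samp '' Sa, OO O1 nd N (b / N), hSa.image hs, isOpen_OO hO hnd _, ?_, f, g, ?_, ?_⟩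
  · rintro _ ⟨γ, hγ, rfl⟩
    exact hmem γ hγ
  · intro γ
    exact ⟨γ, γ.2, rfl⟩
  · obtain ⟨G, hG, hh⟩ := homotopic_pol (L := L) hN hb hSb hst
      (⟨inclusion hab, continuous_inclusion hab⟩ : C(Sa, Sb))
    have e : G = g.comp f := by
      ext1 γ
      refine Subtype.ext ?_
      rw [hG]
      show pol L N (nodes N (γ : Lp M)) = pol L N (nd (samp γ))
      have h1 : Good L N (nodes N (γ : Lp M)) := good_nodes hN (hSb (hab γ.2)) hb
      have h2 := hgood _ (hmem γ γ.2)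
      ext x
      obtain ⟨u, hu, rfl⟩ := exists_Icc x
      obtain ⟨i, hi, hx⟩ := exists_arc hN hu
      rw [pol_apply h1 hi hx, pol_apply h2 hi hx, hs2 γ γ.2 _ hi.le, hs2 γ γ.2 _ hi]
    rw [← e]
    exact hh

/-! ### the node maps -/

section nodes

variable {E : Type} [NormedAddCommGroup E] [NormedSpace ℝ E] (D : ENR M E)

/-- reduction mod `N` -/
def ix (hN : 0 < N) (i : ℕ) : Fin N := ⟨i % N, Nat.mod_lt _ hN⟩

/-- nodes of a vector, free loops -/
def ndF (hN : 0 < N) (x : Fin N → E) (i : ℕ) : M := D.ρ (x (ix hN i))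


/-- sampling -/
noncomputable def samp (N : ℕ) (γ : Lp M) : Fin N → E := fun i => D.ι (nodes N γ i)

theorem continuous_samp : Continuous (samp (N := N) D) :=
  continuous_pi fun i => D.ι.continuous.comp (continuous_nodes i)

theorem samp_mem (γ : Lp M) : samp (N := N) D γ ∈ Set.univ.pi fun _ : Fin N => D.U :=
  fun _ _ => D.ι_mem _

theorem isOpen_pi : IsOpen (Set.univ.pi fun _ : Fin N => D.U) :=
  isOpen_set_pi finite_univ fun _ _ => D.isOpen_U

theorem contOn_ndF (hN : 0 < N) (i : ℕ) :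
    ContinuousOn (fun x => ndF D hN x i) (Set.univ.pi fun _ : Fin N => D.U) := by
  refine D.contOn.comp (continuous_apply _).continuousOn ?_
  intro x hx
  exact hx _ trivial


theorem ndF_samp (hN : 0 < N) (γ : Lp M) (i : ℕ) : ndF D hN (samp D N γ) i = nodes N γ i := by
  unfold ndF samp
  rw [D.ρ_ι]
  exact nodes_mod hN γ i


theorem ndF_per (hN : 0 < N) (x : Fin N → E) : ndF D hN x N = ndF D hN x 0 := by
  unfold ndF ix; simp


variable [CompactSpace M]

/-- **finite dimensional approximation of the free loops** -/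
theorem factor_X (D : ENR M E) {a b : ℝ} (hab : a < b) (hN : 0 < N) (hb : b / N < L.r0) :
    ∃ K O : Set (Fin N → E), IsCompact K ∧ IsOpen O ∧ K ⊆ O ∧
      ∃ (f : C(X M a, O)) (g : C(O, X M b)), (∀ x, (f x : Fin N → E) ∈ K) ∧
      (⟨inclusion (X_mono hab.le), continuous_inclusion (X_mono hab.le)⟩ :
        C(X M a, X M b)).Homotopic (g.comp f) := by
  have hN' : (0 : ℝ) < N := by exact_mod_cast hN
  refine factor_gen (L := L) (isOpen_pi D) (fun i _ => contOn_ndF D hN i)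
    (fun x _ => ndF_per D hN x) hN hb (isCompact_X a) (X_mono hab.le) (Subset.refl _)
    (stab_X hN hb) (continuous_samp D) (fun γ _ => samp_mem D γ)
    (fun γ _ i _ => ndF_samp D hN γ i) ?_ ?_
  · intro γ hγ i _
    exact (dist_nodes hγ i).trans_lt (by gcongr)
  · intro x hx
    have h1 : ∀ i < N, dist (ndF D hN x i) (ndF D hN x (i + 1)) < b / N := fun i hi =>
      mem_iInter.1 hx.2 ⟨i, hi⟩
    exact pol_mem ⟨hN, ndF_per D hN x, fun i hi => (h1 i hi).trans hb⟩ fun i hi => (h1 i hi).le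


/-- a suitable number of arcs -/
theorem exists_N (L : LUG M) (b : ℝ) : ∃ N : ℕ, 0 < N ∧ b / N < L.r0 := by
  obtain ⟨N, hN⟩ := exists_nat_gt (b / L.r0)
  refine ⟨N + 1, Nat.succ_pos N, ?_⟩
  have h1 := L.r0_pos
  rw [div_lt_iff₀ h1] at hN
  rw [div_lt_iff₀ (by positivity)]
  push_cast
  nlinarith

/-- **finite rank for the free loops** -/
theorem finRk_X (D : ENR M E) (L : LUG M) {a b : ℝ} (hab : a < b) :
    FinRk (Crest.Agent.R204.SpecA.Hm (⟨inclusion (X_mono hab.le),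
      continuous_inclusion (X_mono hab.le)⟩ : C(X M a, X M b))) := by
  obtain ⟨N, hN, hb⟩ := exists_N L b
  obtain ⟨K, O, hK, hO, hKO, f, g, hf, hh⟩ := factor_X (L := L) D hab hN hb
  exact finRk_of_factor hK hO hKO f hf g _ hh


end nodes

end Crest.Agent.R231.GPolyx943
end

-- ▼ part R231/TopFin_220
section

/-!
# Row 231 (S0357): `BaseHyp (SG g)` without hypotheses (helper220)

* `finite_HS_of_enr` : a compact ENR has finite dimensional homology
* `finStep_of_enr`, `finStep_sphere` : leaf G4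
* `baseHyp_sphere'` : `BaseHyp (SG g)` for every finite prime system
-/

set_option autoImplicit false
set_option linter.unusedSectionVars false

noncomputable section

open Bundle Set Filter Function
open scoped Manifold ContDiff Bundle ENNReal Topology
open Crest.GeometryTopology.MTW Crest.GeometryTopology.Geodesic
open Crest.Agent.R226 Crest.Agent.R226.GeoBasic616 Crest.Agent.R226.TB616
open Crest.Agent.R204

namespace Crest.Agent.R231.TopBasex220

open Pairx877 GLugx576 TActx569 TCx569 IfAx978 Gr334 Instx895 GFinx315 GFinBx315 FinDim315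
open PrimeGeox893 CritPMx893 GeoLugx724 GeoBasex724 Frontx893 Asmx895 GPolyx943

section metric

variable {M : Type} [MetricSpace M] [CompactSpace M] {E : Type} [NormedAddCommGroup E]
  [NormedSpace ℝ E]

/-- a compact ENR has finite dimensional homology -/
theorem finite_HS_of_enr (D : ENR M E) : Module.Finite F2 (HS M) := by
  refine finite_of_retract D.isOpen_U (⟨fun x => ⟨D.ι x, D.ι_mem x⟩, ?_⟩ : C(M, D.U))
    (⟨fun x => D.ρ x, ?_⟩ : C(D.U, M)) fun y => D.ρ_ι y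
  · exact D.ι.continuous.subtype_mk _
  · exact continuousOn_iff_continuous_domRestrict.1 D.contOn

/-- leaf G4 -/
theorem finStep_of_enr (D : ENR M E) (L : LUG M) : FinStep M := fun _ _ ha hab =>
  G4_iff.2 (frk_X ha hab.le (finite_HS_of_enr D) (finRk_X D L hab))

end metric

section sphere

variable {n : ℕ} [NeZero n] (g : Met n) (G : GeoData n (SG g))

/-- `(S^n, g)` is an ENR -/
theorem nonempty_enr : Nonempty (ENR (SG g) (EuclideanSpace ℝ (Fin (n + 1)))) := by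
  have hne : Nonempty (SG g) := inferInstance
  obtain ⟨v0⟩ := hne
  exact ⟨(enrSphere (EuclideanSpace ℝ (Fin (n + 1))) v0).congr (toSG g)⟩

theorem finStep_sphere : FinStep (SG g) := by
  obtain ⟨D⟩ := nonempty_enr g
  obtain ⟨G⟩ := nonempty_geoData g
  exact finStep_of_enr D (lug G)

/-- **`BaseHyp (SG g)`** -/
theorem baseHyp_sphere' {ι : Type} [Finite ι] (S : PrimeSys (SG g) G.r₀ ι) : BaseHyp (SG g) :=
  baseHyp_of G S (finStep_sphere g)

end sphere

end Crest.Agent.R231.TopBasex220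
end
end

-- ▼ part R231/TOutB_482
section

/-!
# Row 231, block T: adapters to `Asmx895.Outs` (helper482), degrees `e3 D a + 1 = (2 a + 3) D`
-/

set_option autoImplicit false

noncomputable section

namespace Crest.Agent.R231.TOutx482

open Crest.Agent.R231 IfAx978 Instx895 Asmx895 BDAx969 Pairx877

variable {M : Type} [MetricSpace M]

namespace TIn

variable {k : ℕ} (T : TIn M k)
include T

theorem A1s : A1sP M k := A1s_of_perm T.perm


theorem A3op_e3 (K : KapOps M) (a : ℕ) : A3opP M (e3 k a) :=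
  (T.A3_gen K (L := 2 * a + 3) (by omega) (e3_succ T.k_pos a) (Or.inl (by omega))).1

theorem A3tau_e3 (K : KapOps M) (a : ℕ) : A3tauP M (e3 k a) :=
  (T.A3_gen K (L := 2 * a + 3) (by omega) (e3_succ T.k_pos a) (Or.inl (by omega))).2



end TIn


end Crest.Agent.R231.TOutx482
end
end

-- ▼ part R231/TTrans_952
section

/-!
# Row 231, block T (helper952): the record `TIn M k` from the basis theorem in all continuous loops

* `Af z`, `vf z` : the families `A m`, `v m` of a cycle `z` of based loops (`A 0` = constant loop);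
* `BTc k z` : the basis theorem in all continuous loops (output of helper961);
* `tin` : `Nonempty (TIn M k)` for `M` compact, `L : LUG M`, `M` homeomorphic to a sphere.
-/

set_option autoImplicit false
set_option linter.unusedSectionVars false

noncomputable section

open Set
open Crest.Agent.R204 EZ271 EZ847 SingAct265
open Crest.Agent.R204.Freu297 (Sph pt)
open Crest.Agent.R231.GLugx576 Crest.Agent.R231.Pairx877 Crest.Agent.R231.TActx569
open Crest.Agent.R231.Concx150 Crest.Agent.R231.CPowx150 Crest.Agent.R231.AmChx150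
open Crest.Agent.R231.TFillx150 Crest.Agent.R231.Cmpx952 Crest.Agent.R231.TOutx482
open Crest.Agent.R231.A1Spanx901
open Crest.Agent.R231.OmHomx871 (L0)

namespace Crest.Agent.R231.TTransx952

variable {M : Type} [MetricSpace M] {p : M}

/-- the constant loop as a vertex -/
def vO (p : M) : (SS.Sing (Om p)).S 0 := mkS (fun _ => cO p) continuous_const

/-- `A m`; `A 0` is the constant loop -/
def Af (z : CO p) : ℕ → CE (Lp M)
  | 0 => jN p (N.sx F2 (vO p))
  | m + 1 => Am (m + 1) z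

/-- `v m` -/
def vf (z : CO p) : ℕ → CE (Lp M)
  | 0 => 0
  | m + 1 => vm (m + 1) z

theorem Af_eq (z : CO p) (m : ℕ) [NeZero m] : Af z m = Am m z := by
  obtain ⟨m, rfl⟩ : ∃ n, m = n + 1 := ⟨m - 1, by have := NeZero.pos m; omega⟩
  rfl

theorem vf_eq (z : CO p) (m : ℕ) [NeZero m] : vf z m = vm m z := by
  obtain ⟨m, rfl⟩ : ∃ n, m = n + 1 := ⟨m - 1, by have := NeZero.pos m; omega⟩
  rfl

/-- **basis theorem in all continuous loops** -/
structure BTc (k : ℕ) (z : CO p) : Prop where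
  span : ∀ (j : ℕ) (c : CE (Lp M)), c ∈ N.gr F2 (SS.Sing (Lp M)) j → bdE (Lp M) c = 0 →
    c ∈ Submodule.span F2 (Gen (Af z) (vf z) k j) ⊔ LinearMap.range (bdE (Lp M))
  v_ne : ∀ m, 2 ≤ m → vf z m ∉ LinearMap.range (bdE (Lp M))
  A_ne : ∀ m, 1 ≤ m → Af z m ∉ LinearMap.range (bdE (Lp M))

theorem vO_const : N.sx F2 (vO p) ∈ CS (OmX p (0 : ℝ)) :=
  sx_mem_CS fun _ => const_mem le_rfl p

theorem Af_zero_mem (z : CO p) : Af z 0 ∈ CS (X M 0) := jN_mem_X vO_const

theorem Af_zero_gr (z : CO p) : Af z 0 ∈ N.gr F2 (SS.Sing (Lp M)) 0 :=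
  jN_gr (TAct.sx_mem_gr (vO p))

/-- constant chains are fixed by the rotations -/
theorem gN_X0 : ∀ c ∈ CS (X M 0), (LA M).gN c = c := by
  refine eq_on_CS (f := (LA M).gN) (g := LinearMap.id) fun n σ hσ => ?_
  have h1 : (LA M).gN (N.sx F2 σ) =
      N.map F2 ((LA M).rot ((1 / 2 : ℝ) : UnitAddCircle)) (N.sx F2 σ) := rfl
  rw [h1, N.map_sx, LinearMap.id_apply]
  congr 1
  refine sing_ext fun y => ?_
  have h2 : ev (((LA M).rot ((1 / 2 : ℝ) : UnitAddCircle)).app n σ) y =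
    rot (((1 / 2 : ℝ) : UnitAddCircle)) (ev σ y) := rfl
  rw [h2]
  refine ContinuousMap.ext fun x => ?_
  rw [rot_apply, mem_X_zero.1 (hσ y) (x + _), mem_X_zero.1 (hσ y) x]

section cyc

variable {k : ℕ} {z : CO p} (hz : z ∈ N.gr F2 (SS.Sing (Om p)) k) (hb : N.bd F2 _ z = 0)

include hz in
theorem Af_gr (m : ℕ) : Af z m ∈ N.gr F2 (SS.Sing (Lp M)) (m * k) := by
  rcases m with _ | m
  · rw [zero_mul]; exact Af_zero_gr z
  · exact Am_mem_gr (m + 1) hz

include hb in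
theorem Af_cyc (m : ℕ) : bdE (Lp M) (Af z m) = 0 := by
  rcases m with _ | m
  · exact Gr334.bd_gr_zero (Af_zero_gr z)
  · exact bd_Am (m + 1) hb

theorem Af_g (m : ℕ) (hm : m % 2 = 0) : (LA M).gN (Af z m) = Af z m := by
  rcases m with _ | m
  · exact gN_X0 _ (Af_zero_mem z)
  · exact gN_Am (m + 1) z (Nat.even_iff.2 hm)

theorem Af_based (m : ℕ) : Af z m ∈ CS (L0 p) := by
  rcases m with _ | m
  · exact jN_mem_L0 _
  · show Am (m + 1) z ∈ _
    rw [Am_eq_AmO]
    exact jN_mem_L0 _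

include hz in
theorem vf_gr (m : ℕ) (hm : 1 ≤ m) : vf z m ∈ N.gr F2 (SS.Sing (Lp M)) (m * k + 1) := by
  obtain ⟨m, rfl⟩ : ∃ n, m = n + 1 := ⟨m - 1, by omega⟩
  exact vm_mem_gr (m + 1) hz

include hb in
theorem vf_cyc (m : ℕ) : bdE (Lp M) (vf z m) = 0 := by
  rcases m with _ | m
  · exact map_zero _
  · exact bd_vm (m + 1) hb

theorem vf_g (m : ℕ) (hm : m % 2 = 0) : (LA M).gN (vf z m) = vf z m := by
  rcases m with _ | m
  · exact map_zero _
  · exact gN_vm (m + 1) z (Nat.even_iff.2 hm)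

variable {t : ℝ} (ht : z ∈ CS (OmX p t))

include ht in
theorem Af_WL (m : ℕ) : Af z m ∈ WL M := by
  rcases m with _ | m
  · exact Instx895.CS_le_CL 0 (Af_zero_mem z)
  · exact Instx895.CS_le_CL _ (Am_mem_CS (m + 1) ht)

include ht in
theorem vf_WL (m : ℕ) : vf z m ∈ WL M := by
  rcases m with _ | m
  · exact Submodule.zero_mem _
  · exact Instx895.CS_le_CL _ (vm_mem_CS (m + 1) ht)

include hz hb ht in
theorem De_odd (m : ℕ) (hm : m % 2 = 1) :
    Instx895.DelN M (Af z m) + vf z m ∈ (WL M).map (bdE (Lp M)) := by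
  obtain ⟨m, rfl⟩ : ∃ n, m = n + 1 := ⟨m - 1, by omega⟩
  obtain ⟨w, hw, -, e⟩ := del_Am (m + 1) hb ht hz (Nat.odd_iff.2 hm)
  exact ⟨w, Instx895.CS_le_CL _ hw, e.symm⟩

end cyc

theorem Binf0_le : Instx895.Binf0 M ≤ CS (X M 0) ⊔ LinearMap.range (bdE (Lp M)) :=
  sup_le_sup le_rfl LinearMap.map_le_range

/-- the record from a Lipschitz cycle satisfying the basis theorem -/
def tinOf [CompactSpace M] (L : LUG M) {k : ℕ} (hk : 1 ≤ k) (φ : M ≃ₜ Sph (k + 1)) {z : CO p}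
    (hz : z ∈ N.gr F2 (SS.Sing (Om p)) k) (hb : N.bd F2 _ z = 0)
    (hn : z ∉ LinearMap.range (N.bd F2 (SS.Sing (Om p)))) {t : ℝ} (ht : z ∈ CS (OmX p t))
    (B : BTc k z) : TIn M k where
  k_pos := hk
  A := Af z
  v := vf z
  A_gr := Af_gr hz
  A_WL := Af_WL ht
  A_cyc := Af_cyc hb
  A_g := Af_g
  A_zero := Af_zero_mem z
  v_gr := vf_gr hz
  v_WL m _ := vf_WL ht m
  v_cyc m _ := vf_cyc hb m
  v_g m _ hm := vf_g m hm
  De_odd := De_odd hz hb ht
  span j c hc hW h0 := by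
    obtain ⟨s, hs, b, ⟨w, rfl⟩, e⟩ := Submodule.mem_sup.1 (B.span j c hc h0)
    have h1 : s ∈ WL M := by
      refine Submodule.span_le.2 ?_ hs
      rintro g (⟨m, -, rfl⟩ | ⟨m, -, -, rfl⟩)
      · exact Af_WL ht m
      · exact vf_WL ht m
    have h2 : bdE (Lp M) w = c - s := by rw [← e, add_sub_cancel_left]
    have h3 : c - s ∈ (WL M).map (bdE (Lp M)) :=
      map_bd_WL L (Submodule.sub_mem _ hW h1) ⟨w, h2⟩
    rw [← h2] at h3
    rw [← e]
    exact Submodule.add_mem_sup hs h3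
  v_ne m hm h := by
    have : NeZero m := ⟨by omega⟩
    refine not_const (B.v_ne m hm) ?_ (Binf0_le h)
    rw [vf_eq, ev0_vm hk hm hz]
    exact Submodule.zero_mem _
  A_ne m hm h := by
    have : NeZero m := ⟨by omega⟩
    refine not_const (B.A_ne m hm) ?_ (Binf0_le h)
    rw [Af_eq, ev0_Am hk hz]
    exact Submodule.zero_mem _
  p := p
  A_based := Af_based
  Ospan hk1 j c hc hcO h0 := by
    subst hk1
    have key : ∀ c : CE (Lp M), c ∈ CS (L0 p) ⊓ WL M →
        rO p c ∈ LinearMap.range (N.bd F2 (SS.Sing (Om p))) →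
        c ∈ (CS (L0 p) ⊓ WL M).map (bdE (Lp M)) := by
      rintro c hc ⟨w, hw⟩
      obtain ⟨w', a1, a2, -⟩ := C2_abs L (good_L0 L p) (c := c) (w := jN p w) hc (jN_mem_L0 w)
        (by rw [bd_jN, hw, jN_rO hc.1])
      exact ⟨w', a1, a2⟩
    have hy : N.bd F2 _ (rO p c) = 0 := by rw [bd_rO hcO.1, h0, map_zero]
    rcases OmPowx871.AmO_span hk φ hz hb hn (Nat.le_add_left 1 j) (rO_gr hc) hy with h | h
    · exact Or.inl (key c hcO h)
    · obtain ⟨m, hm, e, h⟩ := h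
      rw [mul_one] at e
      subst e
      refine Or.inr (key _ (Submodule.add_mem _ hcO ⟨Af_based _, Af_WL ht _⟩) ?_)
      have e2 : rO p (Af z (j + 1)) = AmO (j + 1) z := by
        rw [Af_eq, Am_eq_AmO, rO_jN]
      rw [map_add, e2]
      exact h

/-- **`TIn M k` from the basis theorem in all continuous loops** -/
theorem tin [CompactSpace M] (L : LUG M) {k : ℕ} (hk : 1 ≤ k) (φ : M ≃ₜ Sph (k + 1)) (p : M)
    (B : ∀ z : CO p, z ∈ N.gr F2 (SS.Sing (Om p)) k → N.bd F2 _ z = 0 →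
      z ∉ LinearMap.range (N.bd F2 (SS.Sing (Om p))) → BTc k z) : Nonempty (TIn M k) := by
  obtain ⟨z, hz, hb, hn⟩ := OmPowx871.exists_cycle φ p
  obtain ⟨t, x, w, h1, h2, h3, h4⟩ := lip_rep L hz hb
  have hx : x ∉ LinearMap.range (N.bd F2 (SS.Sing (Om p))) := by
    rintro ⟨u, hu⟩
    refine hn ⟨u + w, ?_⟩
    rw [map_add, hu, ← h4]
  exact ⟨tinOf L hk φ h2 h3 hx h1 (B x h2 h3 hx)⟩

end Crest.Agent.R231.TTransx952
end
end

-- ▼ part R231/TBtc_961
section

/-!
# Row 231, block T (helper961): the record `TIn M k` of helper482, without hypothesis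

`btc` : helper952's `BTc k z`; `tinIn` : `Nonempty (TIn M k)`.
-/

set_option autoImplicit false

noncomputable section

namespace Crest.Agent.R231.TBasx961

open Crest.Agent.R204 Crest.Agent.R204.EZ271
open Crest.Agent.R204.Freu297 (Sph pt)
open GLugx576 (Lp LUG)
open Concx150 AmChx150 TFillx150 Pairx877
open TTransx952 (Af vf BTc Af_eq vf_eq)
open TOutx482 (Gen TIn)

variable {M : Type} [MetricSpace M] {k : ℕ}

theorem GenL_sub {p : M} (z : CO p) (j : ℕ) : GenL z k j ⊆ Gen (Af z) (vf z) k j := by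
  rintro c (⟨m, hm0, hm, rfl⟩ | ⟨m, hm0, hm, rfl⟩ | ⟨rfl, rfl⟩)
  · exact Or.inl ⟨m, hm, (Af_eq z m).symm⟩
  · exact Or.inr ⟨m, NeZero.pos m, hm, (vf_eq z m).symm⟩
  · refine Or.inl ⟨0, Nat.zero_mul k, ?_⟩
    show _ = jN p (N.sx F2 (TTransx952.vO p))
    unfold jN
    rw [N.map_sx]
    rfl

/-- **the basis theorem in all continuous loops** -/
theorem btc (hk : 1 ≤ k) (φ : M ≃ₜ Sph (k + 1)) {p : M} (z : CO p)
    (hz : z ∈ N.gr F2 (SS.Sing (Om p)) k) (hb : N.bd F2 _ z = 0)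
    (hn : z ∉ LinearMap.range (N.bd F2 (SS.Sing (Om p)))) : BTc k z where
  span j c hc hcb := by
    have h1 : Submodule.span F2 (GenL z k j) ≤ Submodule.span F2 (Gen (Af z) (vf z) k j) :=
      Submodule.span_mono (GenL_sub z j)
    obtain ⟨g, hg, b, hgb, rfl⟩ := Submodule.mem_sup.1 (mem_span_sup hk φ hz hb hn hc hcb)
    exact Submodule.add_mem_sup (h1 hg) hgb
  v_ne m hm := by
    have : NeZero m := ⟨by omega⟩
    rw [vf_eq]
    exact vm_not_bd hk φ hz hb hn m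
  A_ne m hm := by
    have : NeZero m := ⟨by omega⟩
    rw [Af_eq]
    exact Am_not_bd hk φ hz hb hn m

/-- **block T: the record `TIn M k`** -/
theorem tinIn [CompactSpace M] (L : LUG M) (hk : 1 ≤ k) (φ : M ≃ₜ Sph (k + 1)) (p : M) :
    Nonempty (TIn M k) :=
  TTransx952.tin L hk φ p fun z hz hb hn => btc hk φ z hz hb hn

end Crest.Agent.R231.TBasx961
end
end

-- ▼ part R231/KapOps_482
section

/-!
# Row 231, block T (helper482): the operator `kap` with `τΔ + Δτ = d kap + kap d`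

* `aff a` : affine simplex of the circle with vertices `a i`; `act_aff`, `negH_aff`, `aff_add_one`
* `del` : the fundamental chain, `DelN_eq : DelN M z = (LA M).op del z`
* `khat` : `bd_khat : bd khat = del + (-1)_* del`; `rhoh` : `bd_rhoh : bd rhoh = khat + (-1)_* khat`
* `kapOps : KapOps M`
-/

set_option autoImplicit false
set_option linter.unusedSectionVars false

noncomputable section

namespace Crest.Agent.R231.KapOpsx482

open Crest.Agent.R204 EZ271 EZ847 Coalg847 SingAct265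
open GLugx576 Concx150 CPowx150 Pairx877 AmChx150 TActx569 TCx569 TFillx150 TOutx482 IfAx978
  Instx895

/-! ## affine simplices -/

/-- affine simplex of the circle -/
def aff {n : ℕ} (a : Fin (n + 1) → ℝ) : ST.S n :=
  mkS (fun x => ((∑ i, a i * (x : Fin (n + 1) → ℝ) i : ℝ) : UnitAddCircle)) (by
    refine (AddCircle.continuous_mk' (1 : ℝ)).comp ?_
    exact continuous_finsetSum _ fun i _ =>
      continuous_const.mul ((continuous_apply i).comp continuous_subtype_val))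

theorem act_aff {m n : ℕ} (f : Op m n) (a : Fin (n + 1) → ℝ) :
    ST.act f (aff a) = aff (fun i => a (f i)) := by
  refine sing_ext fun x => ?_
  show (((∑ i, a i * (stdSimplex.map f x : Fin (n + 1) → ℝ) i : ℝ)) : UnitAddCircle) =
    ((∑ i, a (f i) * (x : Fin (m + 1) → ℝ) i : ℝ) : UnitAddCircle)
  congr 1
  have h : ∀ i, (stdSimplex.map f x : Fin (n + 1) → ℝ) i =
      ∑ j ∈ Finset.univ.filter (fun j => f j = i), (x : Fin (m + 1) → ℝ) j := by
    intro i
    refine (congrFun (stdSimplex.map_coe f x) i).trans ?_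
    rw [FunOnFinite.linearMap_apply_apply]
  rw [← Finset.sum_fiberwise (Finset.univ : Finset (Fin (m + 1))) (fun j => f j)]
  refine Finset.sum_congr rfl fun i _ => ?_
  rw [h i, Finset.mul_sum]
  refine Finset.sum_congr rfl fun j hj => ?_
  rw [(Finset.mem_filter.1 hj).2]

theorem negH_aff {n : ℕ} (a : Fin (n + 1) → ℝ) : negH.app n (aff a) = aff (fun i => - a i) := by
  refine sing_ext fun x => ?_
  show - ((∑ i, a i * (x : Fin (n + 1) → ℝ) i : ℝ) : UnitAddCircle) =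
    ((∑ i, - a i * (x : Fin (n + 1) → ℝ) i : ℝ) : UnitAddCircle)
  rw [← AddCircle.coe_neg]
  congr 1
  simp

theorem aff_add_one {n : ℕ} (a : Fin (n + 1) → ℝ) : aff (fun i => a i + 1) = aff a := by
  refine sing_ext fun x => ?_
  show ((∑ i, (a i + 1) * (x : Fin (n + 1) → ℝ) i : ℝ) : UnitAddCircle) =
    ((∑ i, a i * (x : Fin (n + 1) → ℝ) i : ℝ) : UnitAddCircle)
  have e : ∑ i, (a i + 1) * (x : Fin (n + 1) → ℝ) i =
      ∑ i, a i * (x : Fin (n + 1) → ℝ) i + 1 := by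
    have h1 : ∑ i, (x : Fin (n + 1) → ℝ) i = 1 := x.2.2
    calc ∑ i, (a i + 1) * (x : Fin (n + 1) → ℝ) i =
        ∑ i, (a i * (x : Fin (n + 1) → ℝ) i + (x : Fin (n + 1) → ℝ) i) :=
          Finset.sum_congr rfl fun i _ => by ring
      _ = _ := by rw [Finset.sum_add_distrib, h1]
  rw [e, AddCircle.coe_add]
  have h1 : ((1 : ℝ) : UnitAddCircle) = 0 := AddCircle.coe_period 1
  rw [h1, add_zero]

/-- the chain -/
def Af {n : ℕ} (a : Fin (n + 1) → ℝ) : N F2 ST := N.sx F2 (aff a)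

theorem Af_dgn {n : ℕ} (a : Fin (n + 2) → ℝ) (j : Fin (n + 1)) (h : a j.castSucc = a j.succ) :
    Af a = 0 := by
  have e : a = fun i => a ((Op.face j.succ) ((Op.dgn j) i)) := by
    funext i
    rcases eq_or_ne i j.succ with rfl | hi
    · have e2 : Op.face j.succ (Op.dgn j j.succ) = j.castSucc := by
        refine Fin.ext ?_
        rw [Ch.face_val, Ch.dgn_val, Fin.val_succ, Fin.val_castSucc]
        split_ifs <;> omega
      rw [e2, h]
    · congr 1
      have hi' : (i : ℕ) ≠ (j : ℕ) + 1 := fun h => hi (Fin.ext (by simpa using h))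
      refine Fin.ext ?_
      rw [Ch.face_val, Ch.dgn_val, Fin.val_succ]
      split_ifs <;> omega
  unfold Af
  rw [e, ← act_aff (Op.dgn j) (fun i => a (Op.face j.succ i)), N.sx_dgn]

theorem Af_mem_gr {n : ℕ} (a : Fin (n + 1) → ℝ) : Af a ∈ N.gr F2 ST n :=
  TAct.sx_mem_gr (L := ST) (aff a)

theorem neg_Af {n : ℕ} (a : Fin (n + 1) → ℝ) : N.map F2 negH (Af a) = Af (fun i => - a i) := by
  unfold Af
  rw [N.map_sx, negH_aff]

theorem Af_shift {n : ℕ} (a b : Fin (n + 1) → ℝ) (h : ∀ i, b i = a i + 1) : Af b = Af a := by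
  have e : b = fun i => a i + 1 := funext h
  unfold Af
  rw [e, aff_add_one]

theorem bd_Af {n : ℕ} (a : Fin (n + 2) → ℝ) :
    N.bd F2 ST (Af a) = ∑ i : Fin (n + 2), Af (fun j => a (Op.face i j)) := by
  unfold Af
  rw [bd_sx_succ]
  refine Finset.sum_congr rfl fun i _ => ?_
  rw [act_aff]
  have h : (-1 : F2) = 1 := rfl
  rw [h, one_pow, one_smul]


theorem bd_Af2 (a b c : ℝ) :
    N.bd F2 ST (Af ![a, b, c]) = Af ![b, c] + Af ![a, c] + Af ![a, b] := by
  rw [bd_Af, Fin.sum_univ_three]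
  congr 3 <;> (funext j; fin_cases j <;> rfl)

theorem bd_Af3 (a b c d : ℝ) : N.bd F2 ST (Af ![a, b, c, d]) =
    Af ![b, c, d] + Af ![a, c, d] + Af ![a, b, d] + Af ![a, b, c] := by
  rw [bd_Af, Fin.sum_univ_four]
  congr 4 <;> (funext j; fin_cases j <;> rfl)

theorem bd_tri (a b : ℝ) : N.bd F2 ST (Af ![a, b, a]) = Af ![b, a] + Af ![a, b] := by
  rw [bd_Af2, Af_dgn ![a, a] 0 rfl, add_zero]

theorem bd_tet (a b : ℝ) : N.bd F2 ST (Af ![a, b, a, b]) = Af ![b, a, b] + Af ![a, b, a] := by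
  rw [bd_Af3, Af_dgn ![a, a, b] 0 rfl, Af_dgn ![a, b, b] 1 rfl, add_zero, add_zero]

theorem neg_Af1 (a b : ℝ) : N.map F2 negH (Af ![a, b]) = Af ![-a, -b] := by
  rw [neg_Af]
  congr 1
  funext j; fin_cases j <;> rfl

theorem neg_Af2 (a b c : ℝ) : N.map F2 negH (Af ![a, b, c]) = Af ![-a, -b, -c] := by
  rw [neg_Af]
  congr 1
  funext j; fin_cases j <;> rfl

/-! ## the chains `del`, `khat`, `rhoh` -/

/-- fundamental chain -/
def del : N F2 ST := Af ![0, 1 / 2] + Af ![1 / 2, 1]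
/-- the `2`-chain with boundary `del + (-1)_* del` -/
def khat : N F2 ST := Af ![0, 1 / 2, 0] + Af ![1 / 2, 1, 1 / 2]
/-- the `3`-chain with boundary `khat + (-1)_* khat` -/
def rhoh : N F2 ST := Af ![0, 1 / 2, 0, 1 / 2] + Af ![1 / 2, 1, 1 / 2, 1]

theorem khat_mem_gr : khat ∈ N.gr F2 ST 2 := add_mem (Af_mem_gr _) (Af_mem_gr _)

theorem neg_del : N.map F2 negH del = Af ![1, 1 / 2] + Af ![1 / 2, 0] := by
  unfold del
  rw [map_add, neg_Af1, neg_Af1]
  rw [Af_shift ![-0, -(1 / 2)] ![1, 1 / 2] (by intro i; fin_cases i <;> norm_num),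
    Af_shift ![-(1 / 2), -1] ![1 / 2, 0] (by intro i; fin_cases i <;> norm_num)]

theorem neg_khat : N.map F2 negH khat = Af ![1, 1 / 2, 1] + Af ![1 / 2, 0, 1 / 2] := by
  unfold khat
  rw [map_add, neg_Af2, neg_Af2]
  rw [Af_shift ![-0, -(1 / 2), -0] ![1, 1 / 2, 1] (by intro i; fin_cases i <;> norm_num),
    Af_shift ![-(1 / 2), -1, -(1 / 2)] ![1 / 2, 0, 1 / 2] (by intro i; fin_cases i <;> norm_num)]

theorem bd_khat : N.bd F2 ST khat = del + N.map F2 negH del := by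
  rw [neg_del]
  unfold khat del
  rw [map_add, bd_tri, bd_tri]
  abel

theorem bd_rhoh : N.bd F2 ST rhoh = khat + N.map F2 negH khat := by
  rw [neg_khat]
  unfold rhoh khat
  rw [map_add, bd_tet, bd_tet]
  abel

/-! ## operators on loops -/

variable {M : Type} [MetricSpace M]

theorem Sg_eq (a b : ℝ) : Sg a b = Af ![a, b] := by
  unfold Sg Af
  congr 1
  refine sing_ext fun x => ?_
  show (((a * (x : Fin 2 → ℝ) 0 + b * (x : Fin 2 → ℝ) 1 : ℝ)) : UnitAddCircle) =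
    ((∑ i, (![a, b] : Fin 2 → ℝ) i * (x : Fin 2 → ℝ) i : ℝ) : UnitAddCircle)
  rw [Fin.sum_univ_two]; rfl

theorem DelN_eq (z : CE (Lp M)) : DelN M z = (LA M).op del z := by
  have e1 : (LA M).gN ((LA M).hN z) = (LA M).op (Sg (1 / 2) 1) z := by
    have e : Sg (1 / 2) 1 = Sg (1 / 2 + 0) (1 / 2 + 1 / 2) := by
      congr 1 <;> norm_num
    rw [e, op_V_Sg, gN_eq_V]
    unfold TAct.hN
    rw [half_eq, (LA M).op_comm]
  have e2 : (LA M).hN z = (LA M).op (Sg 0 (1 / 2)) z := by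
    unfold TAct.hN
    rw [half_eq]
  rw [DelN_apply, e1, e2, Sg_eq, Sg_eq]
  unfold del
  rw [map_add, LinearMap.add_apply]


theorem op_tauN (c : N F2 ST) (z : CE (Lp M)) :
    (LA M).op c (tauN M z) = tauN M ((LA M).op (N.map F2 negH c) z) := op_revN M c z

/-- the operator `kap` on all chains -/
def kapN (M : Type) [MetricSpace M] : CE (Lp M) →ₗ[F2] CE (Lp M) := tauN M ∘ₗ (LA M).op khat

theorem kapN_apply (z : CE (Lp M)) : kapN M z = tauN M ((LA M).op khat z) := rfl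

theorem tauDelN (z : CE (Lp M)) : tauN M (DelN M z) + DelN M (tauN M z) =
    bdE (Lp M) (kapN M z) + kapN M (bdE (Lp M) z) := by
  rw [kapN_apply, kapN_apply, bd_tauN]
  have h : bdE (Lp M) ((LA M).op khat z) =
      (LA M).op (N.bd F2 ST khat) z + (LA M).op khat (bdE (Lp M) z) := (LA M).bd_op khat z
  rw [h, bd_khat, DelN_eq, DelN_eq, op_tauN, map_add (tauN M), map_add ((LA M).op),
    LinearMap.add_apply, map_add (tauN M), add_assoc _ (tauN M _) (tauN M _), add_self, add_zero]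

theorem kapN_cyc (z : CE (Lp M)) : tauN M (kapN M z) + kapN M (tauN M z) =
    bdE (Lp M) ((LA M).op rhoh z) + (LA M).op rhoh (bdE (Lp M) z) := by
  rw [kapN_apply, kapN_apply, tauN_tauN, op_tauN, tauN_tauN]
  have h : bdE (Lp M) ((LA M).op rhoh z) =
      (LA M).op (N.bd F2 ST rhoh) z + (LA M).op rhoh (bdE (Lp M) z) := (LA M).bd_op rhoh z
  rw [h, bd_rhoh, map_add, LinearMap.add_apply, add_assoc _ ((LA M).op rhoh _) _, add_self,
    add_zero]

theorem op_mem_WL (c : N F2 ST) {z : CE (Lp M)} (hz : z ∈ WL M) : (LA M).op c z ∈ WL M := by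
  obtain ⟨t, ht⟩ := mem_CL.1 hz
  exact CS_le_CL t (op_mem_CS (rotInv_X t) c z ht)

theorem kapN_mem_X {t : ℝ} {z : CE (Lp M)} (hz : z ∈ CS (X M t)) : kapN M z ∈ CS (X M t) :=
  tauN_mem_X (op_mem_CS (rotInv_X t) khat z hz)

theorem kapN_mem_CL {z : CE (Lp M)} (hz : z ∈ WL M) : kapN M z ∈ WL M :=
  tauN_mem_CL (op_mem_WL khat hz)

theorem kapN_mem_gr {n : ℕ} {z : CE (Lp M)} (hz : z ∈ N.gr F2 (SS.Sing (Lp M)) n) :
    kapN M z ∈ N.gr F2 (SS.Sing (Lp M)) (n + 2) := by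
  refine Exc406.map_mem_gr _ ?_
  rw [add_comm n 2]
  exact (LA M).op_mem_gr khat_mem_gr hz

/-- `kap` -/
def kapC (M : Type) [MetricSpace M] (j : ℕ) : (mix M).C j →ₗ[ZMod 2] (mix M).C (j + 2) :=
  opC (kapN M) fun _ hx => ⟨kapN_mem_gr hx.1, kapN_mem_CL hx.2⟩

@[simp] theorem vl_kap (j : ℕ) (x : (mix M).C j) : vl (j + 2) (kapC M j x) = kapN M (vl j x) := rfl

/-- **the operator `kap` of block T** -/
def kapOps (M : Type) [MetricSpace M] : KapOps M where
  kap := kapC M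
  B_kap _ _ hx := kapN_mem_X hx
  tauDe j x := vl_inj (j + 2) (tauDelN (vl (j + 1) x))
  kap_cyc j z hz := by
    rw [mem_Bd_top']
    have hz' : bdE (Lp M) (vl (j + 1) z) ∈ CS (X M 0) := hz.2
    have e : vl (j + 3) (tauC M (j + 3) (kapC M (j + 1) z) + kapC M (j + 1) (tauC M (j + 1) z)) =
        tauN M (kapN M (vl (j + 1) z)) + kapN M (tauN M (vl (j + 1) z)) := rfl
    rw [e, kapN_cyc]
    exact Submodule.add_mem _
      (Submodule.mem_sup_right ⟨_, op_mem_WL rhoh (vl_mem_CL z), rfl⟩)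
      (Submodule.mem_sup_left (op_mem_CS (rotInv_X 0) rhoh _ hz'))

end Crest.Agent.R231.KapOpsx482
end
end

-- ▼ part R231/SplitAlg_125
section

/-!
# Row 231, block R (helper125): algebra of the splitting at a critical level

Ambient `T`-complex `X : TC`.  Graded submodules `A ≤ B` (chains of `X_a`, `X_b`), `S₂ ≤ S₁ ≤ B`
(chains of `X_a ∪ U_2`, `X_a ∪ U_1`), `Sp_i, Sm_i ≤ S_i` (chains of `X_a ∪ U_i^±`).  A chain map `r` and a
homotopy `K` from the identity to `r`, commuting with `g` ONLY, with `r B ⊆ S₂`, `K S₂ ⊆ S₁`.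
Result: `P_± := (Sp_2 ⊓ Zc A B) ⊔ Bd A B` split the relative homology AND the leading term relation of the
Tate cycles.
-/

set_option autoImplicit false

noncomputable section

namespace Crest.Agent.R231.SplitAlgx125

open Crest.Agent.R204 Crest.Agent.R231.TCx569 Crest.Agent.R231.IfAx978

/-- the mixed complex `(C, d, Δ = (1+g)h)` of a `T`-complex -/
def mix (X : TC) : Mix where
  C := X.C
  d := X.d
  De n := (LinearMap.id + X.g (n + 1)) ∘ₗ X.h n
  dd := X.dd
  DeDe n x := by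
    have := congrFun (X.DelP_DelP (Pi.single n x)) (n + 2)
    simp only [TC.DelP, LinearMap.comp_apply, LinearMap.add_apply, LinearMap.id_apply, TC.hP, TC.gP,
      Pi.add_apply, zrP_apply, upP_succ, Pi.zero_apply, Pi.single_eq_same] at this
    simpa only [LinearMap.comp_apply, LinearMap.add_apply, LinearMap.id_apply] using this
  dDe0 x := by
    have := congrFun (X.dP_DelP (Pi.single 0 x)) 0
    have h1 : X.dP (Pi.single 0 x) = 0 := by
      funext n
      change X.d n ((Pi.single 0 x : ∀ i, X.C i) (n + 1)) = 0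
      rw [Pi.single_eq_of_ne (by omega), map_zero]
    rw [h1, map_zero] at this
    simpa only [TC.DelP, TC.dP, LinearMap.comp_apply, LinearMap.add_apply, LinearMap.id_apply, TC.hP, TC.gP,
      Pi.add_apply, zrP_apply, upP_succ, Pi.zero_apply, Pi.single_eq_same, dnP_apply] using this
  dDe n x := by
    have := congrFun (X.dP_DelP (Pi.single (n + 1) x)) (n + 1)
    simpa only [TC.DelP, TC.dP, LinearMap.comp_apply, LinearMap.add_apply, LinearMap.id_apply, TC.hP, TC.gP,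
      Pi.add_apply, zrP_apply, upP_succ, Pi.zero_apply, Pi.single_eq_same, dnP_apply] using this

variable {X : TC}

/-- graded submodules of a `T`-complex -/
abbrev GT (X : TC) : Type := ∀ j, Submodule F2 (X.C j)


/-- the product of a graded submodule -/
def PS (A : GT X) : Submodule F2 X.P := Submodule.pi Set.univ A

theorem mem_PS {A : GT X} {c : X.P} : c ∈ PS A ↔ ∀ j, c j ∈ A j := by
  simp [PS, Submodule.mem_pi]

/-- truncated pair: `A` in degrees `< m`, `B` from degree `m` on -/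
def tr (A B : GT X) (m : ℕ) : GT X := fun j => if j < m then A j else B j

theorem tr_le {A B : GT X} (hAB : A ≤ B) (m : ℕ) : tr A B m ≤ B := by
  intro j x hx
  unfold tr at hx
  split_ifs at hx
  · exact hAB j hx
  · exact hx

theorem tr_lt {A B : GT X} {m j : ℕ} (h : j < m) : tr A B m j = A j := if_pos h

theorem tr_ge {A B : GT X} {m j : ℕ} (h : m ≤ j) : tr A B m j = B j := if_neg (by omega)

theorem PS_mono {A B : GT X} (h : A ≤ B) {c : X.P} (hc : c ∈ PS A) : c ∈ PS B :=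
  mem_PS.2 fun j => h j (mem_PS.1 hc j)

theorem tr_mono_right {A B B' : GT X} (h : B ≤ B') (m : ℕ) : tr A B m ≤ tr A B' m := by
  intro j x hx
  unfold tr at hx ⊢
  split_ifs at hx ⊢
  · exact hx
  · exact h j hx

theorem tr_succ {A B : GT X} (hAB : A ≤ B) (m : ℕ) : tr A B (m + 1) ≤ tr A B m := by
  intro j x hx
  unfold tr at hx ⊢
  by_cases h1 : j < m
  · rw [if_pos h1]; rwa [if_pos (by omega)] at hx
  · rw [if_neg h1]
    by_cases h2 : j < m + 1
    · rw [if_pos h2] at hx; exact hAB j hx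
    · rwa [if_neg h2] at hx

theorem mem_tr {A B : GT X} (hAB : A ≤ B) {m : ℕ} {v : X.P} :
    v ∈ PS (tr A B m) ↔ (∀ j, v j ∈ B j) ∧ ∀ j, j < m → v j ∈ A j := by
  rw [mem_PS]
  constructor
  · intro h
    refine ⟨fun j => tr_le hAB m j (h j), fun j hj => ?_⟩
    have := h j
    rwa [tr_lt hj] at this
  · rintro ⟨h1, h2⟩ j
    unfold tr
    split_ifs with hj
    · exact h2 j hj
    · exact h1 j

/-- stability under `d`, `g`, `h` -/
structure St (A : GT X) : Prop where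
  d : ∀ j x, x ∈ A (j + 1) → X.d j x ∈ A j
  g : ∀ j x, x ∈ A j → X.g j x ∈ A j
  h : ∀ j x, x ∈ A j → X.h j x ∈ A (j + 1)

section stab

variable {A B : GT X}

theorem St.dP (hA : St A) {c : X.P} (hc : c ∈ PS A) : X.dP c ∈ PS A :=
  mem_PS.2 fun j => hA.d j _ (mem_PS.1 hc (j + 1))

theorem St.gP (hA : St A) {c : X.P} (hc : c ∈ PS A) : X.gP c ∈ PS A :=
  mem_PS.2 fun j => hA.g j _ (mem_PS.1 hc j)

theorem St.hP (hA : St A) {c : X.P} (hc : c ∈ PS A) : X.hP c ∈ PS A :=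
  mem_PS.2 fun j => by
    cases j with
    | zero => exact (A 0).zero_mem
    | succ j => exact hA.h j _ (mem_PS.1 hc j)

theorem St.cj (hA : St A) {c : X.P} (hc : c ∈ PS A) : X.cj c ∈ PS A := by
  rw [TC.cj_apply]
  exact (PS A).add_mem hc (hA.hP hc)

theorem St.DelP (hA : St A) {c : X.P} (hc : c ∈ PS A) : X.DelP c ∈ PS A := by
  rw [TC.DelP_apply]
  exact (PS A).add_mem (hA.hP hc) (hA.gP (hA.hP hc))

theorem St.DT (hA : St A) {c : X.P} (hc : c ∈ PS A) : X.DT c ∈ PS A := by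
  rw [TC.DT_apply]
  exact (PS A).add_mem (hA.dP hc) ((PS A).add_mem (hA.hP hc) (hA.gP (hA.hP hc)))

theorem St.DZ (hA : St A) {c : X.P} (hc : c ∈ PS A) : X.DZ c ∈ PS A := by
  rw [TC.DZ_apply]
  exact (PS A).add_mem ((PS A).add_mem (hA.dP hc) hc) (hA.gP hc)

/-- `h` raises the filtration -/
theorem St.hP_tr (hA : St A) (hB : St B) {m : ℕ} {c : X.P} (hc : c ∈ PS (tr A B m)) :
    X.hP c ∈ PS (tr A B (m + 1)) :=
  mem_PS.2 fun j => by
    cases j with
    | zero =>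
      rw [tr_lt (by omega)]; exact (A 0).zero_mem
    | succ j =>
      have h1 := mem_PS.1 hc j
      unfold tr at h1 ⊢
      split_ifs at h1 ⊢ with h2 h3 h3
      · exact hA.h j _ h1
      · omega
      · omega
      · exact hB.h j _ h1

theorem St.cj_tr (hA : St A) (hB : St B) (hAB : A ≤ B) {m : ℕ} {c : X.P} (hc : c ∈ PS (tr A B m)) :
    X.cj c ∈ PS (tr A B m) := by
  rw [TC.cj_apply]
  exact (PS _).add_mem hc (PS_mono (tr_succ hAB m) (hA.hP_tr hB hc))

/-- sum of graded submodules -/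
theorem St.sup (hA : St A) (hB : St B) : St (A ⊔ B) where
  d j x hx := by
    obtain ⟨a, ha, b, hb, rfl⟩ := Submodule.mem_sup.1 (show x ∈ A (j + 1) ⊔ B (j + 1) from hx)
    rw [map_add]
    exact Submodule.add_mem_sup (hA.d j a ha) (hB.d j b hb)
  g j x hx := by
    obtain ⟨a, ha, b, hb, rfl⟩ := Submodule.mem_sup.1 (show x ∈ A j ⊔ B j from hx)
    rw [map_add]
    exact Submodule.add_mem_sup (hA.g j a ha) (hB.g j b hb)
  h j x hx := by
    obtain ⟨a, ha, b, hb, rfl⟩ := Submodule.mem_sup.1 (show x ∈ A j ⊔ B j from hx)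
    rw [map_add]
    exact Submodule.add_mem_sup (hA.h j a ha) (hB.h j b hb)

end stab

/-! ### relative cycles and boundaries, strict pairs -/

/-- relative cycles (same as `Zc` of `IfA_978`) -/
def Zt (A B : GT X) : GT X
  | 0 => B 0
  | (j + 1) => B (j + 1) ⊓ (A j).comap (X.d j)

/-- relative boundaries (same as `Bd` of `IfA_978`) -/
def Bt (A B : GT X) : GT X := fun j => (B (j + 1)).map (X.d j) ⊔ A j



theorem mem_Zt_zero {A B : GT X} {x : X.C 0} : x ∈ Zt A B 0 ↔ x ∈ B 0 := Iff.rfl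

theorem mem_Zt_succ {A B : GT X} {j : ℕ} {x : X.C (j + 1)} :
    x ∈ Zt A B (j + 1) ↔ x ∈ B (j + 1) ∧ X.d j x ∈ A j := Iff.rfl

theorem Zt_le {A B : GT X} {j : ℕ} {x : X.C j} (h : x ∈ Zt A B j) : x ∈ B j := by
  cases j with
  | zero => exact h
  | succ j => exact h.1

theorem mem_Bt {A B : GT X} {j : ℕ} {x : X.C j} :
    x ∈ Bt A B j ↔ ∃ y ∈ B (j + 1), x + X.d j y ∈ A j := by
  constructor
  · intro h
    obtain ⟨b, ⟨y, hy, rfl⟩, a, ha, rfl⟩ := Submodule.mem_sup.1 h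
    refine ⟨y, hy, ?_⟩
    have h3 : X.d j y + a + X.d j y = a := by
      rw [add_comm, ← add_assoc, TC.add_self, zero_add]
    rw [h3]; exact ha
  · rintro ⟨y, hy, h⟩
    refine Submodule.mem_sup.2 ⟨X.d j y, ⟨y, hy, rfl⟩, _, h, ?_⟩
    rw [add_comm x, ← add_assoc, TC.add_self, zero_add]

theorem A_le_Bt {A B : GT X} {j : ℕ} {x : X.C j} (h : x ∈ A j) : x ∈ Bt A B j :=
  (le_sup_right : A j ≤ (B (j + 1)).map (X.d j) ⊔ A j) h

theorem Bt_le_Zt {A B : GT X} (hAB : A ≤ B) (hA : St A) (hB : St B) {j : ℕ} {x : X.C j}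
    (h : x ∈ Bt A B j) : x ∈ Zt A B j := by
  obtain ⟨y, hy, hx⟩ := mem_Bt.1 h
  have e : x = X.d j y + (x + X.d j y) := by
    rw [add_comm, add_assoc, TC.add_self, add_zero]
  cases j with
  | zero =>
    rw [mem_Zt_zero, e]
    exact (B 0).add_mem (hB.d 0 y hy) (hAB 0 hx)
  | succ j =>
    rw [mem_Zt_succ]
    constructor
    · rw [e]
      exact (B (j + 1)).add_mem (hB.d _ y hy) (hAB _ hx)
    · rw [e, map_add, X.dd, zero_add]
      exact hA.d j _ hx

/-- a pair with zero relative homology -/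
def Acy (A B : GT X) : Prop := ∀ j x, x ∈ Zt A B j → x ∈ Bt A B j

/-- strictness: `Sp ⊓ Sm ≤ A ≤ Sp, Sm` -/
structure Strict (A Sp Sm : GT X) : Prop where
  p : A ≤ Sp
  m : A ≤ Sm
  inf : Sp ⊓ Sm ≤ A

theorem Strict.left {A Sp Sm : GT X} (hs : Strict A Sp Sm) {j : ℕ} {a b : X.C j} (ha : a ∈ Sp j)
    (hb : b ∈ Sm j) (h : a + b ∈ A j) : a ∈ A j := by
  refine hs.inf j ⟨ha, ?_⟩
  have e : a = a + b + b := by rw [add_assoc, TC.add_self, add_zero]
  rw [e]
  exact (Sm j).add_mem (hs.m j h) hb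

theorem Strict.right {A Sp Sm : GT X} (hs : Strict A Sp Sm) {j : ℕ} {a b : X.C j} (ha : a ∈ Sp j)
    (hb : b ∈ Sm j) (h : a + b ∈ A j) : b ∈ A j := by
  refine hs.inf j ⟨?_, hb⟩
  have e : b = a + b + a := by rw [add_comm a b, add_assoc, TC.add_self, add_zero]
  rw [e]
  exact (Sp j).add_mem (hs.p j h) ha

theorem Strict.leftP {A Sp Sm : GT X} (hs : Strict A Sp Sm) {a b : X.P} (ha : a ∈ PS Sp)
    (hb : b ∈ PS Sm) (h : a + b ∈ PS A) : a ∈ PS A :=
  mem_PS.2 fun j => hs.left (mem_PS.1 ha j) (mem_PS.1 hb j) (mem_PS.1 h j)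

theorem Strict.rightP {A Sp Sm : GT X} (hs : Strict A Sp Sm) {a b : X.P} (ha : a ∈ PS Sp)
    (hb : b ∈ PS Sm) (h : a + b ∈ PS A) : b ∈ PS A :=
  mem_PS.2 fun j => hs.right (mem_PS.1 ha j) (mem_PS.1 hb j) (mem_PS.1 h j)

/-! ### Tate version of acyclicity (with filtration) -/

theorem DT_zero (c : X.P) : X.DT c 0 = X.d 0 (c 1) := by
  change X.d 0 (c 1) + (0 + X.g 0 0) = X.d 0 (c 1)
  rw [map_zero, add_zero, add_zero]

theorem DT_succ (c : X.P) (j : ℕ) :
    X.DT c (j + 1) = X.d (j + 1) (c (j + 2)) + (X.h j (c j) + X.g (j + 1) (X.h j (c j))) := rfl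

/-- `DT` only sees neighbouring degrees -/
theorem DT_congr {c c' : X.P} {j : ℕ} (h1 : c (j + 1) = c' (j + 1))
    (h2 : ∀ i, j = i + 1 → c i = c' i) : X.DT c j = X.DT c' j := by
  cases j with
  | zero => rw [DT_zero, DT_zero, h1]
  | succ j => rw [DT_succ, DT_succ, h1, h2 j rfl]

theorem DT_mem {A : GT X} (hA : St A) {c : X.P} {j : ℕ} (h1 : c (j + 1) ∈ A (j + 1))
    (h2 : ∀ i, j = i + 1 → c i ∈ A i) : X.DT c j ∈ A j := by
  cases j with
  | zero => rw [DT_zero]; exact hA.d 0 _ h1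
  | succ j =>
    rw [DT_succ]
    have h3 := hA.h j _ (h2 j rfl)
    exact (A _).add_mem (hA.d _ _ h1) ((A _).add_mem h3 (hA.g _ _ h3))

section acy

variable {A0 A B : GT X}

theorem acy_step (hac : Acy A B) (h0 : A0 ≤ A) (hAB : A ≤ B) (hA0 : St A0) (hA : St A) (hB : St B)
    {m : ℕ} {v : X.P} (hv : v ∈ PS (tr A0 B m)) (hDv : X.DT v ∈ PS A) (n : ℕ) (y : X.P)
    (hy : y ∈ PS (tr A0 B (m + 1))) (hyn : ∀ j < n, (v + X.DT y) j ∈ A j) :
    ∃ y' ∈ PS (tr A0 B (m + 1)), (∀ j ≤ n, y' j = y j) ∧ ∀ j < n + 1, (v + X.DT y') j ∈ A j := by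
  obtain ⟨hv1, hv2⟩ := (mem_tr (h0.trans hAB)).1 hv
  obtain ⟨hy1, hy2⟩ := (mem_tr (h0.trans hAB)).1 hy
  by_cases hnm : n < m
  · refine ⟨y, hy, fun _ _ => rfl, fun j hj => ?_⟩
    rcases Nat.lt_succ_iff_lt_or_eq.1 hj with h | rfl
    · exact hyn j h
    · refine h0 j ?_
      refine (A0 j).add_mem (hv2 j hnm) (DT_mem hA0 (hy2 _ (by omega)) (fun i hi => hy2 _ (by omega)))
  · have hw : (v + X.DT y) n ∈ Zt A B n := by
      cases n with
      | zero =>
        exact (B 0).add_mem (hv1 0) (DT_mem hB (hy1 _) (fun i _ => hy1 i))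
      | succ i =>
        refine ⟨(B _).add_mem (hv1 _) (DT_mem hB (hy1 _) (fun i _ => hy1 i)), ?_⟩
        have h1 : X.DT (v + X.DT y) i ∈ A i := by
          rw [map_add, TC.DT_DT, add_zero]
          exact mem_PS.1 hDv i
        cases i with
        | zero =>
          rw [DT_zero] at h1
          exact h1
        | succ i =>
          rw [DT_succ] at h1
          have h2 := hA.h i _ (hyn i (by omega))
          have h3 := (A _).add_mem h2 (hA.g _ _ h2)
          have h4 := (A _).add_mem h1 h3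
          rwa [add_assoc, TC.add_self, add_zero] at h4
    obtain ⟨z, hz, hwz⟩ := mem_Bt.1 (hac n _ hw)
    refine ⟨y + Pi.single (n + 1) z, ?_, ?_, ?_⟩
    · refine (PS _).add_mem hy (mem_PS.2 fun j => ?_)
      by_cases hj : j = n + 1
      · subst hj
        rw [Pi.single_eq_same, tr_ge (by omega)]
        exact hz
      · rw [Pi.single_eq_of_ne hj]
        exact Submodule.zero_mem _
    · intro j hj
      rw [Pi.add_apply, Pi.single_eq_of_ne (by omega), add_zero]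
    · intro j hj
      rcases Nat.lt_succ_iff_lt_or_eq.1 hj with h | rfl
      · have e : X.DT (y + Pi.single (n + 1) z) j = X.DT y j := by
          refine DT_congr ?_ ?_
          · rw [Pi.add_apply, Pi.single_eq_of_ne (by omega), add_zero]
          · intro i hi
            rw [Pi.add_apply, Pi.single_eq_of_ne (by omega), add_zero]
        rw [Pi.add_apply, e]
        exact hyn j h
      · have e : X.DT (Pi.single (j + 1) z : X.P) j = X.d j z := by
          have e2 : ∀ i, j = i + 1 → (Pi.single (j + 1) z : X.P) i = 0 := fun i hi =>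
            Pi.single_eq_of_ne (by omega) _
          cases j with
          | zero => rw [DT_zero, Pi.single_eq_same]
          | succ i =>
            rw [DT_succ, Pi.single_eq_same, e2 i rfl, map_zero, map_zero, add_zero, add_zero]
        rw [Pi.add_apply, map_add, Pi.add_apply, e, ← add_assoc]
        exact hwz

/-- **Tate acyclicity with filtration** -/
theorem acyT_tr (hac : Acy A B) (h0 : A0 ≤ A) (hAB : A ≤ B) (hA0 : St A0) (hA : St A) (hB : St B)
    {m : ℕ} {v : X.P} (hv : v ∈ PS (tr A0 B m)) (hDv : X.DT v ∈ PS A) :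
    ∃ y ∈ PS (tr A0 B (m + 1)), v + X.DT y ∈ PS A := by
  classical
  let Q : ℕ → Type := fun n => {y : X.P // y ∈ PS (tr A0 B (m + 1)) ∧ ∀ j < n, (v + X.DT y) j ∈ A j}
  let step : ∀ n, Q n → Q (n + 1) := fun n y =>
    ⟨(acy_step hac h0 hAB hA0 hA hB hv hDv n y.1 y.2.1 y.2.2).choose,
      (acy_step hac h0 hAB hA0 hA hB hv hDv n y.1 y.2.1 y.2.2).choose_spec.1,
      (acy_step hac h0 hAB hA0 hA hB hv hDv n y.1 y.2.1 y.2.2).choose_spec.2.2⟩
  have hstep : ∀ n (y : Q n) j, j ≤ n → (step n y).1 j = y.1 j := fun n y =>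
    (acy_step hac h0 hAB hA0 hA hB hv hDv n y.1 y.2.1 y.2.2).choose_spec.2.1
  let s : ∀ n, Q n := fun n => Nat.rec ⟨0, (PS _).zero_mem, fun j hj => absurd hj (Nat.not_lt_zero j)⟩ step n
  have hs : ∀ n, s (n + 1) = step n (s n) := fun n => rfl
  have hst : ∀ n k j, j ≤ n → (s (n + k)).1 j = (s n).1 j := by
    intro n k
    induction k with
    | zero => intro j _; rfl
    | succ k ih =>
      intro j hj
      rw [show n + (k + 1) = (n + k) + 1 from rfl, hs, hstep _ _ _ (by omega), ih j hj]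
  have hst' : ∀ n j, j ≤ n → (s n).1 j = (s j).1 j := by
    intro n j hj
    obtain ⟨k, rfl⟩ := Nat.exists_eq_add_of_le hj
    exact hst j k j le_rfl
  refine ⟨fun j => (s j).1 j, mem_PS.2 fun j => mem_PS.1 (s j).2.1 j, mem_PS.2 fun j => ?_⟩
  have h1 := (s (j + 1)).2.2 j (Nat.lt_succ_self j)
  have e : X.DT (fun j => (s j).1 j) j = X.DT (s (j + 1)).1 j := by
    refine DT_congr rfl ?_
    intro i hi
    exact (hst' (j + 1) i (by omega)).symm
  rw [Pi.add_apply, e]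
  exact h1

end acy

/-! ### splitting of Tate cycles -/

section split

variable {A S Sp Sm : GT X}

/-- a filtered Tate cycle of `(S, A)` splits -/
theorem splitT (hac : Acy (Sp ⊔ Sm) S) (hs : Strict A Sp Sm) (hpS : Sp ≤ S) (hmS : Sm ≤ S) (hA : St A)
    (hS : St S) (hp : St Sp) (hm : St Sm) {m : ℕ} {w : X.P} (hw : w ∈ PS (tr A S m))
    (hDw : X.DT w ∈ PS A) :
    ∃ wp ∈ PS (tr A Sp m), ∃ wm ∈ PS (tr A Sm m), ∃ t ∈ PS (tr A S (m + 1)),
      w + wp + wm + X.DT t = 0 ∧ X.DT wp ∈ PS A ∧ X.DT wm ∈ PS A := by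
  have hAS : A ≤ S := hs.p.trans hpS
  have hAU : A ≤ Sp ⊔ Sm := hs.p.trans le_sup_left
  obtain ⟨t, ht, h1⟩ := acyT_tr hac hAU (sup_le hpS hmS) hA (hp.sup hm) hS hw (PS_mono hAU hDw)
  obtain ⟨hw1, hw2⟩ := (mem_tr hAS).1 hw
  obtain ⟨ht1, ht2⟩ := (mem_tr hAS).1 ht
  have h2 : ∀ j, ∃ a b : X.C j, a ∈ tr A Sp m j ∧ b ∈ tr A Sm m j ∧ a + b = (w + X.DT t) j := by
    intro j
    by_cases hj : j < m
    · refine ⟨(w + X.DT t) j, 0, ?_, Submodule.zero_mem _, add_zero _⟩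
      rw [tr_lt hj]
      exact (A j).add_mem (hw2 j hj) (DT_mem hA (ht2 _ (by omega)) (fun i hi => ht2 _ (by omega)))
    · obtain ⟨a, ha, b, hb, hab⟩ := Submodule.mem_sup.1 (show (w + X.DT t) j ∈ Sp j ⊔ Sm j from mem_PS.1 h1 j)
      exact ⟨a, b, by rw [tr_ge (by omega)]; exact ha, by rw [tr_ge (by omega)]; exact hb, hab⟩
  choose wp wm hwp hwm hsum using h2
  have hsum' : (wp : X.P) + wm = w + X.DT t := funext hsum
  have hwp' : wp ∈ PS Sp := PS_mono (tr_le hs.p m) (mem_PS.2 hwp)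
  have hwm' : wm ∈ PS Sm := PS_mono (tr_le hs.m m) (mem_PS.2 hwm)
  have hD : X.DT wp + X.DT wm ∈ PS A := by
    rw [← map_add, hsum', map_add, TC.DT_DT, add_zero]
    exact hDw
  refine ⟨wp, mem_PS.2 hwp, wm, mem_PS.2 hwm, t, ht, ?_, hs.leftP (hp.DT hwp') (hm.DT hwm') hD,
    hs.rightP (hp.DT hwp') (hm.DT hwm') hD⟩
  have e : w + wp + wm + X.DT t = (wp + wm) + (w + X.DT t) := by abel
  rw [e, hsum', TC.add_self]

/-- if a strictly split family bounds in `(S, A)`, both parts bound in `(Sp, A)`, `(Sm, A)` -/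
theorem splitBd (hac : Acy (Sp ⊔ Sm) S) (hs : Strict A Sp Sm) (hpS : Sp ≤ S) (hmS : Sm ≤ S)
    (hS : St S) (hp : St Sp) (hm : St Sm) {wp wm c : X.P} (hwp : wp ∈ PS Sp) (hwm : wm ∈ PS Sm)
    (hc : c ∈ PS S) (h : wp + wm + X.DT c ∈ PS A) :
    (∃ cp ∈ PS Sp, wp + X.DT cp ∈ PS A) ∧ ∃ cm ∈ PS Sm, wm + X.DT cm ∈ PS A := by
  have hAU : A ≤ Sp ⊔ Sm := hs.p.trans le_sup_left
  have h1 : X.DT c ∈ PS (Sp ⊔ Sm) := by
    have e : X.DT c = (wp + wm) + (wp + wm + X.DT c) := by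
      rw [← add_assoc, TC.add_self, zero_add]
    rw [e]
    exact (PS _).add_mem ((PS _).add_mem (PS_mono le_sup_left hwp) (PS_mono le_sup_right hwm))
      (PS_mono hAU h)
  have hc0 : c ∈ PS (tr (Sp ⊔ Sm) S 0) := by
    rw [mem_tr (sup_le hpS hmS)]
    exact ⟨mem_PS.1 hc, fun j hj => absurd hj (Nat.not_lt_zero j)⟩
  obtain ⟨y, _, hy⟩ := acyT_tr hac le_rfl (sup_le hpS hmS) (hp.sup hm) (hp.sup hm) hS hc0 h1
  have h2 : ∀ j, ∃ a b : X.C j, a ∈ Sp j ∧ b ∈ Sm j ∧ a + b = (c + X.DT y) j := by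
    intro j
    obtain ⟨a, ha, b, hb, hab⟩ := Submodule.mem_sup.1 (show (c + X.DT y) j ∈ Sp j ⊔ Sm j from mem_PS.1 hy j)
    exact ⟨a, b, ha, hb, hab⟩
  choose cp cm hcp hcm hsum using h2
  have hsum' : (cp : X.P) + cm = c + X.DT y := funext hsum
  have hcp' : cp ∈ PS Sp := mem_PS.2 hcp
  have hcm' : cm ∈ PS Sm := mem_PS.2 hcm
  have h3 : (wp + X.DT cp) + (wm + X.DT cm) ∈ PS A := by
    have e : (wp + X.DT cp) + (wm + X.DT cm) = wp + wm + X.DT c := by
      have e1 : X.DT cp + X.DT cm = X.DT c := by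
        rw [← map_add, hsum', map_add, TC.DT_DT, add_zero]
      rw [← e1]; abel
    rw [e]; exact h
  have h4 : wp + X.DT cp ∈ PS Sp := (PS _).add_mem hwp (hp.DT hcp')
  have h5 : wm + X.DT cm ∈ PS Sm := (PS _).add_mem hwm (hm.DT hcm')
  exact ⟨⟨cp, hcp', hs.leftP h4 h5 h3⟩, ⟨cm, hcm', hs.rightP h4 h5 h3⟩⟩

end split

end Crest.Agent.R231.SplitAlgx125
end
end

-- ▼ part R231/SplitRK_125
section

/-!
# Row 231, block R (helper125): the splitting at a critical level, from a `g`-equivariant retraction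

`RK A B S₂ S₁ r K`: a chain map `r` and a homotopy `K` on `B` (`dK + Kd = 1 + r`), commuting with `g`,
preserving `A`, with `r B ⊆ S₂`, `K B ⊆ B`, `K S₂ ⊆ S₁`.
-/

set_option autoImplicit false

noncomputable section

namespace Crest.Agent.R231.SplitAlgx125

open Crest.Agent.R204 Crest.Agent.R231.TCx569 Crest.Agent.R231.IfAx978

variable {X : TC}

theorem cancel3 {M : Type*} [AddCommGroup M] [Module F2 M] (a b c : M) : a + (b + c) + c = a + b := by
  rw [add_assoc, add_assoc, TC.add_self, add_zero]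

theorem eq_of_add {M : Type*} [AddCommGroup M] [Module F2 M] {a b c : M} (h : a + b = c) :
    a = c + b := by
  rw [← h, add_assoc, TC.add_self, add_zero]

/-- a `g`-equivariant deformation -/
structure RK (A B S2 S1 : GT X) (r : ∀ j, X.C j →ₗ[F2] X.C j) (K : ∀ j, X.C j →ₗ[F2] X.C (j + 1)) :
    Prop where
  r_d : ∀ j x, x ∈ B (j + 1) → X.d j (r (j + 1) x) = r j (X.d j x)
  r_g : ∀ j x, x ∈ B j → X.g j (r j x) = r j (X.g j x)
  K_g : ∀ j x, x ∈ B j → X.g (j + 1) (K j x) = K j (X.g j x)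
  hK0 : ∀ x, x ∈ B 0 → X.d 0 (K 0 x) = x + r 0 x
  hK : ∀ j x, x ∈ B (j + 1) → X.d (j + 1) (K (j + 1) x) + K j (X.d j x) = x + r (j + 1) x
  r_A : ∀ j x, x ∈ A j → r j x ∈ A j
  K_A : ∀ j x, x ∈ A j → K j x ∈ A (j + 1)
  r_B : ∀ j x, x ∈ B j → r j x ∈ S2 j
  K_B : ∀ j x, x ∈ B j → K j x ∈ B (j + 1)
  K_S : ∀ j x, x ∈ S2 j → K j x ∈ S1 (j + 1)

namespace RK

variable {A B S2 S1 : GT X} {r : ∀ j, X.C j →ₗ[F2] X.C j} {K : ∀ j, X.C j →ₗ[F2] X.C (j + 1)}
  (H : RK A B S2 S1 r K)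
include H

theorem rP_dP {c : X.P} (hc : c ∈ PS B) : X.dP (zrP r c) = zrP r (X.dP c) :=
  funext fun j => H.r_d j _ (mem_PS.1 hc (j + 1))

theorem rP_gP {c : X.P} (hc : c ∈ PS B) : X.gP (zrP r c) = zrP r (X.gP c) :=
  funext fun j => H.r_g j _ (mem_PS.1 hc j)

theorem KP_gP {c : X.P} (hc : c ∈ PS B) : X.gP (upP K c) = upP K (X.gP c) :=
  funext fun j => by
    cases j with
    | zero => exact map_zero (X.g 0)
    | succ j => exact H.K_g j _ (mem_PS.1 hc j)

theorem KP_dP {c : X.P} (hc : c ∈ PS B) : X.dP (upP K c) + upP K (X.dP c) = c + zrP r c :=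
  funext fun j => by
    cases j with
    | zero =>
      change X.d 0 (K 0 (c 0)) + 0 = c 0 + r 0 (c 0)
      rw [add_zero]; exact H.hK0 _ (mem_PS.1 hc 0)
    | succ j => exact H.hK j _ (mem_PS.1 hc (j + 1))

theorem rP_DZ {c : X.P} (hc : c ∈ PS B) : X.DZ (zrP r c) = zrP r (X.DZ c) := by
  rw [TC.DZ_apply, TC.DZ_apply, map_add, map_add, H.rP_dP hc, H.rP_gP hc]

theorem KP_DZ {c : X.P} (hc : c ∈ PS B) :
    X.DZ (upP K c) + upP K (X.DZ c) = c + zrP r c := by
  rw [TC.DZ_apply, TC.DZ_apply, map_add, map_add, H.KP_gP hc, ← H.KP_dP hc]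
  have e : X.dP (upP K c) + upP K c + upP K (X.gP c) + (upP K (X.dP c) + upP K c + upP K (X.gP c)) =
      X.dP (upP K c) + upP K (X.dP c) + (upP K c + upP K c) + (upP K (X.gP c) + upP K (X.gP c)) := by
    abel
  rw [e, TC.add_self, TC.add_self, add_zero, add_zero]

theorem rP_A {c : X.P} (hc : c ∈ PS A) : zrP r c ∈ PS A := mem_PS.2 fun j => H.r_A j _ (mem_PS.1 hc j)

theorem rP_B {c : X.P} (hc : c ∈ PS B) : zrP r c ∈ PS S2 := mem_PS.2 fun j => H.r_B j _ (mem_PS.1 hc j)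

theorem KP_A {c : X.P} (hc : c ∈ PS A) : upP K c ∈ PS A := mem_PS.2 fun j => by
  cases j with
  | zero => exact (A 0).zero_mem
  | succ j => exact H.K_A j _ (mem_PS.1 hc j)

theorem KP_S {c : X.P} (hc : c ∈ PS S2) : upP K c ∈ PS S1 := mem_PS.2 fun j => by
  cases j with
  | zero => exact (S1 0).zero_mem
  | succ j => exact H.K_S j _ (mem_PS.1 hc j)

theorem rP_tr {m : ℕ} {c : X.P} (hc : c ∈ PS (tr A B m)) : zrP r c ∈ PS (tr A S2 m) :=
  mem_PS.2 fun j => by
    have h1 := mem_PS.1 hc j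
    unfold tr at h1 ⊢
    split_ifs at h1 ⊢ with h
    · exact H.r_A j _ h1
    · exact H.r_B j _ h1

theorem KP_tr {m : ℕ} {c : X.P} (hc : c ∈ PS (tr A B m)) : upP K c ∈ PS (tr A B (m + 1)) :=
  mem_PS.2 fun j => by
    cases j with
    | zero => rw [tr_lt (by omega)]; exact (A 0).zero_mem
    | succ j =>
      have h1 := mem_PS.1 hc j
      by_cases h : j < m
      · rw [tr_lt (by omega)]; rw [tr_lt h] at h1
        exact H.K_A j _ h1
      · rw [tr_ge (by omega)]; rw [tr_ge (by omega)] at h1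
        exact H.K_B j _ h1

/-- (F1) every filtered Tate cycle of `(B, A)` comes from `(S₂, A)` -/
theorem lift_T (hA : St A) (hB : St B) (hAB : A ≤ B) (hS2 : St S2) (hAS : A ≤ S2) {m : ℕ} {v : X.P}
    (hv : v ∈ PS (tr A B m)) (hDv : X.DT v ∈ PS A) :
    ∃ w ∈ PS (tr A S2 m), ∃ e ∈ PS (tr A B (m + 1)), v + w + X.DT e ∈ PS A := by
  have hv' : X.cj v ∈ PS (tr A B m) := hA.cj_tr hB hAB hv
  have hv'' : X.cj v ∈ PS B := PS_mono (tr_le hAB m) hv'
  refine ⟨X.cj (zrP r (X.cj v)), hA.cj_tr hS2 hAS (H.rP_tr hv'), X.cj (upP K (X.cj v)),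
    hA.cj_tr hB hAB (H.KP_tr hv'), ?_⟩
  have e1 : v + X.cj (zrP r (X.cj v)) + X.DT (X.cj (upP K (X.cj v))) =
      X.cj (upP K (X.cj (X.DT v))) := by
    rw [← TC.cj_DZ, TC.cj_DT]
    have h1 := H.KP_DZ hv''
    have e2 : upP K (X.DZ (X.cj v)) = X.cj v + zrP r (X.cj v) + X.DZ (upP K (X.cj v)) := by
      rw [← h1, add_comm (X.DZ (upP K (X.cj v))), add_assoc, TC.add_self, add_zero]
    rw [e2, map_add, map_add, TC.cj_cj]
  rw [e1]
  exact hA.cj (H.KP_A (hA.cj hDv))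

/-- (F2) a Tate cycle of `(S₂, A)` which bounds in `(B, A)` bounds in `(S₁, A)` -/
theorem inj_T (hA : St A) (hB : St B) (_hAB : A ≤ B) (hS2 : St S2) (hS1 : St S1) (h21 : S2 ≤ S1)
    (hSB : S2 ≤ B) {w c : X.P} (hw : w ∈ PS S2) (hc : c ∈ PS B) (h : w + X.DT c ∈ PS A) :
    ∃ c' ∈ PS S1, w + X.DT c' ∈ PS A := by
  have hw' : X.cj w ∈ PS S2 := hS2.cj hw
  have hwB : X.cj w ∈ PS B := PS_mono hSB hw'
  have hc' : X.cj c ∈ PS B := hB.cj hc
  have h' : X.cj w + X.DZ (X.cj c) ∈ PS A := by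
    rw [← TC.cj_DT, ← map_add]; exact hA.cj h
  have hDw : X.DZ (X.cj w) ∈ PS A := by
    have := hA.DZ h'
    rwa [map_add, TC.DZ_DZ, add_zero] at this
  refine ⟨X.cj (upP K (X.cj w) + zrP r (X.cj c)), hS1.cj ((PS _).add_mem (H.KP_S hw')
    (PS_mono h21 (H.rP_B hc'))), ?_⟩
  have h1 := H.KP_DZ hwB
  have e : w + X.DT (X.cj (upP K (X.cj w) + zrP r (X.cj c))) =
      X.cj (upP K (X.DZ (X.cj w)) + zrP r (X.cj w + X.DZ (X.cj c))) := by
    rw [← TC.cj_DZ, map_add X.DZ, H.rP_DZ hc', map_add (zrP r)]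
    have e2 : upP K (X.DZ (X.cj w)) + zrP r (X.cj w) = X.cj w + X.DZ (upP K (X.cj w)) := by
      have e3 : upP K (X.DZ (X.cj w)) = X.cj w + zrP r (X.cj w) + X.DZ (upP K (X.cj w)) := by
        rw [← h1, add_comm (X.DZ (upP K (X.cj w))), add_assoc, TC.add_self, add_zero]
      rw [e3]
      have e4 : X.cj w + zrP r (X.cj w) + X.DZ (upP K (X.cj w)) + zrP r (X.cj w) =
          X.cj w + X.DZ (upP K (X.cj w)) + (zrP r (X.cj w) + zrP r (X.cj w)) := by abel
      rw [e4, TC.add_self, add_zero]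
    rw [← add_assoc, e2, map_add, map_add, map_add, TC.cj_cj]
    abel
  rw [e]
  exact hA.cj ((PS _).add_mem (H.KP_A hDw) (H.rP_A h'))

/-- plain version of (F1) -/
theorem lift_pl (h2B : S2 ≤ B) {j : ℕ} {x : X.C j} (hx : x ∈ Zt A B j) :
    r j x ∈ S2 j ∧ r j x ∈ Zt A B j ∧ x + r j x + X.d j (K j x) ∈ A j := by
  cases j with
  | zero =>
    have hx' : x ∈ B 0 := hx
    refine ⟨H.r_B 0 x hx', h2B 0 (H.r_B 0 x hx'), ?_⟩
    rw [H.hK0 x hx', TC.add_self]
    exact (A 0).zero_mem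
  | succ j =>
    obtain ⟨hx1, hx2⟩ := hx
    refine ⟨H.r_B _ x hx1, ⟨h2B _ (H.r_B _ x hx1), ?_⟩, ?_⟩
    · change X.d j (r (j + 1) x) ∈ A j
      rw [H.r_d j x hx1]
      exact H.r_A j _ hx2
    · rw [← H.hK j x hx1]
      have e : X.d (j + 1) (K (j + 1) x) + K j (X.d j x) + X.d (j + 1) (K (j + 1) x) =
          K j (X.d j x) := by
        rw [add_comm (X.d (j + 1) (K (j + 1) x)), add_assoc, TC.add_self, add_zero]
      rw [e]
      exact H.K_A j _ hx2

/-- plain version of (F2) -/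
theorem inj_pl (h21 : S2 ≤ S1) (h2B : S2 ≤ B) {j : ℕ} {w : X.C j} {c : X.C (j + 1)}
    (hw : w ∈ S2 j) (hwZ : w ∈ Zt A B j) (hc : c ∈ B (j + 1)) (h : w + X.d j c ∈ A j) :
    ∃ c' ∈ S1 (j + 1), w + X.d j c' ∈ A j := by
  refine ⟨K j w + r (j + 1) c, (S1 _).add_mem (H.K_S j w hw) (h21 _ (H.r_B _ c hc)), ?_⟩
  rw [map_add, H.r_d j c hc]
  have hr := H.r_A j _ h
  rw [map_add] at hr
  cases j with
  | zero =>
    rw [H.hK0 w (h2B 0 hw)]
    have e : w + (w + r 0 w + r 0 (X.d 0 c)) = r 0 w + r 0 (X.d 0 c) := by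
      rw [← add_assoc, ← add_assoc, TC.add_self, zero_add]
    rw [e]; exact hr
  | succ j =>
    have h1 := H.hK j w (h2B _ hw)
    have e : w + (X.d (j + 1) (K (j + 1) w) + r (j + 1) (X.d (j + 1) c)) =
        K j (X.d j w) + (r (j + 1) w + r (j + 1) (X.d (j + 1) c)) := by
      have e1 : X.d (j + 1) (K (j + 1) w) = w + r (j + 1) w + K j (X.d j w) := eq_of_add h1
      rw [e1]
      have e2 : w + (w + r (j + 1) w + K j (X.d j w) + r (j + 1) (X.d (j + 1) c)) =
          (w + w) + (K j (X.d j w) + (r (j + 1) w + r (j + 1) (X.d (j + 1) c))) := by abel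
      rw [e2, TC.add_self, zero_add]
    rw [e]
    exact (A _).add_mem (H.K_A j _ hwZ.2) hr

end RK

/-! ### the splitting -/

/-- all the data at one critical level -/
structure SD (A B S1 S2 Sp1 Sm1 Sp2 Sm2 : GT X) (r : ∀ j, X.C j →ₗ[F2] X.C j)
    (K : ∀ j, X.C j →ₗ[F2] X.C (j + 1)) : Prop where
  stA : St A
  stB : St B
  stS1 : St S1
  stS2 : St S2
  stSp1 : St Sp1
  stSm1 : St Sm1
  stSp2 : St Sp2
  stSm2 : St Sm2
  S1B : S1 ≤ B
  S21 : S2 ≤ S1
  p1 : Sp1 ≤ S1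
  m1 : Sm1 ≤ S1
  p2 : Sp2 ≤ S2
  m2 : Sm2 ≤ S2
  p21 : Sp2 ≤ Sp1
  m21 : Sm2 ≤ Sm1
  strict1 : Strict A Sp1 Sm1
  strict2 : Strict A Sp2 Sm2
  acy1 : Acy (Sp1 ⊔ Sm1) S1
  acy2 : Acy (Sp2 ⊔ Sm2) S2
  rk : RK A B S2 S1 r K

/-- relative cycles carried by `S`, plus boundaries -/
def PP (A B S : GT X) : GT X := fun j => (S j ⊓ Zt A B j) ⊔ Bt A B j

theorem mem_PP {A B S : GT X} {j : ℕ} {x : X.C j} :
    x ∈ PP A B S j ↔ ∃ w, w ∈ S j ∧ w ∈ Zt A B j ∧ x + w ∈ Bt A B j := by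
  constructor
  · intro h
    obtain ⟨w, ⟨hw1, hw2⟩, b, hb, rfl⟩ := Submodule.mem_sup.1 h
    refine ⟨w, hw1, hw2, ?_⟩
    have e : w + b + w = b := by rw [add_comm, ← add_assoc, TC.add_self, zero_add]
    rw [e]; exact hb
  · rintro ⟨w, hw1, hw2, h⟩
    refine Submodule.mem_sup.2 ⟨w, ⟨hw1, hw2⟩, _, h, ?_⟩
    rw [add_comm x, ← add_assoc, TC.add_self, zero_add]

theorem Bt_le_PP (A B S : GT X) (j : ℕ) : Bt A B j ≤ PP A B S j := le_sup_right

namespace SD

variable {A B S1 S2 Sp1 Sm1 Sp2 Sm2 : GT X} {r : ∀ j, X.C j →ₗ[F2] X.C j}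
  {K : ∀ j, X.C j →ₗ[F2] X.C (j + 1)} (D : SD A B S1 S2 Sp1 Sm1 Sp2 Sm2 r K)
include D

theorem AS2 : A ≤ S2 := D.strict2.p.trans D.p2
theorem S2B : S2 ≤ B := D.S21.trans D.S1B
theorem AB : A ≤ B := D.AS2.trans D.S2B

theorem PP_le_Zt (S : GT X) (j : ℕ) : PP A B S j ≤ Zt A B j :=
  sup_le inf_le_right fun _ hx => Bt_le_Zt D.AB D.stA D.stB hx

/-- (2) -/
theorem Zt_le_sup (j : ℕ) {x : X.C j} (hx : x ∈ Zt A B j) :
    ∃ wp wm : X.C j, wp ∈ Sp2 j ∧ wp ∈ Zt A B j ∧ wm ∈ Sm2 j ∧ wm ∈ Zt A B j ∧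
      x + wp + wm ∈ Bt A B j := by
  obtain ⟨h1, h2, h3⟩ := D.rk.lift_pl D.S2B hx
  have hAU : A ≤ Sp2 ⊔ Sm2 := D.strict2.p.trans le_sup_left
  have h4 : r j x ∈ Zt (Sp2 ⊔ Sm2) S2 j := by
    cases j with
    | zero => exact h1
    | succ j => exact ⟨h1, hAU j h2.2⟩
  obtain ⟨y, hy, hy'⟩ := mem_Bt.1 (D.acy2 j _ h4)
  obtain ⟨wp, hwp, wm, hwm, hsum⟩ := Submodule.mem_sup.1 (show r j x + X.d j y ∈ Sp2 j ⊔ Sm2 j from hy')
  have hZ : wp ∈ Zt A B j ∧ wm ∈ Zt A B j := by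
    cases j with
    | zero => exact ⟨D.S2B 0 (D.p2 0 hwp), D.S2B 0 (D.m2 0 hwm)⟩
    | succ j =>
      have h5 : X.d j wp + X.d j wm ∈ A j := by
        rw [← map_add, hsum, map_add, X.dd, add_zero]
        exact h2.2
      exact ⟨⟨D.S2B _ (D.p2 _ hwp), D.strict2.left (D.stSp2.d j _ hwp) (D.stSm2.d j _ hwm) h5⟩,
        ⟨D.S2B _ (D.m2 _ hwm), D.strict2.right (D.stSp2.d j _ hwp) (D.stSm2.d j _ hwm) h5⟩⟩
  refine ⟨wp, wm, hwp, hZ.1, hwm, hZ.2, mem_Bt.2 ⟨K j x + y, ?_, ?_⟩⟩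
  · exact (B _).add_mem (D.rk.K_B j x (Zt_le hx)) (D.S2B _ hy)
  · have e : x + wp + wm + X.d j (K j x + y) = (x + r j x + X.d j (K j x)) +
        ((wp + wm) + (r j x + X.d j y)) := by
      rw [map_add]
      have e1 : (x + r j x + X.d j (K j x)) + ((wp + wm) + (r j x + X.d j y)) =
        x + wp + wm + (X.d j (K j x) + X.d j y) + (r j x + r j x) := by abel
      rw [e1, TC.add_self, add_zero]
    rw [e, hsum, TC.add_self, add_zero]
    exact h3

theorem Zt_le_PP (j : ℕ) : Zt A B j ≤ PP A B Sp2 j ⊔ PP A B Sm2 j := by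
  intro x hx
  obtain ⟨wp, wm, h1, h2, h3, h4, h5⟩ := D.Zt_le_sup j hx
  refine Submodule.mem_sup.2 ⟨wp, Submodule.mem_sup_left ⟨h1, h2⟩, x + wp, mem_PP.2 ⟨wm, h3, h4, h5⟩, ?_⟩
  rw [add_comm x, ← add_assoc, TC.add_self, zero_add]

/-- (3) -/
theorem sum_bd (j : ℕ) {wp wm : X.C j} (hp : wp ∈ Sp2 j) (hpZ : wp ∈ Zt A B j) (hm : wm ∈ Sm2 j)
    (hmZ : wm ∈ Zt A B j) (h : wp + wm ∈ Bt A B j) : wp ∈ Bt A B j ∧ wm ∈ Bt A B j := by
  obtain ⟨c, hc, hc'⟩ := mem_Bt.1 h
  have hS : wp + wm ∈ S2 j := (S2 j).add_mem (D.p2 j hp) (D.m2 j hm)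
  obtain ⟨e, he, he'⟩ := D.rk.inj_pl D.S21 D.S2B hS ((Zt A B j).add_mem hpZ hmZ) hc hc'
  have hAU : A ≤ Sp1 ⊔ Sm1 := D.strict1.p.trans le_sup_left
  have h1 : X.d j e ∈ (Sp1 ⊔ Sm1) j := by
    have e1 : X.d j e = (wp + wm) + (wp + wm + X.d j e) := by rw [← add_assoc, TC.add_self, zero_add]
    rw [e1]
    exact Submodule.add_mem _ (Submodule.add_mem_sup (D.p21 j hp) (D.m21 j hm)) (hAU j he')
  obtain ⟨y, hy, hy'⟩ := mem_Bt.1 (D.acy1 (j + 1) e ⟨he, h1⟩)
  obtain ⟨ep, hep, em, hem, hsum⟩ := Submodule.mem_sup.1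
    (show e + X.d (j + 1) y ∈ Sp1 (j + 1) ⊔ Sm1 (j + 1) from hy')
  have h2 : (wp + X.d j ep) + (wm + X.d j em) ∈ A j := by
    have e1 : X.d j ep + X.d j em = X.d j e := by rw [← map_add, hsum, map_add, X.dd, add_zero]
    have e2 : (wp + X.d j ep) + (wm + X.d j em) = wp + wm + (X.d j ep + X.d j em) := by abel
    rw [e2, e1]; exact he'
  have h3 := (Sp1 j).add_mem (D.p21 j hp) (D.stSp1.d j _ hep)
  have h4 := (Sm1 j).add_mem (D.m21 j hm) (D.stSm1.d j _ hem)
  exact ⟨mem_Bt.2 ⟨ep, D.S1B _ (D.p1 _ hep), D.strict1.left h3 h4 h2⟩,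
    mem_Bt.2 ⟨em, D.S1B _ (D.m1 _ hem), D.strict1.right h3 h4 h2⟩⟩

theorem PP_inf (j : ℕ) : PP A B Sp2 j ⊓ PP A B Sm2 j ≤ Bt A B j := by
  rintro x ⟨hx1, hx2⟩
  obtain ⟨wp, h1, h2, h3⟩ := mem_PP.1 hx1
  obtain ⟨wm, h4, h5, h6⟩ := mem_PP.1 hx2
  have h7 : wp + wm ∈ Bt A B j := by
    have e : wp + wm = (x + wp) + (x + wm) := by
      have e1 : (x + wp) + (x + wm) = (x + x) + (wp + wm) := by abel
      rw [e1, TC.add_self, zero_add]
    rw [e]; exact Submodule.add_mem _ h3 h6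
  have h8 := (D.sum_bd j h1 h2 h4 h5 h7).1
  have e : x = (x + wp) + wp := by rw [add_assoc, TC.add_self, add_zero]
  rw [e]
  exact Submodule.add_mem _ h3 h8

/-- (5) **compatibility with leading terms** -/
theorem lead {A' B' Sp' Sm' : GT X} (psi : ∀ j, X.C j →ₗ[F2] X.C j)
    (psi_d : ∀ j x, X.d j (psi (j + 1) x) = psi j (X.d j x))
    (psi_De : ∀ j x, X.h j (psi j x) + X.g (j + 1) (X.h j (psi j x)) = 0)
    (psiA : ∀ j x, x ∈ A' j → psi j x ∈ A j) (psiB : ∀ j x, x ∈ B' j → psi j x ∈ B j)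
    (psip : ∀ j x, x ∈ Sp' j → psi j x ∈ Sp2 j) (psim : ∀ j x, x ∈ Sm' j → psi j x ∈ Sm2 j)
    {m : ℕ} {v yp ym c : X.P} (hv : ∀ j, v j ∈ B j) (hvA : ∀ j, j < m → v j ∈ A j)
    (hyp : ∀ j, yp j ∈ PP A' B' Sp' j) (hym : ∀ j, ym j ∈ PP A' B' Sm' j) (hc : ∀ j, c j ∈ B j)
    (h : ∀ j, v j + psi j (yp j + ym j) + X.DT c j ∈ A j) :
    ∃ vp vm cp cm : X.P, (∀ j, vp j ∈ B j) ∧ (∀ j, vm j ∈ B j) ∧ (∀ j, j < m → vp j ∈ A j) ∧
      (∀ j, j < m → vm j ∈ A j) ∧ (∀ j, cp j ∈ B j) ∧ (∀ j, cm j ∈ B j) ∧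
      (∀ j, vp j + psi j (yp j) + X.DT cp j ∈ A j) ∧ (∀ j, vm j + psi j (ym j) + X.DT cm j ∈ A j) ∧
      vp m ∈ PP A B Sp2 m ∧ vm m ∈ PP A B Sm2 m ∧ v m + vp m + vm m ∈ Bt A B m := by
  have hAB := D.AB
  have hS2B := D.S2B
  -- choose representatives of `yp`, `ym`
  have key : ∀ (S' S : GT X) (_ : ∀ j x, x ∈ S' j → psi j x ∈ S j) (y : X.P)
      (_ : ∀ j, y j ∈ PP A' B' S' j), ∃ w z : X.P, (w ∈ PS S ∧ z ∈ PS B ∧ X.DT w ∈ PS A ∧
        zrP psi y + w + X.DT z ∈ PS A) := by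
    intro S' S hS y hy
    have h1 : ∀ j, ∃ w, w ∈ S' j ∧ w ∈ Zt A' B' j ∧ ∃ z, z ∈ B' (j + 1) ∧ y j + w + X.d j z ∈ A' j := by
      intro j
      obtain ⟨w, hw1, hw2, hw3⟩ := mem_PP.1 (hy j)
      obtain ⟨z, hz, hz'⟩ := mem_Bt.1 hw3
      exact ⟨w, hw1, hw2, z, hz, hz'⟩
    choose w hw1 hw2 z hz hz' using h1
    have hDel : ∀ u : X.P, X.DelP (zrP psi u) = 0 := by
      intro u
      funext j
      cases j with
      | zero =>
        change (0 : X.C 0) + X.g 0 0 = 0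
        rw [map_zero, add_zero]
      | succ j => exact psi_De j _
    have hDT : ∀ u : X.P, X.DT (zrP psi u) = zrP psi (X.dP u) := by
      intro u
      have e1 : X.DT (zrP psi u) = X.dP (zrP psi u) + X.DelP (zrP psi u) := rfl
      rw [e1, hDel, add_zero]
      funext j
      exact psi_d j _
    let z' : X.P := fun j => Nat.casesOn (motive := fun j => X.C j) j 0 (fun i => z i)
    have hz'B : ∀ j, z' j ∈ B' j := by
      intro j
      cases j with
      | zero => exact (B' 0).zero_mem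
      | succ j => exact hz j
    refine ⟨zrP psi w, zrP psi z', mem_PS.2 fun j => hS j _ (hw1 j), mem_PS.2 fun j => psiB j _ (hz'B j),
      ?_, ?_⟩
    · rw [hDT]
      refine mem_PS.2 fun j => psiA j _ ?_
      exact (hw2 (j + 1)).2
    · rw [hDT, ← map_add, ← map_add]
      exact mem_PS.2 fun j => psiA j _ (hz' j)
  obtain ⟨wp, zp, hwp, hzp, hDwp, hyp'⟩ := key Sp' Sp2 psip yp hyp
  obtain ⟨wm, zm, hwm, hzm, hDwm, hym'⟩ := key Sm' Sm2 psim ym hym
  have hv' : v ∈ PS (tr A B m) := (mem_tr hAB).2 ⟨hv, hvA⟩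
  have hc' : c ∈ PS B := mem_PS.2 hc
  -- `v + wp + wm` bounds
  have h1 : v + (wp + wm) + X.DT (c + zp + zm) ∈ PS A := by
    have h2 : v + zrP psi (yp + ym) + X.DT c ∈ PS A := mem_PS.2 h
    have e : v + (wp + wm) + X.DT (c + zp + zm) = (v + zrP psi (yp + ym) + X.DT c) +
        (zrP psi yp + wp + X.DT zp) + (zrP psi ym + wm + X.DT zm) := by
      rw [map_add, map_add, map_add]
      have e1 : (v + (zrP psi yp + zrP psi ym) + X.DT c) +
        (zrP psi yp + wp + X.DT zp) + (zrP psi ym + wm + X.DT zm) =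
        v + (wp + wm) + (X.DT c + X.DT zp + X.DT zm) + (zrP psi yp + zrP psi yp) +
        (zrP psi ym + zrP psi ym) := by abel
      rw [e1, TC.add_self, TC.add_self, add_zero, add_zero]
    rw [e]
    exact (PS _).add_mem ((PS _).add_mem h2 hyp') hym'
  have hDv : X.DT v ∈ PS A := by
    have h2 := D.stA.DT h1
    rw [map_add, map_add, map_add, TC.DT_DT, add_zero] at h2
    have e : X.DT v = (X.DT v + (X.DT wp + X.DT wm)) + (X.DT wp + X.DT wm) := by
      rw [add_assoc, TC.add_self, add_zero]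
    rw [e]
    exact (PS _).add_mem h2 ((PS _).add_mem hDwp hDwm)
  -- (F1)
  obtain ⟨w, hw, e, he, h3⟩ := D.rk.lift_T D.stA D.stB hAB D.stS2 D.AS2 hv' hDv
  have hDw : X.DT w ∈ PS A := by
    have h4 := D.stA.DT h3
    rw [map_add, map_add, TC.DT_DT, add_zero] at h4
    have e1 : X.DT w = X.DT v + (X.DT v + X.DT w) := by rw [← add_assoc, TC.add_self, zero_add]
    rw [e1]
    exact (PS _).add_mem hDv h4
  -- split `w`
  obtain ⟨up, hup, um, hum, t, ht, hsum, hDup, hDum⟩ :=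
    splitT D.acy2 D.strict2 D.p2 D.m2 D.stA D.stS2 D.stSp2 D.stSm2 hw hDw
  have hupS : up ∈ PS Sp2 := PS_mono (tr_le D.strict2.p m) hup
  have humS : um ∈ PS Sm2 := PS_mono (tr_le D.strict2.m m) hum
  have heB : e ∈ PS B := PS_mono (tr_le hAB _) he
  have htB : t ∈ PS B := PS_mono hS2B (PS_mono (tr_le D.AS2 _) ht)
  -- the family `(up + wp) + (um + wm)` bounds in `B`
  have h5 : (up + wp) + (um + wm) + X.DT (c + zp + zm + e + t) ∈ PS A := by
    have e1 : (up + wp) + (um + wm) + X.DT (c + zp + zm + e + t) =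
        (v + (wp + wm) + X.DT (c + zp + zm)) + (v + w + X.DT e) + (w + up + um + X.DT t) := by
      rw [map_add X.DT (c + zp + zm + e) t, map_add X.DT (c + zp + zm) e]
      have e2 : (v + (wp + wm) + X.DT (c + zp + zm)) + (v + w + X.DT e) + (w + up + um + X.DT t) =
        (up + wp) + (um + wm) + (X.DT (c + zp + zm) + X.DT e + X.DT t) + (v + v) + (w + w) := by abel
      rw [e2, TC.add_self, TC.add_self, add_zero, add_zero]
    rw [e1, hsum, add_zero]
    exact (PS _).add_mem h1 h3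
  have hpS : up + wp ∈ PS Sp2 := (PS _).add_mem hupS hwp
  have hmS : um + wm ∈ PS Sm2 := (PS _).add_mem humS hwm
  obtain ⟨c3, hc3, h6⟩ := D.rk.inj_T D.stA D.stB hAB D.stS2 D.stS1 D.S21 hS2B
    ((PS _).add_mem (PS_mono D.p2 hpS) (PS_mono D.m2 hmS))
    ((PS _).add_mem ((PS _).add_mem ((PS _).add_mem ((PS _).add_mem hc' hzp) hzm) heB) htB) h5
  obtain ⟨⟨dp, hdp, h7⟩, ⟨dm, hdm, h8⟩⟩ := splitBd D.acy1 D.strict1 D.p1 D.m1 D.stS1 D.stSp1 D.stSm1
    (PS_mono D.p21 hpS) (PS_mono D.m21 hmS) hc3 h6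
  have hdpB : dp ∈ PS B := PS_mono D.S1B (PS_mono D.p1 hdp)
  have hdmB : dm ∈ PS B := PS_mono D.S1B (PS_mono D.m1 hdm)
  have hupB : up ∈ PS B := PS_mono hS2B (PS_mono D.p2 hupS)
  have humB : um ∈ PS B := PS_mono hS2B (PS_mono D.m2 humS)
  have hupA : ∀ j, j < m → up j ∈ A j := ((mem_tr D.strict2.p).1 hup).2
  have humA : ∀ j, j < m → um j ∈ A j := ((mem_tr D.strict2.m).1 hum).2
  have hlead : ∀ (S : GT X) (u : X.P), u ∈ PS S → (∀ j, j < m → u j ∈ A j) → u ∈ PS B →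
      X.DT u ∈ PS A → u m ∈ PP A B S m := by
    intro S u hu huA huB hDu
    refine Submodule.mem_sup_left ⟨mem_PS.1 hu m, ?_⟩
    cases m with
    | zero => exact mem_PS.1 huB 0
    | succ m =>
      refine ⟨mem_PS.1 huB _, ?_⟩
      have h9 := mem_PS.1 hDu m
      cases m with
      | zero => rw [DT_zero] at h9; exact h9
      | succ m =>
        rw [DT_succ] at h9
        have h10 := D.stA.h m _ (huA m (by omega))
        have h11 := (A _).add_mem h9 ((A _).add_mem h10 (D.stA.g _ _ h10))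
        rwa [add_assoc, TC.add_self, add_zero] at h11
  refine ⟨up, um, dp + zp, dm + zm, mem_PS.1 hupB, mem_PS.1 humB, hupA, humA,
    mem_PS.1 ((PS _).add_mem hdpB hzp), mem_PS.1 ((PS _).add_mem hdmB hzm), ?_, ?_,
    hlead Sp2 up hupS hupA hupB hDup, hlead Sm2 um humS humA humB hDum, ?_⟩
  · have h9 : up + zrP psi yp + X.DT (dp + zp) ∈ PS A := by
      have e1 : up + zrP psi yp + X.DT (dp + zp) = (up + wp + X.DT dp) + (zrP psi yp + wp + X.DT zp) := by
        rw [map_add]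
        have e2 : (up + wp + X.DT dp) + (zrP psi yp + wp + X.DT zp) =
          up + zrP psi yp + (X.DT dp + X.DT zp) + (wp + wp) := by abel
        rw [e2, TC.add_self, add_zero]
      rw [e1]
      exact (PS _).add_mem h7 hyp'
    exact mem_PS.1 h9
  · have h9 : um + zrP psi ym + X.DT (dm + zm) ∈ PS A := by
      have e1 : um + zrP psi ym + X.DT (dm + zm) = (um + wm + X.DT dm) + (zrP psi ym + wm + X.DT zm) := by
        rw [map_add]
        have e2 : (um + wm + X.DT dm) + (zrP psi ym + wm + X.DT zm) =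
          um + zrP psi ym + (X.DT dm + X.DT zm) + (wm + wm) := by abel
        rw [e2, TC.add_self, add_zero]
      rw [e1]
      exact (PS _).add_mem h8 hym'
    exact mem_PS.1 h9
  · -- `v m + up m + um m`
    have h9 : v + up + um + X.DT (e + t) ∈ PS A := by
      have e1 : v + up + um + X.DT (e + t) = (v + w + X.DT e) + (w + up + um + X.DT t) := by
        rw [map_add]
        have e2 : (v + w + X.DT e) + (w + up + um + X.DT t) =
          v + up + um + (X.DT e + X.DT t) + (w + w) := by abel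
        rw [e2, TC.add_self, add_zero]
      rw [e1, hsum, add_zero]
      exact h3
    have h10 := mem_PS.1 h9 m
    have het : e + t ∈ PS (tr A B (m + 1)) :=
      (PS _).add_mem he (PS_mono (tr_mono_right hS2B (m + 1)) ht)
    obtain ⟨het1, het2⟩ := (mem_tr hAB).1 het
    refine mem_Bt.2 ⟨(e + t) (m + 1), het1 _, ?_⟩
    cases m with
    | zero =>
      change v 0 + up 0 + um 0 + X.DT (e + t) 0 ∈ A 0 at h10
      rw [DT_zero] at h10
      exact h10
    | succ m =>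
      change v (m + 1) + up (m + 1) + um (m + 1) + X.DT (e + t) (m + 1) ∈ A (m + 1) at h10
      rw [DT_succ] at h10
      have h11 := D.stA.h m _ (het2 m (by omega))
      have h12 := (A _).add_mem h10 ((A _).add_mem h11 (D.stA.g _ _ h11))
      rwa [cancel3] at h12

end SD

end Crest.Agent.R231.SplitAlgx125
end
end

-- ▼ part R231/A4Abs_125
section

/-!
# Row 231, block R (helper125): the clauses of the field `A4` of `IfA_978` (v2) from the data `SD`

For a `T`-complex `X`, over the mixed complex `X.toMix`.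
-/

set_option autoImplicit false

noncomputable section

namespace Crest.Agent.R231.SplitAlgx125

open Crest.Agent.R204 Crest.Agent.R231.TCx569 Crest.Agent.R231.IfAx978 Crest.Agent.R231.TActx569

variable {X : TC}

theorem Zt_eq' (A B : GT X) : (Zc (X := X.toMix) A B : GT X) = Zt A B := by
  funext j
  cases j <;> rfl


/-- `DD` with values in `X.P` -/
def dd (c : X.P) : X.P := DD (X := X.toMix) c

theorem dd_eq (c : X.P) : dd c = X.DT c := X.DD_toMix c

section clauses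

variable {A B S1 S2 Sp1 Sm1 Sp2 Sm2 : GT X} {r : ∀ j, X.C j →ₗ[F2] X.C j}
  {K : ∀ j, X.C j →ₗ[F2] X.C (j + 1)}

theorem SD.c1 (D : SD A B S1 S2 Sp1 Sm1 Sp2 Sm2 r K) (S : GT X) (j : ℕ) :
    Bd (X := X.toMix) A B j ≤ PP A B S j ∧ PP A B S j ≤ Zc (X := X.toMix) A B j := by
  rw [show (Zc (X := X.toMix) A B j : Submodule F2 (X.C j)) = Zt A B j from congrFun (Zt_eq' A B) j]
  exact ⟨Bt_le_PP A B S j, D.PP_le_Zt S j⟩

theorem SD.c2 (D : SD A B S1 S2 Sp1 Sm1 Sp2 Sm2 r K) (j : ℕ) :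
    (Zc (X := X.toMix) A B j : Submodule F2 (X.C j)) ≤ PP A B Sp2 j ⊔ PP A B Sm2 j := by
  rw [show (Zc (X := X.toMix) A B j : Submodule F2 (X.C j)) = Zt A B j from congrFun (Zt_eq' A B) j]
  exact D.Zt_le_PP j

theorem SD.c3 (D : SD A B S1 S2 Sp1 Sm1 Sp2 Sm2 r K) (j : ℕ) :
    PP A B Sp2 j ⊓ PP A B Sm2 j ≤ (Bd (X := X.toMix) A B j : Submodule F2 (X.C j)) :=
  D.PP_inf j

/-- an operator preserving `A`, `B` and mapping `S` to `S'` maps `PP A B S` to `PP A B S'` -/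
theorem PP_map {A B S S' : GT X} (tau : ∀ j, X.C j →ₗ[F2] X.C j)
    (d_tau : ∀ j x, X.d j (tau (j + 1) x) = tau j (X.d j x)) (tA : ∀ j x, x ∈ A j → tau j x ∈ A j)
    (tB : ∀ j x, x ∈ B j → tau j x ∈ B j) (tS : ∀ j x, x ∈ S j → tau j x ∈ S' j) {j : ℕ} {x : X.C j}
    (h : x ∈ PP A B S j) : tau j x ∈ PP A B S' j := by
  obtain ⟨w, h1, h2, h3⟩ := mem_PP.1 h
  obtain ⟨y, hy, hy'⟩ := mem_Bt.1 h3
  refine mem_PP.2 ⟨tau j w, tS j w h1, ?_, mem_Bt.2 ⟨tau _ y, tB _ y hy, ?_⟩⟩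
  · cases j with
    | zero => exact tB 0 w h2
    | succ j => exact ⟨tB _ w h2.1, by
        change X.d j (tau (j + 1) w) ∈ A j
        rw [d_tau]; exact tA _ _ h2.2⟩
  · rw [d_tau, ← map_add, ← map_add]
    exact tA _ _ hy'

/-- (5) in the form `Lead` -/
theorem SD.c5 (D : SD A B S1 S2 Sp1 Sm1 Sp2 Sm2 r K) {A' B' Sp' Sm' : GT X}
    (psi : ∀ j, X.C j →ₗ[F2] X.C j)
    (psi_d : ∀ j x, X.d j (psi (j + 1) x) = psi j (X.d j x))
    (psi_De : ∀ j x, X.h j (psi j x) + X.g (j + 1) (X.h j (psi j x)) = 0)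
    (psiA : ∀ j x, x ∈ A' j → psi j x ∈ A j) (psiB : ∀ j x, x ∈ B' j → psi j x ∈ B j)
    (psip : ∀ j x, x ∈ Sp' j → psi j x ∈ Sp2 j) (psim : ∀ j x, x ∈ Sm' j → psi j x ∈ Sm2 j)
    (hB' : ∀ j, PP A' B' Sp' j ≤ B' j) (hB'm : ∀ j, PP A' B' Sm' j ≤ B' j)
    {yp ym : X.P} (hyp : ∀ j, yp j ∈ PP A' B' Sp' j) (hym : ∀ j, ym j ∈ PP A' B' Sm' j) (j : ℕ)
    {xp xm : X.C j} (hxp : xp ∈ PP A B Sp2 j) (hxm : xm ∈ PP A B Sm2 j)
    (h : Lead (X := X.toMix) psi A B (yp + ym) j (xp + xm)) :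
    Lead (X := X.toMix) psi A B yp j xp := by
  obtain ⟨c, hc, h1, h2⟩ : ∃ c : X.P, (∀ i, c i ∈ B i) ∧
      (∀ i < j, psi i ((yp + ym) i) + dd c i ∈ A i) ∧
      psi j ((yp + ym) j) + dd c j + (xp + xm) ∈ Bt A B j := h
  have hAB := D.AB
  -- the Tate cycle
  let v : X.P := zrP psi (yp + ym) + X.DT c
  have hvj : ∀ i, v i = psi i ((yp + ym) i) + dd c i := by
    intro i
    rw [dd_eq]
    rfl
  have hDTc : X.DT c ∈ PS B := D.stB.DT (mem_PS.2 hc)
  have hvB : ∀ i, v i ∈ B i := by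
    intro i
    refine (B i).add_mem (psiB i _ ((B' i).add_mem (hB' i (hyp i)) (hB'm i (hym i)))) ?_
    exact mem_PS.1 hDTc i
  have hvA : ∀ i, i < j → v i ∈ A i := by
    intro i hi
    rw [hvj]
    exact h1 i hi
  have hv0 : ∀ i, v i + psi i (yp i + ym i) + X.DT c i ∈ A i := by
    intro i
    have e : v i + psi i (yp i + ym i) + X.DT c i = 0 := by
      change (psi i (yp i + ym i) + X.DT c i) + psi i (yp i + ym i) + X.DT c i = 0
      have e1 : (psi i (yp i + ym i) + X.DT c i) + psi i (yp i + ym i) + X.DT c i =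
        (psi i (yp i + ym i) + psi i (yp i + ym i)) + (X.DT c i + X.DT c i) := by abel
      rw [e1, TC.add_self, TC.add_self, add_zero]
    rw [e]; exact (A i).zero_mem
  obtain ⟨vp, vm, cp, cm, hvpB, -, hvpA, -, hcp, -, h3, -, h4, h5, h6⟩ :=
    D.lead psi psi_d psi_De psiA psiB psip psim hvB hvA hyp hym hc hv0
  -- comparison of the leading terms
  have h7 : v j + (xp + xm) ∈ Bt A B j := by
    have h8 : psi j ((yp + ym) j) + dd c j + (xp + xm) ∈ Bt A B j := h2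
    rw [← hvj] at h8
    exact h8
  have h8 : (vp j + xp) + (vm j + xm) ∈ Bt A B j := by
    have e : (vp j + xp) + (vm j + xm) = (v j + (xp + xm)) + (v j + vp j + vm j) := by
      have e1 : (v j + (xp + xm)) + (v j + vp j + vm j) =
        (vp j + xp) + (vm j + xm) + (v j + v j) := by abel
      rw [e1, TC.add_self, add_zero]
    rw [e]
    exact Submodule.add_mem _ h7 h6
  have h9 : vp j + xp ∈ PP A B Sp2 j := Submodule.add_mem _ h4 hxp
  have h10 : vm j + xm ∈ PP A B Sm2 j := Submodule.add_mem _ h5 hxm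
  have h11 : vp j + xp ∈ Bt A B j := by
    refine D.PP_inf j ⟨h9, ?_⟩
    have e : vp j + xp = (vp j + xp) + (vm j + xm) + (vm j + xm) := by
      rw [add_assoc, TC.add_self, add_zero]
    rw [e]
    exact Submodule.add_mem _ (Bt_le_PP A B Sm2 j h8) h10
  suffices hh : ∃ c : X.P, (∀ i, c i ∈ B i) ∧ (∀ i < j, psi i (yp i) + dd c i ∈ A i) ∧
      psi j (yp j) + dd c j + xp ∈ Bt A B j from hh
  refine ⟨cp, hcp, ?_, ?_⟩
  · intro i hi
    have h12 := (A i).add_mem (hvpA i hi) (h3 i)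
    have e : vp i + (vp i + psi i (yp i) + X.DT cp i) = psi i (yp i) + X.DT cp i := by
      rw [← add_assoc, ← add_assoc, TC.add_self, zero_add]
    rw [e] at h12
    rw [dd_eq]
    exact h12
  · have h12 : vp j + psi j (yp j) + X.DT cp j ∈ Bt A B j := A_le_Bt (h3 j)
    have h13 := Submodule.add_mem _ h11 h12
    have e : vp j + xp + (vp j + psi j (yp j) + X.DT cp j) = psi j (yp j) + X.DT cp j + xp := by
      have e1 : vp j + xp + (vp j + psi j (yp j) + X.DT cp j) =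
        psi j (yp j) + X.DT cp j + xp + (vp j + vp j) := by abel
      rw [e1, TC.add_self, add_zero]
    rw [e] at h13
    have h14 : psi j (yp j) + dd cp j + xp ∈ Bt A B j := by
      rw [dd_eq]
      exact h13
    exact h14

end clauses

end Crest.Agent.R231.SplitAlgx125
end
end

-- ▼ part R231/A4Of_125
section

/-!
# Row 231, block R (helper125): the field `A4` (`Instx895.A4P M`) from a family of splitting data

`SDFam M` : for every `T` neighbourhoods `V s e` (`e = true/false`) of the two halves of the critical set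
at the levels `s ≤ T`, exchanged by reversal, with `dbl (V (s/2) e) ⊆ V s e`, and splitting data `SD` for
all short windows `[a, b]` around `s`.   `A4P_of : SDFam M → A4P M`.
-/

set_option autoImplicit false

noncomputable section

open Function Topology
open Crest.Agent.R204

namespace Crest.Agent.R231.A4Ofx125

open SingAct265 EZ271 EZ847 Pairx877 GLugx576 TActx569 TCx569 IfAx978 Gr334 Instx895 SplitAlgx125

variable {M : Type} [MetricSpace M]

/-- `X_a ∪ (V ∩ X_b)` -/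
def YY (a b : ℝ) (V : Set (Lp M)) : Set (Lp M) := X M a ∪ (V ∩ X M b)

/-- the chains of `X_a ∪ (V ∩ X_b)` -/
abbrev GG (a b : ℝ) (V : Set (Lp M)) : GS (mix M) := gs (CS (YY a b V))

theorem GG_tau {a b : ℝ} {V V' : Set (Lp M)} (h : ∀ γ ∈ V, rev γ ∈ V') (j : ℕ) (x : (mix M).C j)
    (hx : x ∈ GG a b V j) : tauC M j x ∈ GG a b V' j := by
  refine tauN_mem_CS (Y := YY a b V) (Y' := YY a b V') ?_ _ hx
  rintro γ (hγ | ⟨h1, h2⟩)
  · exact Or.inl (rev_mem hγ)
  · exact Or.inr ⟨h _ h1, rev_mem h2⟩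

theorem X_dbl {a : ℝ} {γ : Lp M} (hγ : γ ∈ X M (a / 2)) : dbl γ ∈ X M a := by
  have h := itr_mem hγ 2
  have e : ((2 : ℕ) : ℝ) * (a / 2) = a := by push_cast; ring
  rwa [e] at h

theorem GG_psi {a b : ℝ} {V V' : Set (Lp M)} (h : ∀ γ ∈ V', dbl γ ∈ V) (j : ℕ) (x : (mix M).C j)
    (hx : x ∈ GG (a / 2) (b / 2) V' j) : psiC M j x ∈ GG a b V j := by
  refine psiN_mem_CS (Y := YY (a / 2) (b / 2) V') (Y' := YY a b V) ?_ _ hx
  rintro γ (hγ | ⟨h1, h2⟩)
  · exact Or.inl (X_dbl hγ)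
  · exact Or.inr ⟨h _ h1, X_dbl h2⟩

theorem FF_psi' {a : ℝ} (j : ℕ) (x : (mix M).C j) (hx : x ∈ FF M (a / 2) j) :
    psiC M j x ∈ FF M a j :=
  psiN_mem_CS (Y := X M (a / 2)) (Y' := X M a) (fun _ h => X_dbl h) _ hx

variable (M) in
/-- the output of R5 (a), (b) : splitting data at all critical levels `≤ T` -/
def SDFam : Prop := ∀ T : ℝ, ∃ V : ℝ → Bool → Set (Lp M), ∃ ε0 : ℝ, 0 < ε0 ∧
    (∀ s ∈ CritS M, s ≤ T → ∀ e, ∀ γ ∈ V s e, rev γ ∈ V s (!e)) ∧
    (∀ s ∈ CritS M, s ≤ T → ∀ e, ∀ γ ∈ V (s / 2) e, dbl γ ∈ V s e) ∧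
    ∀ s ∈ CritS M, s ≤ T → ∀ a b : ℝ, 0 ≤ a → a < s → s < b → b - a < ε0 →
      a ∉ CritS M → b ∉ CritS M → (∀ s' ∈ CritS M, a ≤ s' → s' ≤ b → s' = s) →
      ∃ (S1 S2 Sp1 Sm1 : GT (TL M)) (r : ∀ j, (TL M).C j →ₗ[F2] (TL M).C j)
        (K : ∀ j, (TL M).C j →ₗ[F2] (TL M).C (j + 1)),
        SD (X := TL M) (FF M a) (FF M b) S1 S2 Sp1 Sm1 (GG a b (V s true)) (GG a b (V s false)) r K

theorem PP_le_B {X : TC} {A B S : GT X} (hAB : A ≤ B) (hB : St B) (j : ℕ) : PP A B S j ≤ B j := by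
  refine sup_le (inf_le_right.trans fun _ hx => Zt_le hx) ?_
  intro x hx
  obtain ⟨y, hy, hy'⟩ := mem_Bt.1 hx
  have e : x = (x + X.d j y) + X.d j y := by rw [add_assoc, TC.add_self, add_zero]
  rw [e]
  exact (B j).add_mem (hAB j hy') (hB.d j y hy)

theorem stFF (t : ℝ) : St (X := TL M) (FF M t) where
  d _ _ hx := (stb_X M t).bd _ hx
  g _ _ hx := (stb_X M t).g _ hx
  h _ _ hx := (stb_X M t).h _ hx

theorem psi_De' (j : ℕ) (x : (TL M).C j) :
    (TL M).h j (psiC M j x) + (TL M).g (j + 1) ((TL M).h j (psiC M j x)) = 0 := De_psiC j x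

/-- **A4 from the family of splitting data** -/
theorem A4P_of (H : SDFam M) : A4P M := by
  intro T
  obtain ⟨V, ε0, hε0, hrev, hdbl, hSD⟩ := H T
  refine ⟨fun e s a b => PP (X := TL M) (FF M a) (FF M b) (GG a b (V s e)), ε0, hε0, ?_⟩
  intro s hs hsT a b ha has hsb hab haC hbC huniq
  obtain ⟨S1, S2, Sp1, Sm1, r, K, D⟩ := hSD s hs hsT a b ha has hsb hab haC hbC huniq
  refine ⟨fun e j => D.c1 _ j, fun j => D.c2 j, fun j => D.c3 j, ?_, ?_⟩
  · intro e j x hx
    exact PP_map (X := TL M) (tauC M) (fun j x => d_tauC j x) (fun j x h => FF_tau a j x h)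
      (fun j x h => FF_tau b j x h) (fun j x h => GG_tau (hrev s hs hsT e) j x h) hx
  · intro yp ym hyp hym j xp hxp xm hxm hL
    have hle : FL M (a / 2) ≤ FL M (b / 2) := fun j => FL_mono M (by linarith) j
    exact D.c5 (psiC M) (fun j x => d_psiC j x) psi_De' (fun j x h => FF_psi' j x h)
      (fun j x h => FF_psi' j x h) (fun j x h => GG_psi (hdbl s hs hsT true) j x h)
      (fun j x h => GG_psi (hdbl s hs hsT false) j x h) (fun j => PP_le_B hle (stFF _) j)
      (fun j => PP_le_B hle (stFF _) j) hyp hym j hxp hxm hL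

end Crest.Agent.R231.A4Ofx125
end
end

-- ▼ part R231/SDex_737
section

/-!
# Row 231, block R, leaf R5 (helper737): existence of the splitting data at a critical level

* `YY a b V = X_a ∪ (V ∩ X_b)`, `GG a b V` = its chains in `TL M`
* `Equi P` : the Birkhoff step `P : Push M T` (GCross_449) commutes with the half turn
* `sd_of` : `SD` data (SplitRK_125) at levels `a ≤ b ≤ T` from neighbourhoods `V ε ⊆ W ε`
* `tau_GG`, `psi_GG` : compatibility with reversal and doubling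
-/

set_option autoImplicit false
set_option linter.unusedSectionVars false

noncomputable section

open Function Topology Set
open Crest.Agent.R204

namespace Crest.Agent.R231.SDexx737

open SingAct265 EZ271 EZ847 Pairx877 GLugx576 TActx569 TCx569 IfAx978 Gr334 Instx895 SplitAlgx125
open GCrossx449 (Push)
open A4Ofx125 (YY)
open GSmithx651 (hf)

/-! ## chains: supports of `push` and `prismP` -/

section chains

variable {E E' : Type} [TopologicalSpace E] [TopologicalSpace E'] {Y : Set E}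

theorem push_mem_all {Y' : Set E'} {f : E → E'} {hf : ContinuousOn f Y} (h : MapsTo f Y Y')
    (c : CE E) : push Y f hf c ∈ CS Y' := by
  have hc : c ∈ CS (univ : Set E) := by rw [CS_univ]; trivial
  refine map_mem_of_CS (X := univ) (fun n σ _ => ?_) c hc
  by_cases hx : ∀ t, ev σ t ∈ Y
  · exact push_mem h _ (sx_mem_CS hx)
  · rw [push_sx_neg hx]; exact zero_mem _

theorem prismP_mem_all {Y' : Set E'} {F : E → ℝ → E'}
    {hF : ContinuousOn (fun p : E × ℝ => F p.1 p.2) (Y ×ˢ Icc 0 1)}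
    (h : ∀ y ∈ Y, ∀ t ∈ Icc (0 : ℝ) 1, F y t ∈ Y') (c : CE E) : prismP Y F hF c ∈ CS Y' := by
  have hc : c ∈ CS (univ : Set E) := by rw [CS_univ]; trivial
  refine map_mem_of_CS (X := univ) (fun n σ _ => ?_) c hc
  by_cases hx : ∀ t, ev σ t ∈ Y
  · exact prismP_mem h _ (sx_mem_CS hx)
  · rw [prismP_sx_neg hx]; exact zero_mem _

/-- a continuous map on chains of a subset -/
theorem map_eq_push (φ : C(E, E')) {hf : ContinuousOn φ Y} :
    ∀ c ∈ CS Y, N.map F2 (SS.SingMap φ) c = push Y φ hf c := by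
  refine eq_on_CS fun n σ h => ?_
  rw [N.map_sx, push_sx h]
  rfl

end chains

variable {M : Type} [MetricSpace M]

/-! ## the sets -/

/-- the chains of `X_a ∪ (V ∩ X_b)` -/
abbrev GG (a b : ℝ) (V : Set (Lp M)) : GT (TL M) := GSL M (CS (YY a b V))

theorem YY_mono {a b : ℝ} {V W : Set (Lp M)} (h : V ⊆ W) : YY a b V ⊆ YY a b W :=
  union_subset_union_right _ (inter_subset_inter_left _ h)


theorem YY_subset_X {a b : ℝ} (hab : a ≤ b) (V : Set (Lp M)) : YY a b V ⊆ X M b :=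
  union_subset (X_mono hab) inter_subset_right

theorem YY_union (a b : ℝ) (V W : Set (Lp M)) :
    YY a b (V ∪ W) = X M a ∪ ((V ∩ X M b) ∪ (W ∩ X M b)) := by
  unfold YY
  rw [union_inter_distrib_right]

theorem rotInv_YY {a b : ℝ} {V : Set (Lp M)} (hV : RotInv V) : RotInv (YY a b V) := by
  rintro v γ (h | h)
  · exact Or.inl (rot_mem h v)
  · exact Or.inr ⟨hV v γ h.1, rot_mem h.2 v⟩

theorem rotInv_union {V W : Set (Lp M)} (hV : RotInv V) (hW : RotInv W) : RotInv (V ∪ W) := by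
  rintro v γ (h | h)
  · exact Or.inl (hV v γ h)
  · exact Or.inr (hW v γ h)

/-! ## graded submodules -/

/-- underlying chain (`vl` with the type `(TL M).C j`) -/
def vT (j : ℕ) : (TL M).C j →ₗ[F2] CE (Lp M) := (LA M).sval (stb_WL M) j

theorem vT_inj (j : ℕ) : Injective (vT (M := M) j) := (LA M).sval_inj (stb_WL M) j
theorem vT_mem_gr {j : ℕ} (x : (TL M).C j) : vT j x ∈ N.gr F2 (SS.Sing (Lp M)) j :=
  (LA M).sval_mem (stb_WL M) x

/-- a chain as an element of `TL M` -/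
def mT {j : ℕ} (z : CE (Lp M)) (h1 : z ∈ N.gr F2 (SS.Sing (Lp M)) j) (h2 : z ∈ WL M) :
    (TL M).C j := (LA M).smk (stb_WL M) z h1 h2

theorem vT_mT {j : ℕ} (z : CE (Lp M)) (h1 : z ∈ N.gr F2 (SS.Sing (Lp M)) j) (h2 : z ∈ WL M) :
    vT j (mT z h1 h2) = z := rfl

theorem vT_d (j : ℕ) (x : (TL M).C (j + 1)) : vT j ((TL M).d j x) = bdE (Lp M) (vT (j + 1) x) := rfl

theorem st_of {Y : Set (Lp M)} (hY : RotInv Y) : St (X := TL M) (GSL M (CS Y)) where
  d _ _ hx := bd_mem_CS _ hx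
  g _ _ hx := gN_mem_CS hY _ hx
  h _ _ hx := hN_mem_CS hY _ hx

theorem gs_le {Y Z : Set (Lp M)} (h : Y ⊆ Z) : (GSL M (CS Y) : GT (TL M)) ≤ GSL M (CS Z) :=
  fun _ _ hx => CS_mono h hx

/-- homogeneous sums -/
theorem mem_sup_iff {Y Z : Set (Lp M)} {t : ℝ} (hY : Y ⊆ X M t) (hZ : Z ⊆ X M t) {j : ℕ}
    {x : (TL M).C j} :
    x ∈ ((GSL M (CS Y) : GT (TL M)) ⊔ GSL M (CS Z)) j ↔ vT j x ∈ CS Y ⊔ CS Z := by
  constructor
  · intro h
    obtain ⟨a, ha, b, hb, rfl⟩ := Submodule.mem_sup.1 h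
    rw [map_add]
    exact Submodule.add_mem_sup ha hb
  · intro h
    obtain ⟨a, ha, b, hb, h⟩ := Submodule.mem_sup.1 h
    have ha' := SplitR2x737.prN_mem_CS j ha
    have hb' := SplitR2x737.prN_mem_CS j hb
    refine Submodule.mem_sup.2 ⟨mT _ (prN_mem j a) (CS_le_CL' hY ha'), ha',
      mT _ (prN_mem j b) (CS_le_CL' hZ hb'), hb', vT_inj j ?_⟩
    rw [map_add, vT_mT, vT_mT, ← map_add, h]
    exact prN_of_mem (vT_mem_gr x)

/-- small chains -/
theorem acy_of {A U V : Set (Lp M)} {t : ℝ} (hA : A ⊆ X M t) (hU : U ⊆ X M t) (hV : V ⊆ X M t)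
    (h : Disjoint (closure U) (closure V)) :
    Acy (X := TL M) ((GSL M (CS (A ∪ U)) : GT (TL M)) ⊔ GSL M (CS (A ∪ V)))
      (GSL M (CS (A ∪ (U ∪ V)))) := by
  intro j x hx
  have hx1 : vT j x ∈ CS (A ∪ (U ∪ V)) := Zt_le hx
  have hx2 : bdE (Lp M) (vT j x) ∈ CS (A ∪ U) ⊔ CS (A ∪ V) := by
    cases j with
    | zero =>
      have h0 : bdE (Lp M) (vT 0 x) = 0 := bd_gr_zero (vT_mem_gr x)
      rw [h0]; exact zero_mem _
    | succ j =>
      exact (mem_sup_iff (union_subset hA hU) (union_subset hA hV)).1 hx.2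
  obtain ⟨w, hw1, hw2, hw3⟩ := SplitR2x737.split_small h (vT_mem_gr x) hx1 hx2
  have hX : A ∪ (U ∪ V) ⊆ X M t := union_subset hA (union_subset hU hV)
  refine mem_Bt.2 ⟨mT w hw2 (CS_le_CL' hX hw1), hw1, ?_⟩
  rw [mem_sup_iff (union_subset hA hU) (union_subset hA hV), map_add, vT_d, vT_mT]
  exact hw3

theorem strict_of {A U V : Set (Lp M)} (h : Disjoint (closure U) (closure V)) :
    Strict (X := TL M) (GSL M (CS A)) (GSL M (CS (A ∪ U))) (GSL M (CS (A ∪ V))) where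
  p := gs_le subset_union_left
  m := gs_le subset_union_left
  inf := fun j x hx => by
    have h1 := SplitR2x737.split_inf (A := A) h
    have h2 : vT j x ∈ CS (A ∪ U) ⊓ CS (A ∪ V) := hx
    rw [h1] at h2
    exact h2

/-! ## the deformation on chains -/

/-- `P` commutes with the half turn -/
def Equi {T : ℝ} (P : Push M T) : Prop :=
  ∀ g ∈ X M T, ∀ r ∈ Icc (0 : ℝ) 1, P.H r (rot hf g) = rot hf (P.H r g)

section ops

variable {T : ℝ} (P : Push M T) {b : ℝ}

theorem contF (hb : b ≤ T) :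
    ContinuousOn (fun p : Lp M × ℝ => P.H p.2 p.1) (X M b ×ˢ Icc (0 : ℝ) 1) := by
  have h1 : ContinuousOn (fun p : Lp M × ℝ => ((p.2, p.1) : ℝ × Lp M)) (X M b ×ˢ Icc (0 : ℝ) 1) :=
    (continuous_snd.prodMk continuous_fst).continuousOn
  exact P.cont.comp h1 fun p hp => ⟨hp.2, X_mono hb hp.1⟩

theorem contH1 (hb : b ≤ T) : ContinuousOn (fun y => P.H 1 y) (X M b) :=
  contOn_end (F := fun y r => P.H r y) (contF P hb) (t := 1) ⟨zero_le_one, le_rfl⟩

/-- chain map of the end of the deformation -/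
def rN (hb : b ≤ T) : CE (Lp M) →ₗ[F2] CE (Lp M) :=
  push (X M b) (fun y => P.H 1 y) (contH1 P hb)

/-- prism operator of the deformation -/
def KN (hb : b ≤ T) : CE (Lp M) →ₗ[F2] CE (Lp M) :=
  prismP (X M b) (fun y r => P.H r y) (contF P hb)

theorem rN_mem_all (hb : b ≤ T) (c : CE (Lp M)) : rN P hb c ∈ CS (X M b) :=
  push_mem_all (fun y hy => P.lev b hb y hy 1 ⟨zero_le_one, le_rfl⟩) c

theorem KN_mem_all (hb : b ≤ T) (c : CE (Lp M)) : KN P hb c ∈ CS (X M b) :=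
  prismP_mem_all (fun y hy r hr => P.lev b hb y hy r hr) c

theorem rN_mem (hb : b ≤ T) {A Y' : Set (Lp M)} (h : ∀ y ∈ A, P.H 1 y ∈ Y') :
    ∀ c ∈ CS A, rN P hb c ∈ CS Y' := push_mem h

theorem KN_mem (hb : b ≤ T) {A Y' : Set (Lp M)} (h : ∀ y ∈ A, ∀ r ∈ Icc (0 : ℝ) 1, P.H r y ∈ Y') :
    ∀ c ∈ CS A, KN P hb c ∈ CS Y' := prismP_mem h

theorem bd_rN (hb : b ≤ T) : ∀ c ∈ CS (X M b), bdE (Lp M) (rN P hb c) = rN P hb (bdE (Lp M) c) :=
  bd_push

theorem bd_KN (hb : b ≤ T) : ∀ c ∈ CS (X M b),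
    bdE (Lp M) (KN P hb c) = c + rN P hb c + KN P hb (bdE (Lp M) c) := by
  intro c hc
  rw [KN, bd_prismP (f0 := fun y => y) (f1 := fun y => P.H 1 y) (h0 := continuousOn_id)
    (h1 := contH1 P hb) (fun y hy => P.H0 y (X_mono hb hy))
    (fun _ _ => rfl) c hc, push_id c hc]
  rfl

theorem contRot (Y : Set (Lp M)) : ContinuousOn (rot hf : Lp M → Lp M) Y :=
  (rotC (rho M) hf).continuous.continuousOn

theorem gN_eq_push {Y : Set (Lp M)} : ∀ c ∈ CS Y, (LA M).gN c = push Y (rot hf) (contRot Y) c := by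
  intro c hc
  have h1 : (LA M).gN c = N.map F2 (SS.SingMap (rotC (rho M) hf)) c := by
    rw [TAct.gN, ← TAct.rot_sing]
    rfl
  rw [h1]
  exact map_eq_push (rotC (rho M) hf) c hc

theorem g_rN (hb : b ≤ T) (hP : Equi P) : ∀ c ∈ CS (X M b),
    (LA M).gN (rN P hb c) = rN P hb ((LA M).gN c) := by
  intro c hc
  have m1 : MapsTo (fun y => P.H 1 y) (X M b) (X M b) :=
    fun y hy => P.lev b hb y hy 1 ⟨zero_le_one, le_rfl⟩
  have m2 : MapsTo (rot hf : Lp M → Lp M) (X M b) (X M b) := fun y hy => rot_mem hy hf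
  have c2 : ContinuousOn (fun y : Lp M => rot hf (P.H 1 y)) (X M b) :=
    (contRot (X M b)).comp (contH1 P hb) m1
  rw [rN, gN_eq_push _ (push_mem m1 c hc), gN_eq_push c hc]
  rw [push_push (hl := c2) m1 (fun _ _ => rfl) c hc,
    push_push (hl := c2) m2 (fun y hy => hP y (X_mono hb hy) 1 ⟨zero_le_one, le_rfl⟩) c hc]

theorem g_KN (hb : b ≤ T) (hP : Equi P) : ∀ c ∈ CS (X M b),
    (LA M).gN (KN P hb c) = KN P hb ((LA M).gN c) := by
  intro c hc
  have m1 : ∀ y ∈ X M b, ∀ t ∈ Icc (0 : ℝ) 1, P.H t y ∈ X M b := fun y hy r hr => P.lev b hb y hy r hr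
  have m2 : MapsTo (rot hf : Lp M → Lp M) (X M b) (X M b) := fun y hy => rot_mem hy hf
  have c2 : ContinuousOn (fun p : Lp M × ℝ => rot hf (P.H p.2 p.1)) (X M b ×ˢ Icc (0 : ℝ) 1) :=
    (contRot (X M b)).comp (contF P hb) fun p hp => m1 p.1 hp.1 p.2 hp.2
  rw [KN, gN_eq_push _ (prismP_mem m1 c hc), gN_eq_push c hc]
  rw [push_prismP (G := fun y r => rot hf (P.H r y)) (hG := c2) m1 (fun _ _ _ _ => rfl) c hc,
    prismP_push (G := fun y r => rot hf (P.H r y)) (hG := c2) m2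
      (fun y hy r hr => hP y (X_mono hb hy) r hr) c hc]

/-- chain map on `TL M` -/
def rT (hb : b ≤ T) (j : ℕ) : (TL M).C j →ₗ[F2] (TL M).C j :=
  (rN P hb).restrict (p := N.gr F2 (SS.Sing (Lp M)) j ⊓ WL M)
    (q := N.gr F2 (SS.Sing (Lp M)) j ⊓ WL M)
    fun _ hx => ⟨push_gr hx.1, CS_le_CL b (rN_mem_all P hb _)⟩

/-- homotopy on `TL M` -/
def KT (hb : b ≤ T) (j : ℕ) : (TL M).C j →ₗ[F2] (TL M).C (j + 1) :=
  (KN P hb).restrict (p := N.gr F2 (SS.Sing (Lp M)) j ⊓ WL M)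
    (q := N.gr F2 (SS.Sing (Lp M)) (j + 1) ⊓ WL M)
    fun _ hx => ⟨prismP_gr hx.1, CS_le_CL b (KN_mem_all P hb _)⟩


theorem rk_of (hb : b ≤ T) (hP : Equi P) {a : ℝ} (hab : a ≤ b) {V W : Set (Lp M)}
    (hH : ∀ g ∈ V, g ∈ X M b → ∀ r ∈ Icc (0 : ℝ) 1, P.H r g ∈ W)
    (h1 : ∀ g ∈ X M b, P.H 1 g ∈ X M a ∪ V) :
    RK (X := TL M) (FL M a) (FL M b) (GG a b V) (GG a b W) (rT P hb) (KT P hb) where
  r_d j x hx := vT_inj j (bd_rN P hb _ hx)
  r_g j x hx := vT_inj j (g_rN P hb hP _ hx)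
  K_g j x hx := vT_inj (j + 1) (g_KN P hb hP _ hx)
  hK0 x hx := vT_inj 0 (by
    have h2 := bd_KN P hb _ hx
    have h0 : bdE (Lp M) (vT 0 x) = 0 := bd_gr_zero (vT_mem_gr x)
    change bdE (Lp M) (KN P hb (vT 0 x)) = vT 0 x + rN P hb (vT 0 x)
    change bdE (Lp M) (KN P hb (vT 0 x)) = vT 0 x + rN P hb (vT 0 x) +
      KN P hb (bdE (Lp M) (vT 0 x)) at h2
    rw [h2, h0, map_zero, add_zero])
  hK j x hx := vT_inj (j + 1) (by
    have h2 := bd_KN P hb _ hx
    change bdE (Lp M) (KN P hb (vT (j + 1) x)) + KN P hb (bdE (Lp M) (vT (j + 1) x)) =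
      vT (j + 1) x + rN P hb (vT (j + 1) x)
    change bdE (Lp M) (KN P hb (vT (j + 1) x)) = vT (j + 1) x + rN P hb (vT (j + 1) x) +
      KN P hb (bdE (Lp M) (vT (j + 1) x)) at h2
    rw [h2, add_assoc, TC.add_self, add_zero])
  r_A j x hx := rN_mem P hb (fun y hy => P.lev a (hab.trans hb) y hy 1 ⟨zero_le_one, le_rfl⟩) _ hx
  K_A j x hx := KN_mem P hb (fun y hy r hr => P.lev a (hab.trans hb) y hy r hr) _ hx
  r_B j x hx := rN_mem P hb (Y' := YY a b V) (fun y hy => by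
    rcases h1 y hy with h | h
    · exact Or.inl h
    · exact Or.inr ⟨h, P.lev b hb y hy 1 ⟨zero_le_one, le_rfl⟩⟩) _ hx
  K_B j x _ := KN_mem_all P hb _
  K_S j x hx := KN_mem P hb (Y' := YY a b W) (fun y hy r hr => by
    rcases hy with h | h
    · exact Or.inl (P.lev a (hab.trans hb) y h r hr)
    · exact Or.inr ⟨hH y h.1 h.2 r hr, P.lev b hb y h.2 r hr⟩) _ hx

/-- **the splitting data** -/
theorem sd_of (hb : b ≤ T) (hP : Equi P) {a : ℝ} (hab : a ≤ b) {V W : Bool → Set (Lp M)}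
    (hVW : ∀ ε, V ε ⊆ W ε) (hVr : ∀ ε, RotInv (V ε)) (hWr : ∀ ε, RotInv (W ε))
    (hd : Disjoint (closure (W true)) (closure (W false)))
    (hH : ∀ ε, ∀ g ∈ V ε, g ∈ X M b → ∀ r ∈ Icc (0 : ℝ) 1, P.H r g ∈ W ε)
    (h1 : ∀ g ∈ X M b, P.H 1 g ∈ X M a ∪ (V true ∪ V false)) :
    SD (X := TL M) (FL M a) (FL M b) (GG a b (W true ∪ W false)) (GG a b (V true ∪ V false))
      (GG a b (W true)) (GG a b (W false)) (GG a b (V true)) (GG a b (V false))
      (rT P hb) (KT P hb) where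
  stA := st_of (rotInv_X a)
  stB := st_of (rotInv_X b)
  stS1 := st_of (rotInv_YY (rotInv_union (hWr _) (hWr _)))
  stS2 := st_of (rotInv_YY (rotInv_union (hVr _) (hVr _)))
  stSp1 := st_of (rotInv_YY (hWr _))
  stSm1 := st_of (rotInv_YY (hWr _))
  stSp2 := st_of (rotInv_YY (hVr _))
  stSm2 := st_of (rotInv_YY (hVr _))
  S1B := gs_le (YY_subset_X hab _)
  S21 := gs_le (YY_mono (union_subset_union (hVW _) (hVW _)))
  p1 := gs_le (YY_mono subset_union_left)
  m1 := gs_le (YY_mono subset_union_right)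
  p2 := gs_le (YY_mono subset_union_left)
  m2 := gs_le (YY_mono subset_union_right)
  p21 := gs_le (YY_mono (hVW _))
  m21 := gs_le (YY_mono (hVW _))
  strict1 := strict_of (hd.mono (closure_mono inter_subset_left) (closure_mono inter_subset_left))
  strict2 := strict_of (hd.mono (closure_mono (inter_subset_left.trans (hVW _)))
    (closure_mono (inter_subset_left.trans (hVW _))))
  acy1 := by
    have h := acy_of (A := X M a) (U := W true ∩ X M b) (V := W false ∩ X M b) (X_mono hab)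
      inter_subset_right inter_subset_right
      (hd.mono (closure_mono inter_subset_left) (closure_mono inter_subset_left))
    rw [← YY_union] at h
    exact h
  acy2 := by
    have h := acy_of (A := X M a) (U := V true ∩ X M b) (V := V false ∩ X M b) (X_mono hab)
      inter_subset_right inter_subset_right
      (hd.mono (closure_mono (inter_subset_left.trans (hVW _)))
        (closure_mono (inter_subset_left.trans (hVW _))))
    rw [← YY_union] at h
    exact h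
  rk := rk_of P hb hP hab (fun g hg hgb r hr => by
    rcases hg with h | h
    · exact Or.inl (hH _ g h hgb r hr)
    · exact Or.inr (hH _ g h hgb r hr)) h1

end ops

end Crest.Agent.R231.SDexx737
end
end

-- ▼ part R231/SDFam_737

/-!
# Row 231, block R (helper737): `SDFam M` and the field `A4`

`M` a compact metric space with short geodesics `L : LUG M` (`LocMin`), non branching, whose closed
geodesics are the iterates of a finite prime system: `sdFam : SDFam M`, `A4P_of_prime : A4P M`.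
-/

set_option autoImplicit false
set_option linter.unusedSectionVars false

noncomputable section

open Function Topology Set

namespace Crest.Agent.R231.SDexx737

open GLugx576 PrimeGeox893 CritPMx893 Instx895
open GCrossx449 (Push)
open GSmithx651 (hf)
open A4Ofx125 (YY SDFam)

variable {M : Type} [MetricSpace M]

/-! ## iteration -/

theorem itr_one (γ : Lp M) : itr 1 γ = γ := by ext x; simp

theorem itr_dbl (m : ℕ) (γ : Lp M) : itr (2 ^ m) (dbl γ) = itr (2 ^ (m + 1)) γ := by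
  ext x
  simp only [itr_apply]
  rw [smul_smul]
  congr 2
  rw [pow_succ]
  ring

theorem rev_itr (m : ℕ) (γ : Lp M) : itr m (rev γ) = rev (itr m γ) := by
  ext x
  simp only [itr_apply, rev_apply, smul_neg]

/-- a rotation of `γ` rotates the iterates -/
theorem itr_rot {m : ℕ} (hm : 0 < m) (a : UnitAddCircle) (γ : Lp M) :
    ∃ b : UnitAddCircle, itr m (rot a γ) = rot b (itr m γ) := by
  obtain ⟨u, -, rfl⟩ := exists_Icc a
  refine ⟨((u / m : ℝ) : UnitAddCircle), ?_⟩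
  ext x
  simp only [itr_apply, rot_apply, smul_add]
  have h : (m • ((u / m : ℝ) : UnitAddCircle)) = (u : UnitAddCircle) := by
    rw [← AddCircle.coe_nsmul, nsmul_eq_mul]
    congr 1
    have : (m : ℝ) ≠ 0 := by exact_mod_cast hm.ne'
    field_simp
  rw [h]

theorem rotInv_preimage {m : ℕ} (hm : 0 < m) {V : Set (Lp M)} (hV : RotInv V) :
    RotInv ((itr m : Lp M → Lp M) ⁻¹' V) := by
  intro a γ hγ
  obtain ⟨b, hb⟩ := itr_rot hm a γ
  change itr m (rot a γ) ∈ V
  rw [hb]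
  exact hV b _ hγ

/-! ## finite sets -/

theorem exists_pos_le {F : Set ℝ} (hF : F.Finite) (f : ℝ → ℝ) (hf : ∀ s ∈ F, 0 < f s) :
    ∃ ε : ℝ, 0 < ε ∧ ε ≤ 1 ∧ ∀ s ∈ F, ε ≤ f s := by
  induction F, hF using Set.Finite.induction_on with
  | empty => exact ⟨1, one_pos, le_rfl, fun s hs => hs.elim⟩
  | insert ha hS ih =>
    rename_i a F
    obtain ⟨ε, h1, h2, h3⟩ := ih fun s hs => hf s (mem_insert_of_mem _ hs)
    refine ⟨min ε (f a), lt_min h1 (hf a (mem_insert _ _)), (min_le_left _ _).trans h2, ?_⟩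
    rintro s (rfl | hs)
    · exact min_le_right _ _
    · exact (min_le_left _ _).trans (h3 s hs)

/-! ## the family -/

section family

variable [CompactSpace M] (L : LUG M) (hL : L.LocMin) (nb : NonBr M L.r0) {ι : Type} [Finite ι]
  (S : PrimeSys M L.r0 ι)

/-- the neighbourhoods `V s e`, from `V₁ s e` -/
def VV (T : ℝ) (V₁ : ℝ → Bool → Set (Lp M)) (s : ℝ) (e : Bool) : Set (Lp M) :=
  {γ | ∀ m : ℕ, 2 ^ m * s ≤ T → itr (2 ^ m) γ ∈ V₁ (2 ^ m * s) e}

variable {T : ℝ} {V₁ : ℝ → Bool → Set (Lp M)}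

theorem VV_subset {s : ℝ} (hs : s ≤ T) (e : Bool) : VV T V₁ s e ⊆ V₁ s e := by
  intro γ h
  have := h 0 (by rwa [pow_zero, one_mul])
  rwa [pow_zero, pow_zero, one_mul, itr_one] at this

theorem dbl_VV (s : ℝ) (e : Bool) {γ : Lp M} (h : γ ∈ VV T V₁ (s / 2) e) : dbl γ ∈ VV T V₁ s e := by
  intro m hm
  have e1 : (2 : ℝ) ^ (m + 1) * (s / 2) = 2 ^ m * s := by rw [pow_succ]; ring
  have := h (m + 1) (by rwa [e1])
  rwa [e1, ← itr_dbl] at this

theorem rotInv_VV (hV : ∀ s e, RotInv (V₁ s e)) (s : ℝ) (e : Bool) : RotInv (VV T V₁ s e) :=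
  fun a γ h m hm => rotInv_preimage (pow_pos (by norm_num) m) (hV _ e) a γ (h m hm)

theorem rev_VV (hV : ∀ s e, ∀ γ ∈ V₁ s e, rev γ ∈ V₁ s (!e)) (s : ℝ) (e : Bool) {γ : Lp M}
    (h : γ ∈ VV T V₁ s e) : rev γ ∈ VV T V₁ s (!e) := by
  intro m hm
  rw [rev_itr]
  exact hV _ e _ (h m hm)

theorem isOpen_VV (hV : ∀ s e, IsOpen (V₁ s e)) {s : ℝ} (hs : 0 < s) (e : Bool) :
    IsOpen (VV T V₁ s e) := by
  have hfin : {m : ℕ | 2 ^ m * s ≤ T}.Finite := by
    obtain ⟨n, hn⟩ := pow_unbounded_of_one_lt (T / s) (by norm_num : (1 : ℝ) < 2)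
    refine (Set.finite_lt_nat n).subset fun m hm => ?_
    by_contra hnm
    have h1 : (2 : ℝ) ^ n ≤ 2 ^ m := pow_le_pow_right₀ (by norm_num) (not_lt.1 hnm)
    have h2 : T < 2 ^ n * s := by rwa [div_lt_iff₀ hs] at hn
    have h3 : (2 : ℝ) ^ m * s ≤ T := hm
    nlinarith
  have e1 : VV T V₁ s e = ⋂ m ∈ {m : ℕ | 2 ^ m * s ≤ T},
      (itr (2 ^ m) : Lp M → Lp M) ⁻¹' V₁ (2 ^ m * s) e := by
    ext γ
    simp only [VV, mem_iInter, mem_preimage, mem_ofPred_eq]
  rw [e1]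
  exact hfin.isOpen_biInter fun m _ => (hV _ e).preimage (continuous_itr _)

variable {S} in
theorem critP_subset_VV (hV : ∀ s e, critP S e s ⊆ V₁ s e) (s : ℝ) (e : Bool) :
    critP S e s ⊆ VV T V₁ s e := by
  intro γ hγ m _
  refine hV _ e ?_
  have h := (itr_mem_critP_iff (S := S) (m := 2 ^ m) (pow_pos (by norm_num) m) (e := e) (s := s)
    (γ := γ)).2 hγ
  have e1 : ((2 ^ m : ℕ) : ℝ) = 2 ^ m := by push_cast; ring
  rw [e1] at h
  exact h

include hL nb S in
/-- **the family of splitting data** -/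
theorem sdFam : SDFam M := by
  intro T
  obtain ⟨P, hP⟩ := exists_push L hL (T + 1)
  have hP' : Equi P := hP
  have hr := L.r0_pos
  -- neighbourhoods at one level
  have key : ∀ s : ℝ, ∃ W V₁ : Bool → Set (Lp M), (∀ e, IsOpen (V₁ e)) ∧
      (∀ e, critP S e s ⊆ V₁ e) ∧ (∀ e, RotInv (V₁ e)) ∧ (∀ e, ∀ γ ∈ V₁ e, rev γ ∈ V₁ (!e)) ∧
      (s ≤ T → (∀ e, V₁ e ⊆ W e) ∧ (∀ e, RotInv (W e)) ∧
        Disjoint (closure (W true)) (closure (W false)) ∧
        (∀ e, ∀ g ∈ V₁ e, g ∈ X M (T + 1) → ∀ r ∈ Icc (0 : ℝ) 1, P.H r g ∈ W e)) := by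
    intro s
    by_cases hs : s ≤ T
    · obtain ⟨W, w1, w2, -, w4, w5, w6⟩ := exists_nbhd (S := S) hr s isOpen_univ
        fun e => subset_univ _
      obtain ⟨V₁, v1, v2, v3, v4, v5, v6⟩ := P.step (K := fun e => critP S e s) (U := W)
        (fun e => (isCompact_critP hr e s).isClosed) (fun e g hg a => rot_mem_critP hg a)
        (fun e g hg => rev_mem_critP hg)
        (fun e g hg => P.fix s (by linarith) g (isGeo_of_mem_critP hr hg)) w1 w2
      exact ⟨W, V₁, v1, v2, fun e a γ h => v4 e γ h a, v5, fun _ =>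
        ⟨fun e => subset_closure.trans (v3 e), fun e a γ h => w5 e γ h a, w4, v6⟩⟩
    · exact ⟨fun _ => univ, fun _ => univ, fun _ => isOpen_univ, fun _ => subset_univ _,
        fun _ _ _ _ => trivial, fun _ _ _ => trivial, fun h => absurd h hs⟩
  choose W V₁ k1 k2 k3 k4 k5 using key
  -- the radii
  have hgeo : ∀ s (g : Lp M), IsGeo s g → g ∈ VV T V₁ s true ∪ VV T V₁ s false := by
    intro s g hg
    have h1 : g ∈ critP S true s ∪ critP S false s := by
      rw [← setOf_isGeo L hL nb (S := S) s]; exact hg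
    rcases h1 with h | h
    · exact Or.inl (critP_subset_VV L k2 s true h)
    · exact Or.inr (critP_subset_VV L k2 s false h)
  have hrad : ∀ s : ℝ, ∃ e0 : ℝ, s ∈ CritS M ∩ Iic T → 0 < e0 ∧ ∀ e, 0 < e → e ≤ e0 →
      ∀ g ∈ X M (s + e), P.H 1 g ∈ X M (s - e) ∪ (VV T V₁ s true ∪ VV T V₁ s false) := by
    intro s
    by_cases hs : s ∈ CritS M ∩ Iic T
    · obtain ⟨γ, hγ⟩ := hs.1
      have hsT : s ≤ T := hs.2
      obtain ⟨e0, h0, h1⟩ := P.near hγ.1 (by linarith : s < T + 1)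
        ((isOpen_VV k1 hγ.1 true).union (isOpen_VV k1 hγ.1 false)) (hgeo s)
      exact ⟨e0, fun _ => ⟨h0, h1⟩⟩
    · exact ⟨0, fun h => absurd h hs⟩
  choose f hf using hrad
  obtain ⟨ε0, h0, h01, h0f⟩ := exists_pos_le (isCrit_finite L hL nb S T) f fun s hs => (hf s hs).1
  refine ⟨VV T V₁, ε0, h0, fun s _ _ e γ h => rev_VV k4 s e h, fun s _ _ e γ h => dbl_VV s e h, ?_⟩
  intro s hs hsT a b _ has hsb hab _ _ _
  have hb : b ≤ T + 1 := by linarith
  obtain ⟨j1, j2, j3, j4⟩ := k5 s hsT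
  refine ⟨_, _, _, _, _, _, sd_of P hb hP' (has.le.trans hsb.le) (V := VV T V₁ s) (W := W s)
    (fun e => (VV_subset hsT e).trans (j1 e)) (fun e => rotInv_VV k3 s e) j2 j3
    (fun e g hg hgb r hr => j4 e g (VV_subset hsT e hg) (X_mono hb hgb) r hr) ?_⟩
  intro g hg
  have hε : 0 < max (b - s) (s - a) := lt_max_of_lt_left (by linarith)
  have hε' : max (b - s) (s - a) ≤ f s := by
    refine le_trans ?_ (h0f s ⟨hs, hsT⟩)
    exact max_le (by linarith) (by linarith)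
  have h1 := (hf s ⟨hs, hsT⟩).2 _ hε hε' g (X_mono (by linarith [le_max_left (b - s) (s - a)]) hg)
  rcases h1 with h | h
  · exact Or.inl (X_mono (by linarith [le_max_right (b - s) (s - a)]) h)
  · exact Or.inr h

include hL nb S in
/-- **(A4)** -/
theorem A4P_of_prime : A4P M := A4Ofx125.A4P_of (sdFam L hL nb S)

end family

end Crest.Agent.R231.SDexx737
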