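import Crest.Agent.R231.GMFin_898
import Crest.Agent.R231.GMAbs_102
import Crest.Agent.R231.GMEnd_160
import Crest.Agent.R231.GMIso_320_Mg
import Crest.Agent.R231.GMIsoP_320_Mg
import Crest.Agent.R231.GPush_576
import Crest.Agent.R231.AlgCount_978
import Crest.Agent.R231.AlgDef_978
import Crest.Agent.R231.SDFam_737_Mg
import Crest.Agent.R231.End_475

-- ▼ part R231/GMB2_898
section

/-!
# Row 231, block GM (helper898): (B2) in the literal form of `GMAbs_102`
-/

set_option autoImplicit false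

namespace Crest.Agent.R231.GM898

theorem b2 : GMAbsx102.B2 := by
  intro E _ _ _ f hf h0 hiso
  exact lb_isolated hf h0 hiso

end Crest.Agent.R231.GM898
end

-- ▼ part R231/GMW_160
section

/-!
# Row 231 (S0357), block GM: the field `gm` without hypotheses (helper160)

* `gmw G S : GMW M` for a compact Riemannian manifold with its geodesic package `G` and a finite
  prime system `S`
* `gmw_sphere` : the literal hypothesis `gm` of `TopBasex220.infinite_of_blocks`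
-/

set_option autoImplicit false
set_option linter.unusedSectionVars false

noncomputable section

open Bundle Set Filter Function
open scoped Manifold ContDiff Bundle ENNReal Topology
open Crest.GeometryTopology.MTW Crest.GeometryTopology.Geodesic
open Crest.Agent.R226 Crest.Agent.R226.GeoBasic616 Crest.Agent.R226.TB616

namespace Crest.Agent.R231.GMWx160

open GLugx576 GMGeox889 GeoBasex724 PrimeGeox893 CritPMx893 Frontx893 GeoLugx724 Asmx895 GMEndx160

theorem orbStmt (M : Type) [MetricSpace M] : OrbStmt M := fun _ _ _ _ hg hsb h =>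
  GMOrbx537.SR_orbit_rot (X_mono hsb.le (GCrossx449.geo_mem hg)) h

section

variable {n : ℕ} {M : Type} [MetricSpace M] [ChartedSpace (EuclideanSpace ℝ (Fin n)) M]
  [IsManifold (𝓡 n) ∞ M]
  [RiemannianBundle (fun p : M => TangentSpace (𝓡 n) p)]
  [IsContMDiffRiemannianBundle (𝓡 n) ∞ (EuclideanSpace ℝ (Fin n))
    (fun p : M => TangentSpace (𝓡 n) p)]

/-- **(GM)**: finitely many closed geodesics give a uniform bound for the critical groups -/
theorem gmw [CompactSpace M] [Nonempty M] (G : GeoData n M) {ι : Type} [Finite ι]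
    (S : PrimeSys M G.r₀ ι) : GMW M :=
  gmw_of_point (lug G) (locMin G) (nonBr G) S
    (fun T => ⟨(exists_push (lug G) (locMin G) T).choose⟩) (orbStmt M)
    (GMPointx529.point_bound GM898.b1 GM898.b2 (GMOrbx537.domStmt M) (fun A => A.sliceDom)
      (fun c N h1 h2 => GMIsoPx320.isol S c N h1 h2) S)

end

/-- **the literal field** for the spheres -/
theorem gmw_sphere (n : ℕ) [NeZero n] (g : Met n) (G : GeoData n (SG g)) (N : ℕ)
    (S : PrimeSys (SG g) G.r₀ (Fin N)) : GMW (SG g) :=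
  gmw G S

end Crest.Agent.R231.GMWx160
end
end

-- ▼ part R231/AlgEuler_978
section

/-!
# Row 231, block A: the Euler relation `dim N_p = dim N'_p + dim B^∞_p + dim B^∞_{p+1}`  (helper978)
-/

set_option autoImplicit false

namespace Crest.Agent.R231.AlgEulerx978

open Crest.Agent.R231.IfAx978 Crest.Agent.R231.AlgRdx978 Crest.Agent.R231.AlgDefx978
open Crest.Agent.R231.AlgTatex978 Crest.Agent.R231.AlgCountx978

variable {X : Mix}

/-- Borel cycles of parity `p`, truncated at `q` -/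
def Pq (p : ℕ) (A B : GS X) (q : ℕ) : Submodule (ZMod 2) (∀ j, X.C j) where
  carrier := {c | (∀ i, c i ∈ B i) ∧ (∀ i, i % 2 ≠ p % 2 → c i = 0) ∧ ∀ i, i + 1 < q → DD c i ∈ A i}
  zero_mem' := ⟨fun i => (B i).zero_mem, fun _ _ => rfl, fun i _ => by simp⟩
  add_mem' := by
    rintro c c' ⟨h1, h2, h3⟩ ⟨h1', h2', h3'⟩
    refine ⟨fun i => (B i).add_mem (h1 i) (h1' i), fun i hi => ?_, fun i hi => ?_⟩
    · rw [Pi.add_apply, h2 i hi, h2' i hi, add_zero]
    · rw [map_add]; exact (A i).add_mem (h3 i hi) (h3' i hi)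
  smul_mem' := by
    rintro r c ⟨h1, h2, h3⟩
    refine ⟨fun i => (B i).smul_mem r (h1 i), fun i hi => ?_, fun i hi => ?_⟩
    · rw [Pi.smul_apply, h2 i hi, smul_zero]
    · rw [map_smul]; exact (A i).smul_mem r (h3 i hi)

/-- Borel boundaries of parity `p`, truncated at `q` -/
def Qq (p : ℕ) (A B : GS X) (q : ℕ) : Submodule (ZMod 2) (∀ j, X.C j) where
  carrier := {c | (∀ i, c i ∈ B i) ∧ (∀ i, i % 2 ≠ p % 2 → c i = 0) ∧
    ∃ b : (∀ j, X.C j), (∀ i, b i ∈ B i) ∧ ∀ i, i < q → c i + DD b i ∈ A i}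
  zero_mem' := ⟨fun i => (B i).zero_mem, fun _ _ => rfl, 0, fun i => (B i).zero_mem,
    fun i _ => by simp⟩
  add_mem' := by
    rintro c c' ⟨h1, h2, b, h3, h4⟩ ⟨h1', h2', b', h3', h4'⟩
    refine ⟨fun i => (B i).add_mem (h1 i) (h1' i), fun i hi => ?_, b + b',
      fun i => (B i).add_mem (h3 i) (h3' i), fun i hi => ?_⟩
    · rw [Pi.add_apply, h2 i hi, h2' i hi, add_zero]
    · have e : (c + c') i + DD (b + b') i = (c i + DD b i) + (c' i + DD b' i) := by
        simp only [Pi.add_apply, map_add]; abel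
      rw [e]; exact (A i).add_mem (h4 i hi) (h4' i hi)
  smul_mem' := by
    rintro r c ⟨h1, h2, b, h3, h4⟩
    refine ⟨fun i => (B i).smul_mem r (h1 i), fun i hi => ?_, r • b,
      fun i => (B i).smul_mem r (h3 i), fun i hi => ?_⟩
    · rw [Pi.smul_apply, h2 i hi, smul_zero]
    · have := (A i).smul_mem r (h4 i hi)
      simpa only [smul_add, Pi.smul_apply, map_smul] using this



variable {p : ℕ} {A B : GS X}

theorem Qq_le_Pq (hA : Stab A) (q : ℕ) : Qq p A B q ≤ Pq p A B q := by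
  rintro c ⟨h1, h2, b, h3, h4⟩
  refine ⟨h1, h2, fun i hi => ?_⟩
  have h : DD c i + DD (DD b) i ∈ A i := DD_mem_of hA (fun k hk => h4 k (by omega))
  rwa [DD_DD, add_zero] at h

theorem Pq_anti (q : ℕ) : Pq p A B (q + 1) ≤ Pq p A B q := by
  rintro c ⟨h1, h2, h3⟩
  exact ⟨h1, h2, fun i hi => h3 i (by omega)⟩

theorem Qq_anti (q : ℕ) : Qq p A B (q + 1) ≤ Qq p A B q := by
  rintro c ⟨h1, h2, b, h3, h4⟩
  exact ⟨h1, h2, b, h3, fun i hi => h4 i (by omega)⟩

theorem Pq_zero_le : Pq p A B 0 ≤ Qq p A B 0 := by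
  rintro c ⟨h1, h2, _⟩
  exact ⟨h1, h2, 0, fun i => (B i).zero_mem, fun i hi => absurd hi (by omega)⟩

/-- the vanishing of `DD c` in the wrong parity -/
theorem DD_wrong {c : ∀ j, X.C j} (hc : ∀ i, i % 2 ≠ p % 2 → c i = 0) {i : ℕ}
    (hi : i % 2 = p % 2) : DD c i = 0 := by
  rcases i with _ | i
  · rw [DD_zero', hc 1 (by omega), map_zero]
  · rw [DD_succ', hc (i + 2) (by omega), hc i (by omega), map_zero, map_zero, add_zero]

theorem Pq_wrong {q : ℕ} (hq : q % 2 ≠ p % 2) : Pq p A B (q + 1) = Pq p A B q := by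
  refine le_antisymm (Pq_anti q) ?_
  rintro c ⟨h1, h2, h3⟩
  refine ⟨h1, h2, fun i hi => ?_⟩
  by_cases h : i + 1 < q
  · exact h3 i h
  · have : i + 1 = q := by omega
    rw [DD_wrong h2 (by omega)]; exact (A i).zero_mem

theorem Qq_wrong {q : ℕ} (hq : q % 2 ≠ p % 2) : Qq p A B (q + 1) = Qq p A B q := by
  refine le_antisymm (Qq_anti q) ?_
  rintro c ⟨h1, h2, b, h3, h4⟩
  refine ⟨h1, h2, pr (p + 1) b, pr_mem h3, fun i hi => ?_⟩
  by_cases h : i % 2 = p % 2
  · rw [DD_pr_pos b (by omega)]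
    exact h4 i (by omega)
  · rw [h2 i h, DD_pr_neg b (by omega), add_zero]; exact (A i).zero_mem

theorem step_a (hA : Stab A) (hB : Stab B) {q : ℕ} (hq : q % 2 = p % 2) :
    rd (Qq p A B (q + 1)) (Qq p A B q ⊓ Pq p A B (q + 1)) = rd (Binf A B q) (Zc A B q) := by
  let R : Submodule (ZMod 2) ((∀ j, X.C j) × (∀ j, X.C j)) :=
    { carrier := {z | z.1 ∈ Pq p A B (q + 1) ∧ (∀ i, z.2 i ∈ B i) ∧
        ∀ i, i < q → z.1 i + DD z.2 i ∈ A i}
      zero_mem' := ⟨Submodule.zero_mem _, fun j => (B j).zero_mem, fun i _ => by simp⟩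
      add_mem' := by
        rintro ⟨c, b⟩ ⟨c', b'⟩ ⟨h1, h2, h3⟩ ⟨h1', h2', h3'⟩
        refine ⟨Submodule.add_mem _ h1 h1', fun j => (B j).add_mem (h2 j) (h2' j),
          fun i hi => ?_⟩
        have e : ((c, b) + (c', b')).1 i + DD ((c, b) + (c', b')).2 i
            = c i + DD b i + (c' i + DD b' i) := by
          simp only [Prod.mk_add_mk, Pi.add_apply, map_add]; abel
        rw [e]; exact (A i).add_mem (h3 i hi) (h3' i hi)
      smul_mem' := by
        rintro r ⟨c, b⟩ ⟨h1, h2, h3⟩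
        refine ⟨Submodule.smul_mem _ r h1, fun j => (B j).smul_mem r (h2 j),
          fun i hi => ?_⟩
        have e : (r • (c, b)).1 i + DD (r • (c, b)).2 i = r • (c i + DD b i) := by
          simp only [Prod.smul_mk, Pi.smul_apply, map_smul, smul_add]
        rw [e]; exact (A i).smul_mem r (h3 i hi) }
  let f1 : ((∀ j, X.C j) × (∀ j, X.C j)) →ₗ[ZMod 2] (∀ j, X.C j) := LinearMap.fst _ _ _
  let g1 : ((∀ j, X.C j) × (∀ j, X.C j)) →ₗ[ZMod 2] X.C q :=
    (LinearMap.proj q) ∘ₗ ((LinearMap.fst _ _ _) + DD ∘ₗ (LinearMap.snd _ _ _))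
  have hg : ∀ z, g1 z = z.1 q + DD z.2 q := fun z => rfl
  have e1 : rd ((Qq p A B (q + 1)).comap f1) R = rd (Qq p A B (q + 1)) (Qq p A B q ⊓ Pq p A B (q + 1)) := by
    refine rd_map f1 ?_ ?_ ?_
    · rintro ⟨c, b⟩ ⟨h1, h2, h3⟩
      exact ⟨⟨h1.1, h1.2.1, b, h2, h3⟩, h1⟩
    · rintro c ⟨⟨h1, h2, b, h3, h4⟩, h5⟩
      refine ⟨(c, b), ⟨h5, h3, h4⟩, ?_⟩
      show c + c ∈ Qq p A B (q + 1)
      rw [add_self2]; exact Submodule.zero_mem _
    · intro z _; rfl
  have e2 : rd ((Qq p A B (q + 1)).comap f1) R = rd (Binf A B q) (Zc A B q) := by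
    refine rd_map g1 ?_ ?_ ?_
    · rintro ⟨c, b⟩ ⟨h1, h2, h3⟩
      rw [hg]
      have := zc_lead (A := A) (B := B) (w := c + DD b) hA (q := q)
        ((B q).add_mem (h1.1 q) (DD_mem hB h2 q)) h3 (fun i hi => by
          rw [map_add, Pi.add_apply, DD_DD, add_zero]; exact h1.2.2 i (by omega))
      exact this
    · intro x hx
      refine ⟨(sg q x, 0), ⟨⟨sg_mem (Zc_le q hx), fun i hi => ?_, fun i hi => ?_⟩,
        fun j => (B j).zero_mem, fun i hi => ?_⟩, ?_⟩
      · exact sg_ne x (by omega)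
      · by_cases h : i + 1 < q
        · rw [DD_sg_lt x h]; exact (A i).zero_mem
        · obtain rfl : q = i + 1 := by omega
          rw [DD_sg_pred]; exact hx.2
      · show sg q x i + DD (0 : ∀ j, X.C j) i ∈ A i
        rw [sg_ne x (by omega), map_zero, zero_add]; exact (A i).zero_mem
      · rw [hg]
        show x + (sg q x q + DD (0 : ∀ j, X.C j) q) ∈ Binf A B q
        rw [sg_same, map_zero, Pi.zero_apply, add_zero, add_self2]; exact Submodule.zero_mem _
    · rintro ⟨c, b⟩ ⟨h1, h2, h3⟩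
      rw [hg, Submodule.mem_comap]
      show c q + DD b q ∈ Binf A B q ↔ c ∈ Qq p A B (q + 1)
      have h3' : ∀ i, i < q → c i + DD b i ∈ A i := h3
      constructor
      · rintro ⟨b', h4, h5, h6⟩
        refine ⟨h1.1, h1.2.1, b + b', fun j => (B j).add_mem (h2 j) (h4 j), fun i hi => ?_⟩
        rw [map_add, Pi.add_apply, ← add_assoc]
        rcases Nat.lt_succ_iff_lt_or_eq.1 hi with h | h
        · exact (A i).add_mem (h3' i h) (h5 i h)
        · subst h; exact h6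
      · rintro ⟨_, _, b', h4, h5⟩
        refine ⟨b + b', fun j => (B j).add_mem (h2 j) (h4 j), fun i hi => ?_, ?_⟩
        · have e : DD (b + b') i = (c i + DD b i) + (c i + DD b' i) := by
            rw [map_add, Pi.add_apply]; f2
          rw [e]; exact (A i).add_mem (h3' i hi) (h5 i (by omega))
        · have e : c q + DD b q + DD (b + b') q = c q + DD b' q := by
            rw [map_add, Pi.add_apply]; f2
          rw [e]; exact h5 q (by omega)
  rw [← e1, e2]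

theorem step_b (hA : Stab A) (hB : Stab B) (hAB : ∀ j, A j ≤ B j) {k : ℕ} (hq : (k + 1) % 2 = p % 2) :
    rd (Qq p A B (k + 1) ⊔ Pq p A B (k + 2)) (Pq p A B (k + 1)) = rd (Bd A B k) (Binf A B k) := by
  let g1 : (∀ j, X.C j) →ₗ[ZMod 2] X.C k := (LinearMap.proj k) ∘ₗ DD
  have hg : ∀ z, g1 z = DD z k := fun z => rfl
  refine rd_map g1 ?_ ?_ ?_
  · rintro c ⟨h1, h2, h3⟩
    rw [hg]
    exact ⟨c, h1, fun i hi => h3 i (by omega), by rw [add_self2]; exact (A k).zero_mem⟩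
  · rintro x ⟨c, h1, h2, h3⟩
    refine ⟨pr p c, ⟨pr_mem h1, fun i hi => pr_neg c hi, fun i hi => ?_⟩, ?_⟩
    · by_cases h : i % 2 = (p + 1) % 2
      · rw [DD_pr_pos c h]; exact h2 i (by omega)
      · rw [DD_pr_neg c h]; exact (A i).zero_mem
    · rw [hg, DD_pr_pos c (by omega)]
      exact Bd_base k h3
  · rintro c ⟨h1, h2, h3⟩
    rw [hg]
    constructor
    · intro h
      obtain ⟨z, hz1, hz2⟩ := mem_Bd.1 h
      refine Submodule.mem_sup.2 ⟨sg (k + 1) z, ⟨sg_mem hz1, fun i hi => sg_ne z (by omega), 0,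
        fun i => (B i).zero_mem, fun i hi => ?_⟩, c + sg (k + 1) z,
        ⟨fun i => (B i).add_mem (h1 i) (sg_mem hz1 i), fun i hi => ?_, fun i hi => ?_⟩, ?_⟩
      · rw [sg_ne z (by omega), map_zero, zero_add]; exact (A i).zero_mem
      · rw [Pi.add_apply, h2 i hi, sg_ne z (by omega), add_zero]
      · rw [map_add, Pi.add_apply]
        by_cases h : i + 1 < k + 1
        · rw [DD_sg_lt z (by omega), add_zero]; exact h3 i h
        · obtain rfl : i = k := by omega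
          rw [DD_sg_pred]; exact hz2
      · f2
    · intro h
      obtain ⟨c1, ⟨h4, h5, b, h6, h7⟩, c2, ⟨h8, h9, h10⟩, rfl⟩ := Submodule.mem_sup.1 h
      rw [map_add, Pi.add_apply]
      refine (Bd A B k).add_mem ?_ (Bd_base k (h10 k (by omega)))
      -- `DD c1 k = DD (c1 + DD b) k`, and `c1 + DD b ∈ A` below `k + 1`
      have e : DD c1 k = DD (c1 + DD b) k := by
        rw [map_add, Pi.add_apply, DD_DD, add_zero]
      rw [e]
      have hw : ∀ i, (c1 + DD b) i ∈ B i := fun i => (B i).add_mem (h4 i) (DD_mem hB h6 i)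
      refine mem_Bd.2 ⟨(c1 + DD b) (k + 1), hw _, ?_⟩
      rcases k with _ | k
      · rw [DD_zero', add_self2]; exact Submodule.zero_mem _
      · rw [DD_succ']
        have e' : X.d (k + 1) ((c1 + DD b) (k + 2)) + X.De k ((c1 + DD b) k) +
            X.d (k + 1) ((c1 + DD b) (k + 2)) = X.De k ((c1 + DD b) k) := by f2
        rw [e']
        exact hA.De _ _ (h7 k (by omega))

/-- `β 0 = 0`, `β (k+1) = dim B^∞_k` -/
noncomputable def beta (A B : GS X) : ℕ → ℕ∞
  | 0 => 0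
  | (k + 1) => rd (Bd A B k) (Binf A B k)

theorem step (hA : Stab A) (hB : Stab B) (hAB : ∀ j, A j ≤ B j) {q : ℕ} (hq : q % 2 = p % 2) :
    rd (Qq p A B (q + 1)) (Pq p A B (q + 1)) + beta A B q =
      rd (Qq p A B q) (Pq p A B q) + rd (Binf A B q) (Zc A B q) := by
  have h1 : rd (Qq p A B (q + 1)) (Pq p A B (q + 1)) =
      rd (Binf A B q) (Zc A B q) + rd (Qq p A B q) (Pq p A B (q + 1)) := by
    rw [rd_trans (Q := Qq p A B q ⊓ Pq p A B (q + 1)) (le_inf (Qq_anti q) (Qq_le_Pq hA (q + 1)))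
      inf_le_right, step_a hA hB hq, rd_inf]
  have h2 : rd (Qq p A B q) (Pq p A B q) =
      rd (Qq p A B q) (Pq p A B (q + 1)) + beta A B q := by
    rw [rd_trans (Q := Qq p A B q ⊔ Pq p A B (q + 1)) le_sup_left
      (sup_le (Qq_le_Pq hA q) (Pq_anti q)), rd_sup]
    congr 1
    rcases q with _ | k
    · rw [beta]
      refine rd_of_le ?_
      exact Pq_zero_le.trans le_sup_left
    · rw [beta]; exact step_b hA hB hAB hq
  rw [h1, h2, add_assoc, add_comm]

theorem sum_step (hA : Stab A) (hB : Stab B) (hAB : ∀ j, A j ≤ B j) (n : ℕ) :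
    rd (Qq p A B n) (Pq p A B n) +
      ∑ q ∈ Finset.range n, (if q % 2 = p % 2 then beta A B q else 0) =
      ∑ q ∈ Finset.range n, (if q % 2 = p % 2 then rd (Binf A B q) (Zc A B q) else 0) := by
  induction n with
  | zero =>
    simp only [Finset.range_zero, Finset.sum_empty, add_zero]
    exact rd_of_le Pq_zero_le
  | succ n ih =>
    rw [Finset.sum_range_succ, Finset.sum_range_succ, ← ih]
    by_cases h : n % 2 = p % 2
    · rw [if_pos h, if_pos h]
      have := step (p := p) hA hB hAB h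
      calc rd (Qq p A B (n + 1)) (Pq p A B (n + 1)) +
            (∑ q ∈ Finset.range n, (if q % 2 = p % 2 then beta A B q else 0) + beta A B n)
          = (rd (Qq p A B (n + 1)) (Pq p A B (n + 1)) + beta A B n) +
            ∑ q ∈ Finset.range n, (if q % 2 = p % 2 then beta A B q else 0) := by
              rw [add_comm (∑ q ∈ Finset.range n, _) (beta A B n), add_assoc]
        _ = _ := by rw [this]; rw [add_right_comm]
    · rw [if_neg h, if_neg h, add_zero, add_zero, Pq_wrong h, Qq_wrong h]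

section PH
variable {psi : ∀ j, X.C j →ₗ[ZMod 2] X.C j} {A' B' : GS X} (H : PH psi A B A' B')
include H

/-- the family `Zc'` in parity `p`, `Bd'` otherwise -/
def Zp (p : ℕ) (A' B' : GS X) : GS X := fun j => if j % 2 = p % 2 then Zc A' B' j else Bd A' B' j

omit H in
theorem Zp_pos {p j : ℕ} {A' B' : GS X} (h : j % 2 = p % 2) : Zp p A' B' j = Zc A' B' j := if_pos h
omit H in
theorem Zp_neg {p j : ℕ} {A' B' : GS X} (h : j % 2 ≠ p % 2) : Zp p A' B' j = Bd A' B' j := if_neg h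

theorem Zp_le_Zc (p j : ℕ) : Zp p A' B' j ≤ Zc A' B' j := by
  by_cases h : j % 2 = p % 2
  · rw [Zp_pos h]
  · rw [Zp_neg h]; exact Bd_le_Zc H.sA' H.sB' H.le' j

theorem Bd_le_Zp (p j : ℕ) : Bd A' B' j ≤ Zp p A' B' j := by
  by_cases h : j % 2 = p % 2
  · rw [Zp_pos h]; exact Bd_le_Zc H.sA' H.sB' H.le' j
  · rw [Zp_neg h]

theorem last {M n : ℕ} (hM : ∀ j, M ≤ j → Zc A B j ≤ Bd A B j) (hn : M < n) :
    rd (Pi (Bd A' B')) (Pi (Zp p A' B')) = rd (Qq p A B n) (Pq p A B n) := by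
  have hZ : ∀ {y : ∀ j, X.C j}, y ∈ Pi (Zp p A' B') → ∀ j, pr p y j ∈ Zc A' B' j := by
    intro y hy j
    exact pr_mem (fun j => Zp_le_Zc H p j (mem_Pi.1 hy j)) j
  refine rd_map (psiP psi ∘ₗ pr p) ?_ ?_ ?_
  · intro y hy
    refine ⟨fun j => H.psi_mem _ (hZ hy) j, fun i hi => ?_, fun i _ => H.DD_psi _ (hZ hy) i⟩
    show psi i (pr p y i) = 0
    rw [pr_neg y hi, map_zero]
  · rintro c ⟨h1, h2, h3⟩
    obtain ⟨c', hc1, hc2, hc3⟩ := extend (M := n - 1) H.sA H.sB H.le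
      (fun j hj => (Binf_le_Zc H.sA H.sB H.le j).trans (hM j (by omega))) h1
      (fun j hj => h3 j (by omega))
    obtain ⟨y, b, hy, hb, hyb⟩ := H.smith.surj (c + c')
      (fun j => (B j).add_mem (h1 j) (hc2 j)) hc3
    have hy' : pr p y ∈ Pi (Zp p A' B') := by
      rw [mem_Pi]
      intro j
      by_cases h : j % 2 = p % 2
      · rw [pr_pos y h, Zp_pos h]; exact hy j
      · rw [pr_neg y h]; exact Submodule.zero_mem _
    refine ⟨pr p y, hy', ⟨fun i => (B i).add_mem (h1 i) (H.psi_mem _ (hZ hy') i), fun i hi => ?_,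
      pr (p + 1) b, pr_mem hb, fun i hi => ?_⟩⟩
    · show c i + psi i (pr p (pr p y) i) = 0
      rw [h2 i hi, pr_neg _ hi, map_zero, add_zero]
    · show c i + psi i (pr p (pr p y) i) + DD (pr (p + 1) b) i ∈ A i
      by_cases h : i % 2 = p % 2
      · rw [pr_pos _ h, pr_pos _ h, DD_pr_pos b (by omega)]
        have := hyb i
        rw [Pi.add_apply, hc1 i (by omega), add_zero] at this
        exact this
      · rw [pr_neg _ h, map_zero, add_zero, DD_pr_neg b (by omega), add_zero, h2 i h]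
        exact (A i).zero_mem
  · intro y hy
    constructor
    · rintro ⟨_, _, b, h4, h5⟩
      have hinj := H.inj' hM (hZ hy) h4 (fun j hj => h5 j (by omega))
      rw [mem_Pi]
      intro j
      by_cases h : j % 2 = p % 2
      · have := hinj j
        rwa [pr_pos y h] at this
      · have := mem_Pi.1 hy j
        rwa [Zp_neg h] at this
    · intro hy'
      have hb : ∀ j, pr p y j ∈ Bd A' B' j := fun j => pr_mem (mem_Pi.1 hy') j
      obtain ⟨b, hb1, hb2⟩ := H.psi_bd hb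
      refine ⟨fun j => H.psi_mem _ (hZ hy) j, fun i hi => ?_, b, hb1, fun i _ => hb2 i⟩
      show psi i (pr p y i) = 0
      rw [pr_neg y hi, map_zero]

/-- EULER RELATION for the parity `p` -/
theorem euler {M n : ℕ} (hM : ∀ j, M ≤ j → Zc A B j ≤ Bd A B j) (hn : M < n) (p : ℕ) :
    ∑ q ∈ Finset.range n, (if q % 2 = p % 2 then rd (Bd A B q) (Zc A B q) else 0) =
      rd (Pi (Bd A' B')) (Pi (Zp p A' B')) +
      ∑ q ∈ Finset.range n, (if q % 2 = p % 2 then rd (Bd A B q) (Binf A B q) else 0) +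
      ∑ q ∈ Finset.range n, (if q % 2 ≠ p % 2 then rd (Bd A B q) (Binf A B q) else 0) := by
  have h1 : ∑ q ∈ Finset.range n, (if q % 2 = p % 2 then rd (Bd A B q) (Zc A B q) else 0) =
      ∑ q ∈ Finset.range n, (if q % 2 = p % 2 then rd (Bd A B q) (Binf A B q) else 0) +
      ∑ q ∈ Finset.range n, (if q % 2 = p % 2 then rd (Binf A B q) (Zc A B q) else 0) := by
    rw [← Finset.sum_add_distrib]
    refine Finset.sum_congr rfl fun q _ => ?_
    by_cases h : q % 2 = p % 2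
    · rw [if_pos h, if_pos h, if_pos h]
      exact rd_trans (Bd_le_Binf q) (Binf_le_Zc H.sA H.sB H.le q)
    · rw [if_neg h, if_neg h, if_neg h, add_zero]
  have h2 : ∑ q ∈ Finset.range n, (if q % 2 = p % 2 then beta A B q else 0) =
      ∑ q ∈ Finset.range n, (if q % 2 ≠ p % 2 then rd (Bd A B q) (Binf A B q) else 0) := by
    obtain ⟨m, rfl⟩ : ∃ m, n = m + 1 := ⟨n - 1, by omega⟩
    rw [Finset.sum_range_succ', Finset.sum_range_succ]
    have hlast : (if m % 2 ≠ p % 2 then rd (Bd A B m) (Binf A B m) else 0) = 0 := by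
      by_cases h : m % 2 ≠ p % 2
      · rw [if_pos h]
        exact rd_of_le ((Binf_le_Zc H.sA H.sB H.le m).trans (hM m (by omega)))
      · rw [if_neg h]
    have hfirst : (if 0 % 2 = p % 2 then beta A B 0 else 0) = 0 := by
      by_cases h : 0 % 2 = p % 2
      · rw [if_pos h]; rfl
      · rw [if_neg h]
    rw [hlast, hfirst, add_zero, add_zero]
    refine Finset.sum_congr rfl fun q _ => ?_
    by_cases h : (q + 1) % 2 = p % 2
    · rw [if_pos h, if_pos (by omega)]; rfl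
    · rw [if_neg h, if_neg (by omega)]
  rw [h1, ← sum_step (p := p) H.sA H.sB H.le n, h2, ← last (p := p) H hM hn]
  rw [add_comm, add_assoc, add_assoc, add_comm (∑ q ∈ Finset.range n, _)]

end PH

end Crest.Agent.R231.AlgEulerx978
private theorem rz_26229d2685 : type_of% @_root_.Crest.Agent.R231.AlgEulerx978.beta.eq_1 := @_root_.Crest.Agent.R231.AlgEulerx978.beta.eq_1 -- L231
end

-- ▼ part R231/AlgPair_978
section

/-!
# Row 231, block A: Smith isomorphism for pairs of levels; births and deaths  (helper978)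
-/

set_option autoImplicit false

namespace Crest.Agent.R231.AlgPairx978

open Crest.Agent.R231.IfAx978 Crest.Agent.R231.AlgRdx978 Crest.Agent.R231.AlgDefx978
open Crest.Agent.R231.AlgTatex978 Crest.Agent.R231.AlgCountx978 Crest.Agent.R231.AlgEulerx978

variable {X : Mix}

/-- shift a family of `(j+1)`-chains into a family indexed by the degree -/
def shf (z : ∀ j, X.C (j + 1)) : ∀ j, X.C j := fun j =>
  Nat.casesOn (motive := fun j => X.C j) j 0 z

theorem shf_succ (z : ∀ j, X.C (j + 1)) (j : ℕ) : shf z (j + 1) = z j := rfl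

theorem shf_mem {B : GS X} {z : ∀ j, X.C (j + 1)} (h : ∀ j, z j ∈ B (j + 1)) (j : ℕ) :
    shf z j ∈ B j := by
  cases j with
  | zero => exact (B 0).zero_mem
  | succ i => exact h i

theorem DD_psi_shf {psi : ∀ j, X.C j →ₗ[ZMod 2] X.C j}
    (hd : ∀ j x, X.d j (psi (j + 1) x) = psi j (X.d j x)) (hDe : ∀ j x, X.De j (psi j x) = 0)
    (y : ∀ j, X.C j) (j : ℕ) : DD (psiP psi y) j = psi j (X.d j (y (j + 1))) := by
  cases j with
  | zero => rw [DD_zero', psiP_apply, hd]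
  | succ i => rw [DD_succ', psiP_apply, psiP_apply, hd, hDe, add_zero]

theorem Bd_mono {A A₁ B B₁ : GS X} (hA : ∀ j, A j ≤ A₁ j) (hB : ∀ j, B j ≤ B₁ j) (j : ℕ) :
    Bd A B j ≤ Bd A₁ B₁ j :=
  sup_le_sup (Submodule.map_mono (hB _)) (hA j)

theorem Zc_mono {A A₁ B B₁ : GS X} (hA : ∀ j, A j ≤ A₁ j) (hB : ∀ j, B j ≤ B₁ j) (j : ℕ) :
    Zc A B j ≤ Zc A₁ B₁ j := by
  cases j with
  | zero => exact hB 0
  | succ i => exact fun x hx => ⟨hB _ hx.1, hA _ hx.2⟩

theorem Binf_mono {A A₁ B B₁ : GS X} (hA : ∀ j, A j ≤ A₁ j) (hB : ∀ j, B j ≤ B₁ j) (j : ℕ) :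
    Binf A B j ≤ Binf A₁ B₁ j := by
  rintro x ⟨c, h1, h2, h3⟩
  exact ⟨c, fun i => hB i (h1 i), fun i hi => hA i (h2 i hi), hA j h3⟩

/-- Smith isomorphism for a pair from the absolute ones -/
theorem smith_pair_gen {psi : ∀ j, X.C j →ₗ[ZMod 2] X.C j} {O A B O' A' B' : GS X}
    (hd : ∀ j x, X.d j (psi (j + 1) x) = psi j (X.d j x)) (hDe : ∀ j x, X.De j (psi j x) = 0)
    (hOA : ∀ j, O j ≤ A j) (hAB : ∀ j, A j ≤ B j) (hOA' : ∀ j, O' j ≤ A' j)
    (hAB' : ∀ j, A' j ≤ B' j) (hpO : ∀ j x, x ∈ O' j → psi j x ∈ O j)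
    (hpA : ∀ j x, x ∈ A' j → psi j x ∈ A j) (hpB : ∀ j x, x ∈ B' j → psi j x ∈ B j)
    (sA : Stab A) (sA' : Stab A') (sB : Stab B)
    (SA : Smith psi O A O' A') (SB : Smith psi O B O' B') : Smith psi A B A' B' := by
  constructor
  · intro v hv hDv
    obtain ⟨y, c, hy, hc, h1⟩ := SA.surj (DD v) hDv (fun j => by
      rw [DD_DD]; exact (O j).zero_mem)
    -- `psi y + DD (v + c) ∈ O`
    have h2 : ∀ j, y j ∈ Bd O' B' j := by
      refine SB.inj y (v + c) (fun j => Zc_mono (fun j => le_rfl) hAB' j (hy j))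
        (fun j => (B j).add_mem (hv j) (hAB j (hc j))) (fun j => ?_)
      have e : psi j (y j) + DD (v + c) j = DD v j + psi j (y j) + DD c j := by
        rw [map_add, Pi.add_apply]; abel
      rw [e]; exact h1 j
    have h3 : ∀ j, ∃ z ∈ B' (j + 1), y j + X.d j z ∈ O' j := fun j => mem_Bd.1 (h2 j)
    choose z hz1 hz2 using h3
    have hDZ : ∀ j, psi j (y j) + DD (psiP psi (shf z)) j ∈ O j := by
      intro j
      rw [DD_psi_shf hd hDe, shf_succ, ← map_add]
      exact hpO _ _ (hz2 j)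
    obtain ⟨y', c', hy', hc', h4⟩ := SB.surj (v + c + psiP psi (shf z))
      (fun j => (B j).add_mem ((B j).add_mem (hv j) (hAB j (hc j))) (hpB _ _ (shf_mem hz1 j)))
      (fun j => by
        have e : DD (v + c + psiP psi (shf z)) j =
            (DD v j + psi j (y j) + DD c j) + (psi j (y j) + DD (psiP psi (shf z)) j) := by
          rw [map_add, map_add, Pi.add_apply, Pi.add_apply]; f2
        rw [e]; exact (O j).add_mem (h1 j) (hDZ j))
    refine ⟨shf z + y', c', fun j => ?_, hc', fun j => ?_⟩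
    · refine (Zc A' B' j).add_mem ?_ (Zc_mono hOA' (fun j => le_rfl) j (hy' j))
      cases j with
      | zero => exact (B' 0).zero_mem
      | succ i =>
        refine ⟨hz1 i, ?_⟩
        show X.d i (z i) ∈ A' i
        have e : X.d i (z i) = (y i + X.d i (z i)) + y i := by f2
        rw [e]
        exact (A' i).add_mem (hOA' i (hz2 i)) (Zc_le i (hy i))
    · have e : v j + psi j ((shf z + y') j) + DD c' j =
          ((v + c + psiP psi (shf z)) j + psi j (y' j) + DD c' j) + c j := by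
        simp only [Pi.add_apply, psiP_apply, map_add]; f2
      rw [e]; exact (A j).add_mem (hOA j (h4 j)) (hc j)
  · intro y c hy hc h
    let e : ∀ j, X.C j := fun j => psi j (y j) + DD c j
    have he : ∀ j, e j ∈ A j := h
    have heq : e = psiP psi y + DD c := rfl
    let w : ∀ j, X.C j := fun j => X.d j (y (j + 1))
    have hw : ∀ j, w j ∈ Zc O' A' j := by
      intro j
      cases j with
      | zero => exact (hy 1).2
      | succ i => exact ⟨(hy (i + 2)).2, by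
          show X.d i (X.d (i + 1) (y (i + 2))) ∈ O' i
          rw [X.dd]; exact (O' i).zero_mem⟩
    have hDe' : ∀ j, DD e j = psi j (w j) := by
      intro j
      rw [heq, map_add, Pi.add_apply, DD_DD, add_zero, DD_psi_shf hd hDe]
    have h2 : ∀ j, w j ∈ Bd O' A' j := by
      refine SA.inj w e hw he (fun j => ?_)
      rw [hDe', add_self2]; exact (O j).zero_mem
    have h3 : ∀ j, ∃ z ∈ A' (j + 1), w j + X.d j z ∈ O' j := fun j => mem_Bd.1 (h2 j)
    choose z hz1 hz2 using h3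
    obtain ⟨y', c', hy', hc', h4⟩ := SA.surj (e + psiP psi (shf z))
      (fun j => (A j).add_mem (he j) (hpA _ _ (shf_mem hz1 j)))
      (fun j => by
        rw [map_add, Pi.add_apply, hDe', DD_psi_shf hd hDe, shf_succ, ← map_add]
        exact hpO _ _ (hz2 j))
    have h5 : ∀ j, (y + shf z + y') j ∈ Bd O' B' j := by
      refine SB.inj _ (c + c') (fun j => ?_) (fun j => (B j).add_mem (hc j) (hAB j (hc' j)))
        (fun j => ?_)
      · refine (Zc O' B' j).add_mem ?_ (Zc_mono (fun j => le_rfl) hAB' j (hy' j))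
        cases j with
        | zero => exact (B' 0).add_mem (hy 0) ((B' 0).zero_mem)
        | succ i =>
          refine ⟨(B' _).add_mem (hy (i + 1)).1 (hAB' _ (hz1 i)), ?_⟩
          show X.d i (y (i + 1) + z i) ∈ O' i
          rw [map_add]; exact hz2 i
      · have e1 : psi j ((y + shf z + y') j) + DD (c + c') j =
            (e + psiP psi (shf z)) j + psi j (y' j) + DD c' j := by
          simp only [Pi.add_apply, psiP_apply, map_add, e]; f2
        rw [e1]; exact h4 j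
    intro j
    have e2 : y j = (y + shf z + y') j + (shf z j + y' j) := by
      simp only [Pi.add_apply]; f2
    rw [e2]
    refine (Bd A' B' j).add_mem (Bd_mono hOA' (fun j => le_rfl) j (h5 j)) (Bd_base j ?_)
    exact (A' j).add_mem (shf_mem hz1 j) (Zc_le j (hy' j))

namespace Base
variable (K : Base)

theorem half_not_crit {t : ℝ} (h : t ∉ K.Crit) : t / 2 ∉ K.Crit := by
  intro h'
  apply h
  have := K.Crit_two _ h'
  rwa [mul_div_cancel₀ t (two_ne_zero)] at this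

theorem psi_half {t : ℝ} (j : ℕ) (x : K.X.C j) (hx : x ∈ K.F (t / 2) j) : K.psi j x ∈ K.F t j := by
  have := K.F_psi (t / 2) j x hx
  rwa [mul_div_cancel₀ t (two_ne_zero)] at this

theorem psi_zero (j : ℕ) (x : K.X.C j) (hx : x ∈ K.F 0 j) : K.psi j x ∈ K.F 0 j := by
  have := K.F_psi 0 j x hx
  rwa [mul_zero] at this

/-- absolute Smith package at a non-critical level -/
theorem ph_abs {t : ℝ} (h0 : 0 ≤ t) (h : t ∉ K.Crit) :
    PH K.psi (K.F 0) (K.F t) (K.F 0) (K.F (t / 2)) where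
  le := K.F_mono 0 t h0
  sA := K.F_stab 0
  sB := K.F_stab t
  le' := K.F_mono 0 _ (by linarith)
  sA' := K.F_stab 0
  sB' := K.F_stab _
  pA := psi_zero K
  pB := psi_half K
  dpsi := K.d_psi
  Depsi := K.De_psi
  smith := K.smith t h0 h

theorem smith_pair {a b : ℝ} (h0 : 0 ≤ a) (hab : a ≤ b) (ha : a ∉ K.Crit) (hb : b ∉ K.Crit) :
    Smith K.psi (K.F a) (K.F b) (K.F (a / 2)) (K.F (b / 2)) :=
  smith_pair_gen K.d_psi K.De_psi (K.F_mono 0 a h0) (K.F_mono a b hab)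
    (K.F_mono 0 _ (by linarith)) (K.F_mono _ _ (by linarith)) (psi_zero K) (psi_half K)
    (psi_half K) (K.F_stab a) (K.F_stab _) (K.F_stab b) (K.smith a h0 ha)
    (K.smith b (h0.trans hab) hb)

/-- Smith package for a pair of non-critical levels -/
theorem ph_pair {a b : ℝ} (h0 : 0 ≤ a) (hab : a ≤ b) (ha : a ∉ K.Crit) (hb : b ∉ K.Crit) :
    PH K.psi (K.F a) (K.F b) (K.F (a / 2)) (K.F (b / 2)) where
  le := K.F_mono a b hab
  sA := K.F_stab a
  sB := K.F_stab b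
  le' := K.F_mono _ _ (by linarith)
  sA' := K.F_stab _
  sB' := K.F_stab _
  pA := psi_half K
  pB := psi_half K
  dpsi := K.d_psi
  Depsi := K.De_psi
  smith := smith_pair K h0 hab ha hb

end Base

end Crest.Agent.R231.AlgPairx978
end

-- ▼ part R231/AlgLev_978
section

/-!
# Row 231, block A: births and deaths between two levels, the integer `f(t)`  (helper978)
-/

set_option autoImplicit false

namespace Crest.Agent.R231.AlgLevx978

open Crest.Agent.R231.IfAx978 Crest.Agent.R231.AlgRdx978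
open Crest.Agent.R231.AlgTatex978 Crest.Agent.R231.AlgCountx978 Crest.Agent.R231.AlgEulerx978
open Crest.Agent.R231.AlgPairx978
open Crest.Agent.R231.AlgDefx978 (LT mem_LT)
open Crest.Agent.R231.AlgDefx978.Core

variable (K : Core)

theorem P_le_Bd (t : ℝ) (j : ℕ) : P K t j ≤ Bd (K.F 0) ⊤ j := inf_le_right

theorem stab_top (X : Mix) : Stab (⊤ : GS X) := ⟨fun _ _ _ => trivial, fun _ _ _ => trivial⟩

theorem BdT_le_ZcT (j : ℕ) : Bd (K.F 0) ⊤ j ≤ Zc (K.F 0) ⊤ j :=
  Bd_le_Zc (K.F_stab 0) (stab_top _) (fun _ => le_top) j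

theorem P_le_Zc {t : ℝ} (j : ℕ) : P K t j ≤ Zc (K.F 0) (K.F t) j := by
  intro x hx
  have h := BdT_le_ZcT K j hx.2
  cases j with
  | zero => exact hx.1
  | succ i => exact ⟨hx.1, h.2⟩

theorem Bd_le_P {t : ℝ} (h0 : 0 ≤ t) (j : ℕ) : Bd (K.F 0) (K.F t) j ≤ P K t j := by
  refine le_inf ?_ (Bd_mono (fun _ => le_rfl) (fun _ => le_top) j)
  exact (Bd_le_Zc (K.F_stab 0) (K.F_stab t) (K.F_mono 0 t h0) j).trans (Zc_le j)

theorem P_mono {a b : ℝ} (h : a ≤ b) (j : ℕ) : P K a j ≤ P K b j :=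
  inf_le_inf_right _ (K.F_mono a b h j)

theorem P_inf {a b : ℝ} (h : a ≤ b) (j : ℕ) : P K b j ⊓ K.F a j = P K a j := by
  apply le_antisymm
  · rintro x ⟨⟨_, h2⟩, h3⟩; exact ⟨h3, h2⟩
  · rintro x ⟨h1, h2⟩; exact ⟨⟨K.F_mono a b h j h1, h2⟩, h1⟩

theorem Bd_sup {a b : ℝ} (h0 : 0 ≤ a) (j : ℕ) :
    Bd (K.F 0) (K.F b) j ⊔ K.F a j = Bd (K.F a) (K.F b) j := by
  unfold Bd
  rw [sup_assoc, sup_eq_right.2 (K.F_mono 0 a h0 j)]

theorem Rr_le_Zc {a b : ℝ} (h0 : 0 ≤ a) (hab : a ≤ b) (j : ℕ) :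
    Rr K a b j ≤ Zc (K.F a) (K.F b) j := by
  refine sup_le (Zc_mono (K.F_mono 0 a h0) (fun _ => le_rfl) j) ?_
  exact (Bd_base j).trans (Bd_le_Zc (K.F_stab a) (K.F_stab b) (K.F_mono a b hab) j)

theorem Bd_le_Rr {a b : ℝ} (h0 : 0 ≤ a) (hab : a ≤ b) (j : ℕ) :
    Bd (K.F a) (K.F b) j ≤ Rr K a b j := by
  rw [← Bd_sup K h0]
  exact sup_le_sup_right (Bd_le_Zc (K.F_stab 0) (K.F_stab b)
    (K.F_mono 0 b (h0.trans hab)) j) _

theorem R0_le_Zc {a b : ℝ} (h0 : 0 ≤ a) (hab : a ≤ b) (j : ℕ) :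
    R0 K a b j ≤ Zc (K.F a) (K.F b) j :=
  (sup_le_sup_right (P_le_Zc K j) _).trans (Rr_le_Zc K h0 hab j)

theorem Bd_le_R0 {a b : ℝ} (h0 : 0 ≤ a) (hab : a ≤ b) (j : ℕ) :
    Bd (K.F a) (K.F b) j ≤ R0 K a b j := by
  rw [← Bd_sup K h0]
  exact sup_le_sup_right (Bd_le_P K (h0.trans hab) j) _

/-- the boundary: `L_{j+1}/R_{j+1} = ker(N_j(a) → N_j(b))` -/
theorem deaths {a b : ℝ} (h0 : 0 ≤ a) (hab : a ≤ b) (j : ℕ) :
    rd (Rr K a b (j + 1)) (Zc (K.F a) (K.F b) (j + 1)) =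
      rd (Bd (K.F 0) (K.F a) j) (Bd (K.F 0) (K.F b) j ⊓ P K a j) := by
  refine rd_map (K.X.d j) ?_ ?_ ?_
  · rintro x ⟨h1, h2⟩
    have hb : K.X.d j x ∈ Bd (K.F 0) (K.F b) j :=
      Submodule.mem_sup_left ⟨x, h1, rfl⟩
    exact ⟨hb, h2, Bd_mono (fun _ => le_rfl) (fun _ => le_top) j hb⟩
  · rintro y ⟨h1, h2⟩
    obtain ⟨z, hz1, hz2⟩ := mem_Bd.1 h1
    refine ⟨z, ⟨hz1, ?_⟩, Bd_base j hz2⟩
    have e : K.X.d j z = (y + K.X.d j z) + y := by f2
    show K.X.d j z ∈ K.F a j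
    rw [e]; exact (K.F a j).add_mem (K.F_mono 0 a h0 j hz2) h2.1
  · rintro x ⟨h1, h2⟩
    constructor
    · intro h
      obtain ⟨u, hu1, hu2⟩ := mem_Bd.1 h
      refine Submodule.mem_sup.2 ⟨x + u, ⟨(K.F b _).add_mem h1 (K.F_mono a b hab _ hu1), ?_⟩,
        u, hu1, by f2⟩
      show K.X.d j (x + u) ∈ K.F 0 j
      rw [map_add]; exact hu2
    · intro h
      obtain ⟨x1, hx1, u, hu, rfl⟩ := Submodule.mem_sup.1 h
      rw [map_add]
      exact (Bd (K.F 0) (K.F a) j).add_mem (Bd_base j hx1.2)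
        (Submodule.mem_sup_left ⟨u, hu, rfl⟩)

/-- `L_0 / R_0 = 0` -/
theorem deaths_zero {a b : ℝ} :
    rd (Rr K a b 0) (Zc (K.F a) (K.F b) 0) = 0 := by
  refine rd_of_le ?_
  intro x hx
  exact Submodule.mem_sup_left hx

/-- finite births and deaths, degree by degree -/
theorem births {a b : ℝ} (h0 : 0 ≤ a) (hab : a ≤ b) (j : ℕ) :
    rd (Bd (K.F 0) (K.F b) j) (P K b j) + rd (Rr K a b (j + 1)) (Zc (K.F a) (K.F b) (j + 1)) =
      rd (Bd (K.F 0) (K.F a) j) (P K a j) + rd (Bd (K.F a) (K.F b) j) (R0 K a b j) := by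
  have hb0 := h0.trans hab
  have hBb := Bd_le_P K hb0 j
  have hPa : P K a j ≤ P K b j := P_mono K hab j
  have e1 : rd (Bd (K.F 0) (K.F b) j) (P K b j) =
      rd (Bd (K.F 0) (K.F b) j ⊓ P K a j) (P K a j) +
        rd (Bd (K.F 0) (K.F b) j ⊔ P K a j) (P K b j) := by
    rw [rd_trans (Q := Bd (K.F 0) (K.F b) j ⊔ P K a j) le_sup_left (sup_le hBb hPa), rd_sup, rd_inf]
  have e2 : rd (Bd (K.F 0) (K.F a) j) (P K a j) =
      rd (Bd (K.F 0) (K.F a) j) (Bd (K.F 0) (K.F b) j ⊓ P K a j) +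
        rd (Bd (K.F 0) (K.F b) j ⊓ P K a j) (P K a j) := by
    refine rd_trans (le_inf ?_ (Bd_le_P K h0 j)) inf_le_right
    exact Bd_mono (fun _ => le_rfl) (K.F_mono a b hab) j
  have e3 : rd (Bd (K.F a) (K.F b) j) (R0 K a b j) =
      rd (Bd (K.F 0) (K.F b) j ⊔ P K a j) (P K b j) := by
    rw [← Bd_sup K h0]
    show rd (Bd (K.F 0) (K.F b) j ⊔ K.F a j) (P K b j ⊔ K.F a j) = _
    rw [rd_sup' hBb, P_inf K hab]
  rw [e1, e2, e3, deaths K h0 hab]
  rw [add_comm (rd (Bd (K.F 0) (K.F b) j ⊓ P K a j) (P K a j)), add_assoc, add_comm]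
  congr 1
  rw [add_comm]

/-- bound of the degrees for a pair -/
theorem bdd_pair {a b : ℝ} (h0 : 0 ≤ a) (hab : a ≤ b) {M : ℕ}
    (hMa : ∀ j, M ≤ j → Zc (K.F 0) (K.F a) j ≤ Bd (K.F 0) (K.F a) j)
    (hMb : ∀ j, M ≤ j → Zc (K.F 0) (K.F b) j ≤ Bd (K.F 0) (K.F b) j)
    {j : ℕ} (hj : M + 1 ≤ j) : Zc (K.F a) (K.F b) j ≤ Bd (K.F a) (K.F b) j := by
  obtain ⟨i, rfl⟩ : ∃ i, j = i + 1 := ⟨j - 1, by omega⟩
  rintro x ⟨h1, h2⟩
  have h3 : K.X.d i x ∈ Zc (K.F 0) (K.F a) i := by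
    cases i with
    | zero => exact h2
    | succ k => exact ⟨h2, by
        show K.X.d k (K.X.d (k + 1) x) ∈ K.F 0 k
        rw [K.X.dd]; exact Submodule.zero_mem _⟩
  obtain ⟨u, hu1, hu2⟩ := mem_Bd.1 (hMa i (by omega) h3)
  have h4 : x + u ∈ Zc (K.F 0) (K.F b) (i + 1) := by
    refine ⟨(K.F b _).add_mem h1 (K.F_mono a b hab _ hu1), ?_⟩
    show K.X.d i (x + u) ∈ K.F 0 i
    rw [map_add]; exact hu2
  have h5 := Bd_mono (K.F_mono 0 a h0) (fun _ => le_rfl) (i + 1) (hMb (i + 1) (by omega) h4)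
  have e : x = (x + u) + u := by f2
  rw [e]; exact (Bd (K.F a) (K.F b) (i + 1)).add_mem h5 (Bd_base (i + 1) hu1)

/-- finiteness for a pair -/
theorem fin_pair {a b : ℝ} (h0 : 0 ≤ a) (hab : a ≤ b) (ha : a ∉ K.Crit) (hb : b ∉ K.Crit) (j : ℕ) :
    rd (Bd (K.F a) (K.F b) j) (Zc (K.F a) (K.F b) j) ≠ ⊤ := by
  rw [rd_trans (Bd_le_Rr K h0 hab j) (Rr_le_Zc K h0 hab j)]
  have h1 : rd (Bd (K.F a) (K.F b) j) (Rr K a b j) ≠ ⊤ := by
    have : rd (Bd (K.F a) (K.F b) j) (Rr K a b j) ≤ rd (Bd (K.F 0) (K.F b) j) (Zc (K.F 0) (K.F b) j) := by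
      rw [← Bd_sup K h0]
      show rd (Bd (K.F 0) (K.F b) j ⊔ K.F a j) (Zc (K.F 0) (K.F b) j ⊔ K.F a j) ≤ _
      rw [rd_sup' (Bd_le_Zc (K.F_stab 0) (K.F_stab b) (K.F_mono 0 b (h0.trans hab)) j)]
      exact rd_anti le_sup_left
    exact ne_top_of_le_ne_top (K.fin b (h0.trans hab) hb j) this
  have h2 : rd (Rr K a b j) (Zc (K.F a) (K.F b) j) ≠ ⊤ := by
    cases j with
    | zero => rw [deaths_zero]; exact ENat.zero_ne_top
    | succ i =>
      rw [deaths K h0 hab]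
      refine ne_top_of_le_ne_top (K.fin a h0 ha i) ?_
      exact rd_mono (inf_le_right.trans (P_le_Zc K i))
  exact WithTop.add_ne_top.2 ⟨h1, h2⟩

/-! ## the function `f(t) = dim K_σ(t)` -/

theorem KS_pos {t : ℝ} {j : ℕ} (h : j % 2 = K.σ % 2) : KS K t j = P K t j := if_pos h
theorem KS_neg {t : ℝ} {j : ℕ} (h : j % 2 ≠ K.σ % 2) : KS K t j = Bd (K.F 0) (K.F t) j := if_neg h

theorem Bd_le_KS {t : ℝ} (h0 : 0 ≤ t) (j : ℕ) : Bd (K.F 0) (K.F t) j ≤ KS K t j := by
  by_cases h : j % 2 = K.σ % 2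
  · rw [KS_pos K h]; exact Bd_le_P K h0 j
  · rw [KS_neg K h]

theorem KS_le_Zc {t : ℝ} (h0 : 0 ≤ t) (j : ℕ) : KS K t j ≤ Zc (K.F 0) (K.F t) j := by
  by_cases h : j % 2 = K.σ % 2
  · rw [KS_pos K h]; exact P_le_Zc K j
  · rw [KS_neg K h]; exact Bd_le_Zc (K.F_stab 0) (K.F_stab t) (K.F_mono 0 t h0) j

theorem KS_le_P {t : ℝ} (h0 : 0 ≤ t) (j : ℕ) : KS K t j ≤ P K t j := by
  by_cases h : j % 2 = K.σ % 2
  · rw [KS_pos K h]
  · rw [KS_neg K h]; exact Bd_le_P K h0 j

/-- `f(t) = dim K_σ(t)` -/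
noncomputable def f (t : ℝ) : ℕ∞ := rd (Pi (Bd (K.F 0) (K.F t))) (Pi (KS K t))

theorem f_sum {t : ℝ} (h0 : 0 ≤ t) {M : ℕ}
    (hM : ∀ j, M ≤ j → Zc (K.F 0) (K.F t) j ≤ Bd (K.F 0) (K.F t) j) :
    f K t = ∑ j ∈ Finset.range M,
      (if j % 2 = K.σ % 2 then rd (Bd (K.F 0) (K.F t) j) (P K t j) else 0) := by
  unfold f
  rw [rd_Pi (Bd_le_KS K h0) M (fun j hj => (KS_le_Zc K h0 j).trans (hM j hj))]
  refine Finset.sum_congr rfl fun j _ => ?_
  by_cases h : j % 2 = K.σ % 2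
  · rw [if_pos h, KS_pos K h]
  · rw [if_neg h, KS_neg K h, rd_self]

theorem f_le : ∃ C0 : ℕ, ∀ t : ℝ, 0 ≤ t → t ∉ K.Crit → f K t ≤ C0 := by
  obtain ⟨C0, hC⟩ := K.A2
  refine ⟨C0, fun t h0 h => ?_⟩
  obtain ⟨M, hM⟩ := K.bdd t h0 h
  rw [f_sum K h0 hM]
  refine le_trans (Finset.sum_le_sum fun j _ => ?_) (hC t h0 h M)
  by_cases h : j % 2 = K.σ % 2
  · rw [if_pos h]; exact le_rfl
  · rw [if_neg h]; exact bot_le

theorem P_fin {t : ℝ} (h0 : 0 ≤ t) (h : t ∉ K.Crit) (j : ℕ) :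
    rd (Bd (K.F 0) (K.F t) j) (P K t j) ≠ ⊤ :=
  ne_top_of_le_ne_top (K.fin t h0 h j) (rd_mono (P_le_Zc K j))

/-- (*) summed over the parity `σ`: `l_{σ+1} - r_{σ+1} = r0_σ` if `f(a) = f(b)` -/
theorem star {a b : ℝ} (h0 : 0 ≤ a) (hab : a ≤ b) (ha : a ∉ K.Crit) (hb : b ∉ K.Crit)
    (hf : f K a = f K b) {M n : ℕ}
    (hMa : ∀ j, M ≤ j → Zc (K.F 0) (K.F a) j ≤ Bd (K.F 0) (K.F a) j)
    (hMb : ∀ j, M ≤ j → Zc (K.F 0) (K.F b) j ≤ Bd (K.F 0) (K.F b) j) (hn : M < n) :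
    ∑ j ∈ Finset.range (n + 1), (if j % 2 ≠ K.σ % 2 then
      rd (Rr K a b j) (Zc (K.F a) (K.F b) j) else 0) =
    ∑ j ∈ Finset.range (n + 1), (if j % 2 = K.σ % 2 then
      rd (Bd (K.F a) (K.F b) j) (R0 K a b j) else 0) := by
  have hb0 := h0.trans hab
  -- shift the first sum
  have e1 : ∑ j ∈ Finset.range (n + 1), (if j % 2 ≠ K.σ % 2 then
      rd (Rr K a b j) (Zc (K.F a) (K.F b) j) else 0) =
      ∑ j ∈ Finset.range n, (if j % 2 = K.σ % 2 then
        rd (Rr K a b (j + 1)) (Zc (K.F a) (K.F b) (j + 1)) else 0) := by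
    rw [Finset.sum_range_succ']
    have : (if 0 % 2 ≠ K.σ % 2 then rd (Rr K a b 0) (Zc (K.F a) (K.F b) 0) else 0) = 0 := by
      by_cases h : 0 % 2 ≠ K.σ % 2
      · rw [if_pos h, deaths_zero]
      · rw [if_neg h]
    rw [this, add_zero]
    refine Finset.sum_congr rfl fun j _ => ?_
    by_cases h : j % 2 = K.σ % 2
    · rw [if_pos (by omega), if_pos h]
    · rw [if_neg (by omega), if_neg h]
  have e2 : ∑ j ∈ Finset.range (n + 1), (if j % 2 = K.σ % 2 then
      rd (Bd (K.F a) (K.F b) j) (R0 K a b j) else 0) =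
      ∑ j ∈ Finset.range n, (if j % 2 = K.σ % 2 then
      rd (Bd (K.F a) (K.F b) j) (R0 K a b j) else 0) := by
    rw [Finset.sum_range_succ]
    have : (if n % 2 = K.σ % 2 then rd (Bd (K.F a) (K.F b) n) (R0 K a b n) else 0) = 0 := by
      by_cases h : n % 2 = K.σ % 2
      · rw [if_pos h]
        refine rd_of_le ((R0_le_Zc K h0 hab n).trans ?_)
        exact bdd_pair K h0 hab hMa hMb (by omega)
      · rw [if_neg h]
    rw [this, add_zero]
  rw [e1, e2]
  -- sum of `births`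
  have e3 : ∑ j ∈ Finset.range n, (if j % 2 = K.σ % 2 then
        rd (Bd (K.F 0) (K.F b) j) (P K b j) else 0) +
      ∑ j ∈ Finset.range n, (if j % 2 = K.σ % 2 then
        rd (Rr K a b (j + 1)) (Zc (K.F a) (K.F b) (j + 1)) else 0) =
      ∑ j ∈ Finset.range n, (if j % 2 = K.σ % 2 then
        rd (Bd (K.F 0) (K.F a) j) (P K a j) else 0) +
      ∑ j ∈ Finset.range n, (if j % 2 = K.σ % 2 then
        rd (Bd (K.F a) (K.F b) j) (R0 K a b j) else 0) := by
    rw [← Finset.sum_add_distrib, ← Finset.sum_add_distrib]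
    refine Finset.sum_congr rfl fun j _ => ?_
    by_cases h : j % 2 = K.σ % 2
    · rw [if_pos h, if_pos h, if_pos h, if_pos h]; exact births K h0 hab j
    · rw [if_neg h, if_neg h, if_neg h, if_neg h]
  rw [← f_sum K hb0 (fun j hj => hMb j (by omega)),
    ← f_sum K h0 (fun j hj => hMa j (by omega)), hf] at e3
  obtain ⟨C0, hC⟩ := f_le K
  have hfin : f K b ≠ ⊤ := ne_top_of_le_ne_top (ENat.natCast_ne_top C0) (hC b hb0 hb)
  exact ENat.add_right_injective_of_ne_top hfin e3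

/-- `f` is constant on non-critical intervals -/
theorem f_const {a b : ℝ} (h0 : 0 ≤ a) (hab : a ≤ b)
    (h : ∀ s ∈ K.Crit, ¬ (a ≤ s ∧ s ≤ b)) : f K a = f K b := by
  have ha : a ∉ K.Crit := fun ha => h a ha ⟨le_rfl, hab⟩
  have hb : b ∉ K.Crit := fun hb => h b hb ⟨hab, le_rfl⟩
  have hac := K.noncrit a b h0 hab h
  have hb0 := h0.trans hab
  obtain ⟨M1, hM1⟩ := K.bdd a h0 ha
  obtain ⟨M2, hM2⟩ := K.bdd b hb0 hb
  rw [f_sum K h0 (M := max M1 M2) (fun j hj => hM1 j (le_trans (le_max_left _ _) hj)),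
    f_sum K hb0 (M := max M1 M2) (fun j hj => hM2 j (le_trans (le_max_right _ _) hj))]
  refine Finset.sum_congr rfl fun j _ => ?_
  by_cases h : j % 2 = K.σ % 2
  · rw [if_pos h, if_pos h]
    have := births K h0 hab j
    rw [rd_of_le ((hac (j + 1)).trans (Bd_le_Rr K h0 hab (j + 1))),
      rd_of_le ((R0_le_Zc K h0 hab j).trans (hac j)), add_zero, add_zero] at this
    exact this.symm
  · rw [if_neg h, if_neg h]

end Crest.Agent.R231.AlgLevx978
end

-- ▼ part R231/AlgMono_978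
section

/-!
# Row 231, block A: `t₀`, Smith monotonicity and its equality case  (helper978)
-/

set_option autoImplicit false

namespace Crest.Agent.R231.AlgMonox978

open Crest.Agent.R231.IfAx978 Crest.Agent.R231.AlgRdx978
open Crest.Agent.R231.AlgTatex978 Crest.Agent.R231.AlgCountx978 Crest.Agent.R231.AlgEulerx978
open Crest.Agent.R231.AlgPairx978 Crest.Agent.R231.AlgPairx978.Base Crest.Agent.R231.AlgLevx978
open Crest.Agent.R231.AlgDefx978 (LT mem_LT)
open Crest.Agent.R231.AlgDefx978.Core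

variable (K : Core)

/-- non-critical levels above any given level -/
theorem exists_noncrit (T : ℝ) : ∃ t, T < t ∧ t ∉ K.Crit := by
  by_contra h
  push Not at h
  have hsub : Set.Ioo T (T + 1) ⊆ K.Crit ∩ Set.Iic (T + 1) := fun t ht => ⟨h t ht.1, ht.2.le⟩
  exact (Set.Ioo_infinite (by linarith : T < T + 1)) ((K.Crit_fin (T + 1)).subset hsub)

/-! ## bounded `ℕ∞`-valued functions have a maximum -/

theorem exists_max {S : Set ℝ} (hS : S.Nonempty) (h : ℝ → ℕ∞) {C : ℕ} (hC : ∀ t ∈ S, h t ≤ C) :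
    ∃ t ∈ S, ∀ t' ∈ S, h t' ≤ h t := by
  -- induction on the bound
  induction C with
  | zero =>
    obtain ⟨t, ht⟩ := hS
    exact ⟨t, ht, fun t' ht' => (hC t' ht').trans (by simp)⟩
  | succ C ih =>
    by_cases hh : ∀ t ∈ S, h t ≤ C
    · exact ih hh
    · push Not at hh
      obtain ⟨t, ht, htC⟩ := hh
      refine ⟨t, ht, fun t' ht' => (hC t' ht').trans ?_⟩
      have := Order.add_one_le_of_lt htC
      exact_mod_cast this

/-! ## the level `t₀` -/

/-- `Bd (F 0) ⊤` enlarged by `B^∞(t)` in parity `σ` -/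
noncomputable def V (t : ℝ) : GS K.X := fun j =>
  if j % 2 = K.σ % 2 then Binf (K.F 0) (K.F t) j ⊔ Bd (K.F 0) ⊤ j else Bd (K.F 0) ⊤ j

theorem V_pos {t : ℝ} {j : ℕ} (h : j % 2 = K.σ % 2) :
    V K t j = Binf (K.F 0) (K.F t) j ⊔ Bd (K.F 0) ⊤ j := if_pos h
theorem V_neg {t : ℝ} {j : ℕ} (h : j % 2 ≠ K.σ % 2) : V K t j = Bd (K.F 0) ⊤ j := if_neg h

theorem V_mono {s t : ℝ} (h : s ≤ t) (j : ℕ) : V K s j ≤ V K t j := by
  by_cases hj : j % 2 = K.σ % 2
  · rw [V_pos K hj, V_pos K hj]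
    exact sup_le_sup_right (Binf_mono (fun _ => le_rfl) (K.F_mono s t h) j) _
  · rw [V_neg K hj, V_neg K hj]

theorem Bd_le_V (t : ℝ) (j : ℕ) : Bd (K.F 0) ⊤ j ≤ V K t j := by
  by_cases hj : j % 2 = K.σ % 2
  · rw [V_pos K hj]; exact le_sup_right
  · rw [V_neg K hj]

theorem V_bdd {t : ℝ} (h0 : 0 ≤ t) {j : ℕ} (hj : Zc (K.F 0) (K.F t) j ≤ Bd (K.F 0) (K.F t) j) :
    V K t j ≤ Bd (K.F 0) ⊤ j := by
  by_cases h : j % 2 = K.σ % 2
  · rw [V_pos K h]
    refine sup_le ?_ le_rfl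
    exact ((Binf_le_Zc (K.F_stab 0) (K.F_stab t) (K.F_mono 0 t h0) j).trans hj).trans
      (Bd_mono (fun _ => le_rfl) (fun _ => le_top) j)
  · rw [V_neg K h]

/-- `h(t)` = dimension of the image of `B^∞_σ(t)` in `N_σ(∞)` -/
noncomputable def hh (t : ℝ) : ℕ∞ := rd (Pi (Bd (K.F 0) ⊤)) (Pi (V K t))

theorem hh_le : ∃ C2 : ℕ, ∀ t : ℝ, 0 ≤ t → t ∉ K.Crit → hh K t ≤ C2 := by
  obtain ⟨C2, hC⟩ := K.A1
  refine ⟨C2, fun t h0 h => ?_⟩
  obtain ⟨M, hM⟩ := K.bdd t h0 h
  unfold hh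
  rw [rd_Pi (Bd_le_V K t) M (fun j hj => V_bdd K h0 (hM j hj))]
  refine le_trans (Finset.sum_le_sum fun j _ => ?_) (hC t h0 h M)
  by_cases h : j % 2 = K.σ % 2
  · rw [if_pos h, V_pos K h, sup_comm, rd_sup]
    exact rd_anti (Bd_mono (fun _ => le_rfl) (fun _ => le_top) j)
  · rw [if_neg h, V_neg K h, rd_self]

theorem exists_t0 : ∃ t0 : ℝ, 0 < t0 ∧ t0 ∉ K.Crit ∧
    ∀ t, t0 ≤ t → t ∉ K.Crit → ∀ j, V K t j ≤ V K t0 j := by
  obtain ⟨C2, hC⟩ := hh_le K
  obtain ⟨t1, ht1, ht1c⟩ := exists_noncrit K 0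
  obtain ⟨t0, ⟨h0, h0c⟩, hmax⟩ := exists_max (S := {t | 0 < t ∧ t ∉ K.Crit}) ⟨t1, ht1, ht1c⟩ (hh K)
    (fun t ht => hC t ht.1.le ht.2)
  refine ⟨t0, h0, h0c, fun t ht htc j => ?_⟩
  have hpos : 0 < t := h0.trans_le ht
  have h1 : hh K t ≤ hh K t0 := hmax t ⟨hpos, htc⟩
  have hle : Pi (V K t0) ≤ Pi (V K t) := fun v hv => mem_Pi.2 fun j => V_mono K ht j (mem_Pi.1 hv j)
  have hb : Pi (Bd (K.F 0) ⊤) ≤ Pi (V K t0) :=
    fun v hv => mem_Pi.2 fun j => Bd_le_V K t0 j (mem_Pi.1 hv j)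
  have h2 : hh K t = hh K t0 + rd (Pi (V K t0)) (Pi (V K t)) := rd_trans hb hle
  have hfin : hh K t0 ≠ ⊤ := ne_top_of_le_ne_top (ENat.natCast_ne_top C2) (hC t0 h0.le h0c)
  have h3 : rd (Pi (V K t0)) (Pi (V K t)) = 0 := by
    rw [h2] at h1
    have h4 : hh K t0 + rd (Pi (V K t0)) (Pi (V K t)) ≤ hh K t0 + 0 := by rw [add_zero]; exact h1
    exact le_antisymm ((ENat.addLECancellable_of_ne_top hfin) h4) bot_le
  have h5 := rd_eq_zero.1 h3
  intro x hx
  have h6 : sg j x ∈ Pi (V K t) := mem_Pi.2 (fun i => sg_mem hx i)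
  have h7 := mem_Pi.1 (h5 h6) j
  rwa [sg_same] at h7

/-- `B^∞_σ(∞)` is reached at the level `t₀` -/
theorem Binf_top {t0 : ℝ} (ht0 : ∀ t, t0 ≤ t → t ∉ K.Crit → ∀ j, V K t j ≤ V K t0 j)
    {j : ℕ} (hj : j % 2 = K.σ % 2) :
    Binf (K.F 0) ⊤ j ≤ Binf (K.F 0) (K.F t0) j ⊔ Bd (K.F 0) ⊤ j := by
  rintro x ⟨c, _, h2, h3⟩
  -- the relevant components live at a finite level
  choose T hT using fun i => K.F_exh i (c i)
  have hsum : ∀ i, i < j + 2 → T i ≤ ∑ i ∈ Finset.range (j + 2), |T i| := by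
    intro i hi
    refine (le_abs_self _).trans ?_
    exact Finset.single_le_sum (f := fun i => |T i|) (fun _ _ => abs_nonneg _)
      (Finset.mem_range.2 hi)
  have key : x ∈ Binf (K.F 0) (K.F (∑ i ∈ Finset.range (j + 2), |T i|)) j := by
    refine ⟨fun i => if i < j + 2 then c i else 0, fun i => ?_, fun i hi => ?_, ?_⟩
    · by_cases h : i < j + 2
      · simp only [if_pos h]
        exact K.F_mono (T i) _ (hsum i h) i (hT i)
      · simp only [if_neg h]; exact Submodule.zero_mem _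
    · have e : DD (fun i => if i < j + 2 then c i else 0) i = DD c i :=
        DD_congr (fun k hk => if_pos (by omega))
      rw [e]; exact h2 i hi
    · have e : DD (fun i => if i < j + 2 then c i else 0) j = DD c j :=
        DD_congr (fun k hk => if_pos (by omega))
      rw [e]; exact h3
  obtain ⟨t2, ht2, ht2c⟩ := exists_noncrit K (max t0 (∑ i ∈ Finset.range (j + 2), |T i|))
  have h5 : x ∈ V K t2 j := by
    rw [V_pos K hj]
    exact Submodule.mem_sup_left (Binf_mono (fun _ => le_rfl)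
      (K.F_mono _ _ ((le_max_right _ _).trans ht2.le)) j key)
  have h6 := ht0 t2 ((le_max_left _ _).trans ht2.le) ht2c j h5
  rwa [V_pos K hj] at h6

/-- leading terms of the half level finite classes -/
theorem LT_KS {t0 : ℝ} (ht0 : ∀ t, t0 ≤ t → t ∉ K.Crit → ∀ j, V K t j ≤ V K t0 j)
    {t : ℝ} (h0 : 0 ≤ t) (ht : t0 ≤ t) {j : ℕ} (hj : j % 2 = K.σ % 2) :
    LT K.psi (K.F 0) (K.F t) (KS K (t / 2)) j ≤ P K t j ⊔ Binf (K.F 0) (K.F t) j := by
  rintro x ⟨hx, y, c, h1, h2, h3, h4⟩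
  -- `psi y` is a Tate boundary in the whole space
  have hy : ∀ i, y i ∈ Bd (K.F 0) ⊤ i := fun i =>
    P_le_Bd K _ i (KS_le_P K (by linarith) i (h1 i))
  have hy' : ∀ i, ∃ z ∈ (⊤ : GS K.X) (i + 1), y i + K.X.d i z ∈ K.F 0 i := fun i => mem_Bd.1 (hy i)
  choose z _ hz using hy'
  have hDZ : ∀ i, K.psi i (y i) + DD (psiP K.psi (shf z)) i ∈ K.F 0 i := by
    intro i
    rw [DD_psi_shf K.d_psi K.De_psi, shf_succ, ← map_add]
    exact psi_zero K.toBase _ _ (hz i)
  have hb : x ∈ Binf (K.F 0) ⊤ j := by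
    refine ⟨c + psiP K.psi (shf z), fun _ => trivial, fun i hi => ?_, ?_⟩
    · have e : DD (c + psiP K.psi (shf z)) i =
          (K.psi i (y i) + DD c i) + (K.psi i (y i) + DD (psiP K.psi (shf z)) i) := by
        rw [map_add, Pi.add_apply]; f2
      rw [e]; exact (K.F 0 i).add_mem (h3 i hi) (hDZ i)
    · have e : x + DD (c + psiP K.psi (shf z)) j =
          (K.psi j (y j) + DD c j + x) + (K.psi j (y j) + DD (psiP K.psi (shf z)) j) := by
        rw [map_add, Pi.add_apply]; f2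
      rw [e]; exact (K.F 0 j).add_mem h4 (hDZ j)
  obtain ⟨b, hb1, u, hu, hbu⟩ := Submodule.mem_sup.1 (Binf_top K ht0 hj hb)
  have hb2 : b ∈ Binf (K.F 0) (K.F t) j := Binf_mono (fun _ => le_rfl) (K.F_mono _ _ ht) j hb1
  have hb3 : b ∈ K.F t j := by
    exact Zc_le j (Binf_le_Zc (K.F_stab 0) (K.F_stab t) (K.F_mono 0 t h0) j hb2)
  have hu2 : u ∈ K.F t j := by
    have e : u = (b + u) + b := by f2
    rw [e, hbu]; exact (K.F t j).add_mem hx hb3
  rw [← hbu, sup_comm]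
  exact Submodule.mem_sup.2 ⟨b, hb2, u, ⟨hu2, hu⟩, rfl⟩

/-- termwise comparison behind `f(t/2) ≤ f(t)` -/
theorem term_le {t0 : ℝ} (ht0 : ∀ t, t0 ≤ t → t ∉ K.Crit → ∀ j, V K t j ≤ V K t0 j)
    {t : ℝ} (h0 : 0 ≤ t) (ht : t0 ≤ t) {j : ℕ} (hj : j % 2 = K.σ % 2) :
    rd (Binf (K.F 0) (K.F t) j) (LT K.psi (K.F 0) (K.F t) (KS K (t / 2)) j) ≤
      rd (Bd (K.F 0) (K.F t) j) (P K t j) := by
  refine (rd_mono (LT_KS K ht0 h0 ht hj)).trans ?_
  rw [sup_comm, rd_sup]
  exact rd_anti (Bd_le_Binf j)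

theorem f_half_sum {t : ℝ} (h0 : 0 ≤ t) (hc : t ∉ K.Crit) {M : ℕ}
    (hM : ∀ j, M ≤ j → Zc (K.F 0) (K.F t) j ≤ Bd (K.F 0) (K.F t) j) :
    f K (t / 2) = ∑ m ∈ Finset.range M, (if m % 2 = K.σ % 2 then
      rd (Binf (K.F 0) (K.F t) m) (LT K.psi (K.F 0) (K.F t) (KS K (t / 2)) m) else 0) := by
  have h2 : (0 : ℝ) ≤ t / 2 := by linarith
  unfold f
  rw [LTcount (ph_abs K.toBase h0 hc) hM (fun j => Bd_le_KS K h2 j) (fun j => KS_le_Zc K h2 j)]
  refine Finset.sum_congr rfl fun m _ => ?_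
  by_cases h : m % 2 = K.σ % 2
  · rw [if_pos h]
  · rw [if_neg h]
    refine rd_of_le (LT_par (ph_abs K.toBase h0 hc) (p := K.σ) (fun j hj => ?_) h)
    rw [KS_neg K hj]

/-- Smith monotonicity -/
theorem f_half_le {t0 : ℝ} (ht0 : ∀ t, t0 ≤ t → t ∉ K.Crit → ∀ j, V K t j ≤ V K t0 j)
    {t : ℝ} (h0 : 0 ≤ t) (ht : t0 ≤ t) (hc : t ∉ K.Crit) : f K (t / 2) ≤ f K t := by
  obtain ⟨M, hM⟩ := K.bdd t h0 hc
  rw [f_half_sum K h0 hc hM, f_sum K h0 hM]
  refine Finset.sum_le_sum fun j _ => ?_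
  by_cases h : j % 2 = K.σ % 2
  · rw [if_pos h, if_pos h]; exact term_le K ht0 h0 ht h
  · rw [if_neg h, if_neg h]

/-- equality of finite sums with termwise `≤` -/
theorem sum_eq_term {M : ℕ} {u v : ℕ → ℕ∞} (hle : ∀ i, i < M → u i ≤ v i)
    (hv : ∀ i, i < M → v i ≠ ⊤)
    (h : ∑ i ∈ Finset.range M, v i ≤ ∑ i ∈ Finset.range M, u i) : ∀ i, i < M → u i = v i := by
  induction M with
  | zero => intro i hi; exact absurd hi (by omega)
  | succ M ih =>
    rw [Finset.sum_range_succ, Finset.sum_range_succ] at h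
    have h1 : ∑ i ∈ Finset.range M, u i ≤ ∑ i ∈ Finset.range M, v i :=
      Finset.sum_le_sum fun i hi => hle i (by have := Finset.mem_range.1 hi; omega)
    have hvM := hv M (by omega)
    have hS : ∑ i ∈ Finset.range M, v i ≠ ⊤ := by
      have : ∀ N, N ≤ M → ∑ i ∈ Finset.range N, v i ≠ ⊤ := by
        intro N
        induction N with
        | zero => intro _; simp
        | succ N ihN =>
          intro hN
          rw [Finset.sum_range_succ]
          exact WithTop.add_ne_top.2 ⟨ihN (by omega), hv N (by omega)⟩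
      exact this M le_rfl
    have hM1 : v M ≤ u M := by
      have h2 : ∑ i ∈ Finset.range M, v i + v M ≤ ∑ i ∈ Finset.range M, v i + u M :=
        h.trans (by gcongr)
      exact (ENat.addLECancellable_of_ne_top hS) h2
    have hM2 : ∑ i ∈ Finset.range M, v i ≤ ∑ i ∈ Finset.range M, u i := by
      have h2 : v M + ∑ i ∈ Finset.range M, v i ≤ v M + ∑ i ∈ Finset.range M, u i := by
        rw [add_comm, add_comm (v M)]
        exact h.trans (by gcongr; exact hle M (by omega))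
      exact (ENat.addLECancellable_of_ne_top hvM) h2
    intro i hi
    rcases Nat.lt_succ_iff_lt_or_eq.1 hi with h3 | h3
    · exact ih (fun i hi => hle i (by omega)) (fun i hi => hv i (by omega)) hM2 i h3
    · subst h3; exact le_antisymm (hle i (by omega)) hM1

/-- the equality case `f(t/2) = f(t)`: (R1') and (R4') -/
theorem f_half_eq {t0 : ℝ} (ht0 : ∀ t, t0 ≤ t → t ∉ K.Crit → ∀ j, V K t j ≤ V K t0 j)
    {t : ℝ} (h0 : 0 ≤ t) (ht : t0 ≤ t) (hc : t ∉ K.Crit) (heq : f K (t / 2) = f K t)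
    {j : ℕ} (hj : j % 2 = K.σ % 2) :
    Binf (K.F 0) (K.F t) j ⊓ P K t j ≤ Bd (K.F 0) (K.F t) j ∧
    P K t j ⊔ Binf (K.F 0) (K.F t) j ≤ LT K.psi (K.F 0) (K.F t) (KS K (t / 2)) j := by
  obtain ⟨M', hM'⟩ := K.bdd t h0 hc
  have hM : ∀ i, max M' (j + 1) ≤ i → Zc (K.F 0) (K.F t) i ≤ Bd (K.F 0) (K.F t) i :=
    fun i hi => hM' i (le_trans (le_max_left _ _) hi)
  have hsum : f K t ≤ f K (t / 2) := heq.ge
  rw [f_half_sum K h0 hc hM, f_sum K h0 hM] at hsum
  have hterm := sum_eq_term (fun i _ => ?_) (fun i _ => ?_) hsum j (by omega)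
  · rw [if_pos hj, if_pos hj] at hterm
    have hPfin := P_fin K h0 hc j
    -- chain of inequalities
    have c1 : rd (Binf (K.F 0) (K.F t) j) (LT K.psi (K.F 0) (K.F t) (KS K (t / 2)) j) ≤
        rd (Binf (K.F 0) (K.F t) j) (P K t j ⊔ Binf (K.F 0) (K.F t) j) :=
      rd_mono (LT_KS K ht0 h0 ht hj)
    have c2 : rd (Binf (K.F 0) (K.F t) j) (P K t j ⊔ Binf (K.F 0) (K.F t) j) =
        rd (Binf (K.F 0) (K.F t) j) (P K t j) := by rw [sup_comm, rd_sup]
    have c3 : rd (Binf (K.F 0) (K.F t) j) (P K t j) ≤ rd (Bd (K.F 0) (K.F t) j) (P K t j) :=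
      rd_anti (Bd_le_Binf j)
    have c4 : rd (Bd (K.F 0) (K.F t) j) (P K t j) =
        rd (Bd (K.F 0) (K.F t) j) (Binf (K.F 0) (K.F t) j ⊓ P K t j) +
          rd (Binf (K.F 0) (K.F t) j ⊓ P K t j) (P K t j) :=
      rd_trans (le_inf (Bd_le_Binf j) (Bd_le_P K h0 j)) inf_le_right
    have c5 : rd (Binf (K.F 0) (K.F t) j) (P K t j) = rd (Bd (K.F 0) (K.F t) j) (P K t j) := by
      apply le_antisymm c3
      rw [← hterm, ← c2]; exact c1
    constructor
    · rw [rd_inf, c5] at c4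
      have : rd (Bd (K.F 0) (K.F t) j) (Binf (K.F 0) (K.F t) j ⊓ P K t j) = 0 := by
        have h5 : rd (Bd (K.F 0) (K.F t) j) (P K t j) +
            rd (Bd (K.F 0) (K.F t) j) (Binf (K.F 0) (K.F t) j ⊓ P K t j) ≤
            rd (Bd (K.F 0) (K.F t) j) (P K t j) + 0 := by
          rw [add_zero, add_comm]; exact c4.ge
        exact le_antisymm ((ENat.addLECancellable_of_ne_top hPfin) h5) bot_le
      exact rd_eq_zero.1 this
    · have c6 : rd (Binf (K.F 0) (K.F t) j) (P K t j ⊔ Binf (K.F 0) (K.F t) j) =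
          rd (Binf (K.F 0) (K.F t) j) (LT K.psi (K.F 0) (K.F t) (KS K (t / 2)) j) +
          rd (LT K.psi (K.F 0) (K.F t) (KS K (t / 2)) j) (P K t j ⊔ Binf (K.F 0) (K.F t) j) :=
        rd_trans (Binf_le_LT (K.F_mono 0 t h0) (K.F_stab t) j) (LT_KS K ht0 h0 ht hj)
      rw [c2, c5, hterm] at c6
      have : rd (LT K.psi (K.F 0) (K.F t) (KS K (t / 2)) j)
          (P K t j ⊔ Binf (K.F 0) (K.F t) j) = 0 := by
        have h5 : rd (Bd (K.F 0) (K.F t) j) (P K t j) +
            rd (LT K.psi (K.F 0) (K.F t) (KS K (t / 2)) j) (P K t j ⊔ Binf (K.F 0) (K.F t) j) ≤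
            rd (Bd (K.F 0) (K.F t) j) (P K t j) + 0 := by
          rw [add_zero]; exact c6.ge
        exact le_antisymm ((ENat.addLECancellable_of_ne_top hPfin) h5) bot_le
      exact rd_eq_zero.1 this
  · by_cases h : i % 2 = K.σ % 2
    · simp only [if_pos h]; exact term_le K ht0 h0 ht h
    · simp only [if_neg h]; exact le_rfl
  · by_cases h : i % 2 = K.σ % 2
    · simp only [if_pos h]; exact P_fin K h0 hc i
    · simp only [if_neg h]; exact ENat.zero_ne_top

end Crest.Agent.R231.AlgMonox978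
end

-- ▼ part R231/AlgForce_978
section

/-!
# Row 231, block A: the region, local count, forcing  (helper978)
-/

set_option autoImplicit false

namespace Crest.Agent.R231.AlgForcex978

open Crest.Agent.R231.IfAx978 Crest.Agent.R231.AlgRdx978
open Crest.Agent.R231.AlgTatex978 Crest.Agent.R231.AlgCountx978 Crest.Agent.R231.AlgEulerx978
open Crest.Agent.R231.AlgPairx978 Crest.Agent.R231.AlgPairx978.Base Crest.Agent.R231.AlgLevx978
open Crest.Agent.R231.AlgMonox978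
open Crest.Agent.R231.AlgDefx978 (LT mem_LT)
open Crest.Agent.R231.AlgDefx978.Core

variable (K : Core)

theorem SR_pos {a b : ℝ} {j : ℕ} (h : j % 2 = K.σ % 2) : SR K a b j = Bd (K.F a) (K.F b) j :=
  if_pos h
theorem SR_neg {a b : ℝ} {j : ℕ} (h : j % 2 ≠ K.σ % 2) : SR K a b j = Rr K a b j := if_neg h
theorem S0_pos {a b : ℝ} {j : ℕ} (h : j % 2 = K.σ % 2) : S0 K a b j = R0 K a b j := if_pos h
theorem S0_neg {a b : ℝ} {j : ℕ} (h : j % 2 ≠ K.σ % 2) : S0 K a b j = Bd (K.F a) (K.F b) j :=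
  if_neg h

theorem Bd_le_SR {a b : ℝ} (h0 : 0 ≤ a) (hab : a ≤ b) (j : ℕ) :
    Bd (K.F a) (K.F b) j ≤ SR K a b j := by
  by_cases h : j % 2 = K.σ % 2
  · rw [SR_pos K h]
  · rw [SR_neg K h]; exact Bd_le_Rr K h0 hab j

theorem SR_le_Zc {a b : ℝ} (h0 : 0 ≤ a) (hab : a ≤ b) (j : ℕ) :
    SR K a b j ≤ Zc (K.F a) (K.F b) j := by
  by_cases h : j % 2 = K.σ % 2
  · rw [SR_pos K h]
    exact Bd_le_Zc (K.F_stab a) (K.F_stab b) (K.F_mono a b hab) j
  · rw [SR_neg K h]; exact Rr_le_Zc K h0 hab j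

theorem Bd_le_S0 {a b : ℝ} (h0 : 0 ≤ a) (hab : a ≤ b) (j : ℕ) :
    Bd (K.F a) (K.F b) j ≤ S0 K a b j := by
  by_cases h : j % 2 = K.σ % 2
  · rw [S0_pos K h]; exact Bd_le_R0 K h0 hab j
  · rw [S0_neg K h]

theorem S0_le_Zc {a b : ℝ} (h0 : 0 ≤ a) (hab : a ≤ b) (j : ℕ) :
    S0 K a b j ≤ Zc (K.F a) (K.F b) j := by
  by_cases h : j % 2 = K.σ % 2
  · rw [S0_pos K h]; exact R0_le_Zc K h0 hab j
  · rw [S0_neg K h]
    exact Bd_le_Zc (K.F_stab a) (K.F_stab b) (K.F_mono a b hab) j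

theorem Fa_le_LT {a b : ℝ} (hab : a ≤ b) (S : GS K.X) (j : ℕ) :
    K.F a j ≤ LT K.psi (K.F a) (K.F b) S j :=
  ((Bd_base j).trans (Bd_le_Binf j)).trans (Binf_le_LT (K.F_mono a b hab) (K.F_stab b) j)

/-- hypotheses on a level `t` used below: equality case of the monotonicity -/
structure Eq1 (t : ℝ) : Prop where
  inj : ∀ j, j % 2 = K.σ % 2 → Binf (K.F 0) (K.F t) j ⊓ P K t j ≤ Bd (K.F 0) (K.F t) j
  lt : ∀ j, j % 2 = K.σ % 2 →
    P K t j ⊔ Binf (K.F 0) (K.F t) j ≤ LT K.psi (K.F 0) (K.F t) (KS K (t / 2)) j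

/-- finite births are leading terms -/
theorem R0_le_LT {a b : ℝ} (h0 : 0 ≤ a) (hab : a ≤ b) (hE : Eq1 K b) {j : ℕ}
    (hj : j % 2 = K.σ % 2) :
    R0 K a b j ≤ LT K.psi (K.F a) (K.F b) (S0 K (a / 2) (b / 2)) j := by
  refine sup_le ?_ (Fa_le_LT K hab _ j)
  intro x hx
  obtain ⟨hxB, y, c, h1, h2, h3, h4⟩ := hE.lt j hj (Submodule.mem_sup_left hx)
  refine ⟨hxB, y, c, fun i => ?_, h2, fun i hi => K.F_mono 0 a h0 i (h3 i hi),
    K.F_mono 0 a h0 j h4⟩
  by_cases h : i % 2 = K.σ % 2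
  · rw [S0_pos K h]
    have := h1 i
    rw [KS_pos K h] at this
    exact Submodule.mem_sup_left this
  · rw [S0_neg K h]
    have := h1 i
    rw [KS_neg K h] at this
    exact Bd_mono (K.F_mono 0 _ (by linarith)) (fun _ => le_rfl) i this

/-- the successive correction: a relative cycle of degree `m ≡ σ + 1` at level `b` becomes a Tate cycle
after adding things of level `a` -/
theorem correct {t0 a b : ℝ} (ht0 : ∀ t, t0 ≤ t → t ∉ K.Crit → ∀ j, V K t j ≤ V K t0 j)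
    (hta : t0 ≤ a) (h0 : 0 ≤ a) (hab : a ≤ b) (hb : b ∉ K.Crit) (hE : Eq1 K b)
    {m : ℕ} (hm : m % 2 ≠ K.σ % 2) {x : K.X.C m} (hx : x ∈ Zc (K.F 0) (K.F b) m) (n : ℕ) :
    ∃ w : (∀ j, K.X.C j), (∀ j, w j ∈ K.F b j) ∧ (∀ j, j < m → w j ∈ K.F a j) ∧
      w m + x ∈ K.F a m ∧ (∀ j, j % 2 ≠ m % 2 → w j = 0) ∧ ∀ j, j < m + n → DD w j ∈ K.F 0 j := by
  induction n with
  | zero =>
    refine ⟨sg m x, sg_mem (Zc_le m hx), fun j hj => ?_, ?_,
      fun j hj => sg_ne x (by rintro rfl; exact hj rfl), fun j hj => ?_⟩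
    · rw [sg_ne x (by omega)]; exact Submodule.zero_mem _
    · rw [sg_same, add_self2]; exact Submodule.zero_mem _
    · by_cases h : j + 1 < m
      · rw [DD_sg_lt x h]; exact Submodule.zero_mem _
      · obtain rfl : m = j + 1 := by omega
        rw [DD_sg_pred]; exact hx.2
  | succ n ih =>
    obtain ⟨w, h1, h2, h3, h4, h5⟩ := ih
    obtain ⟨q, hq⟩ : ∃ q, q = m + n := ⟨_, rfl⟩
    rw [← hq] at h5
    rw [show m + (n + 1) = q + 1 by omega]
    by_cases hqm : q % 2 = m % 2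
    · -- wrong parity: nothing to do
      refine ⟨w, h1, h2, h3, h4, fun j hj => ?_⟩
      rcases Nat.lt_succ_iff_lt_or_eq.1 hj with h | h
      · exact h5 j h
      · rw [h, DD_wrong (p := m) h4 hqm]; exact Submodule.zero_mem _
    · have hqσ : q % 2 = K.σ % 2 := by omega
      have hqm' : m < q := by
        rcases Nat.lt_or_ge m q with h | h
        · exact h
        · exact absurd (by rw [show q = m by omega]) hqm
      have hB : DD w q ∈ Binf (K.F 0) (K.F b) q :=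
        ⟨w, h1, h5, by rw [add_self2]; exact Submodule.zero_mem _⟩
      -- `V b ≤ V a`
      have hV : V K b q ≤ Binf (K.F 0) (K.F a) q ⊔ Bd (K.F 0) ⊤ q := by
        refine (ht0 b (hta.trans hab) hb q).trans ?_
        refine (V_mono K hta q).trans ?_
        rw [V_pos K hqσ]
      obtain ⟨x1, hx1, β, hβ, hsum⟩ := Submodule.mem_sup.1
        (hV (by rw [V_pos K hqσ]; exact Submodule.mem_sup_left hB))
      obtain ⟨ca, hca1, hca2, hca3⟩ := hx1
      have hx1' : x1 ∈ Binf (K.F 0) (K.F a) q := ⟨ca, hca1, hca2, hca3⟩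
      have hβB : β ∈ Binf (K.F 0) (K.F b) q := by
        have e : β = (x1 + β) + x1 := by f2
        rw [e, hsum]
        exact (Binf (K.F 0) (K.F b) q).add_mem hB
          (Binf_mono (fun _ => le_rfl) (K.F_mono a b hab) q hx1')
      have hβF : β ∈ K.F b q :=
        Zc_le q (Binf_le_Zc (K.F_stab 0) (K.F_stab b) (K.F_mono 0 b (h0.trans hab)) q hβB)
      obtain ⟨u, hu1, hu2⟩ := mem_Bd.1 (hE.inj q hqσ ⟨hβB, hβF, hβ⟩)
      -- the corrected element
      refine ⟨w + pr m ca + sg (q + 1) u, fun j => ?_, fun j hj => ?_, ?_, fun j hj => ?_,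
        fun j hj => ?_⟩
      · exact (K.F b j).add_mem ((K.F b j).add_mem (h1 j) (K.F_mono a b hab j (pr_mem hca1 j)))
          (sg_mem hu1 j)
      · show w j + pr m ca j + sg (q + 1) u j ∈ K.F a j
        rw [sg_ne u (by omega), add_zero]
        exact (K.F a j).add_mem (h2 j hj) (pr_mem hca1 j)
      · show w m + pr m ca m + sg (q + 1) u m + x ∈ K.F a m
        rw [sg_ne u (by omega), add_zero]
        have e : w m + pr m ca m + x = (w m + x) + pr m ca m := by f2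
        rw [e]
        exact (K.F a m).add_mem h3 (pr_mem hca1 m)
      · show w j + pr m ca j + sg (q + 1) u j = 0
        rw [h4 j hj, pr_neg ca hj, sg_ne u (by omega), add_zero, add_zero]
      · have e : DD (w + pr m ca + sg (q + 1) u) j =
            DD w j + DD (pr m ca) j + DD (sg (q + 1) u) j := by
          rw [map_add, map_add]; rfl
        rw [e]
        rcases Nat.lt_succ_iff_lt_or_eq.1 hj with h | h
        · rw [DD_sg_lt u (by omega), add_zero]
          refine (K.F 0 j).add_mem (h5 j h) ?_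
          by_cases hjm : j % 2 = (m + 1) % 2
          · rw [DD_pr_pos ca hjm]; exact hca2 j h
          · rw [DD_pr_neg ca hjm]; exact Submodule.zero_mem _
        · subst h
          rw [DD_sg_pred, DD_pr_pos ca (by omega)]
          have e2 : DD w j + DD ca j + K.X.d j u = (x1 + DD ca j) + (β + K.X.d j u) := by
            rw [← hsum]; f2
          rw [e2]
          exact (K.F 0 j).add_mem hca3 hu2

/-- all births of parity `σ + 1` are leading terms -/
theorem Rr_le_LT {t0 a b : ℝ} (ht0 : ∀ t, t0 ≤ t → t ∉ K.Crit → ∀ j, V K t j ≤ V K t0 j)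
    (hta : t0 ≤ a) (h0 : 0 ≤ a) (hab : a ≤ b) (hb : b ∉ K.Crit) (hE : Eq1 K b)
    {m : ℕ} (hm : m % 2 ≠ K.σ % 2) :
    Rr K a b m ≤ LT K.psi (K.F a) (K.F b) (SR K (a / 2) (b / 2)) m := by
  refine sup_le ?_ (Fa_le_LT K hab _ m)
  intro x hx
  have hb0 := h0.trans hab
  obtain ⟨M, hM⟩ := K.bdd b hb0 hb
  obtain ⟨w, h1, h2, h3, h4, h5⟩ := correct K ht0 hta h0 hab hb hE hm hx (M + 1)
  obtain ⟨c', hc1, hc2, hc3⟩ := extend (M := m + (M + 1)) (K.F_stab 0) (K.F_stab b)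
    (K.F_mono 0 b hb0) (fun j hj => (Binf_le_Zc (K.F_stab 0) (K.F_stab b)
      (K.F_mono 0 b hb0) j).trans (hM j (by omega))) h1 h5
  obtain ⟨y, c, hy, hc, hyc⟩ := (K.smith b hb0 hb).surj (w + c')
    (fun j => (K.F b j).add_mem (h1 j) (hc2 j)) hc3
  have H := ph_abs K.toBase hb0 hb
  refine ⟨Zc_le m hx, pr m y, pr (m + 1) c, fun j => ?_, pr_mem hc, fun i hi => ?_, ?_⟩
  · by_cases h : j % 2 = m % 2
    · rw [pr_pos y h, SR_neg K (by omega)]
      exact Submodule.mem_sup_left (hy j)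
    · rw [pr_neg y h]; exact Submodule.zero_mem _
  · by_cases h : i % 2 = m % 2
    · rw [pr_pos y h, DD_pr_pos c (by omega)]
      have e1 := hyc i
      rw [Pi.add_apply, hc1 i (by omega), add_zero] at e1
      have e2 : K.psi i (y i) + DD c i = (w i + K.psi i (y i) + DD c i) + w i := by f2
      rw [e2]
      exact (K.F a i).add_mem (K.F_mono 0 a h0 i e1) (h2 i hi)
    · rw [pr_neg y h, map_zero, DD_pr_neg c (by omega), add_zero]; exact Submodule.zero_mem _
  · rw [pr_pos y rfl, DD_pr_pos c (by omega)]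
    have e1 := hyc m
    rw [Pi.add_apply, hc1 m (by omega), add_zero] at e1
    have e2 : K.psi m (y m) + DD c m + x = (w m + K.psi m (y m) + DD c m) + (w m + x) := by f2
    rw [e2]
    exact (K.F a m).add_mem (K.F_mono 0 a h0 m e1) h3

/-- leading terms are relative cycles -/
theorem LT_le_Zc {X : Mix} {psi : ∀ j, X.C j →ₗ[ZMod 2] X.C j} {A B A' B' : GS X}
    (H : PH psi A B A' B') {S : GS X} (hS : ∀ j, S j ≤ Zc A' B' j) (m : ℕ) :
    LT psi A B S m ≤ Zc A B m := by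
  rintro x ⟨hx, y, c, h1, h2, h3, h4⟩
  have hw : (psiP psi y + DD c) m ∈ Zc A B m := by
    refine zc_lead H.sA ?_ h3 (fun i _ => ?_)
    · exact (B m).add_mem (H.psi_mem y (fun j => hS j (h1 j)) m) (DD_mem H.sB h2 m)
    · rw [map_add, Pi.add_apply, DD_DD, add_zero]
      exact H.DD_psi y (fun j => hS j (h1 j)) i
  have e : x = (psi m (y m) + DD c m + x) + (psiP psi y + DD c) m := by
    rw [Pi.add_apply, psiP_apply]; f2
  rw [e]
  exact (Zc A B m).add_mem (Bd_le_Zc H.sA H.sB H.le m (Bd_base m h4)) hw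

/-- LT count in one parity -/
theorem LTcount_par {X : Mix} {psi : ∀ j, X.C j →ₗ[ZMod 2] X.C j} {A B A' B' : GS X}
    (H : PH psi A B A' B') {N : ℕ} (hM : ∀ j, N ≤ j → Zc A B j ≤ Bd A B j)
    (hM' : ∀ j, N ≤ j → Zc A' B' j ≤ Bd A' B' j) {S : GS X}
    (hS1 : ∀ j, Bd A' B' j ≤ S j) (hS2 : ∀ j, S j ≤ Zc A' B' j) {p : ℕ}
    (hS3 : ∀ j, j % 2 ≠ p % 2 → S j ≤ Bd A' B' j) :
    ∑ j ∈ Finset.range N, (if j % 2 = p % 2 then rd (Bd A B j) (LT psi A B S j) else 0) =
      ∑ j ∈ Finset.range N, (if j % 2 = p % 2 then rd (Bd A B j) (Binf A B j) else 0) +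
      ∑ j ∈ Finset.range N, (if j % 2 = p % 2 then rd (Bd A' B' j) (S j) else 0) := by
  have h1 := LTcount H hM hS1 hS2
  rw [rd_Pi hS1 N (fun j hj => (hS2 j).trans (hM' j hj))] at h1
  have h2 : ∑ j ∈ Finset.range N, rd (Bd A' B' j) (S j) =
      ∑ j ∈ Finset.range N, (if j % 2 = p % 2 then rd (Bd A' B' j) (S j) else 0) := by
    refine Finset.sum_congr rfl fun j _ => ?_
    by_cases h : j % 2 = p % 2
    · rw [if_pos h]
    · rw [if_neg h]; exact rd_of_le (hS3 j h)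
  have h3 : ∑ m ∈ Finset.range N, rd (Binf A B m) (LT psi A B S m) =
      ∑ m ∈ Finset.range N, (if m % 2 = p % 2 then rd (Binf A B m) (LT psi A B S m) else 0) := by
    refine Finset.sum_congr rfl fun j _ => ?_
    by_cases h : j % 2 = p % 2
    · rw [if_pos h]
    · rw [if_neg h]; exact rd_of_le (LT_par H hS3 h)
  rw [← h2, h1, h3, ← Finset.sum_add_distrib]
  refine Finset.sum_congr rfl fun j _ => ?_
  by_cases h : j % 2 = p % 2
  · rw [if_pos h, if_pos h, if_pos h]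
    exact rd_trans (Bd_le_Binf j) (Binf_le_LT H.le H.sB j)
  · rw [if_neg h, if_neg h, if_neg h, add_zero]

/-- `l_{σ+1} = r_{σ+1} + r0_σ` -/
theorem star' {a b : ℝ} (h0 : 0 ≤ a) (hab : a ≤ b) (ha : a ∉ K.Crit) (hb : b ∉ K.Crit)
    (hf : f K a = f K b) {M N : ℕ}
    (hMa : ∀ j, M ≤ j → Zc (K.F 0) (K.F a) j ≤ Bd (K.F 0) (K.F a) j)
    (hMb : ∀ j, M ≤ j → Zc (K.F 0) (K.F b) j ≤ Bd (K.F 0) (K.F b) j) (hn : M + 2 ≤ N) :
    ∑ j ∈ Finset.range N, (if j % 2 ≠ K.σ % 2 then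
      rd (Bd (K.F a) (K.F b) j) (Zc (K.F a) (K.F b) j) else 0) =
    ∑ j ∈ Finset.range N, (if j % 2 ≠ K.σ % 2 then
      rd (Bd (K.F a) (K.F b) j) (Rr K a b j) else 0) +
    ∑ j ∈ Finset.range N, (if j % 2 = K.σ % 2 then
      rd (Bd (K.F a) (K.F b) j) (R0 K a b j) else 0) := by
  obtain ⟨n, rfl⟩ : ∃ n, N = n + 1 := ⟨N - 1, by omega⟩
  rw [← star K h0 hab ha hb hf hMa hMb (by omega), ← Finset.sum_add_distrib]
  refine Finset.sum_congr rfl fun j _ => ?_
  by_cases h : j % 2 ≠ K.σ % 2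
  · rw [if_pos h, if_pos h, if_pos h]
    exact rd_trans (Bd_le_Rr K h0 hab j) (Rr_le_Zc K h0 hab j)
  · rw [if_neg h, if_neg h, if_neg h, add_zero]

/-- LOCAL COUNT and equality: for `a < b` with `f(a) = f(b)`, `f(a/2) = f(b/2)` and `Eq1` at `b` -/
theorem local_eq {t0 a b : ℝ} (ht0 : ∀ t, t0 ≤ t → t ∉ K.Crit → ∀ j, V K t j ≤ V K t0 j)
    (hta : t0 ≤ a) (h0 : 0 ≤ a) (hab : a ≤ b) (ha : a ∉ K.Crit) (hb : b ∉ K.Crit) (hE : Eq1 K b)
    (hf : f K a = f K b) (hf' : f K (a / 2) = f K (b / 2)) :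
    (∀ j, j % 2 ≠ K.σ % 2 →
      Rr K a b j = LT K.psi (K.F a) (K.F b) (SR K (a / 2) (b / 2)) j) ∧
    (∀ j, j % 2 = K.σ % 2 →
      R0 K a b j = LT K.psi (K.F a) (K.F b) (S0 K (a / 2) (b / 2)) j) := by
  have hb0 := h0.trans hab
  have ha' := half_not_crit K.toBase ha
  have hb' := half_not_crit K.toBase hb
  have h0' : (0 : ℝ) ≤ a / 2 := by linarith
  have hab' : a / 2 ≤ b / 2 := by linarith
  -- a common bound for the degrees
  obtain ⟨M1, hM1⟩ := K.bdd a h0 ha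
  obtain ⟨M2, hM2⟩ := K.bdd b hb0 hb
  obtain ⟨M3, hM3⟩ := K.bdd (a / 2) h0' ha'
  obtain ⟨M4, hM4⟩ := K.bdd (b / 2) (h0'.trans hab') hb'
  obtain ⟨M, hMdef⟩ : ∃ M, M = M1 + M2 + M3 + M4 := ⟨_, rfl⟩
  have gM1 : ∀ j, M ≤ j → Zc (K.F 0) (K.F a) j ≤ Bd (K.F 0) (K.F a) j := fun j hj => hM1 j (by omega)
  have gM2 : ∀ j, M ≤ j → Zc (K.F 0) (K.F b) j ≤ Bd (K.F 0) (K.F b) j := fun j hj => hM2 j (by omega)
  have gM3 : ∀ j, M ≤ j → Zc (K.F 0) (K.F (a / 2)) j ≤ Bd (K.F 0) (K.F (a / 2)) j :=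
    fun j hj => hM3 j (by omega)
  have gM4 : ∀ j, M ≤ j → Zc (K.F 0) (K.F (b / 2)) j ≤ Bd (K.F 0) (K.F (b / 2)) j :=
    fun j hj => hM4 j (by omega)
  have H := ph_pair K.toBase h0 hab ha hb
  have hMp : ∀ j, M + 1 ≤ j → Zc (K.F a) (K.F b) j ≤ Bd (K.F a) (K.F b) j :=
    fun j hj => bdd_pair K h0 hab gM1 gM2 hj
  have hMp' : ∀ j, M + 1 ≤ j → Zc (K.F (a / 2)) (K.F (b / 2)) j ≤ Bd (K.F (a / 2)) (K.F (b / 2)) j :=
    fun j hj => bdd_pair K h0' hab' gM3 gM4 hj
  -- everything is about the two following families of inequalities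
  have key : ∀ N, M + 2 ≤ N → (∀ j, j < N → j % 2 ≠ K.σ % 2 →
      LT K.psi (K.F a) (K.F b) (SR K (a / 2) (b / 2)) j ≤ Rr K a b j) ∧
      (∀ j, j < N → j % 2 = K.σ % 2 →
      LT K.psi (K.F a) (K.F b) (S0 K (a / 2) (b / 2)) j ≤ R0 K a b j) := by
    intro N hN
    -- the Euler relation for the parity `σ + 1`
    have E1 := euler H (M := M + 1) (n := N) hMp (by omega) (K.σ + 1)
    rw [rd_Pi (fun j => Bd_le_Zp H (K.σ + 1) j) N
      (fun j hj => (Zp_le_Zc H (K.σ + 1) j).trans (hMp' j (by omega)))] at E1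
    have E1a : ∑ j ∈ Finset.range N, rd (Bd (K.F (a / 2)) (K.F (b / 2)) j)
        (Zp (K.σ + 1) (K.F (a / 2)) (K.F (b / 2)) j) =
        ∑ j ∈ Finset.range N, (if j % 2 ≠ K.σ % 2 then
          rd (Bd (K.F (a / 2)) (K.F (b / 2)) j) (Zc (K.F (a / 2)) (K.F (b / 2)) j) else 0) := by
      refine Finset.sum_congr rfl fun j _ => ?_
      by_cases h : j % 2 ≠ K.σ % 2
      · rw [if_pos h, Zp_pos (by omega)]
      · rw [if_neg h, Zp_neg (by omega), rd_self]
    rw [E1a, star' K h0' hab' ha' hb' hf' gM3 gM4 hN] at E1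
    have cA : ∀ g : ℕ → ℕ∞, ∑ j ∈ Finset.range N, (if j % 2 = (K.σ + 1) % 2 then g j else 0) =
        ∑ j ∈ Finset.range N, (if j % 2 ≠ K.σ % 2 then g j else 0) := by
      intro g
      refine Finset.sum_congr rfl fun j _ => ?_
      by_cases h : j % 2 ≠ K.σ % 2
      · rw [if_pos h, if_pos (by omega)]
      · rw [if_neg h, if_neg (by omega)]
    have cB : ∀ g : ℕ → ℕ∞, ∑ j ∈ Finset.range N, (if j % 2 ≠ (K.σ + 1) % 2 then g j else 0) =
        ∑ j ∈ Finset.range N, (if j % 2 = K.σ % 2 then g j else 0) := by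
      intro g
      refine Finset.sum_congr rfl fun j _ => ?_
      by_cases h : j % 2 = K.σ % 2
      · rw [if_pos h, if_pos (by omega)]
      · rw [if_neg h, if_neg (by omega)]
    rw [cA, cA, cB, star' K h0 hab ha hb hf gM1 gM2 hN] at E1
    -- leading term counts
    have E2 := LTcount_par H (N := N) (fun j hj => hMp j (by omega)) (fun j hj => hMp' j (by omega))
      (S := SR K (a / 2) (b / 2)) (fun j => Bd_le_SR K h0' hab' j) (fun j => SR_le_Zc K h0' hab' j)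
      (p := K.σ + 1) (fun j hj => by rw [SR_pos K (by omega)])
    have E3 := LTcount_par H (N := N) (fun j hj => hMp j (by omega)) (fun j hj => hMp' j (by omega))
      (S := S0 K (a / 2) (b / 2)) (fun j => Bd_le_S0 K h0' hab' j) (fun j => S0_le_Zc K h0' hab' j)
      (p := K.σ) (fun j hj => by rw [S0_neg K hj])
    rw [cA, cA, cA] at E2
    have E2a : ∑ j ∈ Finset.range N, (if j % 2 ≠ K.σ % 2 then
          rd (Bd (K.F (a / 2)) (K.F (b / 2)) j) (SR K (a / 2) (b / 2) j) else 0) =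
        ∑ j ∈ Finset.range N, (if j % 2 ≠ K.σ % 2 then
          rd (Bd (K.F (a / 2)) (K.F (b / 2)) j) (Rr K (a / 2) (b / 2) j) else 0) := by
      refine Finset.sum_congr rfl fun j _ => ?_
      by_cases h : j % 2 ≠ K.σ % 2
      · rw [if_pos h, if_pos h, SR_neg K h]
      · rw [if_neg h, if_neg h]
    have E3a : ∑ j ∈ Finset.range N, (if j % 2 = K.σ % 2 then
          rd (Bd (K.F (a / 2)) (K.F (b / 2)) j) (S0 K (a / 2) (b / 2) j) else 0) =
        ∑ j ∈ Finset.range N, (if j % 2 = K.σ % 2 then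
          rd (Bd (K.F (a / 2)) (K.F (b / 2)) j) (R0 K (a / 2) (b / 2) j) else 0) := by
      refine Finset.sum_congr rfl fun j _ => ?_
      by_cases h : j % 2 = K.σ % 2
      · rw [if_pos h, if_pos h, S0_pos K h]
      · rw [if_neg h, if_neg h]
    rw [E2a] at E2
    rw [E3a] at E3
    -- the two total families
    have hsum : ∑ j ∈ Finset.range N, (if j % 2 ≠ K.σ % 2 then
          rd (Bd (K.F a) (K.F b) j) (LT K.psi (K.F a) (K.F b) (SR K (a / 2) (b / 2)) j) else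
          rd (Bd (K.F a) (K.F b) j) (LT K.psi (K.F a) (K.F b) (S0 K (a / 2) (b / 2)) j)) =
        ∑ j ∈ Finset.range N, (if j % 2 ≠ K.σ % 2 then
          rd (Bd (K.F a) (K.F b) j) (Rr K a b j) else
          rd (Bd (K.F a) (K.F b) j) (R0 K a b j)) := by
      have split : ∀ g g' : ℕ → ℕ∞, ∑ j ∈ Finset.range N, (if j % 2 ≠ K.σ % 2 then g j else g' j) =
          ∑ j ∈ Finset.range N, (if j % 2 ≠ K.σ % 2 then g j else 0) +
          ∑ j ∈ Finset.range N, (if j % 2 = K.σ % 2 then g' j else 0) := by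
        intro g g'
        rw [← Finset.sum_add_distrib]
        refine Finset.sum_congr rfl fun j _ => ?_
        by_cases h : j % 2 = K.σ % 2
        · rw [if_neg (by omega), if_neg (by omega), if_pos h, zero_add]
        · rw [if_pos h, if_pos h, if_neg h, add_zero]
      refine (split _ _).trans (Eq.trans ?_ (split _ _).symm)
      rw [E2, E3, E1]
      abel
    have hR1 : ∀ j, j % 2 ≠ K.σ % 2 → Rr K a b j ≤
        LT K.psi (K.F a) (K.F b) (SR K (a / 2) (b / 2)) j :=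
      fun j hj => Rr_le_LT K ht0 hta h0 hab hb hE hj
    have hR2 : ∀ j, j % 2 = K.σ % 2 → R0 K a b j ≤
        LT K.psi (K.F a) (K.F b) (S0 K (a / 2) (b / 2)) j :=
      fun j hj => R0_le_LT K h0 hab hE hj
    have hterm := sum_eq_term (fun i _ => ?_) (fun i _ => ?_) hsum.le
    · constructor
      · intro j hj hjσ
        have h1 := hterm j hj
        rw [if_pos hjσ, if_pos hjσ] at h1
        have h2 := rd_trans (Bd_le_Rr K h0 hab j) (hR1 j hjσ)
        rw [← h1] at h2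
        have hfin : rd (Bd (K.F a) (K.F b) j) (Rr K a b j) ≠ ⊤ :=
          ne_top_of_le_ne_top (fin_pair K h0 hab ha hb j) (rd_mono (Rr_le_Zc K h0 hab j))
        have h3 : rd (Rr K a b j) (LT K.psi (K.F a) (K.F b) (SR K (a / 2) (b / 2)) j) = 0 := by
          have h4 : rd (Bd (K.F a) (K.F b) j) (Rr K a b j) +
              rd (Rr K a b j) (LT K.psi (K.F a) (K.F b) (SR K (a / 2) (b / 2)) j) ≤
              rd (Bd (K.F a) (K.F b) j) (Rr K a b j) + 0 := by rw [add_zero]; exact h2.ge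
          exact le_antisymm ((ENat.addLECancellable_of_ne_top hfin) h4) bot_le
        exact rd_eq_zero.1 h3
      · intro j hj hjσ
        have h1 := hterm j hj
        rw [if_neg (by omega), if_neg (by omega)] at h1
        have h2 := rd_trans (Bd_le_R0 K h0 hab j) (hR2 j hjσ)
        rw [← h1] at h2
        have hfin : rd (Bd (K.F a) (K.F b) j) (R0 K a b j) ≠ ⊤ :=
          ne_top_of_le_ne_top (fin_pair K h0 hab ha hb j) (rd_mono (R0_le_Zc K h0 hab j))
        have h3 : rd (R0 K a b j) (LT K.psi (K.F a) (K.F b) (S0 K (a / 2) (b / 2)) j) = 0 := by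
          have h4 : rd (Bd (K.F a) (K.F b) j) (R0 K a b j) +
              rd (R0 K a b j) (LT K.psi (K.F a) (K.F b) (S0 K (a / 2) (b / 2)) j) ≤
              rd (Bd (K.F a) (K.F b) j) (R0 K a b j) + 0 := by rw [add_zero]; exact h2.ge
          exact le_antisymm ((ENat.addLECancellable_of_ne_top hfin) h4) bot_le
        exact rd_eq_zero.1 h3
    · by_cases h : i % 2 ≠ K.σ % 2
      · simp only [if_pos h]; exact rd_mono (hR1 i h)
      · simp only [if_neg h]; exact rd_mono (hR2 i (by omega))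
    · by_cases h : i % 2 ≠ K.σ % 2
      · simp only [if_pos h]
        exact ne_top_of_le_ne_top (fin_pair K h0 hab ha hb i)
          (rd_mono (LT_le_Zc H (fun j => SR_le_Zc K h0' hab' j) i))
      · simp only [if_neg h]
        exact ne_top_of_le_ne_top (fin_pair K h0 hab ha hb i)
          (rd_mono (LT_le_Zc H (fun j => S0_le_Zc K h0' hab' j) i))
  constructor
  · intro j hj
    exact le_antisymm (Rr_le_LT K ht0 hta h0 hab hb hE hj)
      ((key (M + 2 + j + 1) (by omega)).1 j (by omega) hj)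
  · intro j hj
    exact le_antisymm (R0_le_LT K h0 hab hE hj)
      ((key (M + 2 + j + 1) (by omega)).2 j (by omega) hj)

/-- THE FIRST HALF OF BLOCK A -/
theorem forcing : ∃ α β : ℝ, Forcing K α β := by
  obtain ⟨t0, ht0p, ht0c, ht0⟩ := exists_t0 K
  obtain ⟨C0, hC0⟩ := f_le K
  obtain ⟨b0, ⟨hb0, hb0c⟩, hmax⟩ := exists_max (S := {t | t0 ≤ t ∧ t ∉ K.Crit}) ⟨t0, le_rfl, ht0c⟩
    (f K) (fun t ht => hC0 t (ht0p.le.trans ht.1) ht.2)
  have hb0p : 0 < b0 := ht0p.trans_le hb0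
  -- a non-critical interval to the right of `b0`
  obtain ⟨β, hβ, hβc⟩ : ∃ β, b0 < β ∧ ∀ s ∈ K.Crit, ¬ (b0 ≤ s ∧ s ≤ β) := by
    have hfin := K.Crit_fin (b0 + 1)
    have hclosed : IsClosed (K.Crit ∩ Set.Iic (b0 + 1)) := hfin.isClosed
    have hmem : b0 ∈ (K.Crit ∩ Set.Iic (b0 + 1))ᶜ := fun h => hb0c h.1
    obtain ⟨ε, hε, hball⟩ := Metric.isOpen_iff.1 hclosed.isOpen_compl b0 hmem
    refine ⟨b0 + min (ε / 2) 1, by linarith [lt_min (half_pos hε) one_pos], fun s hs h => ?_⟩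
    have h1 : min (ε / 2) 1 ≤ ε / 2 := min_le_left _ _
    have h2 : min (ε / 2) 1 ≤ 1 := min_le_right _ _
    have : s ∈ Metric.ball b0 ε := by
      rw [Metric.mem_ball, Real.dist_eq, abs_of_nonneg (by linarith [h.1])]
      linarith [h.2]
    exact hball this ⟨hs, by show s ≤ b0 + 1; linarith [h.2]⟩
  refine ⟨b0, β, hb0p, hβ, hβc, ?_⟩
  -- `f` is maximal on the region
  have hreg : ∀ r : ℕ, ∀ t, t ∉ K.Crit → 2 ^ r * b0 ≤ t → t ≤ 2 ^ r * β → f K t = f K b0 := by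
    intro r
    induction r with
    | zero =>
      intro t htc h1 h2
      rw [pow_zero, one_mul] at h1 h2
      exact (f_const K hb0p.le h1 (fun s hs h => hβc s hs ⟨h.1, h.2.trans h2⟩)).symm
    | succ r ih =>
      intro t htc h1 h2
      have h3 : f K (t / 2) = f K b0 := ih (t / 2) (half_not_crit K.toBase htc)
        (by rw [pow_succ] at h1; linarith) (by rw [pow_succ] at h2; linarith)
      have h4 : b0 ≤ t := by
        have : (1 : ℝ) ≤ 2 ^ (r + 1) := one_le_pow₀ (by norm_num)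
        nlinarith
      apply le_antisymm (hmax t ⟨hb0.trans h4, htc⟩)
      rw [← h3]
      exact f_half_le K ht0 (hb0p.le.trans h4) (hb0.trans h4) htc
  intro r a b ha hb h1 h2 h3
  have hpow : (1 : ℝ) ≤ 2 ^ (r + 1) := one_le_pow₀ (by norm_num)
  have hab0 : b0 ≤ a := by nlinarith
  have h0a : 0 ≤ a := hb0p.le.trans hab0
  have hfa := hreg (r + 1) a ha h1 (h2.le.trans h3)
  have hfb := hreg (r + 1) b hb (h1.trans h2.le) h3
  have hfa' := hreg r (a / 2) (half_not_crit K.toBase ha)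
    (by rw [pow_succ] at h1; linarith) (by have := h2.le.trans h3; rw [pow_succ] at this; linarith)
  have hfb' := hreg r (b / 2) (half_not_crit K.toBase hb)
    (by have := h1.trans h2.le; rw [pow_succ] at this; linarith) (by rw [pow_succ] at h3; linarith)
  have hE : Eq1 K b := by
    have hb0b : b0 ≤ b := hab0.trans h2.le
    have := fun j hj => f_half_eq K ht0 (t := b) (h0a.trans h2.le) (hb0.trans hb0b) hb
      (hfb'.trans hfb.symm) (j := j) hj
    exact ⟨fun j hj => (this j hj).1, fun j hj => (this j hj).2⟩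
  exact local_eq K ht0 (hb0.trans hab0) h0a h2.le ha hb hE (hfa.trans hfb.symm)
    (hfa'.trans hfb'.symm)

end Crest.Agent.R231.AlgForcex978
end

-- ▼ part R231/AlgSplitDef_796
section

/-!
# Row 231, block A: literal output of the induction (4) (helper796)
-/

set_option autoImplicit false

namespace Crest.Agent.R231.AlgSplitDefx796

open Crest.Agent.R231.IfAx978 Crest.Agent.R231.AlgDefx978

/-- the situation around one critical value `s`: `a < s < b`, `s` the only critical value of `[a,b]` -/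
structure Around (K : Core) (T ε0 s a b : ℝ) : Prop where
  crit : s ∈ K.Crit
  le_T : s ≤ T
  a0 : 0 ≤ a
  as : a < s
  sb : s < b
  small : b - a < ε0
  na : a ∉ K.Crit
  nb : b ∉ K.Crit
  only : ∀ s' ∈ K.Crit, a ≤ s' → s' ≤ b → s' = s

/-- the elementary part of (A4) for one pair -/
structure Four (K : Core) (P : Bool → ℝ → ℝ → ℝ → GS K.X) (s a b : ℝ) : Prop where
  bd_le : ∀ ε j, Bd (K.F a) (K.F b) j ≤ P ε s a b j
  le_zc : ∀ ε j, P ε s a b j ≤ Zc (K.F a) (K.F b) j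
  cover : ∀ j, Zc (K.F a) (K.F b) j ≤ P true s a b j ⊔ P false s a b j
  disj : ∀ j, P true s a b j ⊓ P false s a b j ≤ Bd (K.F a) (K.F b) j
  tau : ∀ ε j x, x ∈ P ε s a b j → K.tau j x ∈ P (!ε) s a b j

/-- LITERAL OUTPUT OF (4): splitting of the births in the region. -/
def SplitOut (K : Core) (α β : ℝ) : Prop :=
  ∀ T : ℝ, ∃ P : Bool → ℝ → ℝ → ℝ → GS K.X, ∃ ε0 : ℝ, 0 < ε0 ∧
    ∀ (r : ℕ) (s a b : ℝ), Around K T ε0 s a b → 2 ^ (r + 1) * α ≤ a → b ≤ 2 ^ (r + 1) * β →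
      Four K P s a b ∧
      (∀ j, j % 2 ≠ K.σ % 2 → Spl (P true s a b) (P false s a b) (Core.Rr K a b) j) ∧
      (∀ j, j % 2 = K.σ % 2 → Spl (P true s a b) (P false s a b) (Core.R0 K a b) j)

end Crest.Agent.R231.AlgSplitDefx796
end

-- ▼ part R231/AlgSplit_796
section

/-!
# Row 231, block A: leading terms of split families are split; induction on the valuation (helper796)
-/

set_option autoImplicit false

namespace Crest.Agent.R231.AlgSplitx796

open Crest.Agent.R231.IfAx978 Crest.Agent.R231.AlgDefx978 Crest.Agent.R231.AlgSplitDefx796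

variable {X : Mix}

/-! ### char 2 and `DD` -/

theorem add_self' {V : Type*} [AddCommGroup V] [Module (ZMod 2) V] (x : V) : x + x = 0 := by
  have h : (2 : ZMod 2) • x = x + x := two_smul _ x
  rw [← h, show (2 : ZMod 2) = 0 from rfl, zero_smul]

theorem DD_DD (c : ∀ j, X.C j) (j : ℕ) : DD (DD c) j = 0 := by
  rcases j with _ | _ | j
  · rw [DD_zero', DD_succ', map_add, X.dd, X.dDe0, add_zero]
  · rw [DD_succ', DD_succ', DD_zero', map_add, X.dd]
    have h2 : X.d (0 + 1) (X.De 1 (c 1)) = X.De 0 (X.d 0 (c 1)) := X.dDe 0 (c 1)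
    rw [h2]
    exact (congrArg (· + X.De 0 (X.d 0 (c 1))) (zero_add _)).trans (add_self' _)
  · rw [DD_succ', DD_succ', DD_succ', map_add, map_add, X.dd, zero_add, X.DeDe, add_zero, X.dDe]
    exact add_self' _

/-- the family with the only entry `w` in degree `m` -/
def single (m : ℕ) (w : X.C m) : ∀ j, X.C j := fun j => if h : m = j then h ▸ w else 0

@[simp] theorem single_same (m : ℕ) (w : X.C m) : single m w m = w := by simp [single]

theorem single_ne {m j : ℕ} (w : X.C m) (h : m ≠ j) : single m w j = 0 := by simp [single, h]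

theorem single_mem {B : GS X} {m : ℕ} {w : X.C m} (hw : w ∈ B m) (j : ℕ) : single m w j ∈ B j := by
  by_cases h : m = j
  · subst h; simpa using hw
  · rw [single_ne w h]; exact (B j).zero_mem

theorem DD_single_same (m : ℕ) (w : X.C (m + 1)) : DD (single (m + 1) w) m = X.d m w := by
  cases m with
  | zero => rw [DD_zero', single_same]
  | succ i => rw [DD_succ', single_same, single_ne w (by omega), map_zero, add_zero]

theorem DD_single_lt (m : ℕ) (w : X.C (m + 1)) (i : ℕ) (h : i < m) :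
    DD (single (m + 1) w) i = 0 := by
  cases i with
  | zero => rw [DD_zero', single_ne w (by omega), map_zero]
  | succ i => rw [DD_succ', single_ne w (by omega), single_ne w (by omega), map_zero, map_zero,
      add_zero]

/-! ### relative cycles and boundaries -/

theorem mem_Zc_succ {A B : GS X} {j : ℕ} {x : X.C (j + 1)} :
    x ∈ Zc A B (j + 1) ↔ x ∈ B (j + 1) ∧ X.d j x ∈ A j := Iff.rfl

theorem Zc_le {A B : GS X} (j : ℕ) : Zc A B j ≤ B j := by
  cases j with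
  | zero => exact le_refl _
  | succ j => exact inf_le_left

theorem A_le_Bd {A B : GS X} (j : ℕ) : A j ≤ Bd A B j := le_sup_right

theorem mem_Bd {A B : GS X} {j : ℕ} {x : X.C j} :
    x ∈ Bd A B j ↔ ∃ w ∈ B (j + 1), ∃ a ∈ A j, X.d j w + a = x := by
  unfold Bd
  rw [Submodule.mem_sup]
  constructor
  · rintro ⟨y, hy, a, ha, rfl⟩
    obtain ⟨w, hw, rfl⟩ := Submodule.mem_map.1 hy
    exact ⟨w, hw, a, ha, rfl⟩
  · rintro ⟨w, hw, a, ha, rfl⟩
    exact ⟨_, Submodule.mem_map_of_mem hw, a, ha, rfl⟩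

/-- leading terms are relative cycles -/
theorem LT_le_Zc {psi : ∀ j, X.C j →ₗ[ZMod 2] X.C j}
    (hdpsi : ∀ j x, X.d j (psi (j + 1) x) = psi j (X.d j x))
    (hDepsi : ∀ j x, X.De j (psi j x) = 0)
    {A B A' B' S : GS X} (hA : Stab A) (hA' : ∀ j x, x ∈ A' j → psi j x ∈ A j)
    (hS : ∀ j, S j ≤ Zc A' B' j) (m : ℕ) : LT psi A B S m ≤ Zc A B m := by
  intro x hx
  obtain ⟨hxB, y, c, hy, hc, h3, h4⟩ := mem_LT.1 hx
  cases m with
  | zero => exact hxB
  | succ m =>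
    refine mem_Zc_succ.2 ⟨hxB, ?_⟩
    have h5 := hA.d m _ h4
    rw [map_add, map_add, hdpsi] at h5
    have h6 : psi m (X.d m (y (m + 1))) ∈ A m := hA' m _ (mem_Zc_succ.1 (hS _ (hy (m + 1)))).2
    have h7 : X.d m (DD c (m + 1)) ∈ A m := by
      have h8 := DD_DD c m
      cases m with
      | zero =>
        rw [DD_zero'] at h8; rw [h8]; exact (A 0).zero_mem
      | succ i =>
        rw [DD_succ'] at h8
        have h9 := hA.De i _ (h3 i (by omega))
        rw [map_add, hDepsi, zero_add] at h9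
        have h10 : X.d (i + 1) (DD c (i + 1 + 1)) = - X.De i (DD c i) := by
          exact eq_neg_of_add_eq_zero_left h8
        rw [h10]
        exact (A _).neg_mem h9
    have h8 : X.d m x = (psi m (X.d m (y (m + 1))) + X.d m (DD c (m + 1)) + X.d m x)
        - (psi m (X.d m (y (m + 1))) + X.d m (DD c (m + 1))) := by abel
    rw [h8]
    exact (A m).sub_mem h5 ((A m).add_mem h6 h7)

/-- from a `Lead` relation to membership in `LT` -/
theorem mem_LT_of_Lead {psi : ∀ j, X.C j →ₗ[ZMod 2] X.C j} {A B S : GS X}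
    {m : ℕ} {x : X.C m} {y : ∀ j, X.C j} (hx : x ∈ B m) (hy : ∀ j, y j ∈ S j)
    (h : Lead psi A B y m x) : x ∈ LT psi A B S m := by
  obtain ⟨c, hc, h3, h4⟩ := h
  obtain ⟨w, hw, a, ha, e⟩ := mem_Bd.1 h4
  refine mem_LT.2 ⟨hx, y, c + single (m + 1) w, hy,
    fun j => (B j).add_mem (hc j) (single_mem hw j), fun j hj => ?_, ?_⟩
  · rw [map_add, Pi.add_apply, DD_single_lt m w j hj, add_zero]; exact h3 j hj
  · rw [map_add, Pi.add_apply, DD_single_same]
    have e2 : psi m (y m) + (DD c m + X.d m w) + x = psi m (y m) + DD c m + x + X.d m w := by abel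
    rw [e2, ← e]
    have e3 : X.d m w + a + X.d m w = a := by
      have := add_self' (X.d m w)
      calc X.d m w + a + X.d m w = (X.d m w + X.d m w) + a := by abel
        _ = a := by rw [this, zero_add]
    rw [e3]; exact ha

/-- LEADING TERMS OF A SPLIT FAMILY ARE SPLIT. -/
theorem LT_split {psi : ∀ j, X.C j →ₗ[ZMod 2] X.C j}
    (hdpsi : ∀ j x, X.d j (psi (j + 1) x) = psi j (X.d j x))
    (hDepsi : ∀ j x, X.De j (psi j x) = 0)
    {A B A' B' S Pp Pm Pp' Pm' : GS X} (hA : Stab A) (hA' : ∀ j x, x ∈ A' j → psi j x ∈ A j)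
    (hS : ∀ j, S j ≤ Zc A' B' j)
    (hPp : ∀ j, Pp j ≤ Zc A B j)
    (hcover : ∀ j, Zc A B j ≤ Pp j ⊔ Pm j)
    (hlead : ∀ yp ym : (∀ i, X.C i), (∀ i, yp i ∈ Pp' i) → (∀ i, ym i ∈ Pm' i) →
      ∀ j, ∀ xp ∈ Pp j, ∀ xm ∈ Pm j,
        Lead psi A B (yp + ym) j (xp + xm) → Lead psi A B yp j xp)
    (hSs : ∀ j, Spl Pp' Pm' S j) (m : ℕ) : Spl Pp Pm (LT psi A B S) m := by
  intro x hx
  have hxZ := LT_le_Zc hdpsi hDepsi hA hA' hS m hx
  obtain ⟨xp, hxp, xm, hxm, rfl⟩ := Submodule.mem_sup.1 (hcover m hxZ)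
  obtain ⟨hxB, y, c, hy, hc, h3, h4⟩ := mem_LT.1 hx
  have hsp : ∀ j, ∃ yp ym : X.C j, yp ∈ Pp' j ∧ yp ∈ S j ∧ ym ∈ Pm' j ∧ ym ∈ S j ∧
    y j = yp + ym := fun j => hSs j _ (hy j)
  choose yp ym h5 h6 h7 h8 h9 using hsp
  have hy' : y = yp + ym := funext h9
  have hL : Lead psi A B (yp + ym) m (xp + xm) := by
    rw [← hy']
    exact ⟨c, hc, h3, A_le_Bd m h4⟩
  have hLp := hlead yp ym h5 h7 m xp hxp xm hxm hL
  have hxp' : xp ∈ LT psi A B S m := mem_LT_of_Lead (Zc_le m (hPp m hxp)) h6 hLp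
  refine ⟨xp, xm, hxp, hxp', hxm, ?_, rfl⟩
  have e : xm = (xp + xm) - xp := by abel
  rw [e]
  exact (LT psi A B S m).sub_mem hx hxp'

/-- if the half level pair is acyclic, every Tate class coming from it is trivial -/
theorem LT_of_acyclic {psi : ∀ j, X.C j →ₗ[ZMod 2] X.C j}
    (hdpsi : ∀ j x, X.d j (psi (j + 1) x) = psi j (X.d j x))
    (hDepsi : ∀ j x, X.De j (psi j x) = 0)
    {A B A' B' S : GS X} (hA' : ∀ j x, x ∈ A' j → psi j x ∈ A j)
    (hB' : ∀ j x, x ∈ B' j → psi j x ∈ B j)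
    (hS : ∀ j, S j ≤ Bd A' B' j) (m : ℕ) :
    LT psi A B S m ≤ LT psi A B (fun _ => ⊥) m := by
  intro x hx
  obtain ⟨hxB, y, c, hy, hc, h3, h4⟩ := mem_LT.1 hx
  have h5 : ∀ j, ∃ w ∈ B' (j + 1), ∃ a ∈ A' j, X.d j w + a = y j := fun j => mem_Bd.1 (hS j (hy j))
  choose w hw a ha e using h5
  -- the family `psi w`, shifted by one degree
  let z : ∀ j, X.C j := fun j => Nat.casesOn (motive := fun j => X.C j) j 0
    (fun i => psi (i + 1) (w i))
  have hz : ∀ j, z j ∈ B j := by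
    intro j
    cases j with
    | zero => exact (B 0).zero_mem
    | succ j => exact hB' _ _ (hw j)
  have hDDz : ∀ j, DD z j = psi j (X.d j (w j)) := by
    intro j
    cases j with
    | zero => rw [DD_zero']; exact hdpsi 0 (w 0)
    | succ j =>
      rw [DD_succ']
      have e1 : X.De j (z j) = 0 := by
        cases j with
        | zero => exact map_zero _
        | succ j => exact hDepsi _ _
      rw [e1, add_zero]
      exact hdpsi (j + 1) (w (j + 1))
  have key : ∀ j, psi j (y j) = DD z j + psi j (a j) := by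
    intro j; rw [hDDz, ← map_add, e]
  refine mem_LT.2 ⟨hxB, 0, z + c, fun j => by simp, fun j => (B j).add_mem (hz j) (hc j),
    fun j hj => ?_, ?_⟩
  · have h6 := h3 j hj
    rw [key] at h6
    have e1 : psi j ((0 : ∀ j, X.C j) j) + DD (z + c) j
        = DD z j + psi j (a j) + DD c j - psi j (a j) := by
      rw [map_add, Pi.add_apply, Pi.zero_apply, map_zero]; abel
    rw [e1]
    exact (A j).sub_mem h6 (hA' j _ (ha j))
  · have h6 := h4
    rw [key] at h6
    have e1 : psi m ((0 : ∀ j, X.C j) m) + DD (z + c) m + x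
        = DD z m + psi m (a m) + DD c m + x - psi m (a m) := by
      rw [map_add, Pi.add_apply, Pi.zero_apply, map_zero]; abel
    rw [e1]
    exact (A m).sub_mem h6 (hA' m _ (ha m))

theorem LT_mono {psi : ∀ j, X.C j →ₗ[ZMod 2] X.C j} {A B S S' : GS X}
    (h : ∀ j, S j ≤ S' j) (m : ℕ) : LT psi A B S m ≤ LT psi A B S' m := by
  intro x hx
  obtain ⟨hxB, y, c, hy, hc, h3, h4⟩ := mem_LT.1 hx
  exact mem_LT.2 ⟨hxB, y, c, fun j => h j (hy j), hc, h3, h4⟩

/-! ### births -/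

section births

variable (K : Core)

theorem Rr_le_Zc {a b : ℝ} (h0 : 0 ≤ a) (hab : a ≤ b) (j : ℕ) :
    Core.Rr K a b j ≤ Zc (K.F a) (K.F b) j := by
  refine sup_le ?_ ?_
  · intro x hx
    cases j with
    | zero => exact hx
    | succ j => exact mem_Zc_succ.2 ⟨hx.1, K.F_mono 0 a h0 j hx.2⟩
  · intro x hx
    cases j with
    | zero => exact K.F_mono a b hab 0 hx
    | succ j => exact mem_Zc_succ.2 ⟨K.F_mono a b hab _ hx, (K.F_stab a).d _ _ hx⟩

theorem R0_le_Zc {a b : ℝ} (h0 : 0 ≤ a) (hab : a ≤ b) (j : ℕ) :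
    Core.R0 K a b j ≤ Zc (K.F a) (K.F b) j := by
  refine sup_le ?_ ?_
  · rintro x ⟨hxb, hx⟩
    cases j with
    | zero => exact hxb
    | succ j =>
      refine mem_Zc_succ.2 ⟨hxb, ?_⟩
      obtain ⟨w, -, f, hf, rfl⟩ := mem_Bd.1 hx
      rw [map_add, K.X.dd, zero_add]
      exact K.F_mono 0 a h0 j ((K.F_stab 0).d _ _ hf)
  · intro x hx
    cases j with
    | zero => exact K.F_mono a b hab 0 hx
    | succ j => exact mem_Zc_succ.2 ⟨K.F_mono a b hab _ hx, (K.F_stab a).d _ _ hx⟩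

theorem Bd_le_Zc {A B : GS X} (hA : Stab A) (hB : Stab B) (hAB : ∀ j, A j ≤ B j) (j : ℕ) :
    Bd A B j ≤ Zc A B j := by
  intro x hx
  obtain ⟨w, hw, f, hf, rfl⟩ := mem_Bd.1 hx
  cases j with
  | zero => exact (B 0).add_mem (hB.d _ _ hw) (hAB 0 hf)
  | succ j =>
    refine mem_Zc_succ.2 ⟨(B _).add_mem (hB.d _ _ hw) (hAB _ hf), ?_⟩
    rw [map_add, X.dd, zero_add]
    exact hA.d _ _ hf

theorem SR_le_Zc {a b : ℝ} (h0 : 0 ≤ a) (hab : a ≤ b) (j : ℕ) :
    Core.SR K a b j ≤ Zc (K.F a) (K.F b) j := by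
  unfold Core.SR
  split_ifs
  · exact Bd_le_Zc (K.F_stab a) (K.F_stab b) (K.F_mono a b hab) j
  · exact Rr_le_Zc K h0 hab j

theorem S0_le_Zc {a b : ℝ} (h0 : 0 ≤ a) (hab : a ≤ b) (j : ℕ) :
    Core.S0 K a b j ≤ Zc (K.F a) (K.F b) j := by
  unfold Core.S0
  split_ifs
  · exact R0_le_Zc K h0 hab j
  · exact Bd_le_Zc (K.F_stab a) (K.F_stab b) (K.F_mono a b hab) j

end births

theorem Spl_congr {Pp Pm S S' : GS X} {j : ℕ} (h : S j = S' j) (hs : Spl Pp Pm S' j) :
    Spl Pp Pm S j := by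
  intro y hy
  rw [h] at hy
  obtain ⟨yp, ym, h1, h2, h3, h4, h5⟩ := hs y hy
  exact ⟨yp, ym, h1, h ▸ h2, h3, h ▸ h4, h5⟩

/-- a family which consists of boundaries is split -/
theorem Spl_of_le {Pp Pm S : GS X} {j : ℕ} (h : S j ≤ Pp j) : Spl Pp Pm S j := by
  intro y hy
  exact ⟨y, 0, h hy, hy, (Pm j).zero_mem, (S j).zero_mem, (add_zero y).symm⟩

/-- THE INDUCTION (4). -/
theorem splitOut (K : Core) {α β : ℝ} (hF : Core.Forcing K α β) : SplitOut K α β := by
  obtain ⟨hα, hαβ, hJ, hforce⟩ := hF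
  intro T
  obtain ⟨P, ε0, hε0, hA4⟩ := K.A4 T
  refine ⟨P, ε0, hε0, ?_⟩
  -- the data of (A4) for one pair
  have data : ∀ s a b, Around K T ε0 s a b →
      Four K P s a b ∧
      (∀ yp ym : (∀ i, K.X.C i), (∀ i, yp i ∈ P true (s / 2) (a / 2) (b / 2) i) →
        (∀ i, ym i ∈ P false (s / 2) (a / 2) (b / 2) i) →
        ∀ j, ∀ xp ∈ P true s a b j, ∀ xm ∈ P false s a b j,
        Lead K.psi (K.F a) (K.F b) (yp + ym) j (xp + xm) → Lead K.psi (K.F a) (K.F b) yp j xp) := by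
    intro s a b h
    obtain ⟨h1, h2, h3, h4, h5⟩ := hA4 s h.crit h.le_T a b h.a0 h.as h.sb h.small h.na h.nb h.only
    exact ⟨⟨fun ε j => (h1 ε j).1, fun ε j => (h1 ε j).2, h2, h3, h4⟩, h5⟩
  -- splitting of the leading terms from a split family at half level, both cases
  have main : ∀ s a b, Around K T ε0 s a b → ∀ S : GS K.X,
      (∀ j, S j ≤ Zc (K.F (a / 2)) (K.F (b / 2)) j) →
      (s / 2 ∈ K.Crit → ∀ j, Spl (P true (s / 2) (a / 2) (b / 2)) (P false (s / 2) (a / 2) (b / 2)) S j) →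
      ∀ m, Spl (P true s a b) (P false s a b) (LT K.psi (K.F a) (K.F b) S) m := by
    intro s a b h S hS hsp m
    obtain ⟨h4, h5⟩ := data s a b h
    have hA' : ∀ j x, x ∈ K.F (a / 2) j → K.psi j x ∈ K.F a j := by
      intro j x hx
      have := K.F_psi (a / 2) j x hx
      rwa [show 2 * (a / 2) = a by ring] at this
    have hB' : ∀ j x, x ∈ K.F (b / 2) j → K.psi j x ∈ K.F b j := by
      intro j x hx
      have := K.F_psi (b / 2) j x hx
      rwa [show 2 * (b / 2) = b by ring] at this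
    by_cases hs : s / 2 ∈ K.Crit
    · exact LT_split K.d_psi K.De_psi (K.F_stab a) hA' hS (h4.le_zc true) h4.cover h5 (hsp hs) m
    · -- the half level pair is acyclic
      have hnc : ∀ s' ∈ K.Crit, ¬ (a / 2 ≤ s' ∧ s' ≤ b / 2) := by
        rintro s' hs' ⟨h6, h7⟩
        have h8 := h.only _ (K.Crit_two s' hs') (by linarith) (by linarith)
        apply hs
        rw [← h8, show 2 * s' / 2 = s' by ring]
        exact hs'
      have hab : a ≤ b := (h.as.trans h.sb).le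
      have hac := K.noncrit (a / 2) (b / 2) (by have := h.a0; linarith) (by linarith) hnc
      have hle : ∀ j, S j ≤ Bd (K.F (a / 2)) (K.F (b / 2)) j := fun j => (hS j).trans (hac j)
      have h6 : ∀ m, LT K.psi (K.F a) (K.F b) S m
          = LT K.psi (K.F a) (K.F b) (fun _ => ⊥) m := fun m => le_antisymm
        (LT_of_acyclic K.d_psi K.De_psi hA' hB' hle m) (LT_mono (fun _ => bot_le) m)
      refine Spl_congr (h6 m) ?_
      have hlead0 : ∀ yp ym : (∀ i, K.X.C i), (∀ i, yp i ∈ (⊥ : Submodule (ZMod 2) (K.X.C i))) →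
          (∀ i, ym i ∈ (⊥ : Submodule (ZMod 2) (K.X.C i))) →
          ∀ j, ∀ xp ∈ P true s a b j, ∀ xm ∈ P false s a b j,
          Lead K.psi (K.F a) (K.F b) (yp + ym) j (xp + xm) →
          Lead K.psi (K.F a) (K.F b) yp j xp := by
        intro yp ym hyp hym
        apply h5 yp ym
        · intro i; rw [(Submodule.mem_bot _).1 (hyp i)]; exact Submodule.zero_mem _
        · intro i; rw [(Submodule.mem_bot _).1 (hym i)]; exact Submodule.zero_mem _
      exact LT_split (B' := K.F (b / 2)) (Pp' := fun _ => ⊥) (Pm' := fun _ => ⊥) K.d_psi K.De_psi (K.F_stab a) hA'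
        (S := fun _ => ⊥) (fun _ => bot_le) (h4.le_zc true) h4.cover hlead0
        (fun j => Spl_of_le (le_refl _)) m
  -- the induction on `r`
  intro r
  induction r with
  | zero =>
    intro s a b h ha hb
    refine ⟨(data s a b h).1, ?_⟩
    have hs2 : s / 2 ∉ K.Crit := by
      intro hs
      have h1 := h.as; have h2 := h.sb
      refine hJ _ hs ⟨?_, ?_⟩
      · norm_num at ha; linarith
      · norm_num at hb; linarith
    have hab : a < b := h.as.trans h.sb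
    have h0 : 0 ≤ a / 2 := by have := h.a0; linarith
    have hf := hforce 0 a b h.na h.nb ha hab hb
    refine ⟨fun j hj => ?_, fun j hj => ?_⟩
    · refine Spl_congr (hf.1 j hj) (main s a b h _ (SR_le_Zc K h0 (by linarith)) ?_ j)
      intro hs; exact absurd hs hs2
    · refine Spl_congr (hf.2 j hj) (main s a b h _ (S0_le_Zc K h0 (by linarith)) ?_ j)
      intro hs; exact absurd hs hs2
  | succ r ih =>
    intro s a b h ha hb
    refine ⟨(data s a b h).1, ?_⟩
    have hab : a < b := h.as.trans h.sb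
    have h0 : 0 ≤ a / 2 := by have := h.a0; linarith
    have hf := hforce (r + 1) a b h.na h.nb ha hab hb
    -- the half level situation
    have half : s / 2 ∈ K.Crit → Around K T ε0 (s / 2) (a / 2) (b / 2) := by
      intro hs
      have hs0 := K.Crit_pos _ h.crit
      refine ⟨hs, by have := h.le_T; linarith, h0, by have := h.as; linarith,
        by have := h.sb; linarith, by have := h.small; linarith, ?_, ?_, ?_⟩
      · intro hc
        have := K.Crit_two _ hc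
        rw [show 2 * (a / 2) = a by ring] at this
        exact h.na this
      · intro hc
        have := K.Crit_two _ hc
        rw [show 2 * (b / 2) = b by ring] at this
        exact h.nb this
      · intro s' hs' h6 h7
        have h8 := h.only _ (K.Crit_two s' hs') (by linarith) (by linarith)
        linarith
    have hal : 2 ^ (r + 1) * α ≤ a / 2 := by
      have : (2 : ℝ) ^ (r + 1 + 1) * α = 2 * (2 ^ (r + 1) * α) := by ring
      rw [this] at ha; linarith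
    have hbl : b / 2 ≤ 2 ^ (r + 1) * β := by
      have : (2 : ℝ) ^ (r + 1 + 1) * β = 2 * (2 ^ (r + 1) * β) := by ring
      rw [this] at hb; linarith
    refine ⟨fun j hj => ?_, fun j hj => ?_⟩
    · refine Spl_congr (hf.1 j hj) (main s a b h _ (SR_le_Zc K h0 (by linarith)) ?_ j)
      intro hs i
      obtain ⟨g4, g1, g2⟩ := ih (s / 2) (a / 2) (b / 2) (half hs) hal hbl
      by_cases hi : i % 2 = K.σ % 2
      · have e : Core.SR K (a / 2) (b / 2) i = Bd (K.F (a / 2)) (K.F (b / 2)) i := by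
          unfold Core.SR; rw [if_pos hi]
        exact Spl_of_le (e.le.trans (g4.bd_le true i))
      · have e : Core.SR K (a / 2) (b / 2) i = Core.Rr K (a / 2) (b / 2) i := by
          unfold Core.SR; rw [if_neg hi]
        exact Spl_congr e (g1 i hi)
    · refine Spl_congr (hf.2 j hj) (main s a b h _ (S0_le_Zc K h0 (by linarith)) ?_ j)
      intro hs i
      obtain ⟨g4, g1, g2⟩ := ih (s / 2) (a / 2) (b / 2) (half hs) hal hbl
      by_cases hi : i % 2 = K.σ % 2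
      · have e : Core.S0 K (a / 2) (b / 2) i = Core.R0 K (a / 2) (b / 2) i := by
          unfold Core.S0; rw [if_pos hi]
        exact Spl_congr e (g2 i hi)
      · have e : Core.S0 K (a / 2) (b / 2) i = Bd (K.F (a / 2)) (K.F (b / 2)) i := by
          unfold Core.S0; rw [if_neg hi]
        exact Spl_of_le (e.le.trans (g4.bd_le true i))

end Crest.Agent.R231.AlgSplitx796
end

-- ▼ part R231/AlgEnd_807
section

/-!
# Row 231, block A, last part (helper807): section 4 of the proof (contradiction from the splitting)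

`SplitAt K Pp Pm a b` : the splitting data of the pair `(F_b, F_a)` (one critical level in between)
together with the splitting of the births `Rr` (parity `σ + 1`) and of the finite births `R0`
(parity `σ`).

`false_of_split` : if the splitting is available on the regions `[2^r α, 2^r β]` then `False`.
-/

set_option autoImplicit false

namespace Crest.Agent.R231.AlgEndx807

open Crest.Agent.R231.IfAx978 Crest.Agent.R231.AlgDefx978
open Crest.Agent.R231.AlgDefx978.Core (P Rr R0)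

section basic

variable {X : Mix}

theorem add_self' {V : Type*} [AddCommGroup V] [Module (ZMod 2) V] (x : V) : x + x = 0 := by
  have h : ((2 : ZMod 2)) • x = 0 := by
    have : (2 : ZMod 2) = 0 := rfl
    rw [this, zero_smul]
  rwa [two_smul] at h

theorem eq_of_add_eq_zero {V : Type*} [AddCommGroup V] [Module (ZMod 2) V] {x y : V}
    (h : x + y = 0) : x = y := by
  have h1 : x + y + y = y := by rw [h, zero_add]
  rwa [add_assoc, add_self', add_zero] at h1

theorem mem_Zc_iff {A B : GS X} {j : ℕ} {x : X.C j} :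
    x ∈ Zc A B j ↔ x ∈ B j ∧ x ∈ Zc A ⊤ j := by
  cases j with
  | zero => exact ⟨fun h => ⟨h, trivial⟩, fun h => h.1⟩
  | succ i => exact ⟨fun h => ⟨h.1, trivial, h.2⟩, fun h => ⟨h.1, h.2.2⟩⟩


theorem mem_Bd {A B : GS X} {j : ℕ} {x : X.C j} :
    x ∈ Bd A B j ↔ ∃ w ∈ B (j + 1), ∃ a ∈ A j, X.d j w + a = x := by
  unfold Bd
  rw [Submodule.mem_sup]
  constructor
  · rintro ⟨y, ⟨w, hw, rfl⟩, z, hz, rfl⟩
    exact ⟨w, hw, z, hz, rfl⟩
  · rintro ⟨w, hw, a, ha, rfl⟩
    exact ⟨_, ⟨w, hw, rfl⟩, a, ha, rfl⟩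

theorem d_mem_Bd {A B : GS X} {j : ℕ} {w : X.C (j + 1)} (hw : w ∈ B (j + 1)) :
    X.d j w ∈ Bd A B j := mem_Bd.2 ⟨w, hw, 0, (A j).zero_mem, add_zero _⟩


theorem Bd_mono {A B A' B' : GS X} (hA : ∀ j, A j ≤ A' j) (hB : ∀ j, B j ≤ B' j) (j : ℕ) :
    Bd A B j ≤ Bd A' B' j :=
  sup_le_sup (Submodule.map_mono (hB _)) (hA _)

theorem Zc_mono {A B A' B' : GS X} (hA : ∀ j, A j ≤ A' j) (hB : ∀ j, B j ≤ B' j) (j : ℕ) :
    Zc A B j ≤ Zc A' B' j := by
  cases j with
  | zero => exact hB 0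
  | succ i => exact inf_le_inf (hB _) (Submodule.comap_mono (hA _))

/-- boundaries are relative cycles -/
theorem d_mem_Zc_top (A : GS X) {j : ℕ} (w : X.C (j + 1)) : X.d j w ∈ Zc A ⊤ j := by
  cases j with
  | zero => trivial
  | succ i => exact ⟨trivial, by
      show X.d i (X.d (i + 1) w) ∈ A i
      rw [X.dd]; exact (A i).zero_mem⟩

theorem base_le_Zc_top {A : GS X} (hA : Stab A) (j : ℕ) : A j ≤ Zc A ⊤ j := by
  cases j with
  | zero => exact le_top
  | succ i => exact fun x hx => ⟨trivial, hA.d i x hx⟩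

theorem Bd_le_Zc_top {A : GS X} (hA : Stab A) (B : GS X) (j : ℕ) : Bd A B j ≤ Zc A ⊤ j := by
  intro x hx
  obtain ⟨w, -, a, ha, rfl⟩ := mem_Bd.1 hx
  exact Submodule.add_mem _ (d_mem_Zc_top A w) (base_le_Zc_top hA j ha)

theorem Bd_le {A B : GS X} (hB : Stab B) (hAB : ∀ j, A j ≤ B j) (j : ℕ) : Bd A B j ≤ B j := by
  intro x hx
  obtain ⟨w, hw, a, ha, rfl⟩ := mem_Bd.1 hx
  exact Submodule.add_mem _ (hB.d _ _ hw) (hAB _ ha)


end basic

variable (K : Core)

theorem F_le {s t : ℝ} (h : s ≤ t) (j : ℕ) : K.F s j ≤ K.F t j := K.F_mono s t h j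


theorem tau_Zc_top {a : ℝ} {j : ℕ} {x : K.X.C j} (hx : x ∈ Zc (K.F a) ⊤ j) :
    K.tau j x ∈ Zc (K.F a) ⊤ j := by
  cases j with
  | zero => trivial
  | succ i => exact ⟨trivial, by
      show K.X.d i (K.tau (i + 1) x) ∈ K.F a i
      rw [K.d_tau]; exact K.F_tau a i _ hx.2⟩

theorem tau_Bd {a b : ℝ} {j : ℕ} {x : K.X.C j} (hx : x ∈ Bd (K.F a) (K.F b) j) :
    K.tau j x ∈ Bd (K.F a) (K.F b) j := by
  obtain ⟨w, hw, f, hf, rfl⟩ := mem_Bd.1 hx
  exact mem_Bd.2 ⟨K.tau _ w, K.F_tau b _ w hw, K.tau _ f, K.F_tau a _ f hf, by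
    rw [K.d_tau, map_add]⟩


/-- the splitting data of the pair `(F_b, F_a)` -/
structure SplitAt (Pp Pm : GS K.X) (a b : ℝ) : Prop where
  bd_le_p : ∀ j, Bd (K.F a) (K.F b) j ≤ Pp j
  bd_le_m : ∀ j, Bd (K.F a) (K.F b) j ≤ Pm j
  p_le : ∀ j, Pp j ≤ Zc (K.F a) (K.F b) j
  m_le : ∀ j, Pm j ≤ Zc (K.F a) (K.F b) j
  sup : ∀ j, Zc (K.F a) (K.F b) j ≤ Pp j ⊔ Pm j
  inf : ∀ j, Pp j ⊓ Pm j ≤ Bd (K.F a) (K.F b) j
  tau_p : ∀ j x, x ∈ Pp j → K.tau j x ∈ Pm j
  tau_m : ∀ j x, x ∈ Pm j → K.tau j x ∈ Pp j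
  /-- the births (parity `σ + 1`) are split -/
  splR : ∀ j, j % 2 ≠ K.σ % 2 → Spl Pp Pm (Rr K a b) j
  /-- the finite births (parity `σ`) are split -/
  splR0 : ∀ j, j % 2 = K.σ % 2 → Spl Pp Pm (R0 K a b) j

variable {K}

/-- a split submodule `S ≥ Bd`; if `y = yp + ym` and `y + τ y ∈ S` then `ym + τ yp ∈ S`. -/
theorem SplitAt.norm {Pp Pm : GS K.X} {a b : ℝ} (H : SplitAt K Pp Pm a b) {S : GS K.X} {j : ℕ}
    (hS : Spl Pp Pm S j) (hBS : Bd (K.F a) (K.F b) j ≤ S j) {yp ym : K.X.C j}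
    (hp : yp ∈ Pp j) (hm : ym ∈ Pm j) (hy : yp + ym + K.tau j (yp + ym) ∈ S j) :
    ym + K.tau j yp ∈ S j := by
  obtain ⟨sp, sm, hsp, hspS, hsm, hsmS, e⟩ := hS _ hy
  have h1 : yp + K.tau j ym + sp = ym + K.tau j yp + sm := by
    apply eq_of_add_eq_zero
    have e1 : yp + K.tau j ym + sp + (ym + K.tau j yp + sm)
        = (yp + ym + K.tau j (yp + ym)) + (sp + sm) := by rw [map_add]; abel
    rw [e1, ← e, add_self']
  have h2 : ym + K.tau j yp + sm ∈ Bd (K.F a) (K.F b) j := by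
    refine H.inf j ⟨?_, ?_⟩
    · rw [← h1]
      exact Submodule.add_mem _ (Submodule.add_mem _ hp (H.tau_m j _ hm)) hsp
    · exact Submodule.add_mem _ (Submodule.add_mem _ hm (H.tau_p j _ hp)) hsm
  have h3 := Submodule.add_mem _ (hBS h2) hsmS
  rwa [add_assoc, add_self', add_zero] at h3

/-- quotient by a split submodule is free: a fixed class is a norm. -/
theorem SplitAt.norm' {Pp Pm : GS K.X} {a b : ℝ} (H : SplitAt K Pp Pm a b) {S : GS K.X} {j : ℕ}
    (hS : Spl Pp Pm S j) (hBS : Bd (K.F a) (K.F b) j ≤ S j) {y : K.X.C j}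
    (hyZ : y ∈ Zc (K.F a) (K.F b) j) (hy : y + K.tau j y ∈ S j) :
    ∃ yp ∈ Pp j, ∃ s ∈ S j, y = yp + K.tau j yp + s := by
  obtain ⟨yp, hp, ym, hm, rfl⟩ := Submodule.mem_sup.1 (H.sup j hyZ)
  refine ⟨yp, hp, ym + K.tau j yp, H.norm hS hBS hp hm hy, ?_⟩
  have : yp + K.tau j yp + (ym + K.tau j yp) = yp + ym + (K.tau j yp + K.tau j yp) := by abel
  rw [this, add_self', add_zero]

theorem splBd {Pp Pm : GS K.X} {a b : ℝ} (H : SplitAt K Pp Pm a b) (j : ℕ) :
    Spl Pp Pm (Bd (K.F a) (K.F b)) j := fun y hy =>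
  ⟨y, 0, H.bd_le_p j hy, hy, Submodule.zero_mem _, Submodule.zero_mem _, (add_zero y).symm⟩


theorem P_le_Zc {t : ℝ} {j : ℕ} : P K t j ≤ Zc (K.F 0) (K.F t) j := fun _ hx =>
  mem_Zc_iff.2 ⟨hx.1, Bd_le_Zc_top (K.F_stab 0) _ _ hx.2⟩

theorem Bd_le_P {t : ℝ} (ht : 0 ≤ t) {j : ℕ} : Bd (K.F 0) (K.F t) j ≤ P K t j := fun _ hx =>
  ⟨Bd_le (K.F_stab t) (F_le K ht) j hx, Bd_mono (fun _ => le_rfl) (fun _ => le_top) j hx⟩

theorem Bd_le_R0 {a b : ℝ} (hb : 0 ≤ b) {j : ℕ} : Bd (K.F a) (K.F b) j ≤ R0 K a b j := by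
  intro x hx
  obtain ⟨w, hw, f, hf, rfl⟩ := mem_Bd.1 hx
  exact Submodule.add_mem_sup (Bd_le_P hb (d_mem_Bd hw)) hf


/-- statement `(**)` of the proof at the level `t` in degree `e`: a finite class which is fixed
by `τ` is a norm. -/
def NormF (K : Core) (e : ℕ) (t : ℝ) : Prop :=
  ∀ y ∈ P K t e, y + K.tau e y ∈ Bd (K.F 0) (K.F t) e →
    ∃ v ∈ Zc (K.F 0) (K.F t) e, y + (v + K.tau e v) ∈ Bd (K.F 0) (K.F t) e

/-- transport over a non-critical interval -/
theorem NormF.noncrit {e : ℕ} {t t' : ℝ} (h : NormF K e t) (h0 : 0 ≤ t) (ht : t ≤ t')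
    (hc : ∀ s ∈ K.Crit, ¬ (t ≤ s ∧ s ≤ t')) : NormF K e t' := by
  have hN := K.noncrit t t' h0 ht hc
  intro y hy hyt
  have hyZ : y ∈ Zc (K.F t) (K.F t') e :=
    Zc_mono (F_le K h0) (fun _ => le_rfl) e (P_le_Zc hy)
  obtain ⟨u, hu, y1, hy1, rfl⟩ := mem_Bd.1 (hN e hyZ)
  have hduB : K.X.d e u ∈ Bd (K.F 0) (K.F t') e := d_mem_Bd hu
  have hy1P : y1 ∈ P K t e := by
    refine ⟨hy1, ?_⟩
    have h1 := Submodule.add_mem _ hy.2
      (Bd_mono (fun _ => le_rfl) (fun _ => le_top) e hduB : K.X.d e u ∈ Bd (K.F 0) ⊤ e)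
    have e1 : K.X.d e u + y1 + K.X.d e u = y1 + (K.X.d e u + K.X.d e u) := by abel
    rwa [e1, add_self', add_zero] at h1
  have hfix : y1 + K.tau e y1 ∈ Bd (K.F 0) (K.F t) e := by
    have h1 : y1 + K.tau e y1 ∈ Bd (K.F 0) (K.F t') e := by
      have h2 := Submodule.add_mem _ hyt (Submodule.add_mem _ hduB (tau_Bd K hduB))
      have e1 : K.X.d e u + y1 + K.tau e (K.X.d e u + y1) + (K.X.d e u + K.tau e (K.X.d e u))
          = y1 + K.tau e y1 + ((K.X.d e u + K.tau e (K.X.d e u))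
            + (K.X.d e u + K.tau e (K.X.d e u))) := by rw [map_add]; abel
      rwa [e1, add_self', add_zero] at h2
    obtain ⟨q, hq, f0, hf0, hqe⟩ := mem_Bd.1 h1
    have hdq : K.X.d e q ∈ K.F t e := by
      have e1 : K.X.d e q = y1 + K.tau e y1 + f0 := by
        rw [← hqe, add_assoc, add_self', add_zero]
      rw [e1]
      exact Submodule.add_mem _ (Submodule.add_mem _ hy1 (K.F_tau t e _ hy1)) (F_le K h0 e hf0)
    obtain ⟨q', hq', q1, hq1, hqq⟩ := mem_Bd.1 (hN (e + 1) ⟨hq, hdq⟩)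
    have e2 : K.X.d e q = K.X.d e q1 := by
      rw [← hqq, map_add, K.X.dd, zero_add]
    exact mem_Bd.2 ⟨q1, hq1, f0, hf0, by rw [← e2]; exact hqe⟩
  obtain ⟨v, hv, hvB⟩ := h y1 hy1P hfix
  refine ⟨v, Zc_mono (fun _ => le_rfl) (F_le K ht) e hv, ?_⟩
  have h3 := Submodule.add_mem _ hduB (Bd_mono (fun _ => le_rfl) (F_le K ht) e hvB)
  rwa [← add_assoc] at h3

/-- **passing a critical level** -/
theorem NormF.crit {e : ℕ} {a b : ℝ} (h : NormF K e a) (h0 : 0 ≤ a) (hab : a ≤ b)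
    {Pp Pm : GS K.X} (H : SplitAt K Pp Pm a b)
    (he : e % 2 ≠ K.σ % 2) (hd : (e + 1) % 2 = K.σ % 2)
    (hfin : Zc (K.F 0) (K.F b) (e + 1) ≤ Bd (K.F 0) ⊤ (e + 1))
    (htau : ∀ m1 : K.X.C e, m1 ∈ Zc (K.F 0) ⊤ e → m1 + K.tau e m1 ∈ Bd (K.F 0) ⊤ e) :
    NormF K e b := by
  have hb : 0 ≤ b := h0.trans hab
  intro y hyP hyt
  have hyZ0 := P_le_Zc hyP
  -- step 1: `y = y1 + (1 + τ) z + d w`
  have hyR : y ∈ Rr K a b e := Submodule.mem_sup_left hyZ0
  obtain ⟨yp, ym, hp, hpR, hm, hmR, rfl⟩ := H.splR e he y hyR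
  have hyB : yp + ym + K.tau e (yp + ym) ∈ Bd (K.F a) (K.F b) e :=
    Bd_mono (F_le K h0) (fun _ => le_rfl) e hyt
  have h1 := H.norm (splBd H e) le_rfl hp hm hyB
  obtain ⟨z, hz, f, hf, hzf⟩ := Submodule.mem_sup.1 hpR
  obtain ⟨w, hw, f', hf', hwf⟩ := mem_Bd.1 h1
  -- `y1 := y + z + τ z + d w`
  obtain ⟨y1, hy1def⟩ : ∃ y1, y1 = yp + ym + (z + K.tau e z) + K.X.d e w := ⟨_, rfl⟩
  have hy1F : y1 ∈ K.F a e := by
    have e1 : y1 = f + K.tau e f + f' := by
      rw [hy1def, ← hzf]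
      have e2 : ym = K.tau e (z + f) + (K.X.d e w + f') := by
        rw [hwf, ← hzf]
        have : K.tau e (z + f) + (ym + K.tau e (z + f))
          = ym + (K.tau e (z + f) + K.tau e (z + f)) := by abel
        rw [this, add_self', add_zero]
      rw [e2, map_add]
      have : z + f + (K.tau e z + K.tau e f + (K.X.d e w + f')) + (z + K.tau e z) + K.X.d e w
        = f + K.tau e f + f' + ((z + z) + (K.tau e z + K.tau e z)
          + (K.X.d e w + K.X.d e w)) := by abel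
      rw [this]; simp only [add_self', add_zero]
    rw [e1]
    exact Submodule.add_mem _ (Submodule.add_mem _ hf (K.F_tau a e _ hf)) hf'
  have hy1Z : y1 ∈ Zc (K.F 0) (K.F a) e := by
    refine mem_Zc_iff.2 ⟨hy1F, ?_⟩
    rw [hy1def]
    exact Submodule.add_mem _ (Submodule.add_mem _ (mem_Zc_iff.1 hyZ0).2
      (Submodule.add_mem _ (mem_Zc_iff.1 hz).2 (tau_Zc_top K (mem_Zc_iff.1 hz).2)))
      (d_mem_Zc_top _ w)
  have hdwB : K.X.d e w ∈ Bd (K.F 0) (K.F b) e := d_mem_Bd hw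
  have hy1B : y1 + K.tau e y1 ∈ Bd (K.F 0) (K.F b) e := by
    have e1 : y1 + K.tau e y1 = (yp + ym + K.tau e (yp + ym))
        + (K.X.d e w + K.tau e (K.X.d e w)) := by
      rw [hy1def]
      simp only [map_add, K.tau_tau]
      have : yp + ym + (z + K.tau e z) + K.X.d e w + (K.tau e yp + K.tau e ym
          + (K.tau e z + z) + K.tau e (K.X.d e w))
        = yp + ym + (K.tau e yp + K.tau e ym) + (K.X.d e w + K.tau e (K.X.d e w))
          + ((z + z) + (K.tau e z + K.tau e z)) := by abel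
      rw [this, add_self', add_self', add_zero, add_zero]
    rw [e1]
    exact Submodule.add_mem _ hyt (Submodule.add_mem _ hdwB (tau_Bd K hdwB))
  -- step 2
  obtain ⟨w2, hw2, f0, hf0, hw2e⟩ := mem_Bd.1 hy1B
  have hdw2 : K.X.d e w2 = y1 + K.tau e y1 + f0 := by
    rw [← hw2e, add_assoc, add_self', add_zero]
  have hw2Z : w2 ∈ Zc (K.F a) (K.F b) (e + 1) := by
    refine ⟨hw2, ?_⟩
    show K.X.d e w2 ∈ K.F a e
    rw [hdw2]
    exact Submodule.add_mem _ (Submodule.add_mem _ hy1F (K.F_tau a e _ hy1F)) (F_le K h0 e hf0)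
  have hw2t : w2 + K.tau (e + 1) w2 ∈ Zc (K.F 0) (K.F b) (e + 1) := by
    refine ⟨Submodule.add_mem _ hw2 (K.F_tau b _ _ hw2), ?_⟩
    show K.X.d e (w2 + K.tau (e + 1) w2) ∈ K.F 0 e
    rw [map_add, K.d_tau, hdw2]
    have : y1 + K.tau e y1 + f0 + K.tau e (y1 + K.tau e y1 + f0)
      = f0 + K.tau e f0 + ((y1 + y1) + (K.tau e y1 + K.tau e y1)) := by
      simp only [map_add, K.tau_tau]; abel
    rw [this, add_self', add_self', add_zero, add_zero]
    exact Submodule.add_mem _ hf0 (K.F_tau 0 e _ hf0)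
  have hw2R0 : w2 + K.tau (e + 1) w2 ∈ R0 K a b (e + 1) :=
    Submodule.mem_sup_left ⟨(mem_Zc_iff.1 hw2t).1, hfin hw2t⟩
  obtain ⟨wp, hwp, r, hr, hwr⟩ := H.norm' (H.splR0 (e + 1) hd) (Bd_le_R0 hb) hw2Z hw2R0
  obtain ⟨p, hpP, g, hg, hpg⟩ := Submodule.mem_sup.1 hr
  have hwpZ := H.p_le _ hwp
  -- `n := d wp`
  have hnF : K.X.d e wp ∈ K.F a e := hwpZ.2
  have hnZ : K.X.d e wp ∈ Zc (K.F 0) (K.F a) e := mem_Zc_iff.2 ⟨hnF, d_mem_Zc_top _ _⟩
  have hdp : K.X.d e p ∈ K.F 0 e := (P_le_Zc hpP).2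
  have hfix : (y1 + K.X.d e wp) + K.tau e (y1 + K.X.d e wp) ∈ Bd (K.F 0) (K.F a) e := by
    refine mem_Bd.2 ⟨g, hg, K.X.d e p + f0, Submodule.add_mem _ hdp hf0, ?_⟩
    have e1 : K.X.d e w2 = K.X.d e wp + K.tau e (K.X.d e wp) + (K.X.d e p + K.X.d e g) := by
      rw [hwr, ← hpg]
      simp only [map_add, K.d_tau]
    have e2 : y1 + K.tau e y1 = K.X.d e w2 + f0 := hw2e.symm
    have e3 : y1 + K.X.d e wp + K.tau e (y1 + K.X.d e wp)
        = (y1 + K.tau e y1) + (K.X.d e wp + K.tau e (K.X.d e wp)) := by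
      rw [map_add]; abel
    rw [e3, e2, e1]
    have : K.X.d e wp + K.tau e (K.X.d e wp) + (K.X.d e p + K.X.d e g) + f0
        + (K.X.d e wp + K.tau e (K.X.d e wp))
      = K.X.d e g + (K.X.d e p + f0) + ((K.X.d e wp + K.tau e (K.X.d e wp))
        + (K.X.d e wp + K.tau e (K.X.d e wp))) := by abel
    rw [this, add_self', add_zero]
  -- `y' := y1 + n` is finite at the level `a`
  have hy'P : y1 + K.X.d e wp ∈ P K a e := by
    refine ⟨Submodule.add_mem _ hy1F hnF, ?_⟩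
    have h2 : y1 ∈ Bd (K.F 0) ⊤ e := by
      rw [hy1def]
      exact Submodule.add_mem _ (Submodule.add_mem _ hyP.2 (htau z (mem_Zc_iff.1 hz).2))
        (d_mem_Bd trivial)
    exact Submodule.add_mem _ h2 (d_mem_Bd trivial)
  obtain ⟨v, hv, hvB⟩ := h _ hy'P hfix
  refine ⟨z + v, Submodule.add_mem _ hz (Zc_mono (fun _ => le_rfl) (F_le K hab) e hv), ?_⟩
  have hvB' : y1 + K.X.d e wp + (v + K.tau e v) ∈ Bd (K.F 0) (K.F b) e :=
    Bd_mono (fun _ => le_rfl) (F_le K hab) e hvB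
  have hnB : K.X.d e wp ∈ Bd (K.F 0) (K.F b) e := d_mem_Bd hwpZ.1
  have h4 := Submodule.add_mem _ (Submodule.add_mem _ hvB' hnB) hdwB
  have e5 : y1 + K.X.d e wp + (v + K.tau e v) + K.X.d e wp + K.X.d e w
      = yp + ym + (z + v + K.tau e (z + v)) := by
    rw [hy1def, map_add]
    have : yp + ym + (z + K.tau e z) + K.X.d e w + K.X.d e wp + (v + K.tau e v) + K.X.d e wp
        + K.X.d e w
      = yp + ym + (z + v + (K.tau e z + K.tau e v)) + ((K.X.d e w + K.X.d e w)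
        + (K.X.d e wp + K.X.d e wp)) := by abel
    rw [this, add_self', add_self', add_zero, add_zero]
  rwa [e5] at h4

/-- **the contradiction at the level `s_d`** -/
theorem final {e : ℕ} {a b : ℝ} (h : NormF K e a) (h0 : 0 ≤ a) (hab : a ≤ b)
    {Pp Pm : GS K.X} (H : SplitAt K Pp Pm a b) (hd : (e + 1) % 2 = K.σ % 2)
    (hbelow : Zc (K.F 0) (K.F a) (e + 1) ≤ Bd (K.F 0) ⊤ (e + 1))
    (habove : ¬ Zc (K.F 0) (K.F b) (e + 1) ≤ Bd (K.F 0) ⊤ (e + 1))
    (hop : ∀ m0 : K.X.C (e + 1), ∀ m1 : K.X.C e, m1 ∈ Zc (K.F 0) ⊤ e →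
      K.X.d e m0 + (m1 + K.tau _ m1) ∈ K.F 0 e → m0 + K.tau _ m0 ∈ Bd (K.F 0) ⊤ (e + 1)) :
    False := by
  have hb : 0 ≤ b := h0.trans hab
  obtain ⟨x, hx, hxn⟩ := Set.not_subset.1 habove
  have hxt : x + K.tau _ x ∈ Bd (K.F 0) ⊤ (e + 1) := by
    refine hop x 0 (Submodule.zero_mem _) ?_
    rw [map_zero, add_zero, add_zero]
    exact hx.2
  have hxR0 : x + K.tau _ x ∈ R0 K a b (e + 1) :=
    Submodule.mem_sup_left ⟨Submodule.add_mem _ hx.1 (K.F_tau b _ _ hx.1), hxt⟩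
  have hxZ : x ∈ Zc (K.F a) (K.F b) (e + 1) :=
    Zc_mono (F_le K h0) (fun _ => le_rfl) _ hx
  obtain ⟨ep, hep, r, hr, hxr⟩ := H.norm' (H.splR0 (e + 1) hd) (Bd_le_R0 hb) hxZ hxR0
  obtain ⟨p, hpP, f, hf, hpf⟩ := Submodule.mem_sup.1 hr
  have hepZ := H.p_le _ hep
  have hnF : K.X.d e ep ∈ K.F a e := hepZ.2
  have hdp : K.X.d e p ∈ K.F 0 e := (P_le_Zc hpP).2
  have hdx : K.X.d e x ∈ K.F 0 e := hx.2
  have hdxe : K.X.d e x = K.X.d e ep + K.tau e (K.X.d e ep) + (K.X.d e p + K.X.d e f) := by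
    rw [hxr, ← hpf]
    simp only [map_add, K.d_tau]
  have hfix : K.X.d e ep + K.tau e (K.X.d e ep) ∈ Bd (K.F 0) (K.F a) e := by
    refine mem_Bd.2 ⟨f, hf, K.X.d e x + K.X.d e p, Submodule.add_mem _ hdx hdp, ?_⟩
    rw [hdxe]
    have : K.X.d e f + (K.X.d e ep + K.tau e (K.X.d e ep) + (K.X.d e p + K.X.d e f)
        + K.X.d e p)
      = K.X.d e ep + K.tau e (K.X.d e ep) + ((K.X.d e f + K.X.d e f)
        + (K.X.d e p + K.X.d e p)) := by abel
    rw [this, add_self', add_self', add_zero, add_zero]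
  obtain ⟨v, hv, hvB⟩ := h _ ⟨hnF, d_mem_Bd trivial⟩ hfix
  obtain ⟨k, hk, f0, hf0, hkf⟩ := mem_Bd.1 hvB
  have hm : (ep + k) + K.tau _ (ep + k) ∈ Bd (K.F 0) ⊤ (e + 1) := by
    refine hop (ep + k) v (mem_Zc_iff.1 hv).2 ?_
    have e1 : K.X.d e (ep + k) + (v + K.tau e v) = f0 := by
      rw [map_add]
      have : K.X.d e ep + K.X.d e k + (v + K.tau e v)
        = K.X.d e k + (K.X.d e ep + (v + K.tau e v)) := by abel
      rw [this, ← hkf, ← add_assoc, add_self', zero_add]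
    rw [e1]; exact hf0
  -- the remaining part is a relative cycle of the level `a`
  have hrest : f + (k + K.tau _ k) ∈ Zc (K.F 0) (K.F a) (e + 1) := by
    refine ⟨Submodule.add_mem _ hf (Submodule.add_mem _ hk (K.F_tau a _ _ hk)), ?_⟩
    show K.X.d e (f + (k + K.tau (e + 1) k)) ∈ K.F 0 e
    have e1 : K.X.d e k = K.X.d e ep + (v + K.tau e v) + f0 := by
      rw [← hkf, add_assoc, add_self', add_zero]
    have e2 : K.X.d e (f + (k + K.tau (e + 1) k))
        = K.X.d e x + K.X.d e p + (f0 + K.tau e f0) := by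
      simp only [map_add, K.d_tau]
      rw [hdxe, e1]
      simp only [map_add, K.tau_tau]
      have : K.X.d e f + (K.X.d e ep + (v + K.tau e v) + f0
          + (K.tau e (K.X.d e ep) + (K.tau e v + v) + K.tau e f0))
        = K.X.d e f + (K.X.d e ep + K.tau e (K.X.d e ep)) + (f0 + K.tau e f0)
          + ((v + v) + (K.tau e v + K.tau e v)) := by abel
      rw [this, add_self', add_self', add_zero, add_zero]
      have : K.X.d e ep + K.tau e (K.X.d e ep) + (K.X.d e p + K.X.d e f) + K.X.d e p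
          + (f0 + K.tau e f0)
        = K.X.d e f + (K.X.d e ep + K.tau e (K.X.d e ep)) + (f0 + K.tau e f0)
          + (K.X.d e p + K.X.d e p) := by abel
      rw [this, add_self', add_zero]
    rw [e2]
    exact Submodule.add_mem _ (Submodule.add_mem _ hdx hdp)
      (Submodule.add_mem _ hf0 (K.F_tau 0 e _ hf0))
  refine hxn ?_
  have h5 := Submodule.add_mem _ (Submodule.add_mem _ hm (hbelow hrest)) hpP.2
  have e6 : ep + k + K.tau (e + 1) (ep + k) + (f + (k + K.tau (e + 1) k)) + p = x := by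
    rw [hxr, ← hpf, map_add]
    have : ep + k + (K.tau (e + 1) ep + K.tau (e + 1) k) + (f + (k + K.tau (e + 1) k)) + p
      = ep + K.tau (e + 1) ep + (p + f) + ((k + k)
        + (K.tau (e + 1) k + K.tau (e + 1) k)) := by abel
    rw [this, add_self', add_self', add_zero, add_zero]
  rwa [e6] at h5

/-! ### choice of the levels -/

theorem exists_gap (K : Core) (s : ℝ) : ∃ δ > 0, ∀ s' ∈ K.Crit, |s' - s| < δ → s' = s := by
  have hfin : ((K.Crit ∩ Set.Iic (s + 1)) \ {s}).Finite := (K.Crit_fin (s + 1)).sdiff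
  have hopen : IsOpen (((K.Crit ∩ Set.Iic (s + 1)) \ {s})ᶜ) := hfin.isClosed.isOpen_compl
  have hs : s ∈ ((K.Crit ∩ Set.Iic (s + 1)) \ {s})ᶜ := fun h => h.2 rfl
  obtain ⟨δ, hδ, hball⟩ := Metric.isOpen_iff.1 hopen s hs
  refine ⟨min δ 1, lt_min hδ one_pos, fun s' hs' h => ?_⟩
  by_contra hne
  have h1 : s' ∈ Metric.ball s δ := by
    rw [Metric.mem_ball, Real.dist_eq]; exact h.trans_le (min_le_left _ _)
  refine hball h1 ⟨⟨hs', ?_⟩, hne⟩
  have h2 := (abs_lt.1 (h.trans_le (min_le_right _ _))).2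
  show s' ≤ s + 1
  linarith

theorem exists_noncrit (K : Core) {x y : ℝ} (h : x < y) : ∃ t, x < t ∧ t < y ∧ t ∉ K.Crit := by
  have h1 : (Set.Ioo x y).Infinite := Set.Ioo_infinite h
  have h2 : (Set.Ioo x y \ (K.Crit ∩ Set.Iic y)).Infinite := h1.sdiff (K.Crit_fin y)
  obtain ⟨t, ht⟩ := h2.nonempty
  exact ⟨t, ht.1.1, ht.1.2, fun hc => ht.2 ⟨hc, ht.1.2.le⟩⟩

/-- `(**)` on the whole interval `[t1, L)` -/
theorem normF_all (K : Core) {e : ℕ} {t1 L : ℝ} (h0 : 0 ≤ t1) (hn1 : t1 ∉ K.Crit)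
    (h1 : NormF K e t1) (he : e % 2 ≠ K.σ % 2) (hd : (e + 1) % 2 = K.σ % 2)
    (hfin : ∀ t, 0 ≤ t → t ∉ K.Crit → t < L → Zc (K.F 0) (K.F t) (e + 1) ≤ Bd (K.F 0) ⊤ (e + 1))
    (htau : ∀ m1 : K.X.C e, m1 ∈ Zc (K.F 0) ⊤ e → m1 + K.tau e m1 ∈ Bd (K.F 0) ⊤ e)
    {ε0 : ℝ} (hε : 0 < ε0)
    (hS : ∀ s ∈ K.Crit, s < L → ∀ a b, t1 ≤ a → a < s → s < b → b < L → b - a < ε0 →
      a ∉ K.Crit → b ∉ K.Crit → (∀ s' ∈ K.Crit, a ≤ s' → s' ≤ b → s' = s) →
      ∃ Pp Pm, SplitAt K Pp Pm a b) :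
    ∀ n : ℕ, ∀ t, t1 ≤ t → t < L → t ∉ K.Crit → (K.Crit ∩ Set.Icc t1 t).ncard ≤ n →
      NormF K e t := by
  intro n
  induction n with
  | zero =>
    intro t ht htL htn hc
    have hf : (K.Crit ∩ Set.Icc t1 t).Finite :=
      (K.Crit_fin t).subset fun x hx => ⟨hx.1, hx.2.2⟩
    have hemp : K.Crit ∩ Set.Icc t1 t = ∅ := by
      rw [← Set.ncard_eq_zero hf]; omega
    refine h1.noncrit h0 ht fun s hs hst => ?_
    have : s ∈ K.Crit ∩ Set.Icc t1 t := ⟨hs, hst⟩
    rw [hemp] at this; exact this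
  | succ n ih =>
    intro t ht htL htn hc
    have hf : (K.Crit ∩ Set.Icc t1 t).Finite :=
      (K.Crit_fin t).subset fun x hx => ⟨hx.1, hx.2.2⟩
    rcases (K.Crit ∩ Set.Icc t1 t).eq_empty_or_nonempty with hemp | hne
    · exact ih t ht htL htn (by rw [hemp, Set.ncard_empty]; omega)
    obtain ⟨s, ⟨hsC, hs1, hst⟩, hmax⟩ := Set.exists_max_image _ id hf hne
    have hs1' : t1 < s := lt_of_le_of_ne hs1 fun h => hn1 (h ▸ hsC)
    have hst' : s < t := lt_of_le_of_ne hst fun h => htn (h ▸ hsC)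
    obtain ⟨δ, hδ, hgap⟩ := exists_gap K s
    obtain ⟨η, hη, e1, e2, e3, e4⟩ : ∃ η : ℝ, 0 < η ∧ η < δ ∧ η < ε0 / 2 ∧ η < s - t1 ∧
        η < t - s := by
      refine ⟨min (min δ (ε0 / 2)) (min (s - t1) (t - s)) / 2, ?_, ?_, ?_, ?_, ?_⟩
      · have : 0 < min (min δ (ε0 / 2)) (min (s - t1) (t - s)) :=
          lt_min (lt_min hδ (by linarith)) (lt_min (by linarith) (by linarith))
        linarith
      all_goals
        have h5 : 0 < min (min δ (ε0 / 2)) (min (s - t1) (t - s)) :=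
          lt_min (lt_min hδ (by linarith)) (lt_min (by linarith) (by linarith))
        have h6 := min_le_left (min δ (ε0 / 2)) (min (s - t1) (t - s))
        have h7 := min_le_right (min δ (ε0 / 2)) (min (s - t1) (t - s))
        have h8 := min_le_left δ (ε0 / 2)
        have h9 := min_le_right δ (ε0 / 2)
        have h10 := min_le_left (s - t1) (t - s)
        have h11 := min_le_right (s - t1) (t - s)
        linarith
    have hab : ∀ s' ∈ K.Crit, s - η ≤ s' → s' ≤ s + η → s' = s := fun s' hs' ha hb =>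
      hgap s' hs' (by rw [abs_lt]; constructor <;> linarith)
    have han : s - η ∉ K.Crit := fun h => by
      have := hab _ h le_rfl (by linarith); linarith
    have hbn : s + η ∉ K.Crit := fun h => by
      have := hab _ h (by linarith) le_rfl; linarith
    obtain ⟨Pp, Pm, H⟩ := hS s hsC (by linarith) (s - η) (s + η) (by linarith) (by linarith)
      (by linarith) (by linarith) (by linarith) han hbn hab
    have hcard : (K.Crit ∩ Set.Icc t1 (s - η)).ncard ≤ n := by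
      have hss : K.Crit ∩ Set.Icc t1 (s - η) ⊂ K.Crit ∩ Set.Icc t1 t := by
        refine ⟨fun x hx => ⟨hx.1, hx.2.1, by linarith [hx.2.2]⟩, fun hsub => ?_⟩
        have := (hsub ⟨hsC, hs1, hst⟩).2.2
        linarith
      have := Set.ncard_lt_ncard hss hf
      omega
    have hA := ih (s - η) (by linarith) (by linarith) han hcard
    have hB := hA.crit (by linarith) (by linarith) H he hd
      (hfin (s + η) (by linarith) hbn (by linarith)) htau
    refine hB.noncrit (by linarith) (by linarith) fun s' hs' hst => ?_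
    have := hmax s' ⟨hs', by linarith [hst.1], hst.2⟩
    simp only [id] at this
    linarith [hst.1]

theorem le_of_rd_eq_zero {V : Type*} [AddCommGroup V] [Module (ZMod 2) V]
    {P Q : Submodule (ZMod 2) V} (h : rd P Q = 0) : Q ≤ P := by
  unfold rd at h
  rw [Module.length_eq_zero_iff] at h
  intro x hx
  have h1 : (Submodule.Quotient.mk (⟨x, hx⟩ : Q) : Q ⧸ P.submoduleOf Q) = 0 := h.elim _ _
  rw [Submodule.Quotient.mk_eq_zero] at h1
  exact h1

open Crest.Agent.R231.AlgSplitDefx796 in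
/-- **the contradiction** -/
theorem false_of_split (K : Core) (al be : ℝ) (h0 : 0 < al) (h1 : al < be)
    (h : SplitOut K al be) : False := by
  obtain ⟨C0, hA2⟩ := K.A2
  obtain ⟨C1, hstep⟩ := K.lv_step
  -- a non-negative step
  obtain ⟨D, hD0, hD⟩ : ∃ D : ℝ, 0 ≤ D ∧ ∀ i, K.lv (i + 1) ≤ K.lv i + D :=
    ⟨max C1 0, le_max_right _ _, fun i => (hstep i).trans (by linarith [le_max_left C1 0])⟩
  -- the scale
  obtain ⟨r, hr⟩ : ∃ r : ℕ, max (K.lv 0 / al) ((1 + (C0 + 1) * D) / (be - al)) < 2 ^ (r + 1) := by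
    obtain ⟨r, hr⟩ := pow_unbounded_of_one_lt
      (max (K.lv 0 / al) ((1 + (C0 + 1) * D) / (be - al))) (one_lt_two (α := ℝ))
    exact ⟨r, hr.trans (pow_lt_pow_right₀ one_lt_two (Nat.lt_succ_self r))⟩
  obtain ⟨q, hq⟩ : ∃ q : ℝ, q = 2 ^ (r + 1) := ⟨_, rfl⟩
  have hqpos : 0 < q := by rw [hq]; positivity
  have hr1 : K.lv 0 < q * al := by
    have := (le_max_left _ _).trans_lt hr
    rw [← hq, div_lt_iff₀ h0] at this
    exact this
  have hr2 : 1 + (C0 + 1) * D < q * (be - al) := by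
    have := (le_max_right _ _).trans_lt hr
    rw [← hq, div_lt_iff₀ (by linarith)] at this
    exact this
  obtain ⟨t1, ht1, ht1', hn1⟩ := exists_noncrit K (show q * al < q * al + 1 by linarith)
  have hqal : 0 < q * al := mul_pos hqpos h0
  have ht10 : 0 ≤ t1 := by linarith
  -- the first index
  classical
  have hex : ∃ i0 : ℕ, ∀ i, i0 ≤ i → t1 < K.lv i := K.lv_tendsto t1
  obtain ⟨i1, hi1, hmin⟩ : ∃ i1 : ℕ, (∀ i, i1 ≤ i → t1 < K.lv i) ∧
      ∀ m < i1, ¬ ∀ i, m ≤ i → t1 < K.lv i := ⟨Nat.find hex, Nat.find_spec hex,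
        fun m hm => Nat.find_min hex hm⟩
  have hi1pos : i1 ≠ 0 := fun hz => by
    have := hi1 0 (by omega)
    linarith
  obtain ⟨i2, rfl⟩ : ∃ i2, i1 = i2 + 1 := ⟨i1 - 1, by omega⟩
  have hi2 : K.lv i2 ≤ t1 := by
    by_contra hlt
    push Not at hlt
    refine hmin i2 (Nat.lt_succ_self _) fun i hi => ?_
    rcases hi.eq_or_lt with rfl | hi
    · exact hlt
    · exact hi1 i hi
  have hup : ∀ k : ℕ, K.lv (i2 + k) ≤ t1 + k * D := by
    intro k
    induction k with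
    | zero => simpa using hi2
    | succ k ih =>
      have := hD (i2 + k)
      have e : i2 + (k + 1) = i2 + k + 1 := rfl
      rw [e]; push_cast; linarith
  -- a degree without finite classes at the level `t1`
  obtain ⟨k, hk, hrd⟩ : ∃ k : ℕ, k ≤ C0 ∧
      rd (Bd (K.F 0) (K.F t1) (K.e (i2 + 1 + k))) (P K t1 (K.e (i2 + 1 + k))) = 0 := by
    by_contra hno
    push Not at hno
    have hA := hA2 t1 ht10 hn1 (K.e (i2 + 1 + C0) + 1)
    have hinj : Function.Injective fun k : ℕ => K.e (i2 + 1 + k) := fun x y hxy => by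
      have := K.e_mono.injective hxy
      omega
    have hsub : (Finset.range (C0 + 1)).image (fun k => K.e (i2 + 1 + k)) ⊆
        Finset.range (K.e (i2 + 1 + C0) + 1) := by
      intro j hj
      obtain ⟨k, hk, rfl⟩ := Finset.mem_image.1 hj
      rw [Finset.mem_range] at hk ⊢
      exact Nat.lt_succ_of_le (K.e_mono.monotone (by omega))
    have h2 : ((C0 + 1 : ℕ) : ℕ∞) ≤ ∑ j ∈ (Finset.range (C0 + 1)).image (fun k => K.e (i2 + 1 + k)),
        rd (Bd (K.F 0) (K.F t1) j) (K.F t1 j ⊓ Bd (K.F 0) ⊤ j) := by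
      rw [Finset.sum_image fun x _ y _ hxy => hinj hxy]
      have h3 : ∑ _k ∈ Finset.range (C0 + 1), (1 : ℕ∞) ≤ ∑ k ∈ Finset.range (C0 + 1),
          rd (Bd (K.F 0) (K.F t1) (K.e (i2 + 1 + k)))
            (K.F t1 (K.e (i2 + 1 + k)) ⊓ Bd (K.F 0) ⊤ (K.e (i2 + 1 + k))) := by
        refine Finset.sum_le_sum fun k hk => ?_
        rw [Finset.mem_range] at hk
        exact Order.one_le_iff_ne_zero.2 (hno k (by omega))
      refine le_trans ?_ h3
      simp
    have h4 := (h2.trans (Finset.sum_le_sum_of_subset hsub)).trans hA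
    have h5 : C0 + 1 ≤ C0 := by exact_mod_cast h4
    omega
  have hN1 : NormF K (K.e (i2 + 1 + k)) t1 := by
    intro y hy _
    refine ⟨0, Submodule.zero_mem _, ?_⟩
    rw [map_zero, add_zero, add_zero]
    exact le_of_rd_eq_zero hrd hy
  set i := i2 + 1 + k with hi
  set L := K.lv i with hL
  have hLt1 : t1 < L := hi1 i (by omega)
  have hLbe : L < q * be := by
    have h2 := hup (k + 1)
    have e : i2 + (k + 1) = i := by omega
    rw [e] at h2
    have h3 : ((k + 1 : ℕ) : ℝ) * D ≤ (C0 + 1) * D := by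
      refine mul_le_mul_of_nonneg_right ?_ hD0
      push_cast
      have : (k : ℝ) ≤ C0 := by exact_mod_cast hk
      linarith
    have h4 : q * (be - al) = q * be - q * al := by ring
    rw [h4] at hr2
    linarith
  have hpar := K.e_par i
  have hpar' : K.e i % 2 ≠ K.σ % 2 := by omega
  -- `L` is critical
  have hLC : L ∈ K.Crit := by
    by_contra hLn
    obtain ⟨δ, hδ, hgap⟩ := exists_gap K L
    obtain ⟨η, hη, e1, e2⟩ : ∃ η : ℝ, 0 < η ∧ η < δ ∧ η < L - t1 :=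
      ⟨min δ (L - t1) / 2, by
        have : 0 < min δ (L - t1) := lt_min hδ (by linarith)
        linarith, by
        have := min_le_left δ (L - t1)
        linarith, by
        have h7 : 0 < min δ (L - t1) := lt_min hδ (by linarith)
        have := min_le_right δ (L - t1)
        linarith⟩
    have hno : ∀ s' ∈ K.Crit, ¬ (L - η ≤ s' ∧ s' ≤ L + η) := fun s' hs' hh => by
      have := hgap s' hs' (by rw [abs_lt]; constructor <;> linarith [hh.1, hh.2])
      exact hLn (this ▸ hs')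
    have han : L - η ∉ K.Crit := fun hc => hno _ hc ⟨le_rfl, by linarith⟩
    have hbn : L + η ∉ K.Crit := fun hc => hno _ hc ⟨by linarith, le_rfl⟩
    refine K.lv_above i (L + η) (by linarith) hbn (by linarith) fun x hx => ?_
    have hx' : x ∈ Zc (K.F (L - η)) (K.F (L + η)) (K.e i + 1) :=
      Zc_mono (F_le K (by linarith)) (fun _ => le_rfl) _ hx
    obtain ⟨w, hw, x1, hx1, rfl⟩ := mem_Bd.1 (K.noncrit (L - η) (L + η) (by linarith)
      (by linarith) hno _ hx')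
    have hdw : K.X.d (K.e i + 1) w ∈ Bd (K.F 0) ⊤ (K.e i + 1) := d_mem_Bd trivial
    refine Submodule.add_mem _ hdw (K.lv_below i (L - η) (by linarith) han (by linarith) ?_)
    refine mem_Zc_iff.2 ⟨hx1, ?_⟩
    have h2 := Submodule.add_mem _ (mem_Zc_iff.1 hx).2
      (d_mem_Zc_top (K.F 0) w)
    have e3 : K.X.d (K.e i + 1) w + x1 + K.X.d (K.e i + 1) w
      = x1 + (K.X.d (K.e i + 1) w + K.X.d (K.e i + 1) w) := by abel
    rwa [e3, add_self', add_zero] at h2
  obtain ⟨P', ε0, hε0, hP⟩ := h (q * be)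
  have hS : ∀ s ∈ K.Crit, s < q * be → ∀ a b, t1 ≤ a → a < s → s < b → b ≤ q * be →
      b - a < ε0 → a ∉ K.Crit → b ∉ K.Crit → (∀ s' ∈ K.Crit, a ≤ s' → s' ≤ b → s' = s) →
      ∃ Pp Pm, SplitAt K Pp Pm a b := by
    intro s hs hsL a b ha has hsb hbL hab han hbn honly
    obtain ⟨h4, h5, h6⟩ := hP r s a b ⟨hs, hsL.le, by linarith, has, hsb, hab, han, hbn, honly⟩
      (by rw [← hq]; linarith) (by rw [← hq]; linarith)
    exact ⟨P' true s a b, P' false s a b,
      { bd_le_p := h4.bd_le true, bd_le_m := h4.bd_le false, p_le := h4.le_zc true,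
        m_le := h4.le_zc false, sup := h4.cover, inf := h4.disj,
        tau_p := fun j x hx => h4.tau true j x hx, tau_m := fun j x hx => h4.tau false j x hx,
        splR := h5, splR0 := h6 }⟩
  -- the window around `L`
  obtain ⟨δ, hδ, hgap⟩ := exists_gap K L
  obtain ⟨η, hη, e1, e2, e3, e4⟩ : ∃ η : ℝ, 0 < η ∧ η < δ ∧ η < ε0 / 2 ∧ η < L - t1 ∧
      η < q * be - L := by
    refine ⟨min (min δ (ε0 / 2)) (min (L - t1) (q * be - L)) / 2, ?_, ?_, ?_, ?_, ?_⟩
    · have : 0 < min (min δ (ε0 / 2)) (min (L - t1) (q * be - L)) :=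
        lt_min (lt_min hδ (by linarith)) (lt_min (by linarith) (by linarith))
      linarith
    all_goals
      have h5 : 0 < min (min δ (ε0 / 2)) (min (L - t1) (q * be - L)) :=
        lt_min (lt_min hδ (by linarith)) (lt_min (by linarith) (by linarith))
      have h6 := min_le_left (min δ (ε0 / 2)) (min (L - t1) (q * be - L))
      have h7 := min_le_right (min δ (ε0 / 2)) (min (L - t1) (q * be - L))
      have h8 := min_le_left δ (ε0 / 2)
      have h9 := min_le_right δ (ε0 / 2)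
      have h10 := min_le_left (L - t1) (q * be - L)
      have h11 := min_le_right (L - t1) (q * be - L)
      linarith
  have hab : ∀ s' ∈ K.Crit, L - η ≤ s' → s' ≤ L + η → s' = L := fun s' hs' ha hb =>
    hgap s' hs' (by rw [abs_lt]; constructor <;> linarith)
  have han : L - η ∉ K.Crit := fun hc => by
    have := hab _ hc le_rfl (by linarith); linarith
  have hbn : L + η ∉ K.Crit := fun hc => by
    have := hab _ hc (by linarith) le_rfl; linarith
  have hA : NormF K (K.e i) (L - η) :=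
    normF_all K ht10 hn1 hN1 hpar' hpar
      (fun t h0 hn hlt => K.lv_below i t h0 hn hlt) (K.A3tau i) hε0
      (fun s hs hsL a b h1 h2 h3 h4 h5 h6 h7 h8 =>
        hS s hs (by linarith) a b h1 h2 h3 (by linarith) h5 h6 h7 h8)
      _ (L - η) (by linarith) (by linarith) han le_rfl
  obtain ⟨Pp, Pm, H⟩ := hS L hLC hLbe (L - η) (L + η) (by linarith) (by linarith) (by linarith)
    (by linarith) (by linarith) han hbn hab
  exact final hA (by linarith) (by linarith) H hpar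
    (K.lv_below i (L - η) (by linarith) han (by linarith))
    (K.lv_above i (L + η) (by linarith) hbn (by linarith)) (K.A3op i)

end Crest.Agent.R231.AlgEndx807
end

-- ▼ part R231/CoreFalse_978
section

/-!
# Row 231: block A complete: `Core → False`  (helpers 978, 796, 807)
-/

set_option autoImplicit false

namespace Crest.Agent.R231.CoreFalsex978

open Crest.Agent.R231

theorem core_false (K : IfAx978.Core) : False := by
  obtain ⟨α, β, hF⟩ := AlgForcex978.forcing K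
  exact AlgEndx807.false_of_split K α β hF.1 hF.2.1 (AlgSplitx796.splitOut K hF)

end Crest.Agent.R231.CoreFalsex978
end

-- ▼ part R231/EndQ_89

/-!
# Row 231 (S0357): the theorem from the output `POuts` (second door) of block P (helper89)
-/

set_option autoImplicit false
set_option linter.unusedSectionVars false

noncomputable section

open Bundle Set Filter Function
open scoped Manifold ContDiff Bundle ENNReal Topology
open Crest.GeometryTopology.MTW Crest.GeometryTopology.Geodesic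
open Crest.Agent.R226 Crest.Agent.R226.GeoBasic616 Crest.Agent.R226.TB616
open Crest.Agent.R204

namespace Crest.Agent.R231.EndPx89

open Pairx877 GLugx576 TActx569 TCx569 IfAx978 Gr334 Instx895
open PrimeGeox893 CritPMx893 GeoLugx724 GeoBasex724 Frontx893 Asmx895 BDAx969 TopBasex220

/-- `Outs` from the block T and the second door of block P -/
theorem outs_of_POuts {M : Type} [MetricSpace M] {k : ℕ} (hk : 1 ≤ k) (T : TOutx482.TIn M k)
    (K : TOutx482.KapOps M) (hb : BaseHyp M) (hw : Window (CritS M)) (gm : GMW M)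
    (P : POuts M k) (A4 : A4P M) : Outs M k where
  base := hb
  window := hw
  gm := gm
  bd := bd_of_pouts P
  A1s := T.A1s
  deg := ⟨e3 k, e3_mono hk, e3_par hk,
    lv_of_pouts' hk hb P (e3 k) 3 (by omega) (fun _ => rfl) (e3_succ hk), T.A3op_e3 K,
    T.A3tau_e3 K⟩
  A4 := A4

/-- **S0357** from the second output of block P for the spheres -/
theorem infinite_of_POuts (n : ℕ) (hn : 2 ≤ n)
    (P : ∀ [NeZero n] (g : Met n), Nonempty (POuts (SG g) (n - 1))) (g : Met n) :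
    {S : Set (Metric.sphere (0 : EuclideanSpace ℝ (Fin (n + 1))) 1) |
      ∃ γ : ℝ → Metric.sphere (0 : EuclideanSpace ℝ (Fin (n + 1))) 1,
      IsClosedGeodesic (𝓡 n) g γ ∧ (∃ s t, γ s ≠ γ t) ∧ Set.range γ = S}.Infinite :=
  infinite_of_outs CoreFalsex978.core_false n hn (fun g G N S => by
    obtain ⟨k, rfl⟩ : ∃ k, n = k + 1 := ⟨n - 1, by omega⟩
    have hk : 1 ≤ k := by omega
    obtain ⟨p⟩ : Nonempty (SG g) := inferInstance
    obtain ⟨T⟩ := TBasx961.tinIn (M := SG g) (lug G) hk (toSG g).symm p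
    obtain ⟨P⟩ := P g
    exact outs_of_POuts hk T (KapOpsx482.kapOps (SG g)) (baseHyp_sphere' g G S)
      (window_of' G S) (GMWx160.gmw_sphere (k + 1) g G N S) P
      (SDexx737.A4P_of_prime (lug G) (locMin G) (nonBr G) S)) g

end Crest.Agent.R231.EndPx89
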