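import Mathlib
import Crest.Agent.R231.GMDefs_898
import Crest.Agent.R231.Small_566
import Crest.Agent.R204.EZHtp_271

-- ▼ part R231/GMSadA_888
section

/-!
# Row 231, block GM, leaf B1 (helper888), part A: the analysis of the saddle lemma

`F : X × (ι → ℝ) → ℝ`, `w i = ±1`; `SadBox F w U ρ` says that for `x ∈ U`, `‖y‖ ≤ ρ` the function
`F (x, ·)` is differentiable with `D_yF(x,y) v = ∑ w i * y i * v i + (error ≤ ‖y‖‖v‖/2)`.

* `upper`, `lower` : `F (x,y)` compared with `F (x,0)`;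
* `flow_le` : `F` decreases along `y i ↦ exp (- w i * t) * y i`;
* `St R w t` : the clamped flow; `St_neg` : it preserves `{F < 0}`; `push` : it pushes compact subsets
  of `{F (x,0) < 0} ∪ {∃ i, w i < 0 ∧ y i ≠ 0}` into `{F < 0}`.
-/

set_option autoImplicit false
set_option linter.unusedSectionVars false

noncomputable section

open Set Filter Topology

namespace Crest.Agent.R231.GMSadAx888

variable {X ι : Type} [Fintype ι]

/-- the local hypothesis of the saddle lemma -/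
structure SadBox (F : X × (ι → ℝ) → ℝ) (w : ι → ℝ) (U : Set X) (ρ : ℝ) : Prop where
  w_or : ∀ i, w i = -1 ∨ w i = 1
  der : ∀ x ∈ U, ∀ y : ι → ℝ, ‖y‖ ≤ ρ → ∃ G : (ι → ℝ) →L[ℝ] ℝ,
    HasFDerivAt (fun y => F (x, y)) G y ∧
      ∀ v, |G v - ∑ i, w i * y i * v i| ≤ (1 / 2) * ‖y‖ * ‖v‖

theorem norm_sq_le_sum (y : ι → ℝ) : ‖y‖ * ‖y‖ ≤ ∑ i, y i * y i := by
  rcases isEmpty_or_nonempty ι with h | h
  · have : y = 0 := Subsingleton.elim _ _
    subst this
    simp
  · obtain ⟨i, hi⟩ := exists_norm_apply_eq_norm y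
    rw [← hi, Real.norm_eq_abs, abs_mul_abs_self]
    exact Finset.single_le_sum (f := fun i => y i * y i) (fun j _ => mul_self_nonneg (y j))
      (Finset.mem_univ i)
where
  exists_norm_apply_eq_norm [Nonempty ι] (y : ι → ℝ) : ∃ i, ‖y i‖ = ‖y‖ := by
    obtain ⟨i, -, hi⟩ := Finset.exists_mem_eq_sup' (Finset.univ_nonempty (α := ι)) (fun i => ‖y i‖)
    refine ⟨i, le_antisymm (norm_le_pi_norm y i) ?_⟩
    rw [pi_norm_le_iff_of_nonneg (norm_nonneg _)]
    intro j
    rw [← hi]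
    exact Finset.le_sup' (f := fun i => ‖y i‖) (Finset.mem_univ j)

namespace SadBox

variable {F : X × (ι → ℝ) → ℝ} {w : ι → ℝ} {U : Set X} {ρ : ℝ}

theorem w_sq (h : SadBox F w U ρ) (i : ι) : w i * w i = 1 := by
  rcases h.w_or i with h | h <;> rw [h] <;> norm_num

theorem line (h : SadBox F w U ρ) {x : X} (hx : x ∈ U) {y : ι → ℝ} (hy : ‖y‖ ≤ ρ) {s : ℝ}
    (hs0 : 0 ≤ s) (hs1 : s ≤ 1) : ∃ D : ℝ, HasDerivAt (fun s : ℝ => F (x, s • y)) D s ∧
      |D - s * ∑ i, w i * y i * y i| ≤ (1 / 2) * s * (‖y‖ * ‖y‖) := by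
  have hn : ‖s • y‖ ≤ ρ := by
    rw [norm_smul, Real.norm_of_nonneg hs0]
    calc s * ‖y‖ ≤ 1 * ‖y‖ := mul_le_mul_of_nonneg_right hs1 (norm_nonneg _)
      _ ≤ ρ := by rw [one_mul]; exact hy
  obtain ⟨G, hG, hG'⟩ := h.der x hx (s • y) hn
  refine ⟨G y, ?_, ?_⟩
  · have h1 : HasDerivAt (fun s : ℝ => s • y) y s := by
      simpa using (hasDerivAt_id s).smul_const y
    exact hG.comp_hasDerivAt s h1
  · have h2 := hG' y
    rw [norm_smul, Real.norm_of_nonneg hs0] at h2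
    have h3 : ∑ i, w i * (s • y) i * y i = s * ∑ i, w i * y i * y i := by
      rw [Finset.mul_sum]
      refine Finset.sum_congr rfl fun i _ => ?_
      simp only [Pi.smul_apply, smul_eq_mul]; ring
    rw [h3] at h2
    calc _ ≤ _ := h2
      _ = _ := by ring

theorem upper (h : SadBox F w U ρ) {x : X} (hx : x ∈ U) {y : ι → ℝ} (hy : ‖y‖ ≤ ρ) :
    F (x, y) ≤ F (x, 0) + (1 / 2) * (∑ i, w i * y i * y i + (1 / 2) * (‖y‖ * ‖y‖)) := by
  set K : ℝ := ∑ i, w i * y i * y i + (1 / 2) * (‖y‖ * ‖y‖) with hK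
  choose! D hD hD' using fun (s : ℝ) (hs : 0 ≤ s ∧ s ≤ 1) => h.line hx hy hs.1 hs.2
  have h1 : AntitoneOn (fun s : ℝ => F (x, s • y) - s ^ 2 / 2 * K) (Icc (0 : ℝ) 1) := by
    have hder : ∀ s ∈ Icc (0 : ℝ) 1, HasDerivAt (fun s : ℝ => F (x, s • y) - s ^ 2 / 2 * K)
        (D s - s * K) s := by
      intro s hs
      have h2 : HasDerivAt (fun s : ℝ => s ^ 2 / 2 * K) (s * K) s := by
        have := (((hasDerivAt_id s).pow 2).div_const 2).mul_const K
        refine this.congr_deriv ?_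
        simp
      exact (hD s hs).sub h2
    refine antitoneOn_of_deriv_nonpos (convex_Icc _ _)
      (fun s hs => (hder s hs).continuousAt.continuousWithinAt)
      (fun s hs => (hder s (interior_subset hs)).differentiableAt.differentiableWithinAt) ?_
    intro s hs
    have hs' := interior_subset hs
    rw [(hder s hs').deriv]
    have h3 := (abs_le.1 (hD' s hs')).2
    have h4 : s * K = s * ∑ i, w i * y i * y i + 1 / 2 * s * (‖y‖ * ‖y‖) := by
      rw [hK]; ring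
    rw [h4]
    linarith
  have h5 := h1 (left_mem_Icc.2 zero_le_one) (right_mem_Icc.2 zero_le_one) zero_le_one
  simp only [one_smul, zero_smul] at h5
  norm_num at h5
  linarith

theorem lower (h : SadBox F w U ρ) {x : X} (hx : x ∈ U) {y : ι → ℝ} (hy : ‖y‖ ≤ ρ) :
    F (x, 0) + (1 / 2) * (∑ i, w i * y i * y i - (1 / 2) * (‖y‖ * ‖y‖)) ≤ F (x, y) := by
  set K : ℝ := ∑ i, w i * y i * y i - (1 / 2) * (‖y‖ * ‖y‖) with hK
  choose! D hD hD' using fun (s : ℝ) (hs : 0 ≤ s ∧ s ≤ 1) => h.line hx hy hs.1 hs.2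
  have h1 : MonotoneOn (fun s : ℝ => F (x, s • y) - s ^ 2 / 2 * K) (Icc (0 : ℝ) 1) := by
    have hder : ∀ s ∈ Icc (0 : ℝ) 1, HasDerivAt (fun s : ℝ => F (x, s • y) - s ^ 2 / 2 * K)
        (D s - s * K) s := by
      intro s hs
      have h2 : HasDerivAt (fun s : ℝ => s ^ 2 / 2 * K) (s * K) s := by
        have := (((hasDerivAt_id s).pow 2).div_const 2).mul_const K
        refine this.congr_deriv ?_
        simp
      exact (hD s hs).sub h2
    refine monotoneOn_of_deriv_nonneg (convex_Icc _ _)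
      (fun s hs => (hder s hs).continuousAt.continuousWithinAt)
      (fun s hs => (hder s (interior_subset hs)).differentiableAt.differentiableWithinAt) ?_
    intro s hs
    have hs' := interior_subset hs
    rw [(hder s hs').deriv]
    have h3 := (abs_le.1 (hD' s hs')).1
    have h4 : s * K = s * ∑ i, w i * y i * y i - 1 / 2 * s * (‖y‖ * ‖y‖) := by
      rw [hK]; ring
    rw [h4]
    linarith
  have h5 := h1 (left_mem_Icc.2 zero_le_one) (right_mem_Icc.2 zero_le_one) zero_le_one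
  simp only [one_smul, zero_smul] at h5
  norm_num at h5
  linarith

/-- the linear flow -/
def Tt (w : ι → ℝ) (t : ℝ) (y : ι → ℝ) : ι → ℝ := fun i => Real.exp (-w i * t) * y i

theorem flow_le (h : SadBox F w U ρ) {x : X} (hx : x ∈ U) {y : ι → ℝ} {t : ℝ} (ht : 0 ≤ t)
    (hy : ∀ s ∈ Icc 0 t, ‖Tt w s y‖ ≤ ρ) : F (x, Tt w t y) ≤ F (x, y) := by
  choose! G hG hG' using fun (s : ℝ) (hs : s ∈ Icc 0 t) => h.der x hx (Tt w s y) (hy s hs)
  have hT : ∀ s, HasDerivAt (fun s => Tt w s y) (fun i => -w i * Tt w s y i) s := by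
    intro s
    rw [hasDerivAt_pi]
    intro i
    have h1 : HasDerivAt (fun s : ℝ => -w i * s) (-w i) s := by
      simpa using (hasDerivAt_id s).const_mul (-w i)
    have h2 := (h1.exp).mul_const (y i)
    refine h2.congr_deriv ?_
    simp only [Tt]; ring
  have hder : ∀ s ∈ Icc 0 t, HasDerivAt (fun s : ℝ => F (x, Tt w s y))
      (G s (fun i => -w i * Tt w s y i)) s := fun s hs => by
    have h9 := HasFDerivAt.comp_hasDerivAt s (hG s hs) (hT s)
    exact h9
  have h1 : AntitoneOn (fun s : ℝ => F (x, Tt w s y)) (Icc (0 : ℝ) t) := by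
    refine antitoneOn_of_deriv_nonpos (convex_Icc _ _)
      (fun s hs => (hder s hs).continuousAt.continuousWithinAt)
      (fun s hs => (hder s (interior_subset hs)).differentiableAt.differentiableWithinAt) ?_
    intro s hs
    have hs' := interior_subset hs
    rw [(hder s hs').deriv]
    have h3 := (abs_le.1 (hG' s hs' (fun i => -w i * Tt w s y i))).2
    have h4 : ∑ i, w i * Tt w s y i * (-w i * Tt w s y i) = -∑ i, Tt w s y i * Tt w s y i := by
      rw [← Finset.sum_neg_distrib]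
      refine Finset.sum_congr rfl fun i _ => ?_
      have := h.w_sq i
      linear_combination (-(Tt w s y i * Tt w s y i)) * this
    have h5 : ‖(fun i => -w i * Tt w s y i)‖ ≤ ‖Tt w s y‖ := by
      rw [pi_norm_le_iff_of_nonneg (norm_nonneg _)]
      intro i
      have h6 : |w i| = 1 := by rcases h.w_or i with h | h <;> rw [h] <;> simp
      rw [norm_mul, Real.norm_eq_abs, abs_neg, h6, one_mul]
      exact norm_le_pi_norm _ i
    have h7 := norm_sq_le_sum (Tt w s y)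
    have h8 : 1 / 2 * ‖Tt w s y‖ * ‖(fun i => -w i * Tt w s y i)‖ ≤
        1 / 2 * (‖Tt w s y‖ * ‖Tt w s y‖) := by
      have := mul_le_mul_of_nonneg_left h5 (norm_nonneg (Tt w s y))
      nlinarith
    rw [h4] at h3
    nlinarith [norm_nonneg (Tt w s y), mul_self_nonneg ‖Tt w s y‖]
  have h5 := h1 (left_mem_Icc.2 ht) (right_mem_Icc.2 ht) ht
  have h6 : Tt w 0 y = y := by
    funext i; simp [Tt]
  simpa only [h6] using h5

/-- upper bound with a diagonal form -/
theorem upper' (h : SadBox F w U ρ) {x : X} (hx : x ∈ U) {y : ι → ℝ} (hy : ‖y‖ ≤ ρ) :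
    F (x, y) ≤ F (x, 0) + (1 / 2) * ∑ i, (w i + 1 / 2) * (y i * y i) := by
  have h1 := h.upper hx hy
  have h2 := norm_sq_le_sum y
  have h3 : ∑ i, (w i + 1 / 2) * (y i * y i) =
      ∑ i, w i * y i * y i + (1 / 2) * ∑ i, y i * y i := by
    rw [Finset.mul_sum, ← Finset.sum_add_distrib]
    exact Finset.sum_congr rfl fun i _ => by ring
  rw [h3]
  linarith

/-- lower bound with a diagonal form -/
theorem lower' (h : SadBox F w U ρ) {x : X} (hx : x ∈ U) {y : ι → ℝ} (hy : ‖y‖ ≤ ρ) :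
    F (x, 0) + (1 / 2) * ∑ i, (w i - 1 / 2) * (y i * y i) ≤ F (x, y) := by
  have h1 := h.lower hx hy
  have h2 := norm_sq_le_sum y
  have h3 : ∑ i, (w i - 1 / 2) * (y i * y i) =
      ∑ i, w i * y i * y i - (1 / 2) * ∑ i, y i * y i := by
    rw [Finset.mul_sum, ← Finset.sum_sub_distrib]
    exact Finset.sum_congr rfl fun i _ => by ring
  rw [h3]
  linarith

end SadBox

/-- the box -/
def Bx (w : ι → ℝ) (r R : ℝ) : Set (ι → ℝ) := {y | ∀ i, |y i| ≤ if w i < 0 then R else r}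

/-- the clamped flow -/
def St (R : ℝ) (w : ι → ℝ) (t : ℝ) (y : ι → ℝ) : ι → ℝ :=
  fun i => if w i < 0 then max (-R) (min R (Real.exp t * y i)) else Real.exp (-t) * y i

theorem Bx_norm {w : ι → ℝ} {r R ρ : ℝ} (hρ : 0 ≤ ρ) (hr : r ≤ ρ) (hR : R ≤ ρ) {y : ι → ℝ}
    (hy : y ∈ Bx w r R) : ‖y‖ ≤ ρ := by
  rw [pi_norm_le_iff_of_nonneg hρ]
  intro i
  have := hy i
  rw [Real.norm_eq_abs]
  split_ifs at this with h
  · exact this.trans hR
  · exact this.trans hr

theorem abs_clamp_le {R a : ℝ} (hR : 0 ≤ R) : |max (-R) (min R a)| ≤ R := by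
  rw [abs_le]
  exact ⟨le_max_left _ _, max_le (by linarith) (min_le_left _ _)⟩

theorem clamp_of_le {R a : ℝ} (h : |a| ≤ R) : max (-R) (min R a) = a := by
  have := abs_le.1 h
  rw [min_eq_right this.2, max_eq_right this.1]

theorem abs_clamp_of_ge {R a : ℝ} (hR : 0 ≤ R) (h : R ≤ |a|) : |max (-R) (min R a)| = R := by
  rcases le_abs.1 h with h | h
  · rw [min_eq_left h, max_eq_right (by linarith), abs_of_nonneg hR]
  · rw [min_eq_right (by linarith), max_eq_left (by linarith), abs_neg, abs_of_nonneg hR]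

theorem St_continuous (R : ℝ) (w : ι → ℝ) : Continuous fun p : ℝ × (ι → ℝ) => St R w p.1 p.2 := by
  refine continuous_pi fun i => ?_
  unfold St
  by_cases h : w i < 0
  · simp only [h, if_true]
    fun_prop
  · simp only [h, if_false]
    fun_prop

theorem St_zero {R : ℝ} {w : ι → ℝ} {y : ι → ℝ} (hy : ∀ i, w i < 0 → |y i| ≤ R) :
    St R w 0 y = y := by
  funext i
  unfold St
  split_ifs with h
  · rw [Real.exp_zero, one_mul, clamp_of_le (hy i h)]
  · rw [neg_zero, Real.exp_zero, one_mul]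

/-- `St` maps the box to itself -/
theorem St_mem_Bx {w : ι → ℝ} {r R : ℝ} (hR : 0 ≤ R) {y : ι → ℝ} (hy : y ∈ Bx w r R) {t : ℝ}
    (ht : 0 ≤ t) : St R w t y ∈ Bx w r R := by
  intro i
  have h1 := hy i
  unfold St
  split_ifs at h1 ⊢ with h
  · exact abs_clamp_le hR
  · rw [abs_mul, abs_of_pos (Real.exp_pos _)]
    have h2 : Real.exp (-t) ≤ 1 := Real.exp_le_one_iff.2 (by linarith)
    calc _ ≤ 1 * |y i| := mul_le_mul_of_nonneg_right h2 (abs_nonneg _)
      _ ≤ r := by rw [one_mul]; exact h1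

variable {F : X × (ι → ℝ) → ℝ} {w : ι → ℝ} {U : Set X} {ρ : ℝ}

/-- constants of the box -/
structure Consts (ι : Type) [Fintype ι] (ρ r R : ℝ) : Prop where
  r_pos : 0 < r
  R_pos : 0 < R
  r_le : r ≤ ρ
  R_le : R ≤ ρ
  small : 6 * (Fintype.card ι : ℝ) * (r * r) ≤ R * R

theorem exists_consts (ι : Type) [Fintype ι] {ρ : ℝ} (hρ : 0 < ρ) :
    ∃ r, Consts ι ρ r ρ := by
  set c : ℝ := 6 * (Fintype.card ι : ℝ) with hc
  have hc0 : 0 ≤ c := by positivity
  refine ⟨ρ / (c + 1), by positivity, hρ, ?_, le_rfl, ?_⟩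
  · rw [div_le_iff₀ (by positivity)]
    nlinarith
  · rw [← hc]
    have h1 : ρ / (c + 1) * (ρ / (c + 1)) = ρ * ρ / ((c + 1) * (c + 1)) := by
      field_simp
    rw [h1, ← mul_div_assoc, div_le_iff₀ (by positivity)]
    have : c ≤ (c + 1) * (c + 1) := by nlinarith
    nlinarith [mul_self_nonneg ρ]

theorem neg_of_wall (h : SadBox F w U ρ) {r R : ℝ} (C : Consts ι ρ r R) {x : X} (hx : x ∈ U)
    (hF : F (x, 0) < R * R / 8) {y : ι → ℝ} (hy : y ∈ Bx w r R) {i : ι} (hi : w i < 0)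
    (hyi : |y i| = R) : F (x, y) < 0 := by
  classical
  have hρ : 0 ≤ ρ := C.r_pos.le.trans C.r_le
  have h1 := h.upper' hx (Bx_norm hρ C.r_le C.R_le hy)
  have h2 : ∀ j, (w j + 1 / 2) * (y j * y j) ≤
      (3 / 2) * (r * r) - (if j = i then (1 / 2) * (R * R) else 0) := by
    intro j
    have h3 := hy j
    split_ifs with e
    · subst e
      have h4 : w j = -1 := by
        rcases h.w_or j with h | h
        · exact h
        · rw [h] at hi; norm_num at hi
      have h5 : y j * y j = R * R := by rw [← hyi, abs_mul_abs_self]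
      rw [h4, h5]
      nlinarith [mul_self_nonneg r]
    · rcases h.w_or j with h4 | h4
      · rw [h4]
        nlinarith [mul_self_nonneg r, mul_self_nonneg (y j)]
      · rw [h4, if_neg (by norm_num)] at h3
        rw [h4]
        have h5 : y j * y j ≤ r * r := by
          rw [← abs_mul_abs_self (y j)]
          exact mul_self_le_mul_self (abs_nonneg _) h3
        nlinarith
  have h6 : ∑ j, (w j + 1 / 2) * (y j * y j) ≤
      (Fintype.card ι : ℝ) * ((3 / 2) * (r * r)) - (1 / 2) * (R * R) := by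
    calc _ ≤ ∑ j, ((3 / 2) * (r * r) - (if j = i then (1 / 2) * (R * R) else 0)) :=
          Finset.sum_le_sum fun j _ => h2 j
      _ = _ := by
          rw [Finset.sum_sub_distrib, Finset.sum_const, Finset.card_univ, nsmul_eq_mul,
            Finset.sum_ite_eq' Finset.univ i, if_pos (Finset.mem_univ i)]
  have h7 := C.small
  have h8 : 0 < R * R := mul_pos C.R_pos C.R_pos
  nlinarith

/-- **forward invariance** of `{F < 0}` under the clamped flow -/
theorem St_neg (h : SadBox F w U ρ) {r R : ℝ} (C : Consts ι ρ r R) {x : X} (hx : x ∈ U)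
    (hF : F (x, 0) < R * R / 8) {y : ι → ℝ} (hy : y ∈ Bx w r R) {t : ℝ} (ht : 0 ≤ t)
    (hneg : F (x, y) < 0) : F (x, St R w t y) < 0 := by
  by_cases hw : ∃ i, w i < 0 ∧ R ≤ |Real.exp t * y i|
  · obtain ⟨i, hi, hi'⟩ := hw
    refine neg_of_wall h C hx hF (St_mem_Bx C.R_pos.le hy ht) hi ?_
    unfold St
    rw [if_pos hi, abs_clamp_of_ge C.R_pos.le hi']
  · push Not at hw
    have hρ : 0 ≤ ρ := C.r_pos.le.trans C.r_le
    have h1 : St R w t y = SadBox.Tt w t y := by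
      funext i
      unfold St SadBox.Tt
      rcases h.w_or i with h4 | h4
      · have h5 : w i < 0 := by rw [h4]; norm_num
        rw [if_pos h5, clamp_of_le (hw i h5).le, h4, neg_neg, one_mul]
      · have h5 : ¬ w i < 0 := by rw [h4]; norm_num
        rw [if_neg h5, h4]
        norm_num
    rw [h1]
    refine (h.flow_le hx ht fun s hs => ?_).trans_lt hneg
    rw [pi_norm_le_iff_of_nonneg hρ]
    intro i
    unfold SadBox.Tt
    rw [Real.norm_eq_abs, abs_mul, abs_of_pos (Real.exp_pos _)]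
    have h3 := hy i
    rcases h.w_or i with h4 | h4
    · have h5 : w i < 0 := by rw [h4]; norm_num
      have h6 := hw i h5
      rw [abs_mul, abs_of_pos (Real.exp_pos _)] at h6
      rw [h4, neg_neg, one_mul]
      have h7 : Real.exp s ≤ Real.exp t := Real.exp_le_exp.2 hs.2
      calc _ ≤ Real.exp t * |y i| := mul_le_mul_of_nonneg_right h7 (abs_nonneg _)
        _ ≤ ρ := h6.le.trans C.R_le
    · rw [h4, if_neg (by norm_num)] at h3
      rw [h4]
      have h7 : Real.exp (-1 * s) ≤ 1 := Real.exp_le_one_iff.2 (by linarith [hs.1])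
      calc _ ≤ 1 * |y i| := mul_le_mul_of_nonneg_right h7 (abs_nonneg _)
        _ ≤ ρ := by rw [one_mul]; exact h3.trans C.r_le

/-- `{F < 0}` in the box is contained in `{F (x,0) < 0} ∪ {∃ i, w i < 0 ∧ y i ≠ 0}` -/
theorem neg_sub (h : SadBox F w U ρ) {x : X} (hx : x ∈ U) {y : ι → ℝ} (hy : ‖y‖ ≤ ρ)
    (hneg : F (x, y) < 0) : F (x, 0) < 0 ∨ ∃ i, w i < 0 ∧ y i ≠ 0 := by
  by_contra hcon
  push Not at hcon
  obtain ⟨h1, h2⟩ := hcon
  have h3 := h.lower' hx hy
  have h4 : 0 ≤ ∑ i, (w i - 1 / 2) * (y i * y i) := by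
    refine Finset.sum_nonneg fun i _ => ?_
    rcases h.w_or i with h4 | h4
    · rw [h2 i (by rw [h4]; norm_num)]; simp
    · rw [h4]
      have := mul_self_nonneg (y i)
      nlinarith
  linarith

/-- compact subsets of `{F (x,0) < 0} ∪ {∃ i, w i < 0 ∧ y i ≠ 0}` are pushed into `{F < 0}` -/
theorem push [TopologicalSpace X] (h : SadBox F w U ρ) {r R : ℝ} (C : Consts ι ρ r R)
    (hc : ContinuousOn (fun x => F (x, 0)) U) {K : Set (X × (ι → ℝ))} (hK : IsCompact K)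
    (hKU : ∀ p ∈ K, p.1 ∈ U) (hKF : ∀ p ∈ K, F (p.1, 0) < R * R / 8)
    (hM : ∀ p ∈ K, F (p.1, 0) < 0 ∨ ∃ i, w i < 0 ∧ p.2 i ≠ 0) :
    ∃ T0 : ℝ, ∀ t, T0 ≤ t → ∀ p ∈ K, F (p.1, St R w t p.2) < 0 := by
  rcases K.eq_empty_or_nonempty with rfl | hne
  · exact ⟨0, fun t _ p hp => hp.elim⟩
  have hρ : 0 ≤ ρ := C.r_pos.le.trans C.r_le
  -- a bound for `y` on `K`
  obtain ⟨M, hM0, hMb⟩ : ∃ M : ℝ, 0 ≤ M ∧ ∀ p ∈ K, ‖p.2‖ ≤ M := by
    obtain ⟨p0, -, hp0⟩ := hK.exists_isMaxOn hne (f := fun p => ‖p.2‖) (by fun_prop)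
    exact ⟨‖p0.2‖, norm_nonneg _, fun p hp => hp0 hp⟩
  -- a lower bound
  let ng : (ι → ℝ) → (ι → ℝ) := fun y i => if w i < 0 then y i else 0
  have hng : Continuous ng := by
    refine continuous_pi fun i => ?_
    by_cases hi : w i < 0
    · simp only [ng, hi, if_true]; fun_prop
    · simp only [ng, hi, if_false]; fun_prop
  have hφ : ContinuousOn (fun p : X × (ι → ℝ) => max (-F (p.1, 0)) ‖ng p.2‖) K := by
    refine ContinuousOn.sup ?_ ?_
    · exact (hc.comp continuous_fst.continuousOn hKU).neg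
    · exact (hng.norm.comp continuous_snd).continuousOn
  obtain ⟨p0, hp0, hmin⟩ := hK.exists_isMinOn hne hφ
  set δ : ℝ := max (-F (p0.1, 0)) ‖ng p0.2‖ with hδ
  have hδ0 : 0 < δ := by
    rcases hM p0 hp0 with h1 | ⟨i, hi, hi'⟩
    · exact lt_max_of_lt_left (by linarith)
    · refine lt_max_of_lt_right ?_
      have h2 : 0 < ‖ng p0.2 i‖ := by
        simp only [ng, hi, if_true]
        exact norm_pos_iff.2 hi'
      exact h2.trans_le (norm_le_pi_norm _ i)
  -- eventually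
  have ht0 : Tendsto (fun t : ℝ => Real.exp (-t) * M) atTop (𝓝 0) := by
    have := (Real.tendsto_exp_neg_atTop_nhds_zero).mul_const M
    rwa [zero_mul] at this
  have ev1 : ∀ᶠ t : ℝ in atTop, Real.exp (-t) * M < r := ht0.eventually (gt_mem_nhds C.r_pos)
  have ev2 : ∀ᶠ t : ℝ in atTop,
      (Fintype.card ι : ℝ) * ((Real.exp (-t) * M) * (Real.exp (-t) * M)) < δ := by
    have h1 : Tendsto (fun t : ℝ => (Fintype.card ι : ℝ) *
        ((Real.exp (-t) * M) * (Real.exp (-t) * M))) atTop (𝓝 0) := by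
      have := (ht0.mul ht0).const_mul (Fintype.card ι : ℝ)
      simpa using this
    exact h1.eventually (gt_mem_nhds hδ0)
  have ev3 : ∀ᶠ t : ℝ in atTop, R ≤ Real.exp t * δ :=
    (Real.tendsto_exp_atTop.atTop_mul_const hδ0).eventually_ge_atTop R
  obtain ⟨T0, hT0⟩ := eventually_atTop.1 (ev1.and (ev2.and ev3))
  refine ⟨T0, fun t ht p hp => ?_⟩
  obtain ⟨e1, e2, e3⟩ := hT0 t ht
  have hx := hKU p hp
  have hyM : ∀ i, |p.2 i| ≤ M := fun i => (norm_le_pi_norm p.2 i).trans (hMb p hp)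
  have hbox : St R w t p.2 ∈ Bx w r R := by
    intro i
    unfold St
    split_ifs with hi
    · exact abs_clamp_le C.R_pos.le
    · rw [abs_mul, abs_of_pos (Real.exp_pos _)]
      exact (mul_le_mul_of_nonneg_left (hyM i) (Real.exp_pos _).le).trans e1.le
  have hmin' : δ ≤ max (-F (p.1, 0)) ‖ng p.2‖ := hmin hp
  rcases le_max_iff.1 hmin' with h1 | h1
  · have h2 := h.upper' hx (Bx_norm hρ C.r_le C.R_le hbox)
    have h3 : ∑ i, (w i + 1 / 2) * (St R w t p.2 i * St R w t p.2 i) ≤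
        (Fintype.card ι : ℝ) * ((3 / 2) * ((Real.exp (-t) * M) * (Real.exp (-t) * M))) := by
      have h4 : ∀ i ∈ Finset.univ, (w i + 1 / 2) * (St R w t p.2 i * St R w t p.2 i) ≤
          (3 / 2) * ((Real.exp (-t) * M) * (Real.exp (-t) * M)) := by
        intro i _
        have h6 : 0 ≤ (Real.exp (-t) * M) * (Real.exp (-t) * M) := mul_self_nonneg _
        rcases h.w_or i with h5 | h5
        · rw [h5]
          nlinarith [mul_self_nonneg (St R w t p.2 i)]
        · rw [h5]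
          have h7 : |St R w t p.2 i| ≤ Real.exp (-t) * M := by
            unfold St
            rw [if_neg (by rw [h5]; norm_num), abs_mul, abs_of_pos (Real.exp_pos _)]
            exact mul_le_mul_of_nonneg_left (hyM i) (Real.exp_pos _).le
          have h8 : St R w t p.2 i * St R w t p.2 i ≤ (Real.exp (-t) * M) * (Real.exp (-t) * M) := by
            rw [← abs_mul_abs_self (St R w t p.2 i)]
            exact mul_self_le_mul_self (abs_nonneg _) h7
          nlinarith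
      have := Finset.sum_le_card_nsmul Finset.univ _ _ h4
      rwa [Finset.card_univ, nsmul_eq_mul] at this
    nlinarith
  · have hpos : 0 < ‖ng p.2‖ := hδ0.trans_le h1
    have : Nonempty ι := by
      by_contra hemp
      rw [not_nonempty_iff] at hemp
      have : ng p.2 = 0 := Subsingleton.elim _ _
      rw [this, norm_zero] at hpos
      exact lt_irrefl _ hpos
    obtain ⟨i, hi⟩ := norm_sq_le_sum.exists_norm_apply_eq_norm (ng p.2)
    have hwi : w i < 0 := by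
      by_contra hwi
      have : ng p.2 i = 0 := by simp only [ng, hwi, if_false]
      rw [this, norm_zero] at hi
      linarith
    have h2 : δ ≤ |p.2 i| := by
      have : ng p.2 i = p.2 i := by simp only [ng, hwi, if_true]
      rw [this, Real.norm_eq_abs] at hi
      rw [hi]; exact h1
    refine neg_of_wall h C hx (hKF p hp) hbox hwi ?_
    unfold St
    rw [if_pos hwi]
    refine abs_clamp_of_ge C.R_pos.le ?_
    rw [abs_mul, abs_of_pos (Real.exp_pos _)]
    exact e3.trans (mul_le_mul_of_nonneg_left h2 (Real.exp_pos _).le)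

/-- compact sets are pushed into the box -/
theorem push_box {r R : ℝ} (hr : 0 < r) (hR : 0 ≤ R) [TopologicalSpace X] {K : Set (X × (ι → ℝ))}
    (hK : IsCompact K) : ∃ T0 : ℝ, ∀ t, T0 ≤ t → ∀ p ∈ K, St R w t p.2 ∈ Bx w r R := by
  rcases K.eq_empty_or_nonempty with rfl | hne
  · exact ⟨0, fun t _ p hp => hp.elim⟩
  obtain ⟨M, hM0, hMb⟩ : ∃ M : ℝ, 0 ≤ M ∧ ∀ p ∈ K, ‖p.2‖ ≤ M := by
    obtain ⟨p0, -, hp0⟩ := hK.exists_isMaxOn hne (f := fun p => ‖p.2‖) (by fun_prop)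
    exact ⟨‖p0.2‖, norm_nonneg _, fun p hp => hp0 hp⟩
  have ht0 : Tendsto (fun t : ℝ => Real.exp (-t) * M) atTop (𝓝 0) := by
    have := (Real.tendsto_exp_neg_atTop_nhds_zero).mul_const M
    rwa [zero_mul] at this
  have ev1 : ∀ᶠ t : ℝ in atTop, Real.exp (-t) * M < r := ht0.eventually (gt_mem_nhds hr)
  obtain ⟨T0, hT0⟩ := eventually_atTop.1 ev1
  refine ⟨T0, fun t ht p hp i => ?_⟩
  have hyM : |p.2 i| ≤ M := (norm_le_pi_norm p.2 i).trans (hMb p hp)
  unfold St
  split_ifs with hi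
  · exact abs_clamp_le hR
  · rw [abs_mul, abs_of_pos (Real.exp_pos _)]
    exact (mul_le_mul_of_nonneg_left hyM (Real.exp_pos _).le).trans (hT0 t ht).le

end Crest.Agent.R231.GMSadAx888
end
end

-- ▼ part R231/GMSadB_888

/-!
# Row 231, block GM, leaf B1 (helper888), part B: topology of the saddle lemma

* `mp f` : chain map of `f : C(E, E')`, `push_step` : moving a relative cycle along a homotopy
* `exists_compact_supp` : chains have compact support
* `small_pair` : small chains for `S ∪ T` (ungraded form)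
* `RkP_susp` : one suspension step; `RkP_prod` : product with `(ℝ^k, ℝ^k - 0)`
* `LB_of_SadBox` : **the saddle lemma** in coordinates
-/

set_option autoImplicit false
set_option linter.unusedSectionVars false

noncomputable section

open Set Filter Topology
open Crest.Agent.R204 Crest.Agent.R204.SingAct265 Crest.Agent.R204.EZ271
open Crest.Agent.R231.Pairx877 Crest.Agent.R231.GM898 Crest.Agent.R231.GMSadAx888

namespace Crest.Agent.R231.GMSadBx888

variable {E E' E'' : Type} [TopologicalSpace E] [TopologicalSpace E'] [TopologicalSpace E'']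

/-- the chain map of a continuous map -/
abbrev mp (f : C(E, E')) : CE E →ₗ[F2] CE E' := N.map F2 (SS.SingMap f)

theorem mp_mem {f : C(E, E')} {A : Set E} {A' : Set E'} (h : MapsTo f A A') :
    ∀ c ∈ CS A, mp f c ∈ CS A' := by
  refine map_mem_of_CS fun n σ hσ => ?_
  rw [mp, N.map_sx]
  exact sx_mem_CS fun t => h (hσ t)

theorem bd_mp (f : C(E, E')) (c : CE E) : bdE E' (mp f c) = mp f (bdE E c) :=
  (LinearMap.congr_fun (N.map_bd (R := F2) (SS.SingMap f)) c).symm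


theorem mp_id_of {f : C(E, E)} {A : Set E} (h : ∀ x ∈ A, f x = x) : ∀ c ∈ CS A, mp f c = c :=
  eq_on_CS (f := mp f) (g := LinearMap.id) fun n σ hσ => by
    rw [mp, N.map_sx, LinearMap.id_apply]
    congr 1
    exact sing_ext fun t => h _ (hσ t)

theorem mp_mp {f : C(E, E')} {g : C(E', E'')} (c : CE E) : mp g (mp f c) = mp (g.comp f) c := by
  have h : mp g ∘ₗ mp f = mp (g.comp f) := by
    refine EZ271.hom_ext fun n σ => ?_
    rw [LinearMap.comp_apply, mp, mp, mp, N.map_sx, N.map_sx, N.map_sx]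
    rfl
  exact LinearMap.congr_fun h c

/-! ### homotopies -/

/-- the prism operator of a homotopy -/
def pris (G : C(E × unitInterval, E')) : CE E →ₗ[F2] CE E' := prism F2 (singHtpy G)

theorem pris_mem {G : C(E × unitInterval, E')} {A : Set E} {A' : Set E'}
    (h : ∀ x ∈ A, ∀ s, G (x, s) ∈ A') : ∀ c ∈ CS A, pris G c ∈ CS A' := by
  intro c hc
  obtain ⟨c, rfl⟩ := CS_eq_range (X := A) ▸ hc
  rw [pris, prism_apply]
  have e1 : sg F2 (N.map F2 (SS.SingMap (SpecA.inc A)) c) =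
      N.map F2 (SS.SingMap (SpecA.inc A)) (sg F2 c) := (map_sg F2 _ c).symm
  have e2 : (N.sx F2 (iota 1) : N F2 (SS.std 1)) =
      N.map F2 (SS.Hom.id (SS.std 1)) (N.sx F2 (iota 1)) := by rw [N.map_sx]; rfl
  rw [e1, e2, ← map_cross, EZ271.map_map]
  refine map_mem_CS _ (fun n x t => ?_) _
  exact h _ (ev x.1 t).2 _

theorem pris_htpy (G : C(E × unitInterval, E')) (f0 f1 : C(E, E')) (h0 : ∀ x, G (x, 0) = f0 x)
    (h1 : ∀ x, G (x, 1) = f1 x) (z : CE E) :
    bdE E' (pris G z) + pris G (bdE E z) = mp f1 z - mp f0 z := by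
  have h := prism_homotopy F2 (singHtpy G) z
  have e1 : (singHtpy G).comp (incl (SS.Sing E) 1) = SS.SingMap f1 := by
    apply SS.Hom.ext
    funext n σ
    exact singHtpy_one G f1 h1 σ
  have e0 : (singHtpy G).comp (incl (SS.Sing E) 0) = SS.SingMap f0 := by
    apply SS.Hom.ext
    funext n σ
    exact singHtpy_zero G f0 h0 σ
  rw [e1, e0] at h
  exact h

/-- **moving a relative cycle**: `h s`, `s ∈ [0, T]`, `h 0 = id` on `X` -/
theorem push_step (h : C(ℝ × E, E)) {T : ℝ} (hT : 0 ≤ T) {X A X' A' : Set E}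
    (h0 : ∀ x ∈ X, h (0, x) = x) (hX : ∀ s, 0 ≤ s → s ≤ T → ∀ x ∈ X, h (s, x) ∈ X')
    (hA : ∀ s, 0 ≤ s → s ≤ T → ∀ x ∈ A, h (s, x) ∈ A')
    {z : CE E} (hz : z ∈ Zp X A)
    (hm : mp (h.comp ((ContinuousMap.const E T).prodMk (ContinuousMap.id E))) z ∈ Bp X' A') :
    z ∈ Bp X' A' := by
  set f1 : C(E, E) := h.comp ((ContinuousMap.const E T).prodMk (ContinuousMap.id E)) with hf1
  set f0 : C(E, E) := h.comp ((ContinuousMap.const E 0).prodMk (ContinuousMap.id E)) with hf0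
  let G : C(E × unitInterval, E) := h.comp
    ⟨fun p => (T * (p.2 : ℝ), p.1), by fun_prop⟩
  have e := pris_htpy G f0 f1 (fun x => by simp [G, hf0]) (fun x => by simp [G, hf1]) z
  have hs : ∀ s : unitInterval, 0 ≤ T * (s : ℝ) ∧ T * (s : ℝ) ≤ T := fun s =>
    ⟨mul_nonneg hT s.2.1, by nlinarith [s.2.2]⟩
  have e0 : mp f0 z = z := mp_id_of (fun x hx => h0 x hx) z hz.1
  have p1 : pris G z ∈ CS X' := pris_mem (fun x hx s => hX _ (hs s).1 (hs s).2 x hx) z hz.1
  have p2 : pris G (bdE E z) ∈ CS A' :=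
    pris_mem (fun x hx s => hA _ (hs s).1 (hs s).2 x hx) _ hz.2
  rw [e0] at e
  have e2 : z = mp f1 z - (pris G (bdE E z) + bdE E (pris G z)) := by
    rw [add_comm, e]; abel
  rw [e2]
  refine Submodule.sub_mem _ hm ?_
  exact Submodule.add_mem_sup p2 ⟨_, p1, rfl⟩

theorem mp_Bp {f : C(E, E')} {X A : Set E} {X' A' : Set E'} (hX : MapsTo f X X')
    (hA : MapsTo f A A') {z : CE E} (hz : z ∈ Bp X A) : mp f z ∈ Bp X' A' := by
  rw [mem_Bp] at hz ⊢
  obtain ⟨w, hw, h⟩ := hz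
  refine ⟨mp f w, mp_mem hX w hw, ?_⟩
  rw [bd_mp, ← map_sub]
  exact mp_mem hA _ h

theorem mp_Zp {f : C(E, E')} {X A : Set E} {X' A' : Set E'} (hX : MapsTo f X X')
    (hA : MapsTo f A A') {z : CE E} (hz : z ∈ Zp X A) : mp f z ∈ Zp X' A' :=
  ⟨mp_mem hX z hz.1, by
    show bdE E' (mp f z) ∈ CS A'
    rw [bd_mp]; exact mp_mem hA _ hz.2⟩

/-! ### compact supports -/

theorem exists_compact_supp {X : Set E} {c : CE E} (hc : c ∈ CS X) :
    ∃ K : Set E, IsCompact K ∧ K ⊆ X ∧ c ∈ CS K := by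
  refine Submodule.span_induction (p := fun c _ => ∃ K : Set E, IsCompact K ∧ K ⊆ X ∧ c ∈ CS K)
    ?_ ?_ ?_ ?_ hc
  · rintro _ ⟨n, σ, hσ, rfl⟩
    refine ⟨Set.range (ev σ), isCompact_range (continuous_ev σ), ?_, ?_⟩
    · rintro _ ⟨t, rfl⟩; exact hσ t
    · exact sx_mem_CS fun t => ⟨t, rfl⟩
  · exact ⟨∅, isCompact_empty, empty_subset _, Submodule.zero_mem _⟩
  · rintro a b _ _ ⟨K, h1, h2, h3⟩ ⟨K', h1', h2', h3'⟩
    exact ⟨K ∪ K', h1.union h1', union_subset h2 h2',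
      Submodule.add_mem _ (CS_mono subset_union_left h3) (CS_mono subset_union_right h3')⟩
  · rintro r a _ ⟨K, h1, h2, h3⟩
    exact ⟨K, h1, h2, Submodule.smul_mem _ _ h3⟩

/-! ### small chains -/

open Crest.Agent.R231.Smx566 in
theorem small_un (𝒰 : Set (Set E)) (h : ∀ y, ∃ U ∈ 𝒰, U ∈ 𝓝 y) (x : N F2 (SS.Sing E))
    (hdx : N.bd F2 _ x ∈ cs (InC 𝒰)) :
    ∃ y, x - N.bd F2 _ y ∈ cs (InC 𝒰) := by
  have hb := covI_bij 𝒰 h
  rw [← range_cov] at hdx ⊢
  obtain ⟨z, hz⟩ := hdx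
  have hmb : ∀ c, N.map F2 (covI 𝒰) (N.bd F2 _ c) = N.bd F2 _ (N.map F2 (covI 𝒰) c) :=
    fun c => LinearMap.congr_fun (N.map_bd (R := F2) (covI 𝒰)) c
  have hzc : N.bd F2 _ z = 0 := by
    apply covI_inj 𝒰
    rw [hmb, hz, map_zero, N.bd_bd]
  obtain ⟨w, hw⟩ : ∃ w, N.bd F2 _ w = z := by
    have h0 : H.map F2 (covI 𝒰) (Hd.mk _ z hzc) = 0 := by
      rw [H.map, Hd.map_mk, Hd.mk_eq_zero]
      exact ⟨x, hz.symm⟩
    have := (injective_iff_map_eq_zero _).1 hb.1 _ h0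
    rwa [Hd.mk_eq_zero] at this
  have hc : N.bd F2 _ (x - N.map F2 (covI 𝒰) w) = 0 := by
    rw [map_sub, ← hmb, hw, hz, sub_self]
  obtain ⟨u, hu⟩ := hb.2 (Hd.mk _ _ hc)
  obtain ⟨v, hv, rfl⟩ := Hd.mk_surj _ u
  rw [H.map, Hd.map_mk, Hd.mk_eq_mk] at hu
  obtain ⟨y, hy⟩ := hu
  refine ⟨-y, w + v, ?_⟩
  rw [map_neg, hy, map_add]
  abel

open Crest.Agent.R231.Smx566 in
/-- small chains for `X = S ∪ T`, ungraded -/
theorem small_pair (S T : Set E) (h : ∀ x ∈ S ∪ T, S ∈ 𝓝[S ∪ T] x ∨ T ∈ 𝓝[S ∪ T] x)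
    (c : CE E) (hcX : c ∈ CS (S ∪ T)) (hd : bdE E c ∈ CS S ⊔ CS T) :
    ∃ y ∈ CS (S ∪ T), c - bdE E y ∈ CS S ⊔ CS T := by
  have h𝒰 : ∀ U ∈ ({S, T} : Set (Set E)), U ⊆ S ∪ T := by
    rintro U (rfl | rfl)
    · exact Set.subset_union_left
    · exact Set.subset_union_right
  rw [← cs_InC_pair] at hd ⊢
  have hbd : ∀ c, N.map F2 (SS.SingMap (inc (S ∪ T))) (N.bd F2 _ c) =
      N.bd F2 _ (N.map F2 (SS.SingMap (inc (S ∪ T))) c) :=
    fun c => LinearMap.congr_fun (N.map_bd (R := F2) (SS.SingMap (inc (S ∪ T)))) c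
  rw [← cs_In_eq_CS, cs_In_eq_range] at hcX
  obtain ⟨c, rfl⟩ := hcX
  rw [cs_InC_eq_map h𝒰] at hd ⊢
  obtain ⟨b, hb, hbe⟩ := hd
  have hb' : b = N.bd F2 _ c := map_inc_inj (S ∪ T) (by rw [hbe]; exact (hbd c).symm)
  obtain ⟨y, hxy⟩ := small_un (famPre (S ∪ T) {S, T}) (fun x => by
    rcases h x.1 x.2 with h | h
    · exact ⟨_, ⟨S, Or.inl rfl, rfl⟩, preimage_coe_mem_nhds_subtype.2 h⟩
    · exact ⟨_, ⟨T, Or.inr rfl, rfl⟩, preimage_coe_mem_nhds_subtype.2 h⟩) c (hb' ▸ hb)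
  refine ⟨N.map F2 (SS.SingMap (inc (S ∪ T))) y, ?_, _, hxy, ?_⟩
  · rw [← cs_In_eq_CS, cs_In_eq_range]
    exact ⟨_, rfl⟩
  · rw [map_sub]
    exact congrArg _ (hbd y)

/-! ### one suspension step -/

/-- translation data -/
structure Trl (h : C(ℝ × E, E)) (φ : C(E, ℝ)) : Prop where
  zero : ∀ x, h (0, x) = x
  add : ∀ s x, φ (h (s, x)) = φ x + s

theorem bddK {φ : C(E, ℝ)} {K : Set E} (hK : IsCompact K) : ∃ M : ℝ, 0 ≤ M ∧ ∀ x ∈ K, |φ x| ≤ M := by
  rcases K.eq_empty_or_nonempty with rfl | hne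
  · exact ⟨0, le_rfl, fun x hx => hx.elim⟩
  obtain ⟨p0, -, hp0⟩ := hK.exists_isMaxOn hne (f := fun p => |φ p|)
    (φ.continuous.abs.continuousOn)
  exact ⟨|φ p0|, abs_nonneg _, fun p hp => hp0 hp⟩

/-- the reversed translation -/
def revT (h : C(ℝ × E, E)) : C(ℝ × E, E) := h.comp ⟨fun p => (-p.1, p.2), by fun_prop⟩

/-- acyclicity: everything can be pushed into the lower set -/
theorem Zp_le_Bp_of_push (h : C(ℝ × E, E)) (h0 : ∀ x, h (0, x) = x) {Ω A : Set E}
    (hΩ : ∀ s, 0 ≤ s → ∀ x ∈ Ω, h (s, x) ∈ Ω) (hA : ∀ s, 0 ≤ s → ∀ x ∈ A, h (s, x) ∈ A)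
    (hK : ∀ K : Set E, IsCompact K → K ⊆ Ω → ∃ T : ℝ, 0 ≤ T ∧ ∀ x ∈ K, h (T, x) ∈ A) :
    Zp Ω A ≤ Bp Ω A := by
  intro z hz
  obtain ⟨K, hKc, hKΩ, hzK⟩ := exists_compact_supp hz.1
  obtain ⟨T, hT, hT'⟩ := hK K hKc hKΩ
  refine push_step h hT (fun x _ => h0 x) (fun s hs _ => hΩ s hs) (fun s hs _ => hA s hs) hz ?_
  refine Submodule.mem_sup_left ?_
  exact mp_mem (fun x hx => hT' x hx) z hzK

/-- the relation of the suspension step -/
def Srel (Ω Mm Np Nm : Set E) : Submodule F2 (CE E × CE E) where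
  carrier := {p | p.1 ∈ CS Ω ∧ p.2 ∈ CS Np ∧ ∃ y ∈ CS Mm, ∃ b ∈ CS Nm,
    bdE E p.1 = p.2 + b + bdE E y}
  zero_mem' := ⟨Submodule.zero_mem _, Submodule.zero_mem _, 0, Submodule.zero_mem _, 0,
    Submodule.zero_mem _, by simp⟩
  add_mem' := by
    rintro ⟨z, a⟩ ⟨z', a'⟩ ⟨h1, h2, y, hy, b, hb, h3⟩ ⟨h1', h2', y', hy', b', hb', h3'⟩
    refine ⟨Submodule.add_mem _ h1 h1', Submodule.add_mem _ h2 h2', y + y',
      Submodule.add_mem _ hy hy', b + b', Submodule.add_mem _ hb hb', ?_⟩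
    show bdE E (z + z') = (a + a') + (b + b') + bdE E (y + y')
    rw [map_add, map_add]
    have e1 : bdE E z = a + b + bdE E y := h3
    have e2 : bdE E z' = a' + b' + bdE E y' := h3'
    rw [e1, e2]; abel
  smul_mem' := by
    rintro r ⟨z, a⟩ ⟨h1, h2, y, hy, b, hb, h3⟩
    refine ⟨Submodule.smul_mem _ _ h1, Submodule.smul_mem _ _ h2, r • y,
      Submodule.smul_mem _ _ hy, r • b, Submodule.smul_mem _ _ hb, ?_⟩
    show bdE E (r • z) = r • a + r • b + bdE E (r • y)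
    have e1 : bdE E z = a + b + bdE E y := h3
    rw [map_smul, map_smul, e1, smul_add, smul_add]



/-- **suspension** of a rank bound -/
theorem RkP_susp {h : C(ℝ × E, E)} {φ : C(E, ℝ)} (ht : Trl h φ) {Ω Ω' N : Set E} (hΩΩ' : Ω ⊆ Ω')
    (hΩ' : ∀ s, ∀ x ∈ Ω', h (s, x) ∈ Ω') (hN : ∀ s, ∀ x ∈ N, h (s, x) ∈ N)
    (hNo : ∀ x ∈ N ∩ Ω, N ∈ 𝓝[Ω] x) {C : ℕ} (hr : RkP Ω (N ∩ Ω) Ω' (N ∩ Ω') C) :
    RkP Ω ((N ∪ {x | φ x ≠ 0}) ∩ Ω) Ω' ((N ∪ {x | φ x ≠ 0}) ∩ Ω') C := by
  set M : Set E := N ∪ {x | φ x ≠ 0} with hM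
  set Np : Set E := N ∪ {x | 0 < φ x} with hNp
  set Nm : Set E := N ∪ {x | φ x < 0} with hNm
  have hNpM : Np ⊆ M := union_subset_union_right _ fun x hx => ne_of_gt hx
  have hNmM : Nm ⊆ M := union_subset_union_right _ fun x hx => ne_of_lt hx
  have hMu : M = Np ∪ Nm := by
    apply subset_antisymm
    · rintro x (hx | hx)
      · exact Or.inl (Or.inl hx)
      · rcases lt_or_gt_of_ne (show φ x ≠ 0 from hx) with h | h
        · exact Or.inr (Or.inr h)
        · exact Or.inl (Or.inr h)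
    · exact union_subset hNpM hNmM
  have hinter : (Np ∩ Ω) ∩ (Nm ∩ Ω) = N ∩ Ω := by
    ext x
    constructor
    · rintro ⟨⟨h1 | h1, h2⟩, ⟨h3 | h3, _⟩⟩
      · exact ⟨h1, h2⟩
      · exact ⟨h1, h2⟩
      · exact ⟨h3, h2⟩
      · exact absurd (show 0 < φ x from h1) (not_lt.2 (le_of_lt (show φ x < 0 from h3)))
    · rintro ⟨h1, h2⟩
      exact ⟨⟨Or.inl h1, h2⟩, Or.inl h1, h2⟩
  refine RkLE.of_rel (Srel Ω (M ∩ Ω) (Np ∩ Ω) (Nm ∩ Ω)) ?_ ?_ ?_ hr
  · -- existence
    intro z hz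
    have hun : M ∩ Ω = (Np ∩ Ω) ∪ (Nm ∩ Ω) := by rw [hMu, union_inter_distrib_right]
    have hz2 : bdE E z ∈ CS ((Np ∩ Ω) ∪ (Nm ∩ Ω)) := by rw [← hun]; exact hz.2
    obtain ⟨y, hy, hy'⟩ := small_pair (Np ∩ Ω) (Nm ∩ Ω) (by
      intro x hx
      rw [← hun] at hx ⊢
      have hsub : 𝓝[M ∩ Ω] x ≤ 𝓝[Ω] x := nhdsWithin_mono _ inter_subset_right
      have hΩx : Ω ∈ 𝓝[M ∩ Ω] x := hsub self_mem_nhdsWithin
      by_cases hxN : x ∈ N
      · left
        have h1 : N ∈ 𝓝[M ∩ Ω] x := hsub (hNo x ⟨hxN, hx.2⟩)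
        exact inter_mem (mem_of_superset h1 subset_union_left) hΩx
      · have hφx : φ x ≠ 0 := by
          rcases hx.1 with h | h
          · exact absurd h hxN
          · exact h
        rcases lt_or_gt_of_ne hφx with h | h
        · right
          have h1 : {x | φ x < 0} ∈ 𝓝[M ∩ Ω] x :=
            mem_nhdsWithin_of_mem_nhds ((isOpen_lt φ.continuous continuous_const).mem_nhds h)
          exact inter_mem (mem_of_superset h1 subset_union_right) hΩx
        · left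
          have h1 : {x | 0 < φ x} ∈ 𝓝[M ∩ Ω] x :=
            mem_nhdsWithin_of_mem_nhds ((isOpen_lt continuous_const φ.continuous).mem_nhds h)
          exact inter_mem (mem_of_superset h1 subset_union_right) hΩx) (bdE E z) hz2 (by
        rw [bd_bdE]; exact Submodule.zero_mem _)
    obtain ⟨a, ha, b, hb, hab⟩ := Submodule.mem_sup.1 hy'
    refine ⟨a, hz.1, ha, y, by rw [hun]; exact hy, b, hb, ?_⟩
    rw [hab]; abel
  · -- the second component is a relative cycle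
    rintro z a ⟨h1, h2, y, hy, b, hb, h3⟩
    have h2' : a ∈ CS (Np ∩ Ω) := h2
    have h3' : bdE E z = a + b + bdE E y := h3
    refine ⟨CS_mono inter_subset_right h2', ?_⟩
    show bdE E a ∈ CS (N ∩ Ω)
    have e : bdE E a = -bdE E b := by
      have := congrArg (bdE E) h3'
      rw [bd_bdE, map_add, map_add, bd_bdE, add_zero] at this
      exact eq_neg_of_add_eq_zero_left this.symm
    rw [← hinter, ← Smx566.CS_inf]
    refine ⟨bd_mem_CS a h2', ?_⟩
    rw [e]
    exact Submodule.neg_mem _ (bd_mem_CS b hb)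
  · -- injectivity
    rintro z a ⟨h1, h2, y, hy, b, hb, h3⟩ haB
    have h1' : z ∈ CS Ω := h1
    have h2' : a ∈ CS (Np ∩ Ω) := h2
    have h3' : bdE E z = a + b + bdE E y := h3
    have e : bdE E a = -bdE E b := by
      have := congrArg (bdE E) h3'
      rw [bd_bdE, map_add, map_add, bd_bdE, add_zero] at this
      exact eq_neg_of_add_eq_zero_left this.symm
    have haZ : bdE E a ∈ CS (N ∩ Ω) := by
      rw [← hinter, ← Smx566.CS_inf]
      refine ⟨bd_mem_CS a h2', ?_⟩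
      rw [e]
      exact Submodule.neg_mem _ (bd_mem_CS b hb)
    -- push `a` up
    have hNpT : ∀ s, 0 ≤ s → ∀ x ∈ Np ∩ Ω', h (s, x) ∈ Np ∩ Ω' := by
      rintro s hs x ⟨h4 | h4, h5⟩
      · exact ⟨Or.inl (hN s x h4), hΩ' s x h5⟩
      · refine ⟨Or.inr ?_, hΩ' s x h5⟩
        show 0 < φ (h (s, x))
        rw [ht.add]
        have : 0 < φ x := h4
        linarith
    have hNT : ∀ s, ∀ x ∈ N ∩ Ω', h (s, x) ∈ N ∩ Ω' := fun s x hx => ⟨hN s x hx.1, hΩ' s x hx.2⟩
    have haB' : a ∈ Bp (Np ∩ Ω') (N ∩ Ω') := by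
      rw [mem_Bp] at haB
      obtain ⟨c, hc, hc'⟩ := haB
      obtain ⟨K, hKc, hKΩ, hcK⟩ := exists_compact_supp hc
      obtain ⟨M0, hM0, hMK⟩ := bddK (φ := φ) hKc
      refine push_step h (T := M0 + 1) (by linarith) (fun x _ => ht.zero x)
        (fun s hs _ => hNpT s hs) (A := N ∩ Ω') (fun s _ _ => hNT s)
        ⟨CS_mono (inter_subset_inter_right _ hΩΩ') h2',
          CS_mono (inter_subset_inter_right _ hΩΩ') haZ⟩ ?_
      set f := h.comp ((ContinuousMap.const E (M0 + 1)).prodMk (ContinuousMap.id E)) with hf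
      rw [mem_Bp]
      refine ⟨mp f c, mp_mem (A := K) (fun x hx => ?_) c hcK, ?_⟩
      · refine ⟨Or.inr ?_, hΩ' _ x (hKΩ hx)⟩
        show 0 < φ (h (M0 + 1, x))
        rw [ht.add]
        have := abs_le.1 (hMK x hx)
        linarith
      · rw [bd_mp, ← map_sub]
        exact mp_mem (fun x hx => hNT _ x hx) _ hc'
    rw [mem_Bp] at haB'
    obtain ⟨c, hc, hc'⟩ := haB'
    -- the rest is pushed down
    have hz' : z - c - y ∈ Zp Ω' (Nm ∩ Ω') := by
      refine ⟨?_, ?_⟩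
      · refine Submodule.sub_mem _ (Submodule.sub_mem _ (CS_mono hΩΩ' h1') ?_) ?_
        · exact CS_mono inter_subset_right hc
        · exact CS_mono (inter_subset_right.trans hΩΩ') hy
      · show bdE E (z - c - y) ∈ CS (Nm ∩ Ω')
        rw [map_sub, map_sub, h3']
        have e3 : a + b + bdE E y - bdE E c - bdE E y = (a - bdE E c) + b := by abel
        rw [e3]
        refine Submodule.add_mem _ ?_ ?_
        · exact CS_mono (inter_subset_inter_left _ subset_union_left) hc'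
        · exact CS_mono (inter_subset_inter_right _ hΩΩ') hb
    have hz'' : z - c - y ∈ Bp Ω' (Nm ∩ Ω') := by
      refine Zp_le_Bp_of_push (revT h) (fun x => ?_) ?_ ?_ ?_ hz'
      · show h (-0, x) = x
        rw [neg_zero]; exact ht.zero x
      · intro s _ x hx
        exact hΩ' (-s) x hx
      · rintro s hs x ⟨h4 | h4, h5⟩
        · exact ⟨Or.inl (hN (-s) x h4), hΩ' _ x h5⟩
        · refine ⟨Or.inr ?_, hΩ' _ x h5⟩
          show φ (h (-s, x)) < 0
          rw [ht.add]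
          have : φ x < 0 := h4
          linarith
      · intro K hKc hKΩ
        obtain ⟨M0, hM0, hMK⟩ := bddK (φ := φ) hKc
        refine ⟨M0 + 1, by linarith, fun x hx => ⟨Or.inr ?_, hΩ' _ x (hKΩ hx)⟩⟩
        show φ (h (-(M0 + 1), x)) < 0
        rw [ht.add]
        have := abs_le.1 (hMK x hx)
        linarith
    have e4 : z = (z - c - y) + (c + y) := by abel
    rw [e4]
    refine Submodule.add_mem _ (Bp_mono subset_rfl (inter_subset_inter_left _ hNmM) hz'') ?_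
    refine Submodule.mem_sup_left (Submodule.add_mem _ ?_ ?_)
    · exact CS_mono (inter_subset_inter_left _ hNpM) hc
    · exact CS_mono (inter_subset_inter_right _ hΩΩ') hy

end Crest.Agent.R231.GMSadBx888
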