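import Mathlib
import Crest.Agent.R231.SphH_543
import Crest.Agent.R231.CX_780
import Crest.Agent.R231.ArcInst_694_Mg
import Crest.Agent.R231.SphQ_543
import Crest.Agent.R231.If_P_797
import Crest.Agent.R231.RelR_749
import Crest.Agent.R231.CutI_969
import Crest.Agent.R231.WgOut_525
import Crest.Agent.R231.TBas_961
import Crest.Agent.R231.TEv_952
import Crest.Agent.R231.IfWang_525
import Crest.Agent.R231.WgS_667

-- ▼ part R231/SphBr_780
section

/-!
# Row 231, block P, leaf Q7 (helper780): bridge `HSph` (543) -> `SphLike` (780)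

* `toSph : HSph S m → SphLike S m` (`s₀ = z0`, `σ = fs`), `ph` = the dual class of `fs`
* `diag_σ`, `diag_fs` : `(v, w)_* fs = v_* fs × pt + pt × w_* fs`
* `kun_unique`, `kun_deg`, `kun_chain` : Künneth for `X × S` (existence with degrees, uniqueness, chains)
-/

set_option autoImplicit false

open Topology Set

noncomputable section

namespace Crest.Agent.R231.SphBrx780

open Crest.Agent.R204 Crest.Agent.R204.SpecA FinDim315 CXx780
open SphQx543 (HSph)

variable {S T X Y Z : Type} [TopologicalSpace S] [TopologicalSpace T] [TopologicalSpace X]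
  [TopologicalSpace Y] [TopologicalSpace Z] {m : ℕ}


theorem ep_smul_ptc (r : F2) (z : S) : ep (r • ptc z) = r := by
  rw [map_smul, ep_ptc, smul_eq_mul, mul_one]

/-! ## `HSph` -> `SphLike` -/

section br

variable (h : HSph S m)

theorem ep_fs : ep h.fs = 0 := ep_eq_zero h.m_ne h.fs_mem

theorem li : LinearIndependent F2 ![ptc h.z0, h.fs] := by
  rw [LinearIndependent.pair_iff]
  intro s t hst
  have h1 := congrArg ep hst
  rw [map_add, ep_smul_ptc, map_smul, ep_fs, smul_zero, add_zero, map_zero] at h1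
  rw [h1, zero_smul, zero_add] at hst
  refine ⟨h1, ?_⟩
  rcases smul_eq_zero.1 hst with h2 | h2
  · exact h2
  · exact absurd h2 h.fs_ne

theorem gr_all {n : ℕ} {a : HS S} (ha : a ∈ hg S n) :
    ∃ r s : F2, a = r • ptc h.z0 + s • h.fs ∧ (n ≠ m → s = 0) := by
  by_cases h0 : n = 0
  · subst h0
    obtain ⟨r, hr⟩ := h.gr_zero a ha
    exact ⟨r, 0, by rw [zero_smul, add_zero]; exact hr, fun _ => rfl⟩
  · by_cases h1 : n = m
    · subst h1
      obtain ⟨r, hr⟩ := h.gr_m a ha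
      exact ⟨0, r, by rw [zero_smul, zero_add]; exact hr, fun h2 => absurd rfl h2⟩
    · have h2 : a ∈ (⊥ : Submodule F2 _) := by rw [← h.gr_other n h0 h1]; exact ha
      rw [Submodule.mem_bot] at h2
      exact ⟨0, 0, by rw [h2]; simp, fun _ => rfl⟩

theorem all (a : HS S) : ∃ r s : F2, a = r • ptc h.z0 + s • h.fs := by
  refine hg_induction (p := fun a => ∃ r s : F2, a = r • ptc h.z0 + s • h.fs) a ?_ ?_
  · rintro a b ⟨r, s, rfl⟩ ⟨r', s', rfl⟩
    exact ⟨r + r', s + s', by rw [add_smul, add_smul]; abel⟩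
  · intro n a ha
    obtain ⟨r, s, hrs, -⟩ := gr_all h ha
    exact ⟨r, s, hrs⟩

theorem sp : ⊤ ≤ Submodule.span F2 (Set.range ![ptc h.z0, h.fs]) := by
  intro a _
  obtain ⟨r, s, rfl⟩ := all h a
  refine Submodule.add_mem _ (Submodule.smul_mem _ _ (Submodule.subset_span ⟨0, rfl⟩))
    (Submodule.smul_mem _ _ (Submodule.subset_span ⟨1, rfl⟩))

/-- the basis `pt, fs` -/
def bs : Module.Basis (Fin 2) F2 (HS S) := Module.Basis.mk (li h) (sp h)

theorem bs_zero : bs h 0 = ptc h.z0 := Module.Basis.mk_apply (li h) (sp h) 0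
theorem bs_one : bs h 1 = h.fs := Module.Basis.mk_apply (li h) (sp h) 1

/-- the dual class of `fs` -/
def ph : HS S →ₗ[F2] F2 := (bs h).coord 1

theorem ph_pt : ph h (ptc h.z0) = 0 := by
  rw [← bs_zero h, ph, Module.Basis.coord_apply, Module.Basis.repr_self, Finsupp.single_eq_of_ne (by decide)]

theorem ph_fs : ph h h.fs = 1 := by
  nth_rw 1 [← bs_one h]
  rw [ph, Module.Basis.coord_apply, Module.Basis.repr_self, Finsupp.single_eq_same]

/-- `HSph` gives `SphLike` with `s₀ = z0`, `σ = fs` -/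
def toSph : SphLike S m where
  s₀ := h.z0
  σ := h.fs
  φ := ph h
  σ_mem := h.fs_mem
  pos := Nat.pos_of_ne_zero h.m_ne
  φ_deg := fun n hn b hb => by
    obtain ⟨r, s, rfl, hs⟩ := gr_all h hb
    rw [hs hn, zero_smul, add_zero, map_smul, ph_pt, smul_zero]
  φ_σ := ph_fs h
  decomp := fun a => by
    obtain ⟨r, s, rfl⟩ := all h a
    rw [map_add, map_add, map_smul, map_smul, map_smul, map_smul, ep_ptc, ep_fs, ph_pt, ph_fs]
    simp

@[simp] theorem toSph_s₀ : (toSph h).s₀ = h.z0 := rfl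
@[simp] theorem toSph_σ : (toSph h).σ = h.fs := rfl

end br

/-! ## the diagonal -/

section diag

variable (D : SphLike S m)



end diag

/-! ## Künneth for homogeneous classes and for chains -/

section kunneth

variable (D : SphLike S m)



open SingAct265 CrossCSx780 Pairx877



end kunneth


end Crest.Agent.R231.SphBrx780
end
end

-- ▼ part R231/CutD_543
section

/-!
# Row 231, block P, leaf Q7 (helper543): the literal cut data of `(S^n, g)`, `n ≥ 2`

`cutData hn g : IfPx797.CutData (SG g) (pp g) n` for every smooth metric `g`.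
-/

set_option autoImplicit false

noncomputable section

open Set Topology

namespace Crest.Agent.R231.CutDx543

open Crest.Agent.R204 Crest.Agent.R204.SpecA
open Crest.Agent.R231.GeoBasex724 Crest.Agent.R231.BiLipx218 Crest.Agent.R231.Arcx218
open Crest.Agent.R231.Moorex725 Crest.Agent.R231.CutMx725 Crest.Agent.R231.SphQx543
open Crest.Agent.R231.IfPx797

variable {n : ℕ} [NeZero n]

theorem eT_mem_VS {g : Met n} {s : ℝ} (hs : s ≤ L0 g) : eT g s ∈ VS g := by
  unfold eT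
  rw [cc_of_le _ _ hs]
  exact ch_qq_mem zz_mem.2 _

theorem eT_mem_US {g : Met n} {s : ℝ} (hs : L0 g ≤ s) : eT g s ∈ US g := by
  unfold eT
  rcases hs.eq_or_lt with h | h
  · rw [cc_of_le _ _ h.ge, ← h, rev, sub_self, chz_qq.2.1 _ le_rfl]
    exact zz_mem.1
  · rw [cc_of_lt _ _ h]
    exact ch_pp_mem zz_mem.1 _

/-- a fundamental class of `US ∩ VS` -/
def hs (hn : 2 ≤ n) (g : Met n) : HSph (US g ∩ VS g : Set (SG g)) (n - 1) := (exists_hSph hn g).choose

theorem hs_z0 (hn : 2 ≤ n) (g : Met n) : ((hs hn g).z0 : SG g) = zz g := (exists_hSph hn g).choose_spec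

/-- **the cut data of `(S^n, g)`** -/
def cutData (hn : 2 ≤ n) (g : Met n) : CutData (SG g) (pp g) n where
  hn := hn
  cT := Wc g
  bT := Wb g
  hL := rfl
  cover := US_union_VS
  hp := pp_mem_US
  c_p := cT_pp
  c_stay := fun _ hz s => cT_mem_US hz s
  q := qq g
  hq := qq_mem_VS
  La := L0 g
  hLa := (L0_pos g).le
  a := fun z => ch z (qq g)
  a_mem := fun _ hz => ch_mem (one_le_qq hz)
  a_cont := (continuousOn_ch (qq g)).mono fun _ hx => one_le_qq hx
  a_stay := fun _ hz s => ch_qq_mem hz s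
  e := eT g
  Le := 2 * L0 g
  hLe := by linarith [L0_pos g]
  hLL := le_of_eq (by show L0 g + 2 * L0 g = 3 * L0 g; ring)
  e_mem := eT_mem'
  b_eq := fun _ _ => rfl
  s0 := L0 g
  e_V := fun _ hs => eT_mem_VS hs
  e_U := fun _ hs => eT_mem_US hs
  z0 := zz g
  hz0 := zz_mem
  sg := (hs hn g).fs
  sg_gr := (hs hn g).fs_mem
  sg_ne := (hs hn g).fs_ne
  span := fun y => by
    obtain ⟨r, s, h⟩ := SphBrx780.all (hs hn g) y
    refine ⟨r, s, ?_⟩
    have e : (hs hn g).z0 = ⟨zz g, zz_mem⟩ := Subtype.ext (hs_z0 hn g)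
    rw [e] at h
    exact h

end Crest.Agent.R231.CutDx543
end
end

-- ▼ part R231/TdS_749
section

/-!
# Row 231, block P (helper749): the cut data `tdS hn g : TD (pp g) (n - 1)` of `(S^n, g)`, `n ≥ 2`

`x_ne` : the class `x` never dies (helper373).
-/

set_option autoImplicit false
set_option maxHeartbeats 200000

noncomputable section

open Function Topology NNReal

namespace Crest.Agent.R231.RelRx749

open Set Crest.Agent.R204 Crest.Agent.R231.FinDim315 CutWx749 CXx780 RelAx749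
  Moorex725 CutMx725 OmSpx725

open Crest.Agent.R204.SpecA hiding inc

/-- `e⁻¹ . e ~ 1` for a path `e` ending at `p` -/
theorem joined_inv {M : Type} [PseudoMetricSpace M] {q p : M} {L : ℝ} (hL : 0 ≤ L) {e : ℝ → M}
    (he : e ∈ MP q p L) {U : ℝ≥0} (hU : 2 * L ≤ (U : ℝ)) (w : OmT p U)
    (hw : w.1 = cc L (rev L e) e) : Joined w (one p U) := by
  have hm : ∀ u : unitInterval, tail (L - mix u L 0) e ∈ MP (e (L - mix u L 0)) p (mix u L 0) := by
    intro u
    have h0 : (0 : ℝ) ≤ mix u L 0 := le_mix hL le_rfl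
    have h := tail_mem he (s := L - mix u L 0) (by linarith)
    rwa [sub_sub_cancel] at h
  refine ⟨⟨⟨fun u => ⟨cc (mix u L 0) (rev (mix u L 0) (tail (L - mix u L 0) e))
    (tail (L - mix u L 0) e), ?_⟩, ?_⟩, ?_, ?_⟩⟩
  · have h0 : (0 : ℝ) ≤ mix u L 0 := le_mix hL le_rfl
    have h1 : mix u L 0 ≤ L := mix_le le_rfl hL
    exact Om_mono p (by linarith) (cc_mem (rev_mem (hm u)) (hm u) h0 h0)
  · have c0 : Continuous fun u : unitInterval => mix u L 0 := by
      unfold mix; fun_prop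
    have c1 : Continuous fun u : unitInterval => tail (L - mix u L 0) e :=
      continuous_tail (g := fun _ : unitInterval => e) continuous_const (fun _ => he.1)
        (continuous_const.sub c0)
    have c2 : Continuous fun u : unitInterval =>
        rev (mix u L 0) (tail (L - mix u L 0) e) :=
      continuous_rev c1 (fun u => (hm u).1) c0
    exact Continuous.subtype_mk (continuous_cc c2 c1 c0 (fun u => (hm u).1) fun u => by
      rw [(rev_mem (hm u)).2.2 _ le_rfl, (hm u).2.1 _ le_rfl]) _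
  · refine OmT_ext ?_
    change cc (mix 0 L 0) (rev (mix 0 L 0) (tail (L - mix 0 L 0) e)) (tail (L - mix 0 L 0) e) = w.1
    rw [mix_zero, sub_self, tail_zero he, hw]
  · refine OmT_ext ?_
    change cc (mix 1 L 0) (rev (mix 1 L 0) (tail (L - mix 1 L 0) e)) (tail (L - mix 1 L 0) e) =
      fun _ => p
    rw [mix_one, sub_zero, tail_of_ge he le_rfl]
    exact cc_const_left (d := 0) (const_mem_MP p 0)

open Crest.Agent.R231.GeoBasex724 Crest.Agent.R231.BiLipx218 Crest.Agent.R231.Arcx218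
  Crest.Agent.R231.SphQx543 Crest.Agent.R231.CutDx543

variable {n : ℕ} [NeZero n]

theorem j0S (g : Met n) :
    Joined (vv (Wb g) (Wc g) (S := US g ∩ VS g) inter_subset_right inter_subset_left
      ⟨zz g, zz_mem⟩) (one (pp g) (ell (Wb g) + ell (Wc g))) := by
  have h0 := L0_pos g
  refine joined_inv (L := 2 * L0 g) (by linarith) (eT_mem' (g := g)) ?_ _ (v_zz (g := g))
  rw [NNReal.coe_add, coe_ell, coe_ell]
  change 2 * (2 * L0 g) ≤ 3 * L0 g + 3 * L0 g
  linarith

/-- **the cut data of `(S^n, g)`** -/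
def tdS (hn : 2 ≤ n) (g : Met n) : TD (pp g) (n - 1) where
  Wc := Wc g
  Wb := Wb g
  hp := pp_mem_US
  cp := cT_pp
  cov := fun y => by
    have h : y ∈ US g ∪ VS g := by rw [US_union_VS]; exact mem_univ y
    exact h
  sph := XNex373.sphW (cutData hn g)
  j0 := j0S g


theorem tdS_x (hn : 2 ≤ n) (g : Met n) {t : ℝ≥0} (h : (tdS hn g).a ≤ t)
    (h' : (cutData hn g).ℓ + (cutData hn g).ℓ ≤ t) :
    Hm (inc h) (tdS hn g).x = Hm (inc h') (cutData hn g).x := by
  unfold TD.x IfPx797.CutData.x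
  rw [← Hm_comp_apply, ← Hm_comp_apply]
  rfl

/-- **the class `x` never dies** -/
theorem x_ne (hn : 2 ≤ n) (g : Met n) {t : ℝ≥0} (h : (tdS hn g).a ≤ t) :
    Hm (inc h) (tdS hn g).x ≠ 0 := by
  have h' : (cutData hn g).ℓ + (cutData hn g).ℓ ≤ t := h
  rw [tdS_x hn g h h']
  exact XNex373.x_ne (cutData hn g) h'

end Crest.Agent.R231.RelRx749
end
end

-- ▼ part R231/CutS_969
section

/-!
# Row 231, block P (helper969): the levelled algebra of `(S^n, g)`

`cutS hn g : CutH (pp g) (n - 1)`, `levS hn g : LevA (n - 1)`, `hasThS hn g : (levS hn g).HasTh`.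
-/

set_option autoImplicit false

noncomputable section

open Set NNReal

namespace Crest.Agent.R231.CutSx969

open Crest.Agent.R204 Crest.Agent.R231.FinDim315 Crest.Agent.R231.GeoBasex724
  Crest.Agent.R231.SphQx543 Crest.Agent.R231.Levx969 Crest.Agent.R231.LevInstx969
  Crest.Agent.R231.CutIx969 Crest.Agent.R231.RelRx749

variable {n : ℕ} [NeZero n]

/-- **the cut data of `(S^n, g)`** -/
def cutS (hn : 2 ≤ n) (g : Met n) : CutH (pp g) (n - 1) :=
  cutH (tdS hn g) (fun _ h => x_ne hn g h)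

/-- **the levelled algebra of `(S^n, g)`** -/
def levS (hn : 2 ≤ n) (g : Met n) : LevA (n - 1) := (cutS hn g).lev 1

theorem hasThS (hn : 2 ≤ n) (g : Met n) : (levS hn g).HasTh := HasThx682.hasTh (cutS hn g)

end Crest.Agent.R231.CutSx969
end
end

-- ▼ part R231/POutsS_475
section

/-!
# Row 231 (S0357): output `POuts` of block P for the spheres, from the coarse Wang sequence (helper475)
-/

set_option autoImplicit false
set_option linter.unusedSectionVars false

noncomputable section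

open Crest.Agent.R204

namespace Crest.Agent.R231.POutsSx475

open CutSx969 SphQx543 GeoBasex724 BDAx969 Instx895 Asmx895 WgOutx525 End2x475

variable {n : ℕ} [NeZero n]

/-- **output of block P for the spheres** -/
def poutsS (hn : 2 ≤ n) (g : Met n)
    (W : WangOut (YO (M := SG g) (pp g)) (mix (SG g)) (FF (SG g)) (n - 1 + 1) (iO (pp g))) :
    POuts (SG g) (n - 1) :=
  pouts_of (by omega) (cutS hn g) 1 (hasThS hn g) W

end Crest.Agent.R231.POutsSx475
end
end

-- ▼ part R231/WgOntoM_525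
section

/-!
# Row 231 (S0357), Wang package: the inputs of `Onto` for Lipschitz loops of a sphere (helper525)

`ontoIn`, `wangOut_sphere`.
-/

set_option autoImplicit false

noncomputable section

open Set Topology Function
open Crest.Agent.R204

namespace Crest.Agent.R231.WgOntox525

open Pairx877 Capx226 CapCSx780 SingAct265 EZ271 Gr334 IfWangx525 WangAbsx525 WgLvx525 WgGeox525
open GLugx576 YLcx475 BDAx969 IfAx978 Instx895 TActx569 TCx569 WgOutx525
open Crest.Agent.R204.Freu297 (Sph pt)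
open CPowx150 AmChx150 TFillx150 TTransx952 Cmpx952 TBasx961
open TDegx961 (RelBd mem_RelBd)
open OmHomx871 (L0)

variable {M : Type} [MetricSpace M] [CompactSpace M] {D D' : Set M} {p : M}

omit [CompactSpace M] in
theorem OmA_eq (t : ℝ) : ArcSysx694.Om (M := M) p t = L0 p ∩ X M t :=
  Set.ext fun _ => and_comm

theorem CS_Om_iff {c : CE (Lp M)} :
    c ∈ CS (L0 p) ⊓ WL M ↔ ∃ t, c ∈ CS (ArcSysx694.Om (M := M) p t) := by
  rw [mem_CS_inf_WL]
  exact exists_congr fun t => by rw [OmA_eq]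

variable (L : LUG M)

include L in
theorem fin_of {c : CE (Lp M)} (h1 : c ∈ CS (L0 p) ⊓ WL M)
    (h : rO p c ∈ LinearMap.range (N.bd F2 (SS.Sing (Concx150.Om p)))) :
    ∃ t', ∃ w ∈ CS (ArcSysx694.Om (M := M) p t'), bdE (Lp M) w = c := by
  obtain ⟨w, hw⟩ := h
  obtain ⟨w', a1, a2, -⟩ := C2_abs L (good_L0 L p) (c := c) (w := jN p w) h1 (jN_mem_L0 w)
    (by rw [bd_jN, hw, jN_rO h1.1])
  obtain ⟨t, ht⟩ := CS_Om_iff.1 a1
  exact ⟨t, w', ht, a2⟩

variable {k : ℕ} (hk : 1 ≤ k) (φ : M ≃ₜ Sph (k + 1))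

omit [CompactSpace M] in
include hk φ in
/-- `dim H_l(Ω) ≤ 1` -/
theorem dimO {l : ℕ} {y r : CO p} (hy : y ∈ N.gr F2 (SS.Sing (Concx150.Om p)) l)
    (hyb : N.bd F2 _ y = 0) (hr : r ∈ N.gr F2 (SS.Sing (Concx150.Om p)) l)
    (hrb : N.bd F2 _ r = 0) : y ∈ LinearMap.range (N.bd F2 (SS.Sing (Concx150.Om p))) ∨
      r ∈ LinearMap.range (N.bd F2 (SS.Sing (Concx150.Om p))) ∨
      r + y ∈ LinearMap.range (N.bd F2 (SS.Sing (Concx150.Om p))) := by
  have key : ∀ a : CO p, y + a ∈ LinearMap.range (N.bd F2 (SS.Sing (Concx150.Om p))) →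
      r + a ∈ LinearMap.range (N.bd F2 (SS.Sing (Concx150.Om p))) →
      r + y ∈ LinearMap.range (N.bd F2 (SS.Sing (Concx150.Om p))) := by
    intro a h1 h2
    have h3 := Submodule.add_mem _ h2 h1
    have e : r + a + (y + a) = r + y + (a + a) := by abel
    rwa [e, ZModModule.add_self, add_zero] at h3
  obtain ⟨z, hz, hb, hn⟩ := OmPowx871.exists_cycle φ p
  rcases Nat.eq_zero_or_pos l with rfl | hl
  · rcases OmPowx871.span_zero hk φ (HspSS696.ptS (Concx150.cO p)) hy with h | h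
    · exact Or.inl h
    rcases OmPowx871.span_zero hk φ (HspSS696.ptS (Concx150.cO p)) hr with h' | h'
    · exact Or.inr (Or.inl h')
    exact Or.inr (Or.inr (key _ h h'))
  · rcases OmPowx871.AmO_span hk φ hz hb hn hl hy hyb with h | ⟨m, i1, hm, h⟩
    · exact Or.inl h
    rcases OmPowx871.AmO_span hk φ hz hb hn hl hr hrb with h' | ⟨m', i2, hm', h'⟩
    · exact Or.inr (Or.inl h')
    have e : m = m' := Nat.eq_of_mul_eq_mul_right hk (hm.trans hm'.symm)
    subst e
    exact Or.inr (Or.inr (key _ h h'))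

omit [CompactSpace M] in
include hk φ in
theorem vm_rel_ne (q : M) {z : CO p} (hz : z ∈ N.gr F2 (SS.Sing (Concx150.Om p)) k)
    (hb : N.bd F2 _ z = 0) (hn : z ∉ LinearMap.range (N.bd F2 (SS.Sing (Concx150.Om p)))) (m : ℕ) :
    vm (m + 1) z ∉ RelBd (SS.SingMap (TDegx961.inc (TDegx961.Uq q))) := by
  rcases m with _ | m
  · exact vm_one_ne hk φ q hz hb hn
  · exact vm_succ_ne hk φ q hz hb hn (m + 1) (Am_not_bd hk φ hz hb hn (m + 1))

include L hk φ in
/-- **the inputs of `Onto`** -/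
theorem ontoIn {q : M} {G : WangGeo M (Lp M)} (hX : G.X = X M) (hOm : G.O = ArcSysx694.Om p)
    (he : ∀ γ, G.e γ = γ 0) (hq : q ∉ G.D) : OntoIn G (k + 1) := by
  obtain ⟨z0, hz0, hb0, hn0⟩ := OmPowx871.exists_cycle φ p
  obtain ⟨t0, z, w, h1, h2, h3, h4⟩ := lip_rep L hz0 hb0
  have hn : z ∉ LinearMap.range (N.bd F2 (SS.Sing (Concx150.Om p))) := by
    rintro ⟨u, hu⟩
    refine hn0 ⟨u + w, ?_⟩
    rw [map_add, hu, ← h4]
  constructor
  · intro t l y hy hyl hyb r hr hrl hrb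
    rw [hOm] at hy hr ⊢
    have hy' := CS_Om_iff.2 ⟨t, hy⟩
    have hr' := CS_Om_iff.2 ⟨t, hr⟩
    rcases dimO hk φ (rO_gr (p := p) hyl) (by rw [bd_rO hy'.1, hyb, map_zero])
      (rO_gr (p := p) hrl) (by rw [bd_rO hr'.1, hrb, map_zero]) with h | h | h
    · exact Or.inl (fin_of L hy' h)
    · exact Or.inr (Or.inl (fin_of L hr' h))
    · rw [← map_add] at h
      exact Or.inr (Or.inr (fin_of L (Submodule.add_mem _ hr' hy') h))
  · intro t l y hy hyl hyb
    rw [hOm] at hy ⊢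
    have hy' := CS_Om_iff.2 ⟨t, hy⟩
    by_cases hfin : rO p y ∈ LinearMap.range (N.bd F2 (SS.Sing (Concx150.Om p)))
    · exact Or.inl (fin_of L hy' hfin)
    have hl : ∃ m, m * k = l := by
      rcases Nat.eq_zero_or_pos l with rfl | hl
      · exact ⟨0, Nat.zero_mul k⟩
      · rcases OmPowx871.AmO_span hk φ h2 h3 hn hl (rO_gr (p := p) hyl)
          (by rw [bd_rO hy'.1, hyb, map_zero]) with h | ⟨m, -, hm, -⟩
        · exact absurd h hfin
        · exact ⟨m, hm⟩
    obtain ⟨m, rfl⟩ := hl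
    refine Or.inr ?_
    have hv := vm_mem_CS (m + 1) h1
    refine ⟨_, vm (m + 1) z, by rw [hX]; exact hv, ?_, bd_vm (m + 1) h3, fun s' hs' => ?_⟩
    · have := vm_mem_gr (m + 1) h2
      have e : (m + 1) * k + 1 = m * k + (k + 1) := by ring
      rwa [e] at this
    · refine vm_rel_ne hk φ q h2 h3 hn m ?_
      rw [mem_Bp'] at hs'
      obtain ⟨r, hr, u, hu, e⟩ := hs'
      have hr' : r ∈ CS (TDegx961.Uq q) := by
        refine CS_mono (fun γ hγ => ?_) hr
        have h5 : G.e γ ∈ G.D := hγ.2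
        rw [he] at h5
        exact fun h6 => hq (h6 ▸ h5)
      rw [CS_eq_range] at hr'
      obtain ⟨r', rfl⟩ := hr'
      exact mem_RelBd.2 ⟨u, r', by rw [e, add_comm]; rfl⟩

include L hk φ in
/-- **the output of the Wang package for a sphere** -/
theorem wangOut_sphere (A : ArcSysx694.ArcSys M D p) (A' : ArcSysx694.ArcSys M D' p)
    (oD : IsOpen D) (oD' : IsOpen D') (cov : ∀ b, b ∈ D ∨ b ∈ D') (hp : p ∈ D)
    (hcst : ∀ u ∈ Icc (0 : ℝ) 1, A.arc p u = p) {q : M} (hq : q ∉ D)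
    {U : Co (SS.Sing M)} (hU : PtCo D U) (hK : ∀ O : Set (Lp M), Kun D D' U O)
    (hn : Deg (k + 1) U) : WangOut (YO (M := M) p) (mix M) (FF M) (k + 1) (iO p) :=
  wangOut A A' oD oD' cov hp hcst hU hK hn
    (onto_of hU hK hn (ontoIn L hk φ (G := wangGeo A A' oD oD' cov hp hcst) rfl rfl
      (fun _ => rfl) hq))

end Crest.Agent.R231.WgOntox525
end
end

-- ▼ part R231/WgKun_667
section

/-!
# Row 231, Wang package (helper667): the Künneth input `Kun` of helper525's interface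

* `kun` : `Kun D D' U O` for every `O`, if `(D', D' ∩ D)` has one dimensional homology spanned by `u`, `U u = 1`
* `kun_sphere` : `D = S ∖ q`, `D' = S ∖ p`, `U` a point cocycle with value `1` on some cycle
-/

set_option autoImplicit false

noncomputable section

open Set
open Crest.Agent.R204

namespace Crest.Agent.R231.WgKunx667

open EZ271 Capx226 Pairx877 SingAct265 WgKx667 WgSx667 IfWangx525

variable {B E : Type} [TopologicalSpace B] [TopologicalSpace E] {D D' : Set B} {O : Set E}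
  {U : Co (SS.Sing B)} {u : CE B}

/-- the cap with the pull back of `U`, pushed to the second factor -/
def ph (E : Type) [TopologicalSpace E] (U : Co (SS.Sing B)) : CE (B × E) →ₗ[F2] CE E :=
  mp (pr2 B E) ∘ₗ cap (pb (pr1 B E) U)

theorem ph_apply (y : CE (B × E)) : ph E U y = mp (pr2 B E) (cap (pb (pr1 B E) U) y) := rfl

theorem ph_bd (hU : ∀ z, U (bdE B z) = 0) (y : CE (B × E)) :
    ph E U (bdE _ y) = bdE E (ph E U y) := by
  have h1 : cobd (pb (pr1 B E) U) = 0 := by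
    rw [pb, ← pull_cobd]
    have : cobd U = 0 := LinearMap.ext hU
    rw [this]; rfl
  rw [ph_apply, ph_apply, ← bd_cap_cocycle h1]
  exact LinearMap.congr_fun (N.map_bd (R := F2) (SS.SingMap (pr2 B E))) _

theorem ph_sx {n : ℕ} (σ : (SS.Sing (B × E)).S n) :
    ph E U (N.sx F2 σ) = ∑ a ∈ Finset.range (n + 1),
      U (N.sx F2 ((SS.SingMap (pr1 B E)).app a ((SS.Sing (B × E)).act (front a n) σ))) •
        N.sx F2 ((SS.SingMap (pr2 B E)).app (n - a) ((SS.Sing (B × E)).act (back (n - a) n) σ)) := by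
  rw [ph_apply, cap_sx, map_sum]
  refine Finset.sum_congr rfl fun a _ => ?_
  rw [map_smul, N.map_sx, pb, pull_apply, N.map_sx]

theorem ph_mem : ∀ y ∈ CS (D' ×ˢ O), ph E U y ∈ CS O := by
  refine map_mem_of_CS fun n σ hσ => ?_
  rw [ph_sx]
  refine Submodule.sum_mem _ fun a _ => Submodule.smul_mem _ _ (sx_mem_CS fun t => ?_)
  rw [ev_map, ev_act]
  exact (hσ _).2

theorem ph_zero (hU : ∀ z ∈ CS D, U z = 0) {A : Set B} (hA : A ⊆ D) :
    ∀ y ∈ CS (A ×ˢ O), ph E U y = 0 := by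
  refine eq_on_CS (g := 0) fun n σ hσ => ?_
  rw [ph_sx, LinearMap.zero_apply]
  refine Finset.sum_eq_zero fun a _ => ?_
  rw [hU _ (sx_mem_CS fun t => ?_), zero_smul]
  rw [ev_map, ev_act]
  exact hA (hσ _).1

theorem ph_xp (u : CE B) (y : CE E) : ph E U (xp u y) = U u • y := by
  have e : pull (singPair B E) (pull (SS.SingMap (pr1 B E)) U) =
      pull (SS.fst (SS.Sing B) (SS.Sing E)) U := by
    refine LinearMap.ext fun z => ?_
    rw [pull_apply, pull_apply, pull_apply, ← Exc406.N_map_comp]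
    rfl
  rw [ph_apply, xp_apply, pb, ← map_cap, e, ← snd_cap_fst (K := SS.Sing B) (L := SS.Sing E) U u y,
    mp, ← Exc406.N_map_comp]
  rfl

theorem kun (h : OneS D' (D' ∩ D) u) (hU : PtCo D U) (hu : U u = 1) (O : Set E) :
    Kun D D' U O := by
  intro y hy hc
  obtain ⟨v, hv, hvb, hB⟩ := xp_surj h y hy.1 hy.2
  rw [mem_Bp] at hB
  obtain ⟨w, hw, hw'⟩ := hB
  -- `v` is a boundary in `O`
  have e1 : ph E U (y + xp u v - bdE _ w) = 0 := ph_zero hU.zero inter_subset_right _ hw'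
  rw [map_sub, map_add, ph_xp, hu, one_smul, ph_bd hU.cocycle] at e1
  rw [← ph_apply, mem_Bp] at hc
  obtain ⟨w1, hw1, hc⟩ := hc
  rw [CS_empty, Submodule.mem_bot] at hc
  have e2 : bdE E (ph E U w - w1) = v := by
    rw [map_sub, ← sub_eq_zero.1 hc, ← sub_eq_zero.1 e1]; abel
  have hm : ph E U w - w1 ∈ CS O := Submodule.sub_mem _ (ph_mem w hw) hw1
  -- hence `xp u v` is a relative boundary
  rw [mem_Bp]
  refine ⟨w - xp u (ph E U w - w1), Submodule.sub_mem _ hw (xp_mem h.mem hm), ?_⟩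
  have e3 : y - bdE (B × E) (w - xp u (ph E U w - w1)) =
      (y + xp u v - bdE _ w) + xp (bdE B u) (ph E U w - w1) := by
    rw [map_sub, bd_xp, e2]; abel
  rw [e3]
  exact Submodule.add_mem _ hw' (xp_mem h.cyc hm)

section sphere

open SpecA (Sph)

variable {n : ℕ}

/-- **`Kun` for the sphere**: `U` vanishes on `S ∖ q`, is a cocycle and takes the value `1` on some cycle -/
theorem kun_sphere {p q : Sph (n + 1)} (hpq : p ≠ q) {U : Co (SS.Sing (Sph (n + 1)))}
    (hU : PtCo ({q}ᶜ : Set (Sph (n + 1))) U) (h1 : ∃ z, bdE _ z = 0 ∧ U z = 1) (O : Set E) :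
    Kun ({q}ᶜ : Set (Sph (n + 1))) {p}ᶜ U O := by
  obtain ⟨u0, hg, hb, hne, htop, hmid⟩ := exists_fund n
  have h0 := oneS_univ q hg hb hne htop hmid
  obtain ⟨u, -, hu, hu'⟩ := oneS_compl hpq hg h0
  have hB : ∀ z ∈ Bp (univ : Set (Sph (n + 1))) {q}ᶜ, U z = 0 := by
    intro z hz
    rw [mem_Bp] at hz
    obtain ⟨w, -, hw⟩ := hz
    have h2 := hU.zero _ hw
    rwa [map_sub, hU.cocycle, sub_zero] at h2
  have hU0 : U u0 = 1 := by
    obtain ⟨z, hz, hz1⟩ := h1
    obtain ⟨r, hr⟩ := h0.surj z (by rw [CS_univ]; trivial) (by rw [hz]; exact Submodule.zero_mem _)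
    have h2 := hB _ hr
    rw [map_add, map_smul, hz1, smul_eq_mul] at h2
    have h3 : ∀ r s : F2, 1 + r * s = 0 → s = 1 := by decide
    exact h3 _ _ h2
  refine kun hu hU ?_ O
  have h2 := hB _ hu'
  rw [map_add, hU0] at h2
  have h3 : ∀ s : F2, 1 + s = 0 → s = 1 := by decide
  exact h3 _ h2

/-- a point cocycle of the sphere exists; it is concentrated in degree `n + 1` -/
theorem exists_ptCo (q : Sph (n + 1)) : ∃ U : Co (SS.Sing (Sph (n + 1))),
    PtCo ({q}ᶜ : Set (Sph (n + 1))) U ∧ (∃ z, bdE _ z = 0 ∧ U z = 1) ∧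
      ∀ m, m ≠ n + 1 → ∀ z ∈ N.gr F2 (SS.Sing (Sph (n + 1))) m, U z = 0 := by
  obtain ⟨u0, hg, hb, hne, htop, hmid⟩ := exists_fund n
  obtain ⟨c, hc, hc1⟩ := (oneS_univ q hg hb hne htop hmid).exists_co
  refine ⟨c ∘ₗ Gr334.prN F2 _ (n + 1), ⟨fun z hz => hc _ (mem_Bp_of_CS (WgKx667.prN_mem_CS _ z hz)),
    fun z => ?_⟩, ⟨u0, hb, ?_⟩, fun m hm z hz => ?_⟩
  · rw [LinearMap.comp_apply]
    have h1 : Gr334.prN F2 _ (n + 1) (bdE _ z) = bdE _ (Gr334.prN F2 (SS.Sing (Sph (n + 1))) (n + 2) z) :=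
      Gr334.prN_bd (n + 1) z
    rw [h1]
    exact hc _ (mem_Bp_of_bd (by rw [CS_univ]; trivial))
  · rw [LinearMap.comp_apply, Gr334.prN_of_mem hg, hc1]
  · rw [LinearMap.comp_apply, Gr334.prN_of_mem_ne hm hz, map_zero]

end sphere

end Crest.Agent.R231.WgKunx667
end
end

-- ▼ part R231/WgSph_525

/-!
# Row 231 (S0357), Wang package: the sphere with any metric (helper525)

* `kun_homeo` : transport of `Kun` along a homeomorphism of the base
* `exists_U` : point cocycle of `SG g` with the Künneth input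
* `wangOut_SG` : `WangOut (YO p) (mix (SG g)) (FF (SG g)) (k + 1) (iO p)`, no hypothesis left
-/

set_option autoImplicit false

noncomputable section

open Set Topology Function
open Crest.Agent.R204

namespace Crest.Agent.R231.WgSphx525

open Pairx877 Capx226 CapCSx780 SingAct265 EZ271 Gr334 IfWangx525 WangAbsx525 WgLvx525 WgGeox525
open GLugx576 YLcx475 BDAx969 IfAx978 Instx895 TActx569 TCx569 WgOutx525 WgOntox525
open GeoBasex724 ArcInstx694 ArcSysx694

section homeo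

variable {B B' E : Type} [TopologicalSpace B] [TopologicalSpace B'] [TopologicalSpace E]

theorem ptCo_homeo (φ : B ≃ₜ B') {D : Set B'} {U : Co (SS.Sing B')} (hU : PtCo D U) :
    PtCo (φ ⁻¹' D) (pb (φ : C(B, B')) U) where
  zero z hz := hU.zero _ (mp_mem (φ : C(B, B')) (fun _ h => h) z hz)
  cocycle z := by
    rw [pb_apply, ← mp_bd]
    exact hU.cocycle _

/-- the product homeomorphism -/
def prH (φ : B ≃ₜ B') (E : Type) [TopologicalSpace E] : C(B × E, B' × E) :=
  ⟨fun x => (φ x.1, x.2), by fun_prop⟩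

theorem mp_comp {X Y Z : Type} [TopologicalSpace X] [TopologicalSpace Y] [TopologicalSpace Z]
    (f : C(X, Y)) (g : C(Y, Z)) (c : CE X) : mp g (mp f c) = mp (g.comp f) c := by
  rw [mp, mp, mp, ← Exc406.N_map_comp]
  rfl

theorem pb_comp {X Y Z : Type} [TopologicalSpace X] [TopologicalSpace Y] [TopologicalSpace Z]
    (f : C(X, Y)) (g : C(Y, Z)) (u : Co (SS.Sing Z)) : pb f (pb g u) = pb (g.comp f) u :=
  LinearMap.ext fun z => by rw [pb_apply, pb_apply, pb_apply, mp_comp]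

theorem mp_id {X : Type} [TopologicalSpace X] (c : CE X) : mp (ContinuousMap.id X) c = c :=
  map_idHom F2 c

theorem mp_cap {X Y : Type} [TopologicalSpace X] [TopologicalSpace Y]
    (f : C(X, Y)) (u : Co (SS.Sing Y)) (c : CE X) : mp f (cap (pb f u) c) = cap u (mp f c) :=
  map_cap _ _ _

theorem pr1_prH (φ : B ≃ₜ B') : (pr1 B' E).comp (prH φ E) = (φ : C(B, B')).comp (pr1 B E) := rfl
theorem pr2_prH (φ : B ≃ₜ B') : (pr2 B' E).comp (prH φ E) = pr2 B E := rfl

theorem prH_symm (φ : B ≃ₜ B') : (prH φ.symm E).comp (prH φ E) = ContinuousMap.id _ :=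
  ContinuousMap.ext fun x => Prod.ext (φ.symm_apply_apply x.1) rfl

theorem prH_mem (φ : B ≃ₜ B') (A : Set B') (O : Set E) (c : CE (B × E))
    (hc : c ∈ CS ((φ ⁻¹' A) ×ˢ O)) : mp (prH φ E) c ∈ CS (A ×ˢ O) :=
  mp_mem (A := (φ ⁻¹' A) ×ˢ O) (A' := A ×ˢ O) (prH φ E) (fun _ hx => ⟨hx.1, hx.2⟩) c hc

theorem prH_mem' (φ : B ≃ₜ B') (A : Set B') (O : Set E) (c : CE (B' × E))
    (hc : c ∈ CS (A ×ˢ O)) : mp (prH φ.symm E) c ∈ CS ((φ ⁻¹' A) ×ˢ O) :=
  mp_mem (A := A ×ˢ O) (A' := (φ ⁻¹' A) ×ˢ O) (prH φ.symm E) (fun x hx => ⟨by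
    show φ (φ.symm x.1) ∈ A
    rw [φ.apply_symm_apply]; exact hx.1, hx.2⟩) c hc

theorem kun_key (φ : B ≃ₜ B') (U : Co (SS.Sing B')) (y : CE (B × E)) :
    mp (pr2 B' E) (cap (pb (pr1 B' E) U) (mp (prH φ E) y)) =
      mp (pr2 B E) (cap (pb (pr1 B E) (pb (φ : C(B, B')) U)) y) := by
  rw [← mp_cap, mp_comp, pb_comp, pb_comp, pr1_prH, pr2_prH]

theorem kun_homeo (φ : B ≃ₜ B') {D D' : Set B'} {U : Co (SS.Sing B')} {O : Set E}
    (h : Kun D D' U O) : Kun (φ ⁻¹' D) (φ ⁻¹' D') (pb (φ : C(B, B')) U) O := by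
  intro y hy hc
  have hy1 : y ∈ CS ((φ ⁻¹' D') ×ˢ O) := (Submodule.mem_inf.1 hy).1
  have hy2 : bdE (B × E) y ∈ CS ((φ ⁻¹' (D' ∩ D)) ×ˢ O) := (Submodule.mem_inf.1 hy).2
  rw [← kun_key] at hc
  have h2 : bdE (B' × E) (mp (prH φ E) y) ∈ CS ((D' ∩ D) ×ˢ O) := by
    rw [mp_bd]
    exact prH_mem φ (D' ∩ D) O _ hy2
  have h3 := h _ (Submodule.mem_inf.2 ⟨prH_mem φ D' O _ hy1, h2⟩) hc
  have h4 : mp (prH φ.symm E) (mp (prH φ E) y) = y := by
    rw [mp_comp, prH_symm, mp_id]
  rw [mem_Bp'] at h3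
  obtain ⟨r, hr, w, hw, e⟩ := h3
  have h5 : y = mp (prH φ.symm E) r + bdE (B × E) (mp (prH φ.symm E) w) := by
    rw [← h4, e, map_add, mp_bd]
  exact mem_Bp'.2 ⟨_, prH_mem' φ (D' ∩ D) O r hr, _, prH_mem' φ D' O w hw, h5⟩

end homeo

section sphere

variable {k : ℕ}

theorem exists_U (g : Met (k + 1)) (p : SG g) : ∃ U : Co (SS.Sing (SG g)),
    PtCo ({neg p}ᶜ : Set (SG g)) U ∧
      (∀ (E : Type) [TopologicalSpace E] (O : Set E), Kun ({neg p}ᶜ : Set (SG g)) {p}ᶜ U O) ∧
      Deg (k + 1) U := by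
  set φ : SG g ≃ₜ SpecA.Sph (k + 1) := (toSG g).symm with hφ
  obtain ⟨U, hU, h1, hdeg⟩ := WgKunx667.exists_ptCo (n := k) (φ (neg p))
  have e : ∀ x : SG g, φ ⁻¹' ({φ x}ᶜ : Set (SpecA.Sph (k + 1))) = {x}ᶜ := fun x =>
    Set.ext fun y => (φ.injective.ne_iff : φ y ≠ φ x ↔ y ≠ x)
  have hne : φ p ≠ φ (neg p) := fun h => neg_ne p (φ.injective h).symm
  refine ⟨pb (φ : C(SG g, SpecA.Sph (k + 1))) U, ?_, fun E _ O => ?_, Deg.pull hdeg _⟩
  · have := ptCo_homeo φ hU
    rwa [e] at this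
  · have := kun_homeo φ (WgKunx667.kun_sphere hne hU h1 O)
    rwa [e, e] at this

/-- **the output of the Wang package** for the sphere `(S^(k+1), g)`, `k ≥ 1` -/
theorem wangOut_SG (hk : 1 ≤ k) (g : Met (k + 1)) (L : LUG (SG g)) (p : SG g) :
    WangOut (YO (M := SG g) p) (mix (SG g)) (FF (SG g)) (k + 1) (iO p) := by
  obtain ⟨U, hU, hK, hdeg⟩ := exists_U g p
  refine wangOut_sphere L hk (toSG g).symm (slerp p) (slerpN p) isOpen_compl_singleton
    isOpen_compl_singleton (fun b => ?_) (fun h => neg_ne p h.symm) (fun u _ => slerp_self p u)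
    (q := neg p) (fun h => h rfl) hU (hK _) hdeg
  by_cases h : b = p
  · exact Or.inl (by rw [h]; exact fun h' => neg_ne p h'.symm)
  · exact Or.inr h

end sphere

end Crest.Agent.R231.WgSphx525
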